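import Mathlib
import Vale.Agent.Lib.P205F.MDefs

/-!
# P205F: the base package (interface between BASE and ASSEMBLY)
-/

noncomputable section

namespace P205F

open scoped Manifold ContDiff Topology RealInnerProductSpace
open Set

/-- rotation of the two coordinate planes of `ℝ⁴` by the angles `-a`, `-b` -/
def rotV (a b : ℝ) (u : V4) : V4 :=
  !₂[Real.cos a * u 0 + Real.sin a * u 1, -Real.sin a * u 0 + Real.cos a * u 1,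
    Real.cos b * u 2 + Real.sin b * u 3, -Real.sin b * u 2 + Real.cos b * u 3]

/-- passage to the slow frame, at the point `x` of an `(x, y)`-chart (`A = x₁ + τ x₂`,
`B = x₁ - τ x₂`) -/
def slo (τ h : ℝ) (x : E2) (u : V4) : V4 :=
  rotV ((x.1 + τ * x.2) / h) ((x.1 - τ * x.2) / h) u

/-- the invariant of the W-group, at the point `x` of an `(x, y)`-chart -/
def INV (τ h K : ℝ) (F : E2 → V4) (x : E2) : Prop :=
  ‖pd 0 F x‖ ≤ K ∧ ‖pd 1 F x‖ ≤ K ∧ ‖h • pd 1 (pd 1 F) x‖ ≤ K ∧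
  ‖pd 1 (fun y => slo τ h y (pd 0 F y)) x‖ ≤ K ∧
  ‖pd 1 (fun y => slo τ h y (pd 1 F y)) x‖ ≤ K ∧
  ‖pd 1 (fun y => slo τ h y (h • pd 1 (pd 1 F) y)) x‖ ≤ K ∧
  1 ≤ K * gram3 (pd 0 F x) (pd 1 F x) (h • pd 1 (pd 1 F) x)

variable {M : Type} [TopologicalSpace M] [ChartedSpace E2 M]

/-- `χ` is a chart with `A = x₁ + τ x₂`, `B = x₁ - τ x₂` -/
def IsXY (A B : M → ℝ) (τ : ℝ) (χ : OpenPartialHomeomorph M E2) : Prop :=
  χ ∈ ATL M ∧ ∀ p ∈ χ.source, A p = (χ p).1 + τ * (χ p).2 ∧ B p = (χ p).1 - τ * (χ p).2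

/-- `det (α, β)` -/
def detC (α β : E2 →L[ℝ] ℝ) : ℝ := α e1 * β e2 - α e2 * β e1

/-- `Q` is smooth, positive semidefinite of rank one near `p` -/
def RankOneNear (Q : M → Bil) (p : M) : Prop :=
  ∃ U : Set M, IsOpen U ∧ p ∈ U ∧
    (∀ χ ∈ ATL M, ContDiffOn ℝ ∞ (locT χ Q) (χ.target ∩ χ.symm ⁻¹' U)) ∧
    ∀ q ∈ U, (∀ v w, Q q v w = Q q w v) ∧ Q q e1 e1 * Q q e2 e2 = Q q e1 e2 ^ 2 ∧
      0 < Q q e1 e1 + Q q e2 e2

/-- the output of BASE -/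
def BasePack (g : M → Bil) : Prop :=
  ∃ (A B : M → ℝ) (τ : ℝ) (KT KO : Set M) (K : ℝ),
    Sm A ∧ Sm B ∧ 0 < τ ∧ 1 ≤ K ∧ IsCompact KT ∧ IsCompact KO ∧ KT ⊆ interior KO ∧ (∀ p ∈ KO, detC (dP A p) (dP B p) ≠ 0) ∧
    ∀ h0 : ℝ, 0 < h0 → ∃ h : ℝ, 0 < h ∧ h < h0 ∧
      ∃ (f : M → V4) (β η : M → ℝ) (Q : M → Bil),
        Sm f ∧ GoodAll f ∧ Flat β ∧ Flat η ∧ (∀ p, 0 ≤ β p) ∧ (∀ p, 0 ≤ η p) ∧
        tsupport β ⊆ KT ∧
        (∀ p, metr f p = g p - (4 * β p ^ 2) • sqT (fun q => (A q + B q) / 2) p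
          - η p ^ 2 • Q p) ∧
        (∀ p ∈ tsupport η, RankOneNear Q p) ∧
        (∀ p v, v ≠ 0 → η p ^ 2 * Q p v v = 0 →
          GoodIn (chartAt E2 p) f v (chartAt E2 p p)) ∧
        ∀ χ, IsXY A B τ χ → ∀ x ∈ χ.target, χ.symm x ∈ KO →
          INV τ h K (f ∘ χ.symm) x ∧ |β (χ.symm x)| ≤ K ∧ |pd 1 (β ∘ χ.symm) x| ≤ K ∧
          (∀ v : E2, ‖v‖ ^ 2 ≤ K * locT χ (fun p => g p - η p ^ 2 • Q p) x v v) ∧
          ∀ i j k l : Fin 2,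
            |pd k (fun y => locT χ (fun p => g p - η p ^ 2 • Q p) y (bv i) (bv j)) x| ≤ K ∧
            |pd l (pd k (fun y => locT χ (fun p => g p - η p ^ 2 • Q p) y (bv i) (bv j))) x| ≤ K

/-- ASSEMBLY: to be proved from `ThmES` -/
def AssemblyStmt (M : Type) [TopologicalSpace M] [ChartedSpace E2 M] : Prop :=
  ∀ g : M → Bil, IsMetric g → BasePack g → ∃ F : M → V4, Sm F ∧ ∀ p, metr F p = g p

end P205F
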