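import Mathlib
import Vale.Agent.Lib.P205B.BDefs
import Vale.Agent.Lib.P205F.MStmt
import Vale.Agent.Lib.P205F.TA

/-!
# P205F ASSEMBLY: properties of `F0`
-/

noncomputable section

namespace P205F

open scoped Manifold ContDiff Topology RealInnerProductSpace
open Set

private theorem AF0_rot0 (a b : ℝ) (u : V4) :
    rotV a b u 0 = Real.cos a * u 0 + Real.sin a * u 1 := rfl

private theorem AF0_rot1 (a b : ℝ) (u : V4) :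
    rotV a b u 1 = -Real.sin a * u 0 + Real.cos a * u 1 := rfl

private theorem AF0_rot2 (a b : ℝ) (u : V4) :
    rotV a b u 2 = Real.cos b * u 2 + Real.sin b * u 3 := rfl

private theorem AF0_rot3 (a b : ℝ) (u : V4) :
    rotV a b u 3 = -Real.sin b * u 2 + Real.cos b * u 3 := rfl

private theorem AF0_ext {u v : V4} (h0 : u 0 = v 0) (h1 : u 1 = v 1) (h2 : u 2 = v 2)
    (h3 : u 3 = v 3) : u = v := by
  ext i
  fin_cases i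
  · exact h0
  · exact h1
  · exact h2
  · exact h3

theorem rotV_inner (a b : ℝ) (u v : V4) : ⟪rotV a b u, rotV a b v⟫ = ⟪u, v⟫ := by
  rw [TA_inner, TA_inner, AF0_rot0, AF0_rot1, AF0_rot2, AF0_rot3, AF0_rot0, AF0_rot1, AF0_rot2,
    AF0_rot3]
  have ha := Real.cos_sq_add_sin_sq a
  have hb := Real.cos_sq_add_sin_sq b
  linear_combination (u 0 * v 0 + u 1 * v 1) * ha + (u 2 * v 2 + u 3 * v 3) * hb

theorem rotV_norm (a b : ℝ) (u : V4) : ‖rotV a b u‖ = ‖u‖ := by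
  have h1 := rotV_inner a b u u
  rw [real_inner_self_eq_norm_sq, real_inner_self_eq_norm_sq] at h1
  exact (sq_eq_sq₀ (norm_nonneg _) (norm_nonneg _)).1 h1

private theorem AF0_rot_add (a b : ℝ) (u v : V4) :
    rotV a b (u + v) = rotV a b u + rotV a b v := by
  apply AF0_ext
  · rw [PiLp.add_apply, AF0_rot0, AF0_rot0, AF0_rot0, PiLp.add_apply, PiLp.add_apply]; ring
  · rw [PiLp.add_apply, AF0_rot1, AF0_rot1, AF0_rot1, PiLp.add_apply, PiLp.add_apply]; ring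
  · rw [PiLp.add_apply, AF0_rot2, AF0_rot2, AF0_rot2, PiLp.add_apply, PiLp.add_apply]; ring
  · rw [PiLp.add_apply, AF0_rot3, AF0_rot3, AF0_rot3, PiLp.add_apply, PiLp.add_apply]; ring

private theorem AF0_rot_smul (a b s : ℝ) (u : V4) :
    rotV a b (s • u) = s • rotV a b u := by
  apply AF0_ext
  · rw [PiLp.smul_apply, AF0_rot0, AF0_rot0, PiLp.smul_apply, PiLp.smul_apply]
    simp only [smul_eq_mul]; ring
  · rw [PiLp.smul_apply, AF0_rot1, AF0_rot1, PiLp.smul_apply, PiLp.smul_apply]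
    simp only [smul_eq_mul]; ring
  · rw [PiLp.smul_apply, AF0_rot2, AF0_rot2, PiLp.smul_apply, PiLp.smul_apply]
    simp only [smul_eq_mul]; ring
  · rw [PiLp.smul_apply, AF0_rot3, AF0_rot3, PiLp.smul_apply, PiLp.smul_apply]
    simp only [smul_eq_mul]; ring

private theorem AF0_rot_sub (a b : ℝ) (u v : V4) :
    rotV a b (u - v) = rotV a b u - rotV a b v := by
  have h1 := AF0_rot_add a b (u - v) v
  rw [sub_add_cancel] at h1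
  rw [h1, add_sub_cancel_right]

private theorem AF0_rot_par2 (a b : ℝ) (v w u : V4) :
    par2 (rotV a b v) (rotV a b w) (rotV a b u) = rotV a b (par2 v w u) := by
  unfold par2
  simp only [rotV_inner]
  rw [AF0_rot_smul, AF0_rot_add, AF0_rot_smul, AF0_rot_smul]

private theorem AF0_rot_per2 (a b : ℝ) (v w u : V4) :
    per2 (rotV a b v) (rotV a b w) (rotV a b u) = rotV a b (per2 v w u) := by
  unfold per2
  rw [AF0_rot_par2, AF0_rot_sub]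

private theorem AF0_rot_cr3 (a b : ℝ) (u v w : V4) :
    cr3 (rotV a b u) (rotV a b v) (rotV a b w) = rotV a b (cr3 u v w) := by
  have ha := Real.cos_sq_add_sin_sq a
  have hb := Real.cos_sq_add_sin_sq b
  apply AF0_ext
  · rw [AF0_rot0, TA_cr3_0, TA_cr3_0, TA_cr3_1]
    unfold minor3
    simp only [AF0_rot0, AF0_rot1, AF0_rot2, AF0_rot3]
    linear_combination (-Real.sin a * (u 0 * (v 2 * w 3 - v 3 * w 2) - u 2 * (v 0 * w 3 - v 3 * w 0)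
        + u 3 * (v 0 * w 2 - v 2 * w 0)) + Real.cos a * (u 1 * (v 2 * w 3 - v 3 * w 2) - u 2 * (v 1 * w 3 - v 3 * w 1)
        + u 3 * (v 1 * w 2 - v 2 * w 1))) * hb
      + 0 * ha
  · rw [AF0_rot1, TA_cr3_1, TA_cr3_0, TA_cr3_1]
    unfold minor3
    simp only [AF0_rot0, AF0_rot1, AF0_rot2, AF0_rot3]
    linear_combination (-Real.cos a * (u 0 * (v 2 * w 3 - v 3 * w 2) - u 2 * (v 0 * w 3 - v 3 * w 0)
        + u 3 * (v 0 * w 2 - v 2 * w 0)) - Real.sin a * (u 1 * (v 2 * w 3 - v 3 * w 2) - u 2 * (v 1 * w 3 - v 3 * w 1)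
        + u 3 * (v 1 * w 2 - v 2 * w 1))) * hb
      + 0 * ha
  · rw [AF0_rot2, TA_cr3_2, TA_cr3_2, TA_cr3_3]
    unfold minor3
    simp only [AF0_rot0, AF0_rot1, AF0_rot2, AF0_rot3]
    linear_combination (-Real.sin b * (u 0 * (v 1 * w 2 - v 2 * w 1) - u 1 * (v 0 * w 2 - v 2 * w 0)
        + u 2 * (v 0 * w 1 - v 1 * w 0)) + Real.cos b * (u 0 * (v 1 * w 3 - v 3 * w 1) - u 1 * (v 0 * w 3 - v 3 * w 0)
        + u 3 * (v 0 * w 1 - v 1 * w 0))) * ha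
      + 0 * hb
  · rw [AF0_rot3, TA_cr3_3, TA_cr3_2, TA_cr3_3]
    unfold minor3
    simp only [AF0_rot0, AF0_rot1, AF0_rot2, AF0_rot3]
    linear_combination (-Real.cos b * (u 0 * (v 1 * w 2 - v 2 * w 1) - u 1 * (v 0 * w 2 - v 2 * w 0)
        + u 2 * (v 0 * w 1 - v 1 * w 0)) - Real.sin b * (u 0 * (v 1 * w 3 - v 3 * w 1) - u 1 * (v 0 * w 3 - v 3 * w 0)
        + u 3 * (v 0 * w 1 - v 1 * w 0))) * ha
      + 0 * hb

private theorem AF0_rot_nor (a b : ℝ) (u v w : V4) :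
    nor (rotV a b u) (rotV a b v) (rotV a b w) = rotV a b (nor u v w) := by
  unfold nor gram3
  simp only [rotV_inner]
  rw [AF0_rot_cr3, AF0_rot_smul]

/-- `F0` is equivariant under rotations (`rotV a b ∈ SO(4)`) -/
theorem F0_rotV (tf : ℝ → ℝ) (a b : ℝ) (u₁ u₂ u₃ : V4) (α c : ℝ) :
    F0 tf (rotV a b u₁) (rotV a b u₂) (rotV a b u₃) α c = rotV a b (F0 tf u₁ u₂ u₃ α c) := by
  unfold F0
  rw [AF0_rot_per2, AF0_rot_par2, AF0_rot_nor, rotV_norm, AF0_rot_add, AF0_rot_smul, AF0_rot_add,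
    AF0_rot_smul, AF0_rot_smul]

private theorem AF0_par2_eq (b c u : V4) :
    par2 b c u = ((⟪b, b⟫ * ⟪c, c⟫ - ⟪b, c⟫ ^ 2)⁻¹ * (⟪u, b⟫ * ⟪c, c⟫ - ⟪u, c⟫ * ⟪b, c⟫)) • b
      + ((⟪b, b⟫ * ⟪c, c⟫ - ⟪b, c⟫ ^ 2)⁻¹ * (⟪u, c⟫ * ⟪b, b⟫ - ⟪u, b⟫ * ⟪b, c⟫)) • c := by
  unfold par2
  rw [smul_add, smul_smul, smul_smul]

private theorem AF0_inv_mul {s : ℝ} (hs : s ≠ 0) (D P : ℝ) :
    (s ^ 2 * D)⁻¹ * (s ^ 2 * P) = D⁻¹ * P := by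
  rw [mul_inv]
  have h : (s ^ 2)⁻¹ * s ^ 2 = 1 := inv_mul_cancel₀ (pow_ne_zero 2 hs)
  linear_combination (D⁻¹ * P) * h

private theorem AF0_par2_smul3 {s : ℝ} (hs : s ≠ 0) (b c u : V4) :
    par2 b (s • c) u = par2 b c u := by
  rw [AF0_par2_eq, AF0_par2_eq]
  simp only [real_inner_smul_left, real_inner_smul_right]
  have e1 : ⟪b, b⟫ * (s * (s * ⟪c, c⟫)) - (s * ⟪b, c⟫) ^ 2
      = s ^ 2 * (⟪b, b⟫ * ⟪c, c⟫ - ⟪b, c⟫ ^ 2) := by ring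
  have e2 : ⟪u, b⟫ * (s * (s * ⟪c, c⟫)) - s * ⟪u, c⟫ * (s * ⟪b, c⟫)
      = s ^ 2 * (⟪u, b⟫ * ⟪c, c⟫ - ⟪u, c⟫ * ⟪b, c⟫) := by ring
  rw [e1, e2, AF0_inv_mul hs, smul_smul]
  congr 1
  have e4 : (s ^ 2 * (⟪b, b⟫ * ⟪c, c⟫ - ⟪b, c⟫ ^ 2))⁻¹
        * (s * ⟪u, c⟫ * ⟪b, b⟫ - ⟪u, b⟫ * (s * ⟪b, c⟫)) * s
      = (s ^ 2 * (⟪b, b⟫ * ⟪c, c⟫ - ⟪b, c⟫ ^ 2))⁻¹
        * (s ^ 2 * (⟪u, c⟫ * ⟪b, b⟫ - ⟪u, b⟫ * ⟪b, c⟫)) := by ring
  rw [e4, AF0_inv_mul hs]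

private theorem AF0_par2_smul12 {s : ℝ} (hs : s ≠ 0) (b c u : V4) :
    par2 (s • b) c (s • u) = s • par2 b c u := by
  rw [AF0_par2_eq, AF0_par2_eq]
  simp only [real_inner_smul_left, real_inner_smul_right]
  have e1 : s * (s * ⟪b, b⟫) * ⟪c, c⟫ - (s * ⟪b, c⟫) ^ 2
      = s ^ 2 * (⟪b, b⟫ * ⟪c, c⟫ - ⟪b, c⟫ ^ 2) := by ring
  have e2 : s * (s * ⟪u, b⟫) * ⟪c, c⟫ - s * ⟪u, c⟫ * (s * ⟪b, c⟫)
      = s ^ 2 * (⟪u, b⟫ * ⟪c, c⟫ - ⟪u, c⟫ * ⟪b, c⟫) := by ring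
  have e3 : s * ⟪u, c⟫ * (s * (s * ⟪b, b⟫)) - s * (s * ⟪u, b⟫) * (s * ⟪b, c⟫)
      = s ^ 2 * (s * (⟪u, c⟫ * ⟪b, b⟫ - ⟪u, b⟫ * ⟪b, c⟫)) := by ring
  rw [e1, e2, e3, AF0_inv_mul hs, AF0_inv_mul hs, smul_add, smul_smul, smul_smul, smul_smul]
  congr 1
  · congr 1
    ring
  · congr 1
    ring

private theorem AF0_per2_smul3 {s : ℝ} (hs : s ≠ 0) (b c u : V4) :
    per2 b (s • c) u = per2 b c u := by
  unfold per2
  rw [AF0_par2_smul3 hs]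

private theorem AF0_per2_smul12 {s : ℝ} (hs : s ≠ 0) (b c u : V4) :
    per2 (s • b) c (s • u) = s • per2 b c u := by
  unfold per2
  rw [AF0_par2_smul12 hs, smul_sub]

private theorem AF0_cr3_smul3 (s : ℝ) (a b c : V4) : cr3 a b (s • c) = s • cr3 a b c := by
  apply AF0_ext
  · rw [PiLp.smul_apply, TA_cr3_0, TA_cr3_0]
    unfold minor3
    simp only [PiLp.smul_apply, smul_eq_mul]; ring
  · rw [PiLp.smul_apply, TA_cr3_1, TA_cr3_1]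
    unfold minor3
    simp only [PiLp.smul_apply, smul_eq_mul]; ring
  · rw [PiLp.smul_apply, TA_cr3_2, TA_cr3_2]
    unfold minor3
    simp only [PiLp.smul_apply, smul_eq_mul]; ring
  · rw [PiLp.smul_apply, TA_cr3_3, TA_cr3_3]
    unfold minor3
    simp only [PiLp.smul_apply, smul_eq_mul]; ring

private theorem AF0_cr3_smul12 (s : ℝ) (a b c : V4) :
    cr3 (s • a) (s • b) c = s ^ 2 • cr3 a b c := by
  apply AF0_ext
  · rw [PiLp.smul_apply, TA_cr3_0, TA_cr3_0]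
    unfold minor3
    simp only [PiLp.smul_apply, smul_eq_mul]; ring
  · rw [PiLp.smul_apply, TA_cr3_1, TA_cr3_1]
    unfold minor3
    simp only [PiLp.smul_apply, smul_eq_mul]; ring
  · rw [PiLp.smul_apply, TA_cr3_2, TA_cr3_2]
    unfold minor3
    simp only [PiLp.smul_apply, smul_eq_mul]; ring
  · rw [PiLp.smul_apply, TA_cr3_3, TA_cr3_3]
    unfold minor3
    simp only [PiLp.smul_apply, smul_eq_mul]; ring

private theorem AF0_nor_smul3 {s : ℝ} (hs : 0 < s) (a b c : V4) : nor a b (s • c) = nor a b c := by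
  unfold nor
  rw [AF0_cr3_smul3, gram3_smul, Real.sqrt_mul (sq_nonneg s), Real.sqrt_sq hs.le, smul_smul,
    mul_inv]
  congr 1
  have h : s⁻¹ * s = 1 := inv_mul_cancel₀ hs.ne'
  linear_combination (Real.sqrt (gram3 a b c))⁻¹ * h

private theorem AF0_gram3_smul12 (s : ℝ) (a b c : V4) :
    gram3 (s • a) (s • b) c = (s ^ 2) ^ 2 * gram3 a b c := by
  unfold gram3
  simp only [real_inner_smul_left, real_inner_smul_right]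
  ring

private theorem AF0_nor_smul12 {s : ℝ} (hs : 0 < s) (a b c : V4) :
    nor (s • a) (s • b) c = nor a b c := by
  unfold nor
  rw [AF0_cr3_smul12, AF0_gram3_smul12, Real.sqrt_mul (sq_nonneg _), Real.sqrt_sq (sq_nonneg s),
    smul_smul, mul_inv]
  congr 1
  have h : (s ^ 2)⁻¹ * s ^ 2 = 1 := inv_mul_cancel₀ (pow_ne_zero 2 hs.ne')
  linear_combination (Real.sqrt (gram3 a b c))⁻¹ * h

/-- `F0` only depends on the direction of `u₃` -/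
theorem F0_smul3 (tf : ℝ → ℝ) {s : ℝ} (hs : 0 < s) (u₁ u₂ u₃ : V4) (α c : ℝ) :
    F0 tf u₁ u₂ (s • u₃) α c = F0 tf u₁ u₂ u₃ α c := by
  unfold F0
  rw [AF0_par2_smul3 hs.ne', AF0_per2_smul3 hs.ne', AF0_nor_smul3 hs]

/-- homogeneity of `F0` -/
theorem F0_homog (tf : ℝ → ℝ) {ρ : ℝ} (hρ : 0 < ρ) (u₁ u₂ u₃ : V4) (α c : ℝ) :
    F0 tf (ρ • u₁) (ρ • u₂) (ρ ^ 2 • u₃) (ρ * α) c = ρ • F0 tf u₁ u₂ u₃ α c := by
  rw [F0_smul3 tf (pow_pos hρ 2)]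
  unfold F0
  rw [AF0_par2_smul12 hρ.ne', AF0_per2_smul12 hρ.ne', AF0_nor_smul12 hρ, norm_smul,
    Real.norm_of_nonneg hρ.le]
  set z := per2 u₂ u₃ u₁ with hz
  have e1 : (ρ * ‖z‖) ^ 2 + (ρ * α) ^ 2 = ρ ^ 2 * (‖z‖ ^ 2 + α ^ 2) := by ring
  have e2 : ρ * α / (ρ * ‖z‖) = α / ‖z‖ := mul_div_mul_left _ _ hρ.ne'
  have e3 : (ρ * ‖z‖)⁻¹ • ρ • z = ‖z‖⁻¹ • z := by
    rw [smul_smul, mul_inv]
    congr 1
    have h : ρ⁻¹ * ρ = 1 := inv_mul_cancel₀ hρ.ne'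
    linear_combination ‖z‖⁻¹ * h
  rw [e1, e2, e3, Real.sqrt_mul (sq_nonneg ρ), Real.sqrt_sq hρ.le, mul_assoc ρ, mul_smul ρ,
    ← smul_add ρ]

section smooth

variable {X : Type*} [NormedAddCommGroup X] [NormedSpace ℝ X]

private theorem AF0_cd_comp {A : X → V4} {q : X} (hA : ContDiffAt ℝ ∞ A q) (k : Fin 4) :
    ContDiffAt ℝ ∞ (fun x => A x k) q := (contDiffAt_piLp 2).1 hA k

private theorem AF0_cd_minor {A B C : X → V4} {q : X} (hA : ContDiffAt ℝ ∞ A q)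
    (hB : ContDiffAt ℝ ∞ B q) (hC : ContDiffAt ℝ ∞ C q) (i j k : Fin 4) :
    ContDiffAt ℝ ∞ (fun x => minor3 (A x) (B x) (C x) i j k) q := by
  unfold minor3
  have a := AF0_cd_comp hA
  have b := AF0_cd_comp hB
  have c := AF0_cd_comp hC
  exact (((a i).mul (((b j).mul (c k)).sub ((b k).mul (c j)))).sub
    ((a j).mul (((b i).mul (c k)).sub ((b k).mul (c i))))).add
    ((a k).mul (((b i).mul (c j)).sub ((b j).mul (c i))))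

private theorem AF0_cd_cr3 {A B C : X → V4} {q : X} (hA : ContDiffAt ℝ ∞ A q)
    (hB : ContDiffAt ℝ ∞ B q) (hC : ContDiffAt ℝ ∞ C q) :
    ContDiffAt ℝ ∞ (fun x => cr3 (A x) (B x) (C x)) q := by
  rw [contDiffAt_piLp 2]
  intro k
  fin_cases k
  · exact AF0_cd_minor hA hB hC 1 2 3
  · exact (AF0_cd_minor hA hB hC 0 2 3).neg
  · exact AF0_cd_minor hA hB hC 0 1 3
  · exact (AF0_cd_minor hA hB hC 0 1 2).neg

private theorem AF0_cd_gram3 {A B C : X → V4} {q : X} (hA : ContDiffAt ℝ ∞ A q)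
    (hB : ContDiffAt ℝ ∞ B q) (hC : ContDiffAt ℝ ∞ C q) :
    ContDiffAt ℝ ∞ (fun x => gram3 (A x) (B x) (C x)) q := by
  unfold gram3
  have aa := hA.inner ℝ hA
  have ab := hA.inner ℝ hB
  have ac := hA.inner ℝ hC
  have bb := hB.inner ℝ hB
  have bc := hB.inner ℝ hC
  have cc := hC.inner ℝ hC
  exact ((aa.mul ((bb.mul cc).sub (bc.pow 2))).sub
    (ab.mul ((ab.mul cc).sub (bc.mul ac)))).add (ac.mul ((ab.mul bc).sub (bb.mul ac)))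

private theorem AF0_cd_nor {A B C : X → V4} {q : X} (hA : ContDiffAt ℝ ∞ A q)
    (hB : ContDiffAt ℝ ∞ B q) (hC : ContDiffAt ℝ ∞ C q) (h : 0 < gram3 (A q) (B q) (C q)) :
    ContDiffAt ℝ ∞ (fun x => nor (A x) (B x) (C x)) q := by
  unfold nor
  exact (((AF0_cd_gram3 hA hB hC).sqrt h.ne').inv (Real.sqrt_pos.2 h).ne').smul
    (AF0_cd_cr3 hA hB hC)

private theorem AF0_cd_par2 {A B C : X → V4} {q : X} (hA : ContDiffAt ℝ ∞ A q)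
    (hB : ContDiffAt ℝ ∞ B q) (hC : ContDiffAt ℝ ∞ C q)
    (h : ⟪B q, B q⟫ * ⟪C q, C q⟫ - ⟪B q, C q⟫ ^ 2 ≠ 0) :
    ContDiffAt ℝ ∞ (fun x => par2 (B x) (C x) (A x)) q := by
  unfold par2
  have ab := hA.inner ℝ hB
  have ac := hA.inner ℝ hC
  have bb := hB.inner ℝ hB
  have bc := hB.inner ℝ hC
  have cc := hC.inner ℝ hC
  exact (((bb.mul cc).sub (bc.pow 2)).inv h).smul
    ((((ab.mul cc).sub (ac.mul bc)).smul hB).add (((ac.mul bb).sub (ab.mul bc)).smul hC))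

end smooth

/-- `D > 0` and the norm of the perpendicular component -/
private theorem AF0_D_pos {u b c : V4} (h : 0 < gram3 u b c) :
    0 < ⟪b, b⟫ * ⟪c, c⟫ - ⟪b, c⟫ ^ 2 := by
  have h1 : gram3 u b c = ⟪u, u⟫ * (⟪b, b⟫ * ⟪c, c⟫ - ⟪b, c⟫ ^ 2)
      - ⟪⟪u, b⟫ • c - ⟪u, c⟫ • b, ⟪u, b⟫ • c - ⟪u, c⟫ • b⟫ := by
    unfold gram3
    simp only [inner_sub_left, inner_sub_right, real_inner_smul_left, real_inner_smul_right]
    rw [real_inner_comm b c]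
    ring
  have h2 : 0 ≤ ⟪⟪u, b⟫ • c - ⟪u, c⟫ • b, ⟪u, b⟫ • c - ⟪u, c⟫ • b⟫ := real_inner_self_nonneg
  have h3 : 0 ≤ ⟪u, u⟫ := real_inner_self_nonneg
  have h4 : 0 < ⟪u, u⟫ * (⟪b, b⟫ * ⟪c, c⟫ - ⟪b, c⟫ ^ 2) := by linarith
  exact (pos_iff_pos_of_mul_pos h4).1 (lt_of_le_of_ne h3 fun h5 => by
    rw [← h5, zero_mul] at h4
    exact lt_irrefl _ h4)

private theorem AF0_par2_b {u b c : V4} (h : ⟪b, b⟫ * ⟪c, c⟫ - ⟪b, c⟫ ^ 2 ≠ 0) :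
    ⟪par2 b c u, b⟫ = ⟪u, b⟫ := by
  unfold par2
  rw [real_inner_smul_left, inner_add_left, real_inner_smul_left, real_inner_smul_left,
    real_inner_comm b c]
  have h1 := inv_mul_cancel₀ h
  linear_combination ⟪u, b⟫ * h1

private theorem AF0_par2_c {u b c : V4} (h : ⟪b, b⟫ * ⟪c, c⟫ - ⟪b, c⟫ ^ 2 ≠ 0) :
    ⟪par2 b c u, c⟫ = ⟪u, c⟫ := by
  unfold par2
  rw [real_inner_smul_left, inner_add_left, real_inner_smul_left, real_inner_smul_left]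
  have h1 := inv_mul_cancel₀ h
  linear_combination ⟪u, c⟫ * h1

private theorem AF0_per2_b {u b c : V4} (h : ⟪b, b⟫ * ⟪c, c⟫ - ⟪b, c⟫ ^ 2 ≠ 0) :
    ⟪per2 b c u, b⟫ = 0 := by
  unfold per2
  rw [inner_sub_left, AF0_par2_b h, sub_self]

private theorem AF0_per2_c {u b c : V4} (h : ⟪b, b⟫ * ⟪c, c⟫ - ⟪b, c⟫ ^ 2 ≠ 0) :
    ⟪per2 b c u, c⟫ = 0 := by
  unfold per2
  rw [inner_sub_left, AF0_par2_c h, sub_self]

/-- inner product of `par2` with a vector -/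
private theorem AF0_inner_par2 (u b c w : V4) (hb : ⟪w, b⟫ = 0) (hc : ⟪w, c⟫ = 0) :
    ⟪w, par2 b c u⟫ = 0 := by
  unfold par2
  rw [real_inner_smul_right, inner_add_right, real_inner_smul_right, real_inner_smul_right, hb, hc]
  ring

/-- `gram3 (p + w) b c` for `w` orthogonal to `b, c` and `p` in their span -/
private theorem AF0_gram3_perp (u b c w : V4) (hb : ⟪w, b⟫ = 0) (hc : ⟪w, c⟫ = 0) :
    gram3 (par2 b c u + w) b c = ⟪w, w⟫ * (⟪b, b⟫ * ⟪c, c⟫ - ⟪b, c⟫ ^ 2) := by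
  rw [AF0_par2_eq]
  generalize (⟪b, b⟫ * ⟪c, c⟫ - ⟪b, c⟫ ^ 2)⁻¹ * (⟪u, b⟫ * ⟪c, c⟫ - ⟪u, c⟫ * ⟪b, c⟫) = x
  generalize (⟪b, b⟫ * ⟪c, c⟫ - ⟪b, c⟫ ^ 2)⁻¹ * (⟪u, c⟫ * ⟪b, b⟫ - ⟪u, b⟫ * ⟪b, c⟫) = y
  have hb' : ⟪b, w⟫ = 0 := by rw [real_inner_comm]; exact hb
  have hc' : ⟪c, w⟫ = 0 := by rw [real_inner_comm]; exact hc
  unfold gram3
  simp only [inner_add_left, inner_add_right, real_inner_smul_left, real_inner_smul_right]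
  rw [hb, hc, hb', hc', real_inner_comm b c]
  ring

/-- the unit vector `e` times the amplitude -/
private def AF0w (tf : ℝ → ℝ) (u₁ u₂ u₃ : V4) (α c : ℝ) : V4 :=
  (Real.sqrt (‖per2 u₂ u₃ u₁‖ ^ 2 + α ^ 2) *
      (Real.sqrt (1 + tf (α / ‖per2 u₂ u₃ u₁‖) ^ 2 * c ^ 2))⁻¹) •
      (‖per2 u₂ u₃ u₁‖⁻¹ • per2 u₂ u₃ u₁ + (tf (α / ‖per2 u₂ u₃ u₁‖) * c) • nor u₁ u₂ u₃)

private theorem AF0w_eq (tf : ℝ → ℝ) (u₁ u₂ u₃ : V4) (α c : ℝ) :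
    F0 tf u₁ u₂ u₃ α c = par2 u₂ u₃ u₁ + AF0w tf u₁ u₂ u₃ α c := rfl

private theorem AF0_per_pos {u b c : V4} (h : 0 < gram3 u b c) : 0 < ‖per2 b c u‖ := by
  have hD := AF0_D_pos h
  have h1 := AF0_gram3_perp u b c (per2 b c u) (AF0_per2_b hD.ne') (AF0_per2_c hD.ne')
  have h2 : par2 b c u + per2 b c u = u := by
    unfold per2
    abel
  rw [h2] at h1
  rw [h1, real_inner_self_eq_norm_sq] at h
  have h3 : 0 < ‖per2 b c u‖ ^ 2 := by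
    rcases (sq_nonneg ‖per2 b c u‖).lt_or_eq with h4 | h4
    · exact h4
    · rw [← h4, zero_mul] at h
      exact absurd h (lt_irrefl _)
  rcases (norm_nonneg (per2 b c u)).lt_or_eq with h4 | h4
  · exact h4
  · rw [← h4] at h3
    norm_num at h3

private theorem AF0w_props (tf : ℝ → ℝ) {u₁ u₂ u₃ : V4} (h : 0 < gram3 u₁ u₂ u₃) (α c : ℝ) :
    ⟪AF0w tf u₁ u₂ u₃ α c, u₂⟫ = 0 ∧ ⟪AF0w tf u₁ u₂ u₃ α c, u₃⟫ = 0 ∧
      ⟪AF0w tf u₁ u₂ u₃ α c, AF0w tf u₁ u₂ u₃ α c⟫ = ‖per2 u₂ u₃ u₁‖ ^ 2 + α ^ 2 := by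
  have hD := AF0_D_pos h
  have hz := AF0_per_pos h
  have hb := AF0_per2_b (u := u₁) hD.ne'
  have hc := AF0_per2_c (u := u₁) hD.ne'
  have n2 := inner_nor_snd u₁ u₂ u₃
  have n3 := inner_nor_thd u₁ u₂ u₃
  have n1 := inner_nor_fst u₁ u₂ u₃
  have nn := inner_nor_self u₁ u₂ u₃ h
  have nz : ⟪nor u₁ u₂ u₃, per2 u₂ u₃ u₁⟫ = 0 := by
    have h1 : per2 u₂ u₃ u₁ = u₁ - par2 u₂ u₃ u₁ := rfl
    rw [h1, inner_sub_right, n1, AF0_inner_par2 u₁ u₂ u₃ _ n2 n3, sub_zero]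
  have nz' : ⟪per2 u₂ u₃ u₁, nor u₁ u₂ u₃⟫ = 0 := by
    rw [real_inner_comm]
    exact nz
  have zz : ⟪per2 u₂ u₃ u₁, per2 u₂ u₃ u₁⟫ = ‖per2 u₂ u₃ u₁‖ ^ 2 := real_inner_self_eq_norm_sq _
  unfold AF0w
  set z := per2 u₂ u₃ u₁ with hzdef
  set y := nor u₁ u₂ u₃ with hy
  set τ := tf (α / ‖z‖) with hτ
  refine ⟨?_, ?_, ?_⟩
  · rw [real_inner_smul_left, inner_add_left, real_inner_smul_left, real_inner_smul_left, hb, n2]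
    ring
  · rw [real_inner_smul_left, inner_add_left, real_inner_smul_left, real_inner_smul_left, hc, n3]
    ring
  · simp only [real_inner_smul_left, real_inner_smul_right, inner_add_left, inner_add_right]
    rw [zz, nz, nz', nn]
    have p1 : 0 ≤ ‖z‖ ^ 2 + α ^ 2 := by positivity
    have p2 : 0 < 1 + τ ^ 2 * c ^ 2 := by positivity
    have s1 := Real.mul_self_sqrt p1
    have s2 := Real.mul_self_sqrt p2.le
    have s3 := (Real.sqrt_pos.2 p2)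
    have s4 : ‖z‖⁻¹ * ‖z‖ = 1 := inv_mul_cancel₀ hz.ne'
    have s5 : (Real.sqrt (1 + τ ^ 2 * c ^ 2))⁻¹ * (Real.sqrt (1 + τ ^ 2 * c ^ 2))⁻¹
        * (1 + τ ^ 2 * c ^ 2) = 1 := by
      nth_rewrite 3 [← s2]
      field_simp
    generalize (Real.sqrt (1 + τ ^ 2 * c ^ 2))⁻¹ = r at s5 ⊢
    generalize Real.sqrt (‖z‖ ^ 2 + α ^ 2) = R at s1 ⊢
    have e1 : ‖z‖⁻¹ * (‖z‖⁻¹ * ‖z‖ ^ 2) = 1 := by
      have : ‖z‖⁻¹ * (‖z‖⁻¹ * ‖z‖ ^ 2) = (‖z‖⁻¹ * ‖z‖) ^ 2 := by ring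
      rw [this, s4, one_pow]
    calc R * r * (‖z‖⁻¹ * (R * r * (‖z‖⁻¹ * ‖z‖ ^ 2 + τ * c * 0))
          + τ * c * (R * r * (‖z‖⁻¹ * 0 + τ * c * 1)))
        = (R * R) * (r * r * (‖z‖⁻¹ * (‖z‖⁻¹ * ‖z‖ ^ 2) + τ ^ 2 * c ^ 2)) := by ring
      _ = ‖z‖ ^ 2 + α ^ 2 := by rw [e1, s1, s5, mul_one]

theorem contDiffOn_F0 {tf : ℝ → ℝ} (htf : ContDiff ℝ ∞ tf) :
    ContDiffOn ℝ ∞ (fun q : (V4 × V4 × V4) × ℝ × ℝ => F0 tf q.1.1 q.1.2.1 q.1.2.2 q.2.1 q.2.2)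
      {q | 0 < gram3 q.1.1 q.1.2.1 q.1.2.2} := by
  intro q hq
  have hq' : 0 < gram3 q.1.1 q.1.2.1 q.1.2.2 := hq
  refine ContDiffAt.contDiffWithinAt ?_
  have hA : ContDiffAt ℝ ∞ (fun q : (V4 × V4 × V4) × ℝ × ℝ => q.1.1) q :=
    (contDiff_fst.fst).contDiffAt
  have hB : ContDiffAt ℝ ∞ (fun q : (V4 × V4 × V4) × ℝ × ℝ => q.1.2.1) q :=
    (contDiff_fst.snd.fst).contDiffAt
  have hC : ContDiffAt ℝ ∞ (fun q : (V4 × V4 × V4) × ℝ × ℝ => q.1.2.2) q :=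
    (contDiff_fst.snd.snd).contDiffAt
  have hα : ContDiffAt ℝ ∞ (fun q : (V4 × V4 × V4) × ℝ × ℝ => q.2.1) q :=
    (contDiff_snd.fst).contDiffAt
  have hc : ContDiffAt ℝ ∞ (fun q : (V4 × V4 × V4) × ℝ × ℝ => q.2.2) q :=
    (contDiff_snd.snd).contDiffAt
  have hD := AF0_D_pos hq'
  have hz0 := AF0_per_pos hq'
  have hpar := AF0_cd_par2 hA hB hC hD.ne'
  have hper : ContDiffAt ℝ ∞
      (fun q : (V4 × V4 × V4) × ℝ × ℝ => per2 q.1.2.1 q.1.2.2 q.1.1) q := hA.sub hpar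
  have hnz : per2 q.1.2.1 q.1.2.2 q.1.1 ≠ 0 := norm_pos_iff.1 hz0
  have hn := hper.norm ℝ hnz
  have hτ : ContDiffAt ℝ ∞ (fun q : (V4 × V4 × V4) × ℝ × ℝ =>
      tf (q.2.1 / ‖per2 q.1.2.1 q.1.2.2 q.1.1‖)) q :=
    htf.contDiffAt.comp q (hα.div hn hz0.ne')
  have hR : ContDiffAt ℝ ∞ (fun q : (V4 × V4 × V4) × ℝ × ℝ =>
      Real.sqrt (‖per2 q.1.2.1 q.1.2.2 q.1.1‖ ^ 2 + q.2.1 ^ 2)) q :=
    ((hn.pow 2).add (hα.pow 2)).sqrt (by positivity)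
  have hS : ContDiffAt ℝ ∞ (fun q : (V4 × V4 × V4) × ℝ × ℝ =>
      (Real.sqrt (1 + tf (q.2.1 / ‖per2 q.1.2.1 q.1.2.2 q.1.1‖) ^ 2 * q.2.2 ^ 2))⁻¹) q :=
    ((contDiffAt_const.add ((hτ.pow 2).mul (hc.pow 2))).sqrt (by positivity)).inv
      (Real.sqrt_pos.2 (by positivity)).ne'
  exact hpar.add ((hR.mul hS).smul
    (((hn.inv hz0.ne').smul hper).add ((hτ.mul hc).smul (AF0_cd_nor hA hB hC hq'))))

/-- nondegeneracy is preserved -/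
theorem gram3_F0 (tf : ℝ → ℝ) {u₁ u₂ u₃ : V4} (h : 0 < gram3 u₁ u₂ u₃) (α c : ℝ) :
    gram3 u₁ u₂ u₃ ≤ gram3 (F0 tf u₁ u₂ u₃ α c) u₂ u₃ := by
  have hD := AF0_D_pos h
  obtain ⟨w2, w3, ww⟩ := AF0w_props tf h α c
  have h1 := AF0_gram3_perp u₁ u₂ u₃ (per2 u₂ u₃ u₁) (AF0_per2_b hD.ne') (AF0_per2_c hD.ne')
  have h2 : par2 u₂ u₃ u₁ + per2 u₂ u₃ u₁ = u₁ := by
    unfold per2
    abel
  rw [h2, real_inner_self_eq_norm_sq] at h1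
  rw [AF0w_eq, AF0_gram3_perp u₁ u₂ u₃ _ w2 w3, ww, h1]
  exact mul_le_mul_of_nonneg_right (by nlinarith [sq_nonneg α]) hD.le

/-- `|F0|² = |u₁|² + α²`, `F0·u₂ = u₁·u₂` -/
theorem norm_F0 (tf : ℝ → ℝ) {u₁ u₂ u₃ : V4} (h : 0 < gram3 u₁ u₂ u₃) (α c : ℝ) :
    ‖F0 tf u₁ u₂ u₃ α c‖ ^ 2 = ‖u₁‖ ^ 2 + α ^ 2 ∧ ⟪F0 tf u₁ u₂ u₃ α c, u₂⟫ = ⟪u₁, u₂⟫ := by
  have hD := AF0_D_pos h
  obtain ⟨w2, w3, ww⟩ := AF0w_props tf h α c
  constructor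
  · have h2 : u₁ = par2 u₂ u₃ u₁ + per2 u₂ u₃ u₁ := by
      unfold per2
      abel
    have h3 : ‖u₁‖ ^ 2 = ‖par2 u₂ u₃ u₁‖ ^ 2 + ‖per2 u₂ u₃ u₁‖ ^ 2 := by
      conv_lhs => rw [h2]
      rw [norm_add_sq_real, real_inner_comm,
        AF0_inner_par2 u₁ u₂ u₃ _ (AF0_per2_b hD.ne') (AF0_per2_c hD.ne')]
      ring
    rw [AF0w_eq, norm_add_sq_real, real_inner_comm, AF0_inner_par2 u₁ u₂ u₃ _ w2 w3,
      ← real_inner_self_eq_norm_sq (AF0w tf u₁ u₂ u₃ α c), ww, h3]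
    ring
  · rw [AF0w_eq, inner_add_left, w2, AF0_par2_b hD.ne', add_zero]

end P205F
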