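import Mathlib
import Vale.Agent.Lib.P205F.MStmt

/-!
# P205F ASSEMBLY: propagation of the invariant, and the end of the W-group
-/

noncomputable section

namespace P205F

open scoped Manifold ContDiff Topology RealInnerProductSpace
open Set

set_option maxSynthPendingDepth 3

/-- closeness of `F'` to the output of an exact stage with label `x₁`, amplitude `a`, at `x` -/
def StageCl (tf : ℝ → ℝ) (F F' : E2 → V4) (a : E2 → ℝ) (tol : ℝ) (x : E2) : Prop :=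
  ‖pd 1 F' x - pd 1 F x‖ ≤ tol ∧
  ‖pd 1 (pd 1 F') x - pd 1 (pd 1 F) x‖ ≤ tol ∧
  ‖pd 1 (pd 1 (pd 1 F')) x - pd 1 (pd 1 (pd 1 F)) x‖ ≤ tol ∧
  ∃ c ∈ Icc (-1 : ℝ) 1,
    ‖pd 0 F' x - F0 tf (pd 0 F x) (pd 1 F x) (pd 1 (pd 1 F) x) (a x) c‖ ≤ tol ∧
    ‖pd 1 (pd 0 F') x - pd 1 (fun y => F0 tf (pd 0 F y) (pd 1 F y) (pd 1 (pd 1 F) y) (a y) c) x‖
      ≤ tol

end P205F
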