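import Vale.Agent.Lib.P205B.AF0
import Vale.Agent.Lib.P205B.AInvDefs

/-!
# P205F ASSEMBLY: propagation of the invariant, and the end of the W-group
-/

noncomputable section

namespace P205F

open scoped Manifold ContDiff Topology RealInnerProductSpace
open Set

set_option maxSynthPendingDepth 3

section AInvBasics

variable {V : Type} [NormedAddCommGroup V] [NormedSpace ℝ V]

theorem AInv_fin {f : E2 → V} {x : E2} (hf : ContDiffAt ℝ ∞ f x) (n : ℕ) :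
    ContDiffAt ℝ n f x := hf.of_le (by exact_mod_cast le_top)

theorem AInv_dir {f : E2 → V} {x : E2} {n m : WithTop ℕ∞} (hf : ContDiffAt ℝ n f x)
    (h : m + 1 ≤ n) (v : E2) : ContDiffAt ℝ m (fun y => fderiv ℝ f y v) x :=
  (hf.fderiv_right h).clm_apply contDiffAt_const

theorem AInv_dir_inf {f : E2 → V} {x : E2} (hf : ContDiffAt ℝ ∞ f x) (v : E2) :
    ContDiffAt ℝ ∞ (fun y => fderiv ℝ f y v) x :=
  AInv_dir hf (by norm_cast) v

theorem AInv_pd_inf {f : E2 → V} {x : E2} (hf : ContDiffAt ℝ ∞ f x) (k : Fin 2) :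
    ContDiffAt ℝ ∞ (pd k f) x := AInv_dir_inf hf (bv k)

theorem AInv_diff {f : E2 → V} {x : E2} (hf : ContDiffAt ℝ ∞ f x) : DifferentiableAt ℝ f x :=
  hf.differentiableAt (by simp)

/-- second derivative as an iterated directional derivative -/
theorem AInv_second {f : E2 → V} {x : E2} (hf : ContDiffAt ℝ 2 f x) (u w : E2) :
    fderiv ℝ (fun y => fderiv ℝ f y u) x w = fderiv ℝ (fderiv ℝ f) x w u := by
  have h1 : DifferentiableAt ℝ (fderiv ℝ f) x :=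
    (hf.fderiv_right (m := 1) (by norm_num)).differentiableAt (by norm_num)
  have h2 := h1.hasFDerivAt.clm_apply (hasFDerivAt_const u x)
  rw [h2.fderiv]
  simp

theorem AInv_symm {f : E2 → V} {x : E2} (hf : ContDiffAt ℝ 2 f x) (u w : E2) :
    fderiv ℝ (fun y => fderiv ℝ f y u) x w = fderiv ℝ (fun y => fderiv ℝ f y w) x u := by
  rw [AInv_second hf, AInv_second hf]
  exact (hf.isSymmSndFDerivAt (by simp)) w u

/-- near `x`, the mixed derivatives commute -/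
theorem AInv_symm_ev {f : E2 → V} {x : E2} (hf : ContDiffAt ℝ ∞ f x) (u w : E2) :
    (fun y => fderiv ℝ (fun z => fderiv ℝ f z u) y w) =ᶠ[𝓝 x]
      fun y => fderiv ℝ (fun z => fderiv ℝ f z w) y u := by
  filter_upwards [(AInv_fin hf 2).eventually (by simp)] with y hy
  exact AInv_symm hy u w

end AInvBasics

/-- the four elementary maps in `rotV` -/
def AInv_P1 : V4 →L[ℝ] V4 := LinearMap.toContinuousLinearMap
  { toFun := fun u => !₂[u 0, u 1, 0, 0]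
    map_add' := by intro u v; ext i; fin_cases i <;> simp
    map_smul' := by intro c u; ext i; fin_cases i <;> simp }

def AInv_P2 : V4 →L[ℝ] V4 := LinearMap.toContinuousLinearMap
  { toFun := fun u => !₂[u 1, -u 0, 0, 0]
    map_add' := by intro u v; ext i; fin_cases i <;> simp; ring
    map_smul' := by intro c u; ext i; fin_cases i <;> simp }

def AInv_P3 : V4 →L[ℝ] V4 := LinearMap.toContinuousLinearMap
  { toFun := fun u => !₂[0, 0, u 2, u 3]
    map_add' := by intro u v; ext i; fin_cases i <;> simp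
    map_smul' := by intro c u; ext i; fin_cases i <;> simp }

def AInv_P4 : V4 →L[ℝ] V4 := LinearMap.toContinuousLinearMap
  { toFun := fun u => !₂[0, 0, u 3, -u 2]
    map_add' := by intro u v; ext i; fin_cases i <;> simp; ring
    map_smul' := by intro c u; ext i; fin_cases i <;> simp }

theorem AInv_P1_apply (u : V4) : AInv_P1 u = !₂[u 0, u 1, 0, 0] := rfl
theorem AInv_P2_apply (u : V4) : AInv_P2 u = !₂[u 1, -u 0, 0, 0] := rfl
theorem AInv_P3_apply (u : V4) : AInv_P3 u = !₂[0, 0, u 2, u 3] := rfl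
theorem AInv_P4_apply (u : V4) : AInv_P4 u = !₂[0, 0, u 3, -u 2] := rfl

theorem AInv_rotV (a b : ℝ) (u : V4) : rotV a b u =
    Real.cos a • AInv_P1 u + Real.sin a • AInv_P2 u + (Real.cos b • AInv_P3 u
      + Real.sin b • AInv_P4 u) := by
  rw [AInv_P1_apply, AInv_P2_apply, AInv_P3_apply, AInv_P4_apply]
  unfold rotV
  ext i
  fin_cases i <;> simp
  all_goals ring

/-- the rotation generator composed with the rotation -/
def AInv_G (a b : ℝ) (u : V4) : V4 :=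
    (-Real.sin a) • AInv_P1 u + Real.cos a • AInv_P2 u + (Real.sin b • AInv_P3 u
      + (-Real.cos b) • AInv_P4 u)

theorem AInv_G_norm (a b : ℝ) (u : V4) : ‖AInv_G a b u‖ = ‖u‖ := by
  have h : ‖AInv_G a b u‖ ^ 2 = ‖u‖ ^ 2 := by
    rw [← real_inner_self_eq_norm_sq, ← real_inner_self_eq_norm_sq, TA_inner, TA_inner]
    unfold AInv_G
    rw [AInv_P1_apply, AInv_P2_apply, AInv_P3_apply, AInv_P4_apply]
    simp only [PiLp.add_apply, PiLp.smul_apply, smul_eq_mul]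
    simp
    have h1 := Real.sin_sq_add_cos_sq a
    have h2 := Real.sin_sq_add_cos_sq b
    linear_combination (u 0 ^ 2 + u 1 ^ 2) * h1 + (u 2 ^ 2 + u 3 ^ 2) * h2
  exact (sq_eq_sq₀ (norm_nonneg _) (norm_nonneg _)).1 h

theorem AInv_G_sub (a b : ℝ) (u v : V4) : AInv_G a b (u - v) = AInv_G a b u - AInv_G a b v := by
  unfold AInv_G
  simp only [map_sub, smul_sub]
  abel

theorem AInv_G_add (a b : ℝ) (u v : V4) : AInv_G a b (u + v) = AInv_G a b u + AInv_G a b v := by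
  unfold AInv_G
  simp only [map_add, smul_add]
  abel

theorem AInv_G_smul (a b c : ℝ) (u : V4) : AInv_G a b (c • u) = c • AInv_G a b u := by
  unfold AInv_G
  simp only [map_smul, smul_add]
  simp only [smul_comm c]

theorem AInv_rot_sub (a b : ℝ) (u v : V4) : rotV a b (u - v) = rotV a b u - rotV a b v := by
  simp only [AInv_rotV, map_sub, smul_sub]
  abel

theorem AInv_rot_add (a b : ℝ) (u v : V4) : rotV a b (u + v) = rotV a b u + rotV a b v := by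
  simp only [AInv_rotV, map_add, smul_add]
  abel

theorem AInv_rot_smul (a b c : ℝ) (u : V4) : rotV a b (c • u) = c • rotV a b u := by
  simp only [AInv_rotV, map_smul, smul_add]
  simp only [smul_comm c]

/-- the derivative of `slo` -/
theorem AInv_slo_hasFDerivAt {τ h : ℝ} {u : E2 → V4} {x : E2} (hu : DifferentiableAt ℝ u x) :
    ∃ L : E2 →L[ℝ] V4, HasFDerivAt (fun y => slo τ h y (u y)) L x ∧
      L (bv 1) = slo τ h x (pd 1 u x) +
        (τ / h) • AInv_G ((x.1 + τ * x.2) / h) ((x.1 - τ * x.2) / h) (u x) := by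
  have ha : HasFDerivAt (fun y : E2 => (y.1 + τ * y.2) / h)
      (h⁻¹ • (ContinuousLinearMap.fst ℝ ℝ ℝ + τ • ContinuousLinearMap.snd ℝ ℝ ℝ)) x := by
    have h1 : HasFDerivAt (fun y : E2 => y.1 + τ * y.2)
        (ContinuousLinearMap.fst ℝ ℝ ℝ + τ • ContinuousLinearMap.snd ℝ ℝ ℝ) x :=
      hasFDerivAt_fst.add (hasFDerivAt_snd.const_mul τ)
    exact (h1.const_mul h⁻¹).congr_of_eventuallyEq
      (Filter.Eventually.of_forall fun y => div_eq_inv_mul _ _)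
  have hb : HasFDerivAt (fun y : E2 => (y.1 - τ * y.2) / h)
      (h⁻¹ • (ContinuousLinearMap.fst ℝ ℝ ℝ - τ • ContinuousLinearMap.snd ℝ ℝ ℝ)) x := by
    have h1 : HasFDerivAt (fun y : E2 => y.1 - τ * y.2)
        (ContinuousLinearMap.fst ℝ ℝ ℝ - τ • ContinuousLinearMap.snd ℝ ℝ ℝ) x :=
      hasFDerivAt_fst.sub (hasFDerivAt_snd.const_mul τ)
    exact (h1.const_mul h⁻¹).congr_of_eventuallyEq
      (Filter.Eventually.of_forall fun y => div_eq_inv_mul _ _)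
  have hu' := hu.hasFDerivAt
  have t1 := ha.cos.smul (AInv_P1.hasFDerivAt.comp x hu')
  have t2 := ha.sin.smul (AInv_P2.hasFDerivAt.comp x hu')
  have t3 := hb.cos.smul (AInv_P3.hasFDerivAt.comp x hu')
  have t4 := hb.sin.smul (AInv_P4.hasFDerivAt.comp x hu')
  have t := (t1.add t2).add (t3.add t4)
  refine ⟨_, t.congr_of_eventuallyEq (Filter.Eventually.of_forall fun y => ?_), ?_⟩
  · simp only [slo, AInv_rotV]
    rfl
  · have e1 : (ContinuousLinearMap.fst ℝ ℝ ℝ) (bv 1) = 0 := by simp [bv]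
    have e2' : (ContinuousLinearMap.snd ℝ ℝ ℝ) (bv 1) = 1 := by simp [bv]
    simp only [add_apply, FunLike.coe_smul, Pi.smul_apply,
      ContinuousLinearMap.smulRight_apply, ContinuousLinearMap.comp_apply, sub_apply,
      Function.comp_apply, e1, e2', smul_eq_mul, slo, AInv_rotV, AInv_G, pd]
    simp only [smul_add, smul_smul]
    have e3 : ∀ z : ℝ, z * (h⁻¹ * (0 + τ * 1)) = τ / h * z := by intro z; ring
    have e4 : ∀ z : ℝ, z * (h⁻¹ * (0 - τ * 1)) = τ / h * (-z) := by intro z; ring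
    rw [e3, e3, e4, e4, neg_neg]
    abel

theorem AInv_pd_slo {τ h : ℝ} {u : E2 → V4} {x : E2} (hu : DifferentiableAt ℝ u x) :
    pd 1 (fun y => slo τ h y (u y)) x = slo τ h x (pd 1 u x) +
        (τ / h) • AInv_G ((x.1 + τ * x.2) / h) ((x.1 - τ * x.2) / h) (u x) := by
  obtain ⟨L, h1, h2⟩ := AInv_slo_hasFDerivAt (τ := τ) (h := h) hu
  unfold pd at h2 ⊢
  rw [h1.fderiv, h2]

theorem AInv_slo_norm (τ h : ℝ) (x : E2) (u : V4) : ‖slo τ h x u‖ = ‖u‖ := rotV_norm _ _ _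

/-- closeness of the derivatives in the slow frame -/
theorem AInv_slo_close {τ h e e' : ℝ} (hτ : 0 < τ) (hh : 0 < h) {u v : E2 → V4} {x : E2}
    (hu : DifferentiableAt ℝ u x) (hv : DifferentiableAt ℝ v x) (h0 : ‖u x - v x‖ ≤ e)
    (h1 : ‖pd 1 u x - pd 1 v x‖ ≤ e') :
    ‖pd 1 (fun y => slo τ h y (u y)) x - pd 1 (fun y => slo τ h y (v y)) x‖ ≤
      e' + τ / h * e := by
  rw [AInv_pd_slo hu, AInv_pd_slo hv]
  have e1 : slo τ h x (pd 1 u x) + (τ / h) • AInv_G ((x.1 + τ * x.2) / h) ((x.1 - τ * x.2) / h) (u x)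
      - (slo τ h x (pd 1 v x) +
        (τ / h) • AInv_G ((x.1 + τ * x.2) / h) ((x.1 - τ * x.2) / h) (v x)) =
      slo τ h x (pd 1 u x - pd 1 v x) +
        (τ / h) • AInv_G ((x.1 + τ * x.2) / h) ((x.1 - τ * x.2) / h) (u x - v x) := by
    rw [AInv_G_sub]
    unfold slo
    rw [AInv_rot_sub, smul_sub]
    abel
  rw [e1]
  refine (norm_add_le _ _).trans (add_le_add ?_ ?_)
  · rw [AInv_slo_norm]; exact h1
  · have h2 : 0 < τ / h := div_pos hτ hh
    rw [norm_smul, AInv_G_norm, Real.norm_eq_abs, abs_of_pos h2]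
    exact mul_le_mul_of_nonneg_left h0 h2.le

theorem AInv_pd_smul {V : Type} [NormedAddCommGroup V] [NormedSpace ℝ V] (c : ℝ) {u : E2 → V}
    {x : E2} (hu : DifferentiableAt ℝ u x) (k : Fin 2) :
    pd k (fun y => c • u y) x = c • pd k u x := by
  unfold pd
  rw [fderiv_fun_const_smul hu]
  rfl

theorem AInv_gram_rot (a b : ℝ) (u v w : V4) :
    gram3 (rotV a b u) (rotV a b v) (rotV a b w) = gram3 u v w := by
  unfold gram3
  simp only [rotV_inner]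

/-- the derived invariants of `F'` from those of `F`, apart from the first derivative `F'_1` -/
theorem AInv_common {τ h K tol : ℝ} (hτ : 0 < τ) (hh : 0 < h) (hh1 : h < 1) (hK : 1 ≤ K)
    (ht0 : 0 < tol) (ht1 : tol ≤ 1) (ht2 : tol + τ / h * tol ≤ 1) (ht3 : tol + τ * tol ≤ 1)
    {F F' : E2 → V4} {x : E2} (hF : ContDiffAt ℝ ∞ F x) (hF' : ContDiffAt ℝ ∞ F' x)
    (hI : INV τ h K F x)
    (h1 : ‖pd 1 F' x - pd 1 F x‖ ≤ tol)
    (h2 : ‖pd 1 (pd 1 F') x - pd 1 (pd 1 F) x‖ ≤ tol)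
    (h3 : ‖pd 1 (pd 1 (pd 1 F')) x - pd 1 (pd 1 (pd 1 F)) x‖ ≤ tol) :
    ‖pd 1 F' x‖ ≤ K + 1 ∧ ‖h • pd 1 (pd 1 F') x‖ ≤ K + 1 ∧
    ‖pd 1 (fun y => slo τ h y (pd 1 F' y)) x‖ ≤ K + 1 ∧
    ‖pd 1 (fun y => slo τ h y (h • pd 1 (pd 1 F') y)) x‖ ≤ K + 1 := by
  obtain ⟨i1, i2, i3, i4, i5, i6, i7⟩ := hI
  have d1 := AInv_pd_inf hF 1
  have d1' := AInv_pd_inf hF' 1
  have d2 := AInv_pd_inf d1 1
  have d2' := AInv_pd_inf d1' 1
  have tri : ∀ {a b : V4} {e M : ℝ}, ‖a - b‖ ≤ e → ‖b‖ ≤ M → e ≤ 1 → ‖a‖ ≤ M + 1 := by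
    intro a b e M hab hb he
    have : a = (a - b) + b := by abel
    rw [this]
    exact (norm_add_le _ _).trans (by linarith)
  have h2' : ‖h • pd 1 (pd 1 F') x - h • pd 1 (pd 1 F) x‖ ≤ tol := by
    rw [← smul_sub, norm_smul, Real.norm_eq_abs, abs_of_pos hh]
    nlinarith [norm_nonneg (pd 1 (pd 1 F') x - pd 1 (pd 1 F) x)]
  refine ⟨tri h1 i2 ht1, tri h2' i3 ht1, ?_, ?_⟩
  · exact tri (AInv_slo_close hτ hh (AInv_diff d1') (AInv_diff d1) h1 h2) i5 ht2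
  · have h3' : ‖pd 1 (fun y => h • pd 1 (pd 1 F') y) x - pd 1 (fun y => h • pd 1 (pd 1 F) y) x‖ ≤
        tol := by
      rw [AInv_pd_smul h (AInv_diff d2'), AInv_pd_smul h (AInv_diff d2), ← smul_sub, norm_smul,
        Real.norm_eq_abs, abs_of_pos hh]
      nlinarith [norm_nonneg (pd 1 (pd 1 (pd 1 F')) x - pd 1 (pd 1 (pd 1 F)) x)]
    have h2'' : ‖h • pd 1 (pd 1 F') x - h • pd 1 (pd 1 F) x‖ ≤ h * tol := by
      rw [← smul_sub, norm_smul, Real.norm_eq_abs, abs_of_pos hh]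
      exact mul_le_mul_of_nonneg_left h2 hh.le
    refine tri (AInv_slo_close hτ hh ((AInv_diff d2').const_smul h) ((AInv_diff d2).const_smul h)
      h2'' h3') i6 ?_
    have : τ / h * (h * tol) = τ * tol := by field_simp
    rw [this]
    exact ht3

/-- nondegeneracy under small changes -/
theorem AInv_gram {K tol R : ℝ} (hK : 1 ≤ K) (hR : 1 ≤ R) (ht0 : 0 < tol) (ht1 : tol ≤ 1)
    (ht4 : 2000 * R ^ 5 * K * tol ≤ 1) {a b c a' b' c' : V4} (ha : ‖a‖ ≤ R) (hb : ‖b‖ ≤ R)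
    (hc : ‖c‖ ≤ R) (ha' : ‖a' - a‖ ≤ tol) (hb' : ‖b' - b‖ ≤ tol) (hc' : ‖c' - c‖ ≤ tol)
    (hg : 1 ≤ K * gram3 a b c) : 1 ≤ 2 * K * gram3 a' b' c' := by
  have h1 := gram3_sub_le a b c a' b' c' R tol ha hb hc ha' hb' hc' ht1 hR
  have h2 := (abs_le.1 h1).1
  have h3 : K * (gram3 a b c - 1000 * R ^ 5 * tol) ≤ K * gram3 a' b' c' :=
    mul_le_mul_of_nonneg_left (by linarith) (by linarith)
  nlinarith

/-- the tolerance -/
theorem AInv_tol {τ K R : ℝ} (hτ : 0 < τ) (hK : 1 ≤ K) (hR : 1 ≤ R) {h : ℝ} (hh : 0 < h) :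
    ∃ tol : ℝ, 0 < tol ∧ tol ≤ 1 ∧ tol + τ / h * tol ≤ 1 ∧ tol + τ * tol ≤ 1 ∧
      2000 * R ^ 5 * K * tol ≤ 1 := by
  have h1 : 0 < τ / h := div_pos hτ hh
  have h2 : 0 < 2000 * R ^ 5 * K := by positivity
  refine ⟨(1 + τ / h + τ + 2000 * R ^ 5 * K)⁻¹, by positivity, ?_, ?_, ?_, ?_⟩
  · exact inv_le_one_of_one_le₀ (by linarith)
  · have h3 : 0 < 1 + τ / h + τ + 2000 * R ^ 5 * K := by positivity
    rw [← one_add_mul, ← div_eq_mul_inv, div_le_one h3]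
    linarith
  · have h3 : 0 < 1 + τ / h + τ + 2000 * R ^ 5 * K := by positivity
    rw [← one_add_mul, ← div_eq_mul_inv, div_le_one h3]
    linarith
  · have h3 : 0 < 1 + τ / h + τ + 2000 * R ^ 5 * K := by positivity
    rw [← div_eq_mul_inv, div_le_one h3]
    linarith

/-- the compact set of the arguments of `F0` -/
def AInv_C (K : ℝ) : Set ((V4 × V4 × V4) × ℝ × ℝ) :=
  {q | ‖q‖ ≤ K ∧ 1 ≤ K * gram3 q.1.1 q.1.2.1 q.1.2.2}

theorem AInv_gram_cont : Continuous (fun q : (V4 × V4 × V4) × ℝ × ℝ =>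
    gram3 q.1.1 q.1.2.1 q.1.2.2) := by
  unfold gram3
  fun_prop

theorem AInv_C_compact (K : ℝ) : IsCompact (AInv_C K) := by
  refine Metric.isCompact_of_isClosed_isBounded ?_ ?_
  · exact (isClosed_le continuous_norm continuous_const).inter
      (isClosed_le continuous_const (continuous_const.mul AInv_gram_cont))
  · refine (Metric.isBounded_closedBall (x := (0 : (V4 × V4 × V4) × ℝ × ℝ)) (r := K)).subset ?_
    intro q hq
    rw [mem_closedBall_zero_iff]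
    exact hq.1

theorem AInv_bound {tf : ℝ → ℝ} (htf : ContDiff ℝ ∞ tf) {K : ℝ} (hK : 1 ≤ K) :
    ∃ D : ℝ, 0 ≤ D ∧ ∀ q ∈ AInv_C K, ‖fderiv ℝ (fun q : (V4 × V4 × V4) × ℝ × ℝ =>
      F0 tf q.1.1 q.1.2.1 q.1.2.2 q.2.1 q.2.2) q‖ ≤ D := by
  have hopen : IsOpen {q : (V4 × V4 × V4) × ℝ × ℝ | 0 < gram3 q.1.1 q.1.2.1 q.1.2.2} :=
    isOpen_lt continuous_const AInv_gram_cont
  have h1 := (contDiffOn_F0 htf).continuousOn_fderiv_of_isOpen hopen (by simp)
  have hsub : AInv_C K ⊆ {q : (V4 × V4 × V4) × ℝ × ℝ | 0 < gram3 q.1.1 q.1.2.1 q.1.2.2} := by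
    intro q hq
    have h2 := hq.2
    have h3 : 0 < K := by linarith
    exact (mul_pos_iff_of_pos_left h3).1 (by linarith)
  obtain ⟨D, hD⟩ := (AInv_C_compact K).exists_bound_of_continuousOn (h1.mono hsub)
  exact ⟨max D 0, le_max_right _ _, fun q hq => (hD q hq).trans (le_max_left _ _)⟩

theorem AInv_slo_smul (τ h c : ℝ) (x : E2) (u : V4) : slo τ h x (c • u) = c • slo τ h x u :=
  AInv_rot_smul _ _ _ _

/-- the slow derivative of the output of `F0` -/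
theorem AInv_F0_slow {tf : ℝ → ℝ} (htf : ContDiff ℝ ∞ tf) {τ h K D c : ℝ} (hh : 0 < h)
    (hK : 1 ≤ K) (hc : c ∈ Icc (-1 : ℝ) 1)
    (hD : ∀ q ∈ AInv_C K, ‖fderiv ℝ (fun q : (V4 × V4 × V4) × ℝ × ℝ =>
      F0 tf q.1.1 q.1.2.1 q.1.2.2 q.2.1 q.2.2) q‖ ≤ D)
    {F : E2 → V4} {a : E2 → ℝ} {x : E2} (hF : ContDiffAt ℝ ∞ F x) (ha : ContDiffAt ℝ ∞ a x)
    (hI : INV τ h K F x) (ha0 : |a x| ≤ K) (ha1 : |pd 1 a x| ≤ K) :
    ‖pd 1 (fun y => slo τ h y (F0 tf (pd 0 F y) (pd 1 F y) (pd 1 (pd 1 F) y) (a y) c)) x‖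
      ≤ D * K := by
  obtain ⟨i1, i2, i3, i4, i5, i6, i7⟩ := hI
  have d0 := AInv_diff (AInv_pd_inf hF 0)
  have d1 := AInv_diff (AInv_pd_inf hF 1)
  have d2 := AInv_diff (AInv_pd_inf (AInv_pd_inf hF 1) 1)
  have d2h : DifferentiableAt ℝ (fun y => h • pd 1 (pd 1 F) y) x := d2.const_smul h
  obtain ⟨L0, l0, m0⟩ := AInv_slo_hasFDerivAt (τ := τ) (h := h) d0
  obtain ⟨L1, l1, m1⟩ := AInv_slo_hasFDerivAt (τ := τ) (h := h) d1
  obtain ⟨L2, l2, m2⟩ := AInv_slo_hasFDerivAt (τ := τ) (h := h) d2h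
  rw [← AInv_pd_slo d0] at m0
  rw [← AInv_pd_slo d1] at m1
  rw [← AInv_pd_slo d2h] at m2
  have hah := (AInv_diff ha).hasFDerivAt
  have hq := (l0.prodMk (l1.prodMk l2)).prodMk (hah.prodMk (hasFDerivAt_const c x))
  set q : E2 → (V4 × V4 × V4) × ℝ × ℝ := fun y =>
    ((slo τ h y (pd 0 F y), slo τ h y (pd 1 F y), slo τ h y (h • pd 1 (pd 1 F) y)), (a y, c))
    with hqdef
  have hfun : (fun y => slo τ h y (F0 tf (pd 0 F y) (pd 1 F y) (pd 1 (pd 1 F) y) (a y) c)) =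
      (fun q : (V4 × V4 × V4) × ℝ × ℝ => F0 tf q.1.1 q.1.2.1 q.1.2.2 q.2.1 q.2.2) ∘ q := by
    funext y
    simp only [Function.comp_apply, hqdef]
    rw [AInv_slo_smul, F0_smul3 tf hh]
    unfold slo
    rw [F0_rotV]
  have hxC : q x ∈ AInv_C K := by
    constructor
    · simp only [hqdef, Prod.norm_def, AInv_slo_norm]
      have hc1 : ‖c‖ ≤ K := by
        rw [Real.norm_eq_abs]
        exact (abs_le.2 hc).trans hK
      exact max_le (max_le i1 (max_le i2 i3)) (max_le ha0 hc1)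
    · simp only [hqdef]
      unfold slo
      rw [AInv_gram_rot]
      exact i7
  have hopen : IsOpen {q : (V4 × V4 × V4) × ℝ × ℝ | 0 < gram3 q.1.1 q.1.2.1 q.1.2.2} :=
    isOpen_lt continuous_const AInv_gram_cont
  have hxU : q x ∈ {q : (V4 × V4 × V4) × ℝ × ℝ | 0 < gram3 q.1.1 q.1.2.1 q.1.2.2} := by
    have h2 := hxC.2
    exact (mul_pos_iff_of_pos_left (by linarith : 0 < K)).1 (by linarith)
  have hΦ := (((contDiffOn_F0 htf).contDiffAt (hopen.mem_nhds hxU)).differentiableAt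
    (by simp)).hasFDerivAt
  have hcomp := hΦ.comp x hq
  rw [hfun]
  unfold pd
  rw [hcomp.fderiv, ContinuousLinearMap.comp_apply]
  refine (ContinuousLinearMap.le_opNorm _ _).trans ?_
  refine mul_le_mul (hD _ hxC) ?_ (norm_nonneg _) ((norm_nonneg _).trans (hD _ hxC))
  simp only [ContinuousLinearMap.prod_apply, Prod.norm_def]
  rw [m0, m1, m2]
  refine max_le (max_le i4 (max_le i5 i6)) (max_le ha1 ?_)
  simp only [zero_apply, norm_zero]
  linarith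

/-- propagation of the invariant; `K'` does not depend on `h`.
Proof: `slo y (F0[F_1, F_2, F_22, a, c](y)) = F0[slo F_1, slo F_2, slo (h F_22), a, c](y)` (`F0_rotV`,
`F0_smul3`), so its `x₂`-derivative at `x` is `DF0` applied to the `x₂`-derivatives of the arguments
(`c` constant); `DF0` and `F0` are bounded on the compact set
`{|u_i| ≤ K, gram3 ≥ 1/K, |a| ≤ K, |c| ≤ 1}`.  Errors: `tol · C / h`.  `gram3` by `gram3_F0`. -/
theorem inv_prop {tf : ℝ → ℝ} (htf : ContDiff ℝ ∞ tf) {τ K : ℝ} (hτ : 0 < τ) (hK : 1 ≤ K) :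
    ∃ K' : ℝ, K ≤ K' ∧ ∀ h ∈ Ioo (0 : ℝ) 1, ∃ tol : ℝ, 0 < tol ∧ ∀ (F F' : E2 → V4) (a : E2 → ℝ)
      (x : E2), ContDiffAt ℝ ∞ F x → ContDiffAt ℝ ∞ F' x → ContDiffAt ℝ ∞ a x → INV τ h K F x →
      |a x| ≤ K → |pd 1 a x| ≤ K → StageCl tf F F' a tol x → INV τ h K' F' x := by
  obtain ⟨D, hD0, hD⟩ := AInv_bound htf hK
  refine ⟨2 * K + 2 + D * K, by nlinarith, fun h hh => ?_⟩
  obtain ⟨tol, t0, t1, t2, t3, t4⟩ := AInv_tol (R := 2 * K) hτ hK (by linarith) hh.1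
  refine ⟨tol, t0, fun F F' a x hF hF' ha hI ha0 ha1 hS => ?_⟩
  obtain ⟨s1, s2, s3, c, hc, s4, s5⟩ := hS
  obtain ⟨c2, c3, c5, c6⟩ := AInv_common hτ hh.1 hh.2 hK t0 t1 t2 t3 hF hF' hI s1 s2 s3
  have hI' := hI
  obtain ⟨i1, i2, i3, i4, i5, i6, i7⟩ := hI'
  have hDK : 0 ≤ D * K := by positivity
  have hg3 : 0 < gram3 (pd 0 F x) (pd 1 F x) (h • pd 1 (pd 1 F) x) :=
    (mul_pos_iff_of_pos_left (by linarith : 0 < K)).1 (by linarith)
  have hg3' : 0 < gram3 (pd 0 F x) (pd 1 F x) (pd 1 (pd 1 F) x) := by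
    rw [gram3_smul] at hg3
    exact (mul_pos_iff_of_pos_left (by have := hh.1; positivity)).1 hg3
  have hn := (norm_F0 tf hg3' (a x) c).1
  have hn' : ‖F0 tf (pd 0 F x) (pd 1 F x) (pd 1 (pd 1 F) x) (a x) c‖ ≤ 2 * K := by
    have e1 : ‖pd 0 F x‖ ^ 2 ≤ K ^ 2 := pow_le_pow_left₀ (norm_nonneg _) i1 2
    have e2 : (a x) ^ 2 ≤ K ^ 2 := sq_le_sq' (by linarith [(abs_le.1 ha0).1]) (abs_le.1 ha0).2
    nlinarith [norm_nonneg (F0 tf (pd 0 F x) (pd 1 F x) (pd 1 (pd 1 F) x) (a x) c)]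
  have tri : ∀ {a b : V4} {e M : ℝ}, ‖a - b‖ ≤ e → ‖b‖ ≤ M → e ≤ 1 → ‖a‖ ≤ M + 1 := by
    intro a b e M hab hb he
    have : a = (a - b) + b := by abel
    rw [this]
    exact (norm_add_le _ _).trans (by linarith)
  refine ⟨?_, ?_, ?_, ?_, ?_, ?_, ?_⟩
  · have := tri s4 hn' t1
    linarith
  · linarith
  · linarith
  · -- the slow derivative of `F'_1`
    have d0' := AInv_diff (AInv_pd_inf hF' 0)
    have hG : DifferentiableAt ℝ
        (fun y => F0 tf (pd 0 F y) (pd 1 F y) (pd 1 (pd 1 F) y) (a y) c) x := by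
      have hopen : IsOpen {q : (V4 × V4 × V4) × ℝ × ℝ | 0 < gram3 q.1.1 q.1.2.1 q.1.2.2} :=
        isOpen_lt continuous_const AInv_gram_cont
      have hΦ := ((contDiffOn_F0 htf).contDiffAt (x := ((pd 0 F x, pd 1 F x, pd 1 (pd 1 F) x),
        (a x, c))) (hopen.mem_nhds hg3')).differentiableAt (by simp)
      have d0 := AInv_diff (AInv_pd_inf hF 0)
      have d1 := AInv_diff (AInv_pd_inf hF 1)
      have d2 := AInv_diff (AInv_pd_inf (AInv_pd_inf hF 1) 1)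
      have hq : DifferentiableAt ℝ (fun y => (((pd 0 F y, pd 1 F y, pd 1 (pd 1 F) y),
        (a y, c)) : (V4 × V4 × V4) × ℝ × ℝ)) x :=
        (d0.prodMk (d1.prodMk d2)).prodMk ((AInv_diff ha).prodMk (differentiableAt_const c))
      exact DifferentiableAt.comp (f := fun y => (((pd 0 F y, pd 1 F y, pd 1 (pd 1 F) y),
        (a y, c)) : (V4 × V4 × V4) × ℝ × ℝ)) x hΦ hq
    have h1 := AInv_slo_close hτ hh.1 d0' hG s4 s5
    have h2 := AInv_F0_slow htf hh.1 hK hc hD hF ha hI ha0 ha1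
    have := tri h1 h2 t2
    linarith
  · linarith
  · linarith
  · have e1 := gram3_F0 tf hg3' (a x) c
    have e2 : gram3 (pd 0 F x) (pd 1 F x) (h • pd 1 (pd 1 F) x) ≤
        gram3 (F0 tf (pd 0 F x) (pd 1 F x) (pd 1 (pd 1 F) x) (a x) c) (pd 1 F x)
          (h • pd 1 (pd 1 F) x) := by
      rw [gram3_smul, gram3_smul]
      exact mul_le_mul_of_nonneg_left e1 (sq_nonneg h)
    have e3 : 1 ≤ K * gram3 (F0 tf (pd 0 F x) (pd 1 F x) (pd 1 (pd 1 F) x) (a x) c) (pd 1 F x)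
          (h • pd 1 (pd 1 F) x) :=
      i7.trans (mul_le_mul_of_nonneg_left e2 (by linarith))
    have s2' : ‖h • pd 1 (pd 1 F') x - h • pd 1 (pd 1 F) x‖ ≤ tol := by
      rw [← smul_sub, norm_smul, Real.norm_eq_abs, abs_of_pos hh.1]
      nlinarith [norm_nonneg (pd 1 (pd 1 F') x - pd 1 (pd 1 F) x), hh.1, hh.2]
    have e4 := AInv_gram hK (R := 2 * K) (by linarith) t0 t1 t4 hn' (by linarith) (by linarith)
      s4 s1 s2' e3
    have e5 := gram3_nonneg (pd 0 F' x) (pd 1 F' x) (h • pd 1 (pd 1 F') x)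
    nlinarith

end P205F
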