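import Vale.Agent.Lib.P205B.AF0
import Vale.Agent.Lib.P205B.AInvDefs

/-!
# P205F ASSEMBLY: propagation of the invariant, and the end of the W-group
-/

noncomputable section

namespace P205F

open scoped Manifold ContDiff Topology RealInnerProductSpace
open Set

set_option maxSynthPendingDepth 3

theorem AI2_bv (i : Fin 2) : ‖bv i‖ ≤ 1 := by
  unfold bv
  split_ifs
  · simp [Prod.norm_def]
  · simp [Prod.norm_def]

theorem AI2_fd {u : E2 → V4} {x : E2} (hu : ContDiffAt ℝ ∞ u x) :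
    ContDiffAt ℝ ∞ (fderiv ℝ u) x :=
  hu.fderiv_right (m := ∞) (by simp)

theorem AI2_pdc {u : E2 → V4} {x : E2} (hu : ContDiffAt ℝ ∞ u x) (i : Fin 2) :
    ContDiffAt ℝ ∞ (pd i u) x :=
  (AI2_fd hu).clm_apply contDiffAt_const

theorem AI2_pdn {u : E2 → V4} {x : E2} (hu : ContDiffAt ℝ ∞ u x) (i : Fin 2) (n : ℕ) :
    ‖iteratedFDeriv ℝ n (pd i u) x‖ ≤ ‖iteratedFDeriv ℝ (n + 1) u x‖ := by
  have h1 : ‖iteratedFDeriv ℝ n (fun y => fderiv ℝ u y (bv i)) x‖ ≤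
      ‖bv i‖ * ‖iteratedFDeriv ℝ n (fderiv ℝ u) x‖ :=
    norm_iteratedFDeriv_clm_apply_const (AI2_fd hu) (by exact_mod_cast le_top)
  rw [norm_iteratedFDeriv_fderiv] at h1
  calc ‖iteratedFDeriv ℝ n (pd i u) x‖ ≤ ‖bv i‖ * ‖iteratedFDeriv ℝ (n + 1) u x‖ := h1
    _ ≤ 1 * ‖iteratedFDeriv ℝ (n + 1) u x‖ :=
      mul_le_mul_of_nonneg_right (AI2_bv i) (norm_nonneg _)
    _ = _ := one_mul _

theorem AI2_diff {u : E2 → V4} {x : E2} (hu : ContDiffAt ℝ ∞ u x) : DifferentiableAt ℝ u x :=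
  hu.differentiableAt (by simp)

theorem AI2_ev {u : E2 → V4} {x : E2} (hu : ContDiffAt ℝ ∞ u x) :
    ∀ᶠ y in 𝓝 x, DifferentiableAt ℝ u y := by
  have h1 : ContDiffAt ℝ 1 u x := hu.of_le (by exact_mod_cast le_top)
  filter_upwards [h1.eventually (by simp)] with y hy
  exact hy.differentiableAt (by simp)

theorem AI2_add {u v : E2 → V4} {x : E2} (hu : ContDiffAt ℝ ∞ u x) (hv : ContDiffAt ℝ ∞ v x)
    (i : Fin 2) : pd i (fun y => u y + v y) =ᶠ[𝓝 x] fun y => pd i u y + pd i v y := by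
  filter_upwards [AI2_ev hu, AI2_ev hv] with y h1 h2
  unfold pd
  rw [fderiv_fun_add h1 h2]
  rfl

theorem AI2_congr {u v : E2 → V4} {x : E2} (h : u =ᶠ[𝓝 x] v) (i : Fin 2) :
    pd i u =ᶠ[𝓝 x] pd i v := by
  filter_upwards [h.fderiv (𝕜 := ℝ)] with y hy
  unfold pd
  rw [hy]

theorem AI2_sin (x y : ℝ) : |Real.sin x * y| ≤ |y| := by
  rw [abs_mul]
  exact mul_le_of_le_one_left (abs_nonneg _) (Real.abs_sin_le_one x)

theorem AI2_cos (x y : ℝ) : |Real.cos x * y| ≤ |y| := by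
  rw [abs_mul]
  exact mul_le_of_le_one_left (abs_nonneg _) (Real.abs_cos_le_one x)

theorem AI2_norm_le (u : V4) : ‖u‖ ≤ |u 0| + |u 1| + |u 2| + |u 3| := by
  have h1 : u = ∑ i, u i • (EuclideanSpace.single i (1 : ℝ)) := by
    ext j
    simp [Fin.sum_univ_four]
    fin_cases j <;> simp
  calc ‖u‖ = ‖∑ i, u i • (EuclideanSpace.single i (1 : ℝ) : V4)‖ := by rw [← h1]
    _ ≤ ∑ i, ‖u i • (EuclideanSpace.single i (1 : ℝ) : V4)‖ := norm_sum_le _ _
    _ = |u 0| + |u 1| + |u 2| + |u 3| := by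
      simp [Fin.sum_univ_four, norm_smul]

/-- a component of the rotated field, and its derivative -/
theorem AI2_comp {G : E2 → V4} {x : E2} (hG : DifferentiableAt ℝ G x) (a : E2 →L[ℝ] ℝ)
    (i j : Fin 4) (s t : ℝ) {α : ℝ} (hα : |a (bv 1)| ≤ α) (hs : |s| ≤ 1) (ht : |t| ≤ 1) :
    HasFDerivAt (fun y => s * (Real.cos (a y) * G y i) + t * (Real.sin (a y) * G y j))
      (fderiv ℝ (fun y => s * (Real.cos (a y) * G y i) + t * (Real.sin (a y) * G y j)) x) x ∧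
    |fderiv ℝ (fun y => s * (Real.cos (a y) * G y i) + t * (Real.sin (a y) * G y j)) x (bv 1)| ≤
      2 * α * ‖G x‖ + 2 * ‖pd 1 G x‖ := by
  have hp : ∀ i, HasFDerivAt (fun y => G y i) ((PiLp.proj 2 (fun _ => ℝ) i :
      V4 →L[ℝ] ℝ) ∘L fderiv ℝ G x) x := by
    intro i
    exact ((PiLp.proj 2 (fun _ => ℝ) i : V4 →L[ℝ] ℝ).hasFDerivAt).comp x hG.hasFDerivAt
  have ha : HasFDerivAt (fun y => a y) a x := a.hasFDerivAt
  have h1 := ((ha.cos.mul (hp i)).const_mul s).add ((ha.sin.mul (hp j)).const_mul t)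
  have h2 : HasFDerivAt (fun y => s * (Real.cos (a y) * G y i) + t * (Real.sin (a y) * G y j))
    _ x := h1
  refine ⟨h2.differentiableAt.hasFDerivAt, ?_⟩
  rw [h2.fderiv]
  have hc : ∀ k, |(pd 1 G x) k| ≤ ‖pd 1 G x‖ := fun k => by
    have := PiLp.norm_apply_le (pd 1 G x) k
    simpa using this
  have hg : ∀ k, |(G x) k| ≤ ‖G x‖ := fun k => by
    have := PiLp.norm_apply_le (G x) k
    simpa using this
  have hα0 : 0 ≤ α := (abs_nonneg _).trans hα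
  have e1 : (s • (Real.cos (a x) • ((PiLp.proj 2 (fun _ => ℝ) i : V4 →L[ℝ] ℝ) ∘L fderiv ℝ G x) +
      (G x i) • (-Real.sin (a x) • a)) +
      t • (Real.sin (a x) • ((PiLp.proj 2 (fun _ => ℝ) j : V4 →L[ℝ] ℝ) ∘L fderiv ℝ G x) +
      (G x j) • (Real.cos (a x) • a))) (bv 1) =
      s * (Real.cos (a x) * (pd 1 G x) i) + -(s * (Real.sin (a x) * (a (bv 1) * (G x) i))) +
      (t * (Real.sin (a x) * (pd 1 G x) j) + t * (Real.cos (a x) * (a (bv 1) * (G x) j))) := by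
    simp only [_root_.add_apply, _root_.smul_apply, smul_eq_mul,
      ContinuousLinearMap.comp_apply, PiLp.proj_apply]
    unfold pd
    ring
  rw [e1]
  have k1 : ∀ s' z : ℝ, |s'| ≤ 1 → |s' * z| ≤ |z| := fun s' z h => by
    rw [abs_mul]
    exact mul_le_of_le_one_left (abs_nonneg _) h
  have k2 : |s * (Real.cos (a x) * (pd 1 G x) i)| ≤ ‖pd 1 G x‖ :=
    (k1 _ _ hs).trans ((AI2_cos _ _).trans (hc i))
  have k3 : |t * (Real.sin (a x) * (pd 1 G x) j)| ≤ ‖pd 1 G x‖ :=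
    (k1 _ _ ht).trans ((AI2_sin _ _).trans (hc j))
  have k4 : ∀ k, |a (bv 1) * (G x) k| ≤ α * ‖G x‖ := fun k => by
    rw [abs_mul]
    exact mul_le_mul hα (hg k) (abs_nonneg _) hα0
  have k5 : |s * (Real.sin (a x) * (a (bv 1) * (G x) i))| ≤ α * ‖G x‖ :=
    (k1 _ _ hs).trans ((AI2_sin _ _).trans (k4 i))
  have k6 : |t * (Real.cos (a x) * (a (bv 1) * (G x) j))| ≤ α * ‖G x‖ :=
    (k1 _ _ ht).trans ((AI2_cos _ _).trans (k4 j))
  rw [abs_le] at k2 k3 k5 k6 ⊢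
  constructor <;> linarith [k2.1, k2.2, k3.1, k3.2, k5.1, k5.2, k6.1, k6.2]

theorem AI2_slo {G : E2 → V4} {x : E2} (hG : DifferentiableAt ℝ G x) {τ h : ℝ} (hτ : 0 < τ)
    (hh : 0 < h) : DifferentiableAt ℝ (fun y => slo τ h y (G y)) x ∧
    ‖pd 1 (fun y => slo τ h y (G y)) x‖ ≤ 8 * (τ / h) * ‖G x‖ + 8 * ‖pd 1 G x‖ := by
  set a : E2 →L[ℝ] ℝ := h⁻¹ • (ContinuousLinearMap.fst ℝ ℝ ℝ + τ • ContinuousLinearMap.snd ℝ ℝ ℝ)
    with ha
  set b : E2 →L[ℝ] ℝ := h⁻¹ • (ContinuousLinearMap.fst ℝ ℝ ℝ - τ • ContinuousLinearMap.snd ℝ ℝ ℝ)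
    with hb
  have ha' : ∀ y : E2, (y.1 + τ * y.2) / h = a y := by
    intro y
    simp [ha]
    ring
  have hb' : ∀ y : E2, (y.1 - τ * y.2) / h = b y := by
    intro y
    simp [hb]
    ring
  have hτh : 0 < τ / h := div_pos hτ hh
  have hba : |a (bv 1)| ≤ τ / h := by
    rw [← ha']
    simp only [bv, one_ne_zero, if_false, mul_one, zero_add]
    rw [abs_of_pos hτh]
  have hbb : |b (bv 1)| ≤ τ / h := by
    rw [← hb']
    simp only [bv, one_ne_zero, if_false, mul_one, zero_sub]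
    rw [neg_div, abs_neg, abs_of_pos hτh]
  have h1 : |(1 : ℝ)| ≤ 1 := by simp
  have h2 : |(-1 : ℝ)| ≤ 1 := by simp
  have c0 := AI2_comp hG a 0 1 1 1 hba h1 h1
  have c1 := AI2_comp hG a 1 0 1 (-1) hba h1 h2
  have c2 := AI2_comp hG b 2 3 1 1 hbb h1 h1
  have c3 := AI2_comp hG b 3 2 1 (-1) hbb h1 h2
  have e0 : (fun y => (slo τ h y (G y)) 0) =
      fun y => 1 * (Real.cos (a y) * G y 0) + 1 * (Real.sin (a y) * G y 1) := by
    funext y
    simp [slo, rotV, ha']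
  have e1 : (fun y => (slo τ h y (G y)) 1) =
      fun y => 1 * (Real.cos (a y) * G y 1) + -1 * (Real.sin (a y) * G y 0) := by
    funext y
    simp [slo, rotV, ha']
    ring
  have e2 : (fun y => (slo τ h y (G y)) 2) =
      fun y => 1 * (Real.cos (b y) * G y 2) + 1 * (Real.sin (b y) * G y 3) := by
    funext y
    simp [slo, rotV, hb']
  have e3 : (fun y => (slo τ h y (G y)) 3) =
      fun y => 1 * (Real.cos (b y) * G y 3) + -1 * (Real.sin (b y) * G y 2) := by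
    funext y
    simp [slo, rotV, hb']
    ring
  have hd : DifferentiableAt ℝ (fun y => slo τ h y (G y)) x := by
    rw [differentiableAt_euclidean]
    intro i
    fin_cases i
    · change DifferentiableAt ℝ (fun y => (slo τ h y (G y)) 0) x
      rw [e0]
      exact c0.1.differentiableAt
    · change DifferentiableAt ℝ (fun y => (slo τ h y (G y)) 1) x
      rw [e1]
      exact c1.1.differentiableAt
    · change DifferentiableAt ℝ (fun y => (slo τ h y (G y)) 2) x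
      rw [e2]
      exact c2.1.differentiableAt
    · change DifferentiableAt ℝ (fun y => (slo τ h y (G y)) 3) x
      rw [e3]
      exact c3.1.differentiableAt
  refine ⟨hd, ?_⟩
  have hc : ∀ i, (pd 1 (fun y => slo τ h y (G y)) x) i =
      fderiv ℝ (fun y => (slo τ h y (G y)) i) x (bv 1) := by
    intro i
    have h3 : HasFDerivAt (fun y => (slo τ h y (G y)) i)
        ((PiLp.proj 2 (fun _ => ℝ) i : V4 →L[ℝ] ℝ) ∘L
          fderiv ℝ (fun y => slo τ h y (G y)) x) x :=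
      ((PiLp.proj 2 (fun _ => ℝ) i : V4 →L[ℝ] ℝ).hasFDerivAt).comp x hd.hasFDerivAt
    rw [h3.fderiv]
    rfl
  refine (AI2_norm_le _).trans ?_
  rw [hc 0, hc 1, hc 2, hc 3, e0, e1, e2, e3]
  have := c0.2
  have := c1.2
  have := c2.2
  have := c3.2
  linarith

theorem AI2_smul {u : E2 → V4} {x : E2} (hu : ContDiffAt ℝ ∞ u x) (h : ℝ) :
    pd 1 (fun y => h • u y) x = h • pd 1 u x := by
  unfold pd
  rw [fderiv_fun_const_smul (AI2_diff hu)]
  rfl

/-- perturbation of a rotated field -/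
theorem AI2_pert {u v w : E2 → V4} {x : E2} (hu : ContDiffAt ℝ ∞ u x) (hv : ContDiffAt ℝ ∞ v x)
    (hw : w =ᶠ[𝓝 x] fun y => u y + v y) {τ h : ℝ} (hτ : 0 < τ) (hh : 0 < h) :
    ‖pd 1 (fun y => slo τ h y (w y)) x‖ ≤ ‖pd 1 (fun y => slo τ h y (u y)) x‖ +
      (8 * (τ / h) * ‖v x‖ + 8 * ‖pd 1 v x‖) := by
  have hu' := AI2_slo (AI2_diff hu) hτ hh
  have hv' := AI2_slo (AI2_diff hv) hτ hh
  have h1 : (fun y => slo τ h y (w y)) =ᶠ[𝓝 x] fun y => slo τ h y (u y) + slo τ h y (v y) := by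
    filter_upwards [hw] with y hy
    rw [hy]
    ext i
    fin_cases i <;> simp [slo, rotV] <;> ring
  have h2 : pd 1 (fun y => slo τ h y (w y)) x =
      pd 1 (fun y => slo τ h y (u y)) x + pd 1 (fun y => slo τ h y (v y)) x := by
    unfold pd
    rw [h1.fderiv_eq, fderiv_fun_add hu'.1 hv'.1]
    rfl
  rw [h2]
  exact (norm_add_le _ _).trans (add_le_add le_rfl hv'.2)

theorem AI2_gram (K : ℝ) {ε : ℝ} (hε : 0 < ε) : ∃ δ : ℝ, 0 < δ ∧ δ ≤ 1 ∧
    ∀ a b c a' b' c' : V4, ‖a‖ ≤ K → ‖b‖ ≤ K → ‖c‖ ≤ K → ‖a' - a‖ ≤ δ → ‖b' - b‖ ≤ δ →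
      ‖c' - c‖ ≤ δ → gram3 a b c - ε ≤ gram3 a' b' c' := by
  have hcont : Continuous (fun q : V4 × V4 × V4 => gram3 q.1 q.2.1 q.2.2) := by
    unfold gram3
    fun_prop
  have hcomp : IsCompact (Metric.closedBall (0 : V4) (K + 1) ×ˢ
      (Metric.closedBall (0 : V4) (K + 1) ×ˢ Metric.closedBall (0 : V4) (K + 1))) :=
    (isCompact_closedBall _ _).prod ((isCompact_closedBall _ _).prod (isCompact_closedBall _ _))
  obtain ⟨δ, hδ, h⟩ := Metric.uniformContinuousOn_iff.1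
    (hcomp.uniformContinuousOn_of_continuous hcont.continuousOn) ε hε
  refine ⟨min (δ / 2) 1, lt_min (by linarith) one_pos, min_le_right _ _, ?_⟩
  intro a b c a' b' c' ha hb hc ha' hb' hc'
  have hm : ∀ z z' : V4, ‖z‖ ≤ K → ‖z' - z‖ ≤ min (δ / 2) 1 →
      z ∈ Metric.closedBall (0 : V4) (K + 1) ∧ z' ∈ Metric.closedBall (0 : V4) (K + 1) ∧
      dist z' z < δ := by
    intro z z' h1 h2
    have h3 := h2.trans (min_le_left _ _)
    have h4 := h2.trans (min_le_right _ _)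
    refine ⟨?_, ?_, ?_⟩
    · rw [mem_closedBall_zero_iff]
      linarith
    · rw [mem_closedBall_zero_iff]
      have h5 : z' = z + (z' - z) := by abel
      rw [h5]
      exact (norm_add_le _ _).trans (by linarith)
    · rw [dist_eq_norm]
      linarith
  obtain ⟨a1, a2, a3⟩ := hm a a' ha ha'
  obtain ⟨b1, b2, b3⟩ := hm b b' hb hb'
  obtain ⟨c1, c2, c3⟩ := hm c c' hc hc'
  have h1 := h (a', (b', c')) ⟨a2, b2, c2⟩ (a, (b, c)) ⟨a1, b1, c1⟩ (by
    rw [Prod.dist_eq, Prod.dist_eq]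
    exact max_lt a3 (max_lt b3 c3))
  rw [Real.dist_eq, abs_lt] at h1
  have h2 := h1.1
  simp only at h2
  linarith

/-- `C³`-small perturbations -/
theorem inv_prop0 {τ K : ℝ} (hτ : 0 < τ) (hK : 1 ≤ K) :
    ∀ h ∈ Ioo (0 : ℝ) 1, ∃ tol : ℝ, 0 < tol ∧ ∀ (F F' : E2 → V4) (x : E2), ContDiffAt ℝ ∞ F x →
      ContDiffAt ℝ ∞ F' x → INV τ h K F x →
      (∀ j ≤ 3, ‖iteratedFDeriv ℝ j (F' - F) x‖ ≤ tol) → INV τ h (2 * K) F' x := by
  intro h hh
  obtain ⟨hh0, hh1⟩ := hh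
  have hK0 : 0 < K := by linarith
  obtain ⟨δ, hδ0, hδ1, hδ⟩ := AI2_gram K (ε := 1 / (2 * K)) (by positivity)
  have hτh : 0 < τ / h := div_pos hτ hh0
  set Cc : ℝ := 8 * (τ / h) + 8 with hCc
  have hC0 : 0 < Cc := by positivity
  refine ⟨min δ (1 / Cc), lt_min hδ0 (by positivity), ?_⟩
  intro F F' x hF hF' hI hj
  obtain ⟨i1, i2, i3, i4, i5, i6, i7⟩ := hI
  set tol := min δ (1 / Cc) with htol
  have ht0 : 0 < tol := lt_min hδ0 (by positivity)
  have ht1 : tol ≤ δ := min_le_left _ _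
  have ht2 : Cc * tol ≤ 1 := by
    have := min_le_right δ (1 / Cc)
    calc Cc * tol ≤ Cc * (1 / Cc) := mul_le_mul_of_nonneg_left this hC0.le
      _ = 1 := by field_simp
  set D : E2 → V4 := F' - F with hD
  have hDc : ContDiffAt ℝ ∞ D x := hF'.sub hF
  have hFD : F' = fun y => F y + D y := by
    funext y
    simp [hD]
  have d0 := AI2_pdc hDc 0
  have d1 := AI2_pdc hDc 1
  have d11 := AI2_pdc d1 1
  have f0 := AI2_pdc hF 0
  have f1 := AI2_pdc hF 1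
  have f11 := AI2_pdc f1 1
  -- norms of the derivatives of `D`
  have n1 : ∀ i, ‖pd i D x‖ ≤ tol := fun i => by
    have := AI2_pdn hDc i 0
    rw [norm_iteratedFDeriv_zero] at this
    exact this.trans (hj 1 (by norm_num))
  have n2 : ∀ i j, ‖pd j (pd i D) x‖ ≤ tol := fun i j => by
    have h1 := AI2_pdn (AI2_pdc hDc i) j 0
    rw [norm_iteratedFDeriv_zero] at h1
    exact (h1.trans (AI2_pdn hDc i 1)).trans (hj 2 (by norm_num))
  have n3 : ∀ i j k, ‖pd k (pd j (pd i D)) x‖ ≤ tol := fun i j k => by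
    have h1 := AI2_pdn (AI2_pdc (AI2_pdc hDc i) j) k 0
    rw [norm_iteratedFDeriv_zero] at h1
    exact ((h1.trans (AI2_pdn (AI2_pdc hDc i) j 1)).trans (AI2_pdn hDc i 2)).trans
      (hj 3 (by norm_num))
  -- the derivatives of `F'`
  have e0 : ∀ i, pd i F' =ᶠ[𝓝 x] fun y => pd i F y + pd i D y := fun i => by
    rw [hFD]
    exact AI2_add hF hDc i
  have e11 : pd 1 (pd 1 F') =ᶠ[𝓝 x] fun y => pd 1 (pd 1 F) y + pd 1 (pd 1 D) y :=
    (AI2_congr (e0 1) 1).trans (AI2_add f1 d1 1)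
  have g0 : ∀ i, pd i F' x - pd i F x = pd i D x := fun i => by
    rw [(e0 i).eq_of_nhds]
    abel
  have g11 : h • pd 1 (pd 1 F') x - h • pd 1 (pd 1 F) x = h • pd 1 (pd 1 D) x := by
    rw [e11.eq_of_nhds, smul_add]
    abel
  have g11n : ‖h • pd 1 (pd 1 D) x‖ ≤ tol := by
    rw [norm_smul, Real.norm_eq_abs, abs_of_pos hh0]
    calc h * ‖pd 1 (pd 1 D) x‖ ≤ 1 * tol :=
          mul_le_mul hh1.le (n2 1 1) (norm_nonneg _) zero_le_one
      _ = tol := one_mul _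
  have htK : tol ≤ K := by linarith
  have hadd : ∀ u v : V4, ‖v‖ ≤ K → ‖u - v‖ ≤ tol → ‖u‖ ≤ 2 * K := fun u v h1 h2 => by
    have h3 : u = v + (u - v) := by abel
    rw [h3]
    exact (norm_add_le _ _).trans (by linarith)
  have hpert : ∀ v : E2 → V4, ‖v x‖ ≤ tol → ‖pd 1 v x‖ ≤ tol →
      8 * (τ / h) * ‖v x‖ + 8 * ‖pd 1 v x‖ ≤ K := fun v h1 h2 => by
    calc 8 * (τ / h) * ‖v x‖ + 8 * ‖pd 1 v x‖ ≤ 8 * (τ / h) * tol + 8 * tol :=
          add_le_add (mul_le_mul_of_nonneg_left h1 (by positivity))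
            (mul_le_mul_of_nonneg_left h2 (by norm_num))
      _ = Cc * tol := by rw [hCc]; ring
      _ ≤ K := by linarith
  refine ⟨?_, ?_, ?_, ?_, ?_, ?_, ?_⟩
  · exact hadd _ _ i1 (by rw [g0]; exact n1 0)
  · exact hadd _ _ i2 (by rw [g0]; exact n1 1)
  · exact hadd _ _ i3 (by rw [g11]; exact g11n)
  · refine (AI2_pert f0 d0 (e0 0) hτ hh0).trans ?_
    have := hpert (pd 0 D) (n1 0) (n2 0 1)
    linarith
  · refine (AI2_pert f1 d1 (e0 1) hτ hh0).trans ?_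
    have := hpert (pd 1 D) (n1 1) (n2 1 1)
    linarith
  · have c1 : ContDiffAt ℝ ∞ (fun y => h • pd 1 (pd 1 F) y) x := f11.const_smul h
    have c2 : ContDiffAt ℝ ∞ (fun y => h • pd 1 (pd 1 D) y) x := d11.const_smul h
    have hev : (fun y => h • pd 1 (pd 1 F') y) =ᶠ[𝓝 x]
        fun y => h • pd 1 (pd 1 F) y + h • pd 1 (pd 1 D) y := by
      filter_upwards [e11] with y hy
      rw [hy, smul_add]
    refine (AI2_pert c1 c2 hev hτ hh0).trans ?_
    have h3 : pd 1 (fun y => h • pd 1 (pd 1 D) y) x = h • pd 1 (pd 1 (pd 1 D)) x :=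
      AI2_smul d11 h
    have h4 : ‖pd 1 (fun y => h • pd 1 (pd 1 D) y) x‖ ≤ tol := by
      rw [h3, norm_smul, Real.norm_eq_abs, abs_of_pos hh0]
      calc h * ‖pd 1 (pd 1 (pd 1 D)) x‖ ≤ 1 * tol :=
            mul_le_mul hh1.le (n3 1 1 1) (norm_nonneg _) zero_le_one
        _ = tol := one_mul _
    have := hpert (fun y => h • pd 1 (pd 1 D) y) g11n h4
    linarith
  · have h3 := hδ (pd 0 F x) (pd 1 F x) (h • pd 1 (pd 1 F) x) (pd 0 F' x) (pd 1 F' x)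
      (h • pd 1 (pd 1 F') x) i1 i2 i3 (by rw [g0]; exact (n1 0).trans ht1)
      (by rw [g0]; exact (n1 1).trans ht1) (by rw [g11]; exact g11n.trans ht1)
    have h4 : 1 / K ≤ gram3 (pd 0 F x) (pd 1 F x) (h • pd 1 (pd 1 F) x) := by
      rw [div_le_iff₀ hK0, mul_comm]
      exact i7
    have h5 : 1 / (2 * K) = 1 / K / 2 := by field_simp
    have h6 : 1 / (2 * K) ≤ gram3 (pd 0 F' x) (pd 1 F' x) (h • pd 1 (pd 1 F') x) := by
      rw [h5] at h3 ⊢
      linarith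
    rw [div_le_iff₀ (by positivity)] at h6
    linarith

end P205F
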