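import Vale.Agent.Lib.P205B.AF0

/-!
# P205F ASSEMBLY: propagation of the invariant, and the end of the W-group
-/

noncomputable section

namespace P205F

open scoped Manifold ContDiff Topology RealInnerProductSpace
open Set

set_option maxSynthPendingDepth 3

private theorem AI3_clm {u : E2 → V4} {x : E2} (hu : ContDiffAt ℝ 2 u x) (v w : E2) :
    fderiv ℝ (fun y => fderiv ℝ u y v) x w = fderiv ℝ (fderiv ℝ u) x w v := by
  have h1 : DifferentiableAt ℝ (fderiv ℝ u) x :=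
    (hu.fderiv_right (m := 1) (by norm_num)).differentiableAt (by norm_num)
  have h2 : HasFDerivAt (fun y => fderiv ℝ u y v) ((fderiv ℝ (fderiv ℝ u) x).flip v) x := by
    have h3 := h1.hasFDerivAt.clm_apply (hasFDerivAt_const v x)
    simpa using h3
  rw [h2.fderiv]
  rfl

private theorem AI3_symm {u : E2 → V4} {x : E2} (hu : ContDiffAt ℝ 2 u x) (v w : E2) :
    fderiv ℝ (fun y => fderiv ℝ u y v) x w = fderiv ℝ (fun y => fderiv ℝ u y w) x v := by
  rw [AI3_clm hu, AI3_clm hu]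
  exact (hu.isSymmSndFDerivAt (by simp)) w v

private theorem AI3_sm {u : E2 → V4} {x : E2} {n m : ℕ} (hu : ContDiffAt ℝ n u x) (h : m + 1 ≤ n)
    (v : E2) : ContDiffAt ℝ m (fun y => fderiv ℝ u y v) x := by
  have h1 : ContDiffAt ℝ m (fderiv ℝ u) x := hu.fderiv_right (by exact_mod_cast h)
  exact h1.clm_apply contDiffAt_const

private theorem AI3_inner {a b : E2 → V4} {x : E2} (ha : ContDiffAt ℝ 2 a x)
    (hb : ContDiffAt ℝ 2 b x) (p q : E2) :
    fderiv ℝ (fun y => fderiv ℝ (fun z => ⟪a z, b z⟫) y p) x q =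
      ⟪fderiv ℝ (fun y => fderiv ℝ a y p) x q, b x⟫ + ⟪fderiv ℝ a x p, fderiv ℝ b x q⟫ +
      ⟪fderiv ℝ a x q, fderiv ℝ b x p⟫ + ⟪a x, fderiv ℝ (fun y => fderiv ℝ b y p) x q⟫ := by
  have h1 : (fun y => fderiv ℝ (fun z => ⟪a z, b z⟫) y p) =ᶠ[𝓝 x]
      fun y => ⟪a y, fderiv ℝ b y p⟫ + ⟪fderiv ℝ a y p, b y⟫ := by
    filter_upwards [ha.eventually (by simp), hb.eventually (by simp)] with y hy hy'
    exact fderiv_inner_apply ℝ (hy.differentiableAt (by norm_num))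
      (hy'.differentiableAt (by norm_num)) p
  have ha1 : DifferentiableAt ℝ (fun y => fderiv ℝ a y p) x :=
    (AI3_sm (n := 2) (m := 1) ha (by norm_num) p).differentiableAt (by norm_num)
  have hb1 : DifferentiableAt ℝ (fun y => fderiv ℝ b y p) x :=
    (AI3_sm (n := 2) (m := 1) hb (by norm_num) p).differentiableAt (by norm_num)
  have ha0 : DifferentiableAt ℝ a x := ha.differentiableAt (by norm_num)
  have hb0 : DifferentiableAt ℝ b x := hb.differentiableAt (by norm_num)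
  rw [h1.fderiv_eq, fderiv_fun_add (ha0.inner ℝ hb1) (ha1.inner ℝ hb0), add_apply,
    fderiv_inner_apply ℝ ha0 hb1, fderiv_inner_apply ℝ ha1 hb0]
  ring

/-- Gauss equation: `F_vv·F_ww - |F_vw|² = ∂_v∂_w g_vw - ½ ∂_w² g_vv - ½ ∂_v² g_ww` -/
theorem gauss_id {F : E2 → V4} {x : E2} (hF : ContDiffAt ℝ ∞ F x) (v w : E2) :
    ⟪ddv v F x, ddv w F x⟫ - ‖fderiv ℝ (fun y => fderiv ℝ F y v) x w‖ ^ 2 =
      fderiv ℝ (fun y => fderiv ℝ (fun z => ⟪fderiv ℝ F z v, fderiv ℝ F z w⟫) y w) x v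
      - ddv w (fun y => ⟪fderiv ℝ F y v, fderiv ℝ F y v⟫) x / 2
      - ddv v (fun y => ⟪fderiv ℝ F y w, fderiv ℝ F y w⟫) x / 2 := by
  have h4 : ContDiffAt ℝ (4 : ℕ) F x := contDiffAt_infty.1 hF 4
  have h2 : ContDiffAt ℝ 2 F x := h4.of_le (by norm_num)
  have ha : ContDiffAt ℝ 2 (fun y => fderiv ℝ F y v) x := AI3_sm (m := 2) h4 (by norm_num) v
  have hb : ContDiffAt ℝ 2 (fun y => fderiv ℝ F y w) x := AI3_sm (m := 2) h4 (by norm_num) w
  have hev : (fun y => fderiv ℝ (fun z => fderiv ℝ F z v) y w) =ᶠ[𝓝 x]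
      fun y => fderiv ℝ (fun z => fderiv ℝ F z w) y v := by
    filter_upwards [h2.eventually (by simp)] with y hy
    exact AI3_symm hy v w
  have e1 : fderiv ℝ (fun y => fderiv ℝ (fun z => fderiv ℝ F z v) y w) x v =
      fderiv ℝ (fun y => fderiv ℝ (fun z => fderiv ℝ F z w) y v) x v := by
    rw [hev.fderiv_eq]
  have e2 : fderiv ℝ (fun y => fderiv ℝ (fun z => fderiv ℝ F z v) y w) x w =
      fderiv ℝ (fun y => fderiv ℝ (fun z => fderiv ℝ F z w) y w) x v := by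
    rw [hev.fderiv_eq]
    exact AI3_symm hb v w
  have e3 : fderiv ℝ (fun y => fderiv ℝ F y w) x v = fderiv ℝ (fun y => fderiv ℝ F y v) x w :=
    (AI3_symm h2 v w).symm
  unfold ddv
  rw [AI3_inner ha hb, AI3_inner ha ha, AI3_inner hb hb, e1, e2, e3, ← real_inner_self_eq_norm_sq]
  rw [real_inner_comm (fderiv ℝ F x w) (fderiv ℝ (fun y => fderiv ℝ (fun z => fderiv ℝ F z w) y v) x v),
    real_inner_comm (fderiv ℝ F x v) (fderiv ℝ (fun y => fderiv ℝ (fun z => fderiv ℝ F z w) y w) x v)]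
  ring

end P205F
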