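import Vale.Agent.Lib.P205B.AI3

/-!
# P205F ASSEMBLY: propagation of the invariant, and the end of the W-group
-/

noncomputable section

namespace P205F

open scoped Manifold ContDiff Topology RealInnerProductSpace
open Set

set_option maxSynthPendingDepth 3

private theorem AI4_sec {V : Type} [NormedAddCommGroup V] [NormedSpace ℝ V] {u : E2 → V} {x : E2}
    (hu : ContDiffAt ℝ ∞ u x) (v w : E2) :
    fderiv ℝ (fun y => fderiv ℝ u y v) x w = fderiv ℝ (fderiv ℝ u) x w v := by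
  have h2 : DifferentiableAt ℝ (fderiv ℝ u) x :=
    (hu.fderiv_right (m := ∞) (by simp)).differentiableAt (by simp)
  have h3 := h2.hasFDerivAt.clm_apply (hasFDerivAt_const v x)
  rw [h3.fderiv]
  simp

private theorem AI4_flip {X Y Z : Type*} [NormedAddCommGroup X] [NormedSpace ℝ X]
    [NormedAddCommGroup Y] [NormedSpace ℝ Y] [NormedAddCommGroup Z] [NormedSpace ℝ Z]
    {G : X → Y →L[ℝ] Z →L[ℝ] ℝ} {x : X} (hG : ContDiffAt ℝ ∞ G x) :
    ContDiffAt ℝ ∞ (fun y => (G y).flip) x :=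
  (LinearIsometryEquiv.contDiff (ContinuousLinearMap.flipₗᵢ ℝ Y Z ℝ)).comp_contDiffAt x hG

private theorem AI4_bc {X W : Type*} [NormedAddCommGroup X] [NormedSpace ℝ X]
    [NormedAddCommGroup W] [NormedSpace ℝ W] {B : X → W →L[ℝ] W →L[ℝ] ℝ}
    {L : X → E2 →L[ℝ] W} {x : X} (hB : ContDiffAt ℝ ∞ B x) (hL : ContDiffAt ℝ ∞ L x) :
    ContDiffAt ℝ ∞ (fun y => (B y).bilinearComp (L y) (L y)) x :=
  AI4_flip ((AI4_flip (hB.clm_comp hL)).clm_comp hL)

private theorem AI4_metr {F : E2 → V4} {x : E2} (hF : ContDiffAt ℝ ∞ F x) :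
    ContDiffAt ℝ ∞ (metrU F) x :=
  AI4_bc contDiffAt_const (hF.fderiv_right (m := ∞) (by simp))

private theorem AI4_ev {g : E2 → Bil} {x : E2} (hg : DifferentiableAt ℝ g x) (v w c : E2) :
    fderiv ℝ (fun y => g y v w) x c = fderiv ℝ g x c v w := by
  have h1 := (hg.hasFDerivAt.clm_apply (hasFDerivAt_const v x)).clm_apply (hasFDerivAt_const w x)
  rw [h1.fderiv]
  simp

private theorem AI4_ev2 {g : E2 → Bil} {x : E2} (hg : ContDiffAt ℝ ∞ g x) (v w c d : E2) :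
    fderiv ℝ (fun y => fderiv ℝ (fun z => g z v w) y c) x d = fderiv ℝ (fderiv ℝ g) x d c v w := by
  have h1 : (fun y => fderiv ℝ (fun z => g z v w) y c) =ᶠ[𝓝 x] fun y => fderiv ℝ g y c v w := by
    have h0 : ContDiffAt ℝ 2 g x := hg.of_le ENat.LEInfty.out
    filter_upwards [h0.eventually (by simp)] with y hy
    exact AI4_ev (hy.differentiableAt (by simp)) v w c
  rw [h1.fderiv_eq]
  have h3 : DifferentiableAt ℝ (fderiv ℝ g) x :=
    (hg.fderiv_right (m := ∞) (by simp)).differentiableAt (by simp)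
  have h2 : DifferentiableAt ℝ (fun y => fderiv ℝ g y c) x :=
    h3.clm_apply (differentiableAt_const c)
  rw [AI4_ev h2 v w d, AI4_sec hg]

private theorem AI4_le {V : Type*} [NormedAddCommGroup V] [NormedSpace ℝ V] (L : E2 →L[ℝ] V)
    {C : ℝ} (h : ∀ i : Fin 2, ‖L (bv i)‖ ≤ C) : ‖L‖ ≤ 2 * C := by
  have hC : 0 ≤ C := (norm_nonneg _).trans (h 0)
  refine L.opNorm_le_bound (by linarith) fun v => ?_
  rw [MD2_app L v]
  have h1 : |v.1| ≤ ‖v‖ := norm_fst_le v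
  have h2 : |v.2| ≤ ‖v‖ := norm_snd_le v
  calc ‖v.1 • L (bv 0) + v.2 • L (bv 1)‖ ≤ ‖v.1 • L (bv 0)‖ + ‖v.2 • L (bv 1)‖ := norm_add_le _ _
    _ = |v.1| * ‖L (bv 0)‖ + |v.2| * ‖L (bv 1)‖ := by
        rw [norm_smul, norm_smul, Real.norm_eq_abs, Real.norm_eq_abs]
    _ ≤ ‖v‖ * C + ‖v‖ * C := add_le_add
        (mul_le_mul h1 (h 0) (norm_nonneg _) (norm_nonneg _))
        (mul_le_mul h2 (h 1) (norm_nonneg _) (norm_nonneg _))
    _ = 2 * C * ‖v‖ := by ring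

private theorem AI4_dg {F : E2 → V4} {x : E2} (hF : ContDiffAt ℝ ∞ F x) (c v w : E2) :
    fderiv ℝ (metrU F) x c v w = ⟪fderiv ℝ F x v, fderiv ℝ (fderiv ℝ F) x c w⟫ +
      ⟪fderiv ℝ (fderiv ℝ F) x c v, fderiv ℝ F x w⟫ := by
  have h1 := (AI4_ev ((AI4_metr hF).differentiableAt (by simp)) v w c).symm
  rw [h1]
  have h2 : DifferentiableAt ℝ (fderiv ℝ F) x :=
    (hF.fderiv_right (m := ∞) (by simp)).differentiableAt (by simp)
  have hv : DifferentiableAt ℝ (fun y => fderiv ℝ F y v) x :=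
    h2.clm_apply (differentiableAt_const v)
  have hw : DifferentiableAt ℝ (fun y => fderiv ℝ F y w) x :=
    h2.clm_apply (differentiableAt_const w)
  have h3 : (fun y => metrU F y v w) = fun y => ⟪fderiv ℝ F y v, fderiv ℝ F y w⟫ := rfl
  rw [h3, fderiv_inner_apply ℝ hv hw, AI4_sec hF, AI4_sec hF]

private theorem AI4_chr {F : E2 → V4} {x : E2} (hF : ContDiffAt ℝ ∞ F x) (v w : E2) :
    ⟪ddv v F x, fderiv ℝ F x w⟫ =
      fderiv ℝ (metrU F) x v v w - fderiv ℝ (metrU F) x w v v / 2 := by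
  have h2 : IsSymmSndFDerivAt ℝ F x :=
    hF.isSymmSndFDerivAt (by simp only [minSmoothness_of_isRCLikeNormedField]; norm_cast)
  have h3 : fderiv ℝ (fderiv ℝ F) x w v = fderiv ℝ (fderiv ℝ F) x v w := h2 w v
  rw [AI4_dg hF, AI4_dg hF, h3]
  have h4 : ddv v F x = fderiv ℝ (fderiv ℝ F) x v v := AI4_sec hF v v
  rw [h4, real_inner_comm (fderiv ℝ F x v) (fderiv ℝ (fderiv ℝ F) x v w)]
  ring

private theorem AI4_rot_lin (a b s t : ℝ) (u w : V4) :
    rotV a b (s • u + t • w) = s • rotV a b u + t • rotV a b w := by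
  ext i
  fin_cases i <;> simp [rotV] <;> ring

private theorem AI4_c1 {a p q : ℝ → ℝ} {a' p' q' : ℝ} (ha : HasDerivAt a a' 0)
    (hp : HasDerivAt p p' 0) (hq : HasDerivAt q q' 0) :
    HasDerivAt (fun s => Real.cos (a s) * p s + Real.sin (a s) * q s)
      (Real.cos (a 0) * p' + Real.sin (a 0) * q' +
        a' * (-Real.sin (a 0) * p 0 + Real.cos (a 0) * q 0)) 0 := by
  refine ((ha.cos.mul hp).add (ha.sin.mul hq)).congr_deriv ?_
  ring

private theorem AI4_c2 {a p q : ℝ → ℝ} {a' p' q' : ℝ} (ha : HasDerivAt a a' 0)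
    (hp : HasDerivAt p p' 0) (hq : HasDerivAt q q' 0) :
    HasDerivAt (fun s => -Real.sin (a s) * p s + Real.cos (a s) * q s)
      (-Real.sin (a 0) * p' + Real.cos (a 0) * q' +
        a' * (-Real.cos (a 0) * p 0 - Real.sin (a 0) * q 0)) 0 := by
  refine ((ha.sin.neg.mul hp).add (ha.cos.mul hq)).congr_deriv ?_
  simp only [Pi.neg_apply]
  ring

private theorem AI4_slo (τ h : ℝ) {W : E2 → V4} {x : E2} (hW : DifferentiableAt ℝ W x) :
    pd 1 (fun y => slo τ h y (W y)) x = slo τ h x (pd 1 W x) +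
      (τ / h) • rotV ((x.1 + τ * x.2) / h + Real.pi / 2) ((x.1 - τ * x.2) / h - Real.pi / 2)
        (W x) := by
  have hline : HasDerivAt (fun s : ℝ => x + s • bv 1) (bv 1) 0 := by
    simpa using ((hasDerivAt_id (0 : ℝ)).smul_const (bv 1)).const_add x
  have hx0 : x + (0 : ℝ) • bv 1 = x := by rw [zero_smul, add_zero]
  have hfst : ∀ s : ℝ, (x + s • bv 1).1 = x.1 := fun s => by simp [bv]
  have hsnd : ∀ s : ℝ, (x + s • bv 1).2 = x.2 + s := fun s => by simp [bv]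
  have hWs : ∀ i, HasDerivAt (fun s : ℝ => W (x + s • bv 1) i) ((pd 1 W x) i) 0 := by
    intro i
    have h1 : HasFDerivAt (fun y => W y i)
        ((EuclideanSpace.proj (𝕜 := ℝ) i).comp (fderiv ℝ W x)) (x + (0 : ℝ) • bv 1) := by
      rw [hx0]
      exact (EuclideanSpace.proj (𝕜 := ℝ) i).hasFDerivAt.comp x hW.hasFDerivAt
    exact h1.comp_hasDerivAt (0 : ℝ) hline
  have hWd : ∀ i, DifferentiableAt ℝ (fun y => W y i) x := fun i =>
    ((EuclideanSpace.proj (𝕜 := ℝ) i).hasFDerivAt.comp x hW.hasFDerivAt).differentiableAt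
  have ha : HasDerivAt (fun s : ℝ => (x.1 + τ * (x.2 + s)) / h) (τ / h) 0 := by
    have h1 : HasDerivAt (fun s : ℝ => x.2 + s) 1 0 := (hasDerivAt_id (0 : ℝ)).const_add x.2
    have h2 := ((h1.const_mul τ).const_add x.1).div_const h
    simpa using h2
  have hb : HasDerivAt (fun s : ℝ => (x.1 - τ * (x.2 + s)) / h) (-(τ / h)) 0 := by
    have h1 : HasDerivAt (fun s : ℝ => x.2 + s) 1 0 := (hasDerivAt_id (0 : ℝ)).const_add x.2
    have h2 := ((h1.const_mul τ).const_sub x.1).div_const h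
    refine h2.congr_deriv ?_
    ring
  have hdiff : DifferentiableAt ℝ (fun y => slo τ h y (W y)) x := by
    rw [differentiableAt_euclidean]
    have hA : DifferentiableAt ℝ (fun y : E2 => (y.1 + τ * y.2) / h) x := by fun_prop
    have hB : DifferentiableAt ℝ (fun y : E2 => (y.1 - τ * y.2) / h) x := by fun_prop
    intro i
    have h0 := hWd 0
    have h1 := hWd 1
    have h2 := hWd 2
    have h3 := hWd 3
    fin_cases i
    · exact (hA.cos.mul h0).add (hA.sin.mul h1)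
    · exact (hA.sin.neg.mul h0).add (hA.cos.mul h1)
    · exact (hB.cos.mul h2).add (hB.sin.mul h3)
    · exact (hB.sin.neg.mul h2).add (hB.cos.mul h3)
  have hs : ∀ i, HasDerivAt (fun s : ℝ => (slo τ h (x + s • bv 1) (W (x + s • bv 1))) i)
      ((pd 1 (fun y => slo τ h y (W y)) x) i) 0 := by
    intro i
    have h1 : HasFDerivAt (fun y => (slo τ h y (W y)) i)
        ((EuclideanSpace.proj (𝕜 := ℝ) i).comp (fderiv ℝ (fun y => slo τ h y (W y)) x))
        (x + (0 : ℝ) • bv 1) := by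
      rw [hx0]
      exact (EuclideanSpace.proj (𝕜 := ℝ) i).hasFDerivAt.comp x hdiff.hasFDerivAt
    exact h1.comp_hasDerivAt (0 : ℝ) hline
  have e0 : (x.2 + 0 : ℝ) = x.2 := add_zero _
  ext i
  refine (hs i).unique ?_
  fin_cases i
  · have h1 := AI4_c1 ha (hWs 0) (hWs 1)
    simp only [hx0, e0] at h1
    have h2 : (fun s : ℝ => (slo τ h (x + s • bv 1) (W (x + s • bv 1))) 0) =
        fun s => Real.cos ((x.1 + τ * (x.2 + s)) / h) * (W (x + s • bv 1) 0) +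
          Real.sin ((x.1 + τ * (x.2 + s)) / h) * (W (x + s • bv 1) 1) := by
      funext s
      simp [slo, rotV, hfst, hsnd]
    show HasDerivAt (fun s : ℝ => (slo τ h (x + s • bv 1) (W (x + s • bv 1))) 0) _ 0
    rw [h2]
    refine h1.congr_deriv ?_
    simp [slo, rotV, Real.cos_add_pi_div_two, Real.sin_add_pi_div_two]
  · have h1 := AI4_c2 ha (hWs 0) (hWs 1)
    simp only [hx0, e0] at h1
    have h2 : (fun s : ℝ => (slo τ h (x + s • bv 1) (W (x + s • bv 1))) 1) =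
        fun s => -Real.sin ((x.1 + τ * (x.2 + s)) / h) * (W (x + s • bv 1) 0) +
          Real.cos ((x.1 + τ * (x.2 + s)) / h) * (W (x + s • bv 1) 1) := by
      funext s
      simp [slo, rotV, hfst, hsnd]
    show HasDerivAt (fun s : ℝ => (slo τ h (x + s • bv 1) (W (x + s • bv 1))) 1) _ 0
    rw [h2]
    refine h1.congr_deriv ?_
    simp [slo, rotV, Real.cos_add_pi_div_two, Real.sin_add_pi_div_two]
    left
    ring
  · have h1 := AI4_c1 hb (hWs 2) (hWs 3)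
    simp only [hx0, e0] at h1
    have h2 : (fun s : ℝ => (slo τ h (x + s • bv 1) (W (x + s • bv 1))) 2) =
        fun s => Real.cos ((x.1 - τ * (x.2 + s)) / h) * (W (x + s • bv 1) 2) +
          Real.sin ((x.1 - τ * (x.2 + s)) / h) * (W (x + s • bv 1) 3) := by
      funext s
      simp [slo, rotV, hfst, hsnd]
    show HasDerivAt (fun s : ℝ => (slo τ h (x + s • bv 1) (W (x + s • bv 1))) 2) _ 0
    rw [h2]
    refine h1.congr_deriv ?_
    simp [slo, rotV, Real.cos_sub_pi_div_two, Real.sin_sub_pi_div_two]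
    ring
  · have h1 := AI4_c2 hb (hWs 2) (hWs 3)
    simp only [hx0, e0] at h1
    have h2 : (fun s : ℝ => (slo τ h (x + s • bv 1) (W (x + s • bv 1))) 3) =
        fun s => -Real.sin ((x.1 - τ * (x.2 + s)) / h) * (W (x + s • bv 1) 2) +
          Real.cos ((x.1 - τ * (x.2 + s)) / h) * (W (x + s • bv 1) 3) := by
      funext s
      simp [slo, rotV, hfst, hsnd]
    show HasDerivAt (fun s : ℝ => (slo τ h (x + s • bv 1) (W (x + s • bv 1))) 3) _ 0
    rw [h2]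
    refine h1.congr_deriv ?_
    simp [slo, rotV, Real.cos_sub_pi_div_two, Real.sin_sub_pi_div_two]
    ring

/-- lower bound for the mixed derivative -/
private theorem AI4_low {τ h K : ℝ} (hτ : 0 < τ) (hh : 0 < h) {F : E2 → V4} {x : E2}
    (hF : ContDiffAt ℝ ∞ F x)
    (h0 : ‖pd 1 (fun y => slo τ h y (pd 0 F y)) x‖ ≤ K)
    (h1 : ‖pd 1 (fun y => slo τ h y (pd 1 F y)) x‖ ≤ K) (v : E2) :
    τ / h * ‖fderiv ℝ F x v‖ - 2 * K * ‖v‖ ≤
      ‖fderiv ℝ (fun y => fderiv ℝ F y v) x (bv 1)‖ := by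
  have hdF : DifferentiableAt ℝ (fderiv ℝ F) x :=
    (hF.fderiv_right (m := ∞) (by simp)).differentiableAt (by simp)
  have hd : ∀ i, DifferentiableAt ℝ (pd i F) x := fun i =>
    hdF.clm_apply (differentiableAt_const (bv i))
  set a := (x.1 + τ * x.2) / h with ha
  set b := (x.1 - τ * x.2) / h with hb
  have e0 := AI4_slo τ h (hd 0)
  have e1' := AI4_slo τ h (hd 1)
  rw [← ha, ← hb] at e0 e1'
  have hX : fderiv ℝ (fun y => fderiv ℝ F y v) x (bv 1) =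
      v.1 • pd 1 (pd 0 F) x + v.2 • pd 1 (pd 1 F) x := by
    have h2 : ∀ i, pd 1 (pd i F) x = fderiv ℝ (fderiv ℝ F) x (bv 1) (bv i) := fun i =>
      AI4_sec hF (bv i) (bv 1)
    rw [AI4_sec hF, h2, h2, MD2_app (fderiv ℝ (fderiv ℝ F) x (bv 1)) v]
  have hY : fderiv ℝ F x v = v.1 • pd 0 F x + v.2 • pd 1 F x := MD2_app (fderiv ℝ F x) v
  have key : slo τ h x (fderiv ℝ (fun y => fderiv ℝ F y v) x (bv 1)) =
      (v.1 • pd 1 (fun y => slo τ h y (pd 0 F y)) x +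
        v.2 • pd 1 (fun y => slo τ h y (pd 1 F y)) x) -
      (τ / h) • rotV (a + Real.pi / 2) (b - Real.pi / 2) (fderiv ℝ F x v) := by
    have e2' : slo τ h x (fderiv ℝ (fun y => fderiv ℝ F y v) x (bv 1)) =
        v.1 • slo τ h x (pd 1 (pd 0 F) x) + v.2 • slo τ h x (pd 1 (pd 1 F) x) := by
      rw [hX]
      exact AI4_rot_lin _ _ _ _ _ _
    rw [e2', e0, e1', hY, AI4_rot_lin]
    module
  have hn : ‖fderiv ℝ (fun y => fderiv ℝ F y v) x (bv 1)‖ =
      ‖slo τ h x (fderiv ℝ (fun y => fderiv ℝ F y v) x (bv 1))‖ :=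
    (rotV_norm _ _ _).symm
  rw [hn, key]
  have hr : ‖(τ / h) • rotV (a + Real.pi / 2) (b - Real.pi / 2) (fderiv ℝ F x v)‖ =
      τ / h * ‖fderiv ℝ F x v‖ := by
    rw [norm_smul, rotV_norm, Real.norm_eq_abs, abs_of_pos (div_pos hτ hh)]
  have hK0 : 0 ≤ K := (norm_nonneg _).trans h0
  have hs : ‖v.1 • pd 1 (fun y => slo τ h y (pd 0 F y)) x +
        v.2 • pd 1 (fun y => slo τ h y (pd 1 F y)) x‖ ≤ 2 * K * ‖v‖ := by
    have h3 : |v.1| ≤ ‖v‖ := norm_fst_le v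
    have h4 : |v.2| ≤ ‖v‖ := norm_snd_le v
    refine (norm_add_le _ _).trans ?_
    rw [norm_smul, norm_smul, Real.norm_eq_abs, Real.norm_eq_abs]
    have h5 := mul_le_mul h3 h0 (norm_nonneg _) (norm_nonneg v)
    have h6 := mul_le_mul h4 h1 (norm_nonneg _) (norm_nonneg v)
    linarith
  have ht := norm_sub_norm_le ((τ / h) • rotV (a + Real.pi / 2) (b - Real.pi / 2) (fderiv ℝ F x v))
    (v.1 • pd 1 (fun y => slo τ h y (pd 0 F y)) x +
        v.2 • pd 1 (fun y => slo τ h y (pd 1 F y)) x)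
  rw [norm_sub_rev] at ht
  linarith

private theorem AI4_unit {τ K : ℝ} (hτ : 0 < τ) (hK : 1 ≤ K) {h : ℝ} (h0 : 0 < h) (h1 : h < 1)
    (h2 : 4 * K ^ 2 * h < τ) (h3 : 176 * K ^ 5 * h < τ ^ 2) {F : E2 → V4} {x : E2}
    (hF : ContDiffAt ℝ ∞ F x) (hI : INV τ h K F x) (hm : ∀ v : E2, ‖v‖ ^ 2 ≤ K * metrU F x v v)
    (hd : ∀ i j k l : Fin 2, |pd k (fun y => metrU F y (bv i) (bv j)) x| ≤ K ∧
        |pd l (pd k (fun y => metrU F y (bv i) (bv j))) x| ≤ K) {v : E2} (hv : ‖v‖ = 1) :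
    0 < gramV F v x := by
  have hK0 : 0 < K := by linarith
  have hg := AI4_metr hF
  have hgd : DifferentiableAt ℝ (metrU F) x := hg.differentiableAt (by simp)
  have hg1 : ‖fderiv ℝ (metrU F) x‖ ≤ 8 * K := by
    have : ‖fderiv ℝ (metrU F) x‖ ≤ 2 * (2 * (2 * K)) := by
      refine AI4_le _ fun k => AI4_le _ fun i => AI4_le _ fun j => ?_
      have := (hd i j k 0).1
      unfold pd at this
      rw [AI4_ev hgd] at this
      exact this
    linarith
  have hg2 : ‖fderiv ℝ (fderiv ℝ (metrU F)) x‖ ≤ 16 * K := by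
    have : ‖fderiv ℝ (fderiv ℝ (metrU F)) x‖ ≤ 2 * (2 * (2 * (2 * K))) := by
      refine AI4_le _ fun l => AI4_le _ fun k => AI4_le _ fun i => AI4_le _ fun j => ?_
      have := (hd i j k l).2
      have h4 : pd l (pd k (fun y => metrU F y (bv i) (bv j))) x =
          fderiv ℝ (fderiv ℝ (metrU F)) x (bv l) (bv k) (bv i) (bv j) :=
        AI4_ev2 hg (bv i) (bv j) (bv k) (bv l)
      rw [h4] at this
      exact this
    linarith
  have b3 : ∀ c v w : E2, |fderiv ℝ (metrU F) x c v w| ≤ 8 * K * ‖c‖ * ‖v‖ * ‖w‖ := by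
    intro c v w
    have e1' : ‖fderiv ℝ (metrU F) x c‖ ≤ 8 * K * ‖c‖ :=
      ((fderiv ℝ (metrU F) x).le_opNorm c).trans
        (mul_le_mul_of_nonneg_right hg1 (norm_nonneg _))
    have e2' : ‖fderiv ℝ (metrU F) x c v‖ ≤ 8 * K * ‖c‖ * ‖v‖ :=
      ((fderiv ℝ (metrU F) x c).le_opNorm v).trans
        (mul_le_mul_of_nonneg_right e1' (norm_nonneg _))
    exact ((fderiv ℝ (metrU F) x c v).le_opNorm w).trans
        (mul_le_mul_of_nonneg_right e2' (norm_nonneg _))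
  have b4 : ∀ d c v w : E2, |fderiv ℝ (fderiv ℝ (metrU F)) x d c v w| ≤
      16 * K * ‖d‖ * ‖c‖ * ‖v‖ * ‖w‖ := by
    intro d c v w
    have e0 : ‖fderiv ℝ (fderiv ℝ (metrU F)) x d‖ ≤ 16 * K * ‖d‖ :=
      ((fderiv ℝ (fderiv ℝ (metrU F)) x).le_opNorm d).trans
        (mul_le_mul_of_nonneg_right hg2 (norm_nonneg _))
    have e1' : ‖fderiv ℝ (fderiv ℝ (metrU F)) x d c‖ ≤ 16 * K * ‖d‖ * ‖c‖ :=
      ((fderiv ℝ (fderiv ℝ (metrU F)) x d).le_opNorm c).trans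
        (mul_le_mul_of_nonneg_right e0 (norm_nonneg _))
    have e2' : ‖fderiv ℝ (fderiv ℝ (metrU F)) x d c v‖ ≤ 16 * K * ‖d‖ * ‖c‖ * ‖v‖ :=
      ((fderiv ℝ (fderiv ℝ (metrU F)) x d c).le_opNorm v).trans
        (mul_le_mul_of_nonneg_right e1' (norm_nonneg _))
    exact ((fderiv ℝ (fderiv ℝ (metrU F)) x d c v).le_opNorm w).trans
        (mul_le_mul_of_nonneg_right e2' (norm_nonneg _))
  have hmet : ∀ w : E2, metrU F x w w = ‖fderiv ℝ F x w‖ ^ 2 := by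
    intro w
    have h4 : metrU F x w w = ⟪fderiv ℝ F x w, fderiv ℝ F x w⟫ := rfl
    rw [h4]
    exact real_inner_self_eq_norm_sq (fderiv ℝ F x w)
  -- the upper bound for `F_vv`
  by_contra hcon
  have hcon0 : gram3 (pd 0 F x) (pd 1 F x) (ddv v F x) = 0 :=
    le_antisymm (not_lt.1 hcon) (gram3_nonneg _ _ _)
  have hdep : ∃ w : E2, ddv v F x = fderiv ℝ F x w := by
    have hl : ¬ LinearIndependent ℝ ![pd 0 F x, pd 1 F x, ddv v F x] := fun hl => by
      have := (gram3_pos_iff _ _ _).2 hl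
      rw [hcon0] at this
      exact lt_irrefl _ this
    rw [Fintype.not_linearIndependent_iff] at hl
    obtain ⟨g, hgs, i, hi⟩ := hl
    rw [Fin.sum_univ_three] at hgs
    have hgs' : g 0 • pd 0 F x + g 1 • pd 1 F x + g 2 • ddv v F x = 0 := by simpa using hgs
    have hdF : ∀ w : E2, fderiv ℝ F x w = w.1 • pd 0 F x + w.2 • pd 1 F x := fun w =>
      MD2_app (fderiv ℝ F x) w
    have hg2' : g 2 ≠ 0 := by
      intro hz
      rw [hz, zero_smul, add_zero] at hgs'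
      have h4 := hm (g 0, g 1)
      rw [hmet, hdF] at h4
      simp only [hgs', norm_zero] at h4
      have h5 : ‖((g 0, g 1) : E2)‖ ^ 2 ≤ 0 := by simpa using h4
      have h6 : ((g 0, g 1) : E2) = 0 := by
        have h7 : ‖((g 0, g 1) : E2)‖ = 0 := by
          have := sq_nonneg ‖((g 0, g 1) : E2)‖
          exact pow_eq_zero_iff (two_ne_zero) |>.1 (le_antisymm h5 this)
        exact norm_eq_zero.1 h7
      have h8 : g 0 = 0 := congrArg Prod.fst h6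
      have h9 : g 1 = 0 := congrArg Prod.snd h6
      fin_cases i
      · exact hi h8
      · exact hi h9
      · exact hi hz
    refine ⟨(-(g 2)⁻¹ * g 0, -(g 2)⁻¹ * g 1), ?_⟩
    rw [hdF]
    have h4 : ddv v F x = (g 2)⁻¹ • (g 2 • ddv v F x) := by
      rw [smul_smul, inv_mul_cancel₀ hg2', one_smul]
    have h5 : g 2 • ddv v F x = -(g 0 • pd 0 F x + g 1 • pd 1 F x) := by
      rw [eq_neg_iff_add_eq_zero, add_comm]
      exact hgs'
    rw [h4, h5]
    module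
  obtain ⟨w, hw⟩ := hdep
  have hup : ‖ddv v F x‖ ≤ 12 * K ^ 2 := by
    have h4 : ‖ddv v F x‖ ^ 2 ≤ 12 * K * ‖w‖ := by
      have h5 := AI4_chr hF v w
      rw [← hw, real_inner_self_eq_norm_sq] at h5
      have h6 := b3 v v w
      have h7 := b3 w v v
      rw [hv] at h6 h7
      have h8 := abs_le.1 h6
      have h9 := abs_le.1 h7
      rw [h5]
      linarith [h8.2, h9.1]
    have h5 : ‖w‖ ^ 2 ≤ (K * ‖ddv v F x‖) ^ 2 := by
      have h6 := hm w
      rw [hmet, ← hw] at h6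
      rw [mul_pow]
      refine h6.trans (mul_le_mul_of_nonneg_right ?_ (sq_nonneg _))
      nlinarith
    have h6 : ‖w‖ ≤ K * ‖ddv v F x‖ :=
      (pow_le_pow_iff_left₀ (norm_nonneg _) (mul_nonneg hK0.le (norm_nonneg _)) two_ne_zero).1 h5
    rcases (norm_nonneg (ddv v F x)).eq_or_lt with h7 | h7
    · rw [← h7]; positivity
    · have h8 : ‖ddv v F x‖ * ‖ddv v F x‖ ≤ (12 * K ^ 2) * ‖ddv v F x‖ := by
        calc ‖ddv v F x‖ * ‖ddv v F x‖ = ‖ddv v F x‖ ^ 2 := by ring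
          _ ≤ 12 * K * ‖w‖ := h4
          _ ≤ 12 * K * (K * ‖ddv v F x‖) := mul_le_mul_of_nonneg_left h6 (by positivity)
          _ = (12 * K ^ 2) * ‖ddv v F x‖ := by ring
      exact le_of_mul_le_mul_right h8 h7
  -- Gauss
  have hbn : ‖bv 1‖ ≤ 1 := norm_bv_le 1
  have hG := gauss_id hF v (bv 1)
  set N := ‖fderiv ℝ (fun y => fderiv ℝ F y v) x (bv 1)‖ with hN
  have t1 : fderiv ℝ (fun y => fderiv ℝ (fun z => ⟪fderiv ℝ F z v, fderiv ℝ F z (bv 1)⟫) y (bv 1))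
      x v = fderiv ℝ (fderiv ℝ (metrU F)) x v (bv 1) v (bv 1) := AI4_ev2 hg v (bv 1) (bv 1) v
  have t2 : ddv (bv 1) (fun y => ⟪fderiv ℝ F y v, fderiv ℝ F y v⟫) x =
      fderiv ℝ (fderiv ℝ (metrU F)) x (bv 1) (bv 1) v v := AI4_ev2 hg v v (bv 1) (bv 1)
  have t3 : ddv v (fun y => ⟪fderiv ℝ F y (bv 1), fderiv ℝ F y (bv 1)⟫) x =
      fderiv ℝ (fderiv ℝ (metrU F)) x v v (bv 1) (bv 1) := AI4_ev2 hg (bv 1) (bv 1) v v
  rw [t1, t2, t3] at hG
  have bnd : ∀ a b c d : E2, ‖a‖ ≤ 1 → ‖b‖ ≤ 1 → ‖c‖ ≤ 1 → ‖d‖ ≤ 1 →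
      |fderiv ℝ (fderiv ℝ (metrU F)) x a b c d| ≤ 16 * K := by
    intro a b c d ha hb hc hd
    refine (b4 a b c d).trans ?_
    calc 16 * K * ‖a‖ * ‖b‖ * ‖c‖ * ‖d‖ ≤ 16 * K * 1 * 1 * 1 * 1 := by gcongr
      _ = 16 * K := by ring
  have u1 := abs_le.1 (bnd v (bv 1) v (bv 1) hv.le hbn hv.le hbn)
  have u2 := abs_le.1 (bnd (bv 1) (bv 1) v v hbn hbn hv.le hv.le)
  have u3 := abs_le.1 (bnd v v (bv 1) (bv 1) hv.le hv.le hbn hbn)
  have hI3 : h * ‖ddv (bv 1) F x‖ ≤ K := by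
    have h4 := hI.2.2.1
    rw [norm_smul, Real.norm_eq_abs, abs_of_pos h0] at h4
    exact h4
  have hN2 : h * N ^ 2 ≤ 44 * K ^ 3 := by
    have h4 : N ^ 2 ≤ ‖ddv v F x‖ * ‖ddv (bv 1) F x‖ + 32 * K := by
      have h5 := (le_abs_self _).trans (abs_real_inner_le_norm (ddv v F x) (ddv (bv 1) F x))
      linarith [u1.1, u2.2, u3.2]
    have h5 : ‖ddv v F x‖ * (h * ‖ddv (bv 1) F x‖) ≤ 12 * K ^ 2 * K :=
      mul_le_mul hup hI3 (mul_nonneg h0.le (norm_nonneg _)) (by positivity)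
    have h6 : h * (32 * K) ≤ 32 * K ^ 3 := by
      have h7 : h * (32 * K) ≤ 1 * (32 * K) := mul_le_mul_of_nonneg_right h1.le (by positivity)
      have h8 : K ≤ K ^ 3 := le_self_pow₀ hK (by norm_num)
      linarith
    calc h * N ^ 2 ≤ h * (‖ddv v F x‖ * ‖ddv (bv 1) F x‖ + 32 * K) :=
          mul_le_mul_of_nonneg_left h4 h0.le
      _ = ‖ddv v F x‖ * (h * ‖ddv (bv 1) F x‖) + h * (32 * K) := by ring
      _ ≤ 12 * K ^ 2 * K + 32 * K ^ 3 := add_le_add h5 h6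
      _ = 44 * K ^ 3 := by ring
  -- the lower bound
  have hlow := AI4_low hτ h0 hF hI.2.2.2.1 hI.2.2.2.2.1 v
  rw [hv, mul_one, ← hN] at hlow
  have hFv : 1 ≤ K * ‖fderiv ℝ F x v‖ := by
    have h4 := hm v
    rw [hmet, hv] at h4
    have h5 : (1 : ℝ) ^ 2 ≤ (K * ‖fderiv ℝ F x v‖) ^ 2 := by
      rw [mul_pow]
      refine h4.trans (mul_le_mul_of_nonneg_right ?_ (sq_nonneg _))
      nlinarith
    exact (pow_le_pow_iff_left₀ zero_le_one (mul_nonneg hK0.le (norm_nonneg _)) two_ne_zero).1 h5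
  have hlow2 : τ / 2 < h * K * N := by
    have h4 : h * K * (τ / h * ‖fderiv ℝ F x v‖ - 2 * K) ≤ h * K * N :=
      mul_le_mul_of_nonneg_left hlow (by positivity)
    have h5 : h * K * (τ / h * ‖fderiv ℝ F x v‖ - 2 * K) =
        τ * (K * ‖fderiv ℝ F x v‖) - 2 * K ^ 2 * h := by
      field_simp
    have h6 : τ * 1 ≤ τ * (K * ‖fderiv ℝ F x v‖) := mul_le_mul_of_nonneg_left hFv hτ.le
    linarith
  have h7 : (h * K * N) ^ 2 ≤ 44 * K ^ 5 * h := by
    calc (h * K * N) ^ 2 = h * K ^ 2 * (h * N ^ 2) := by ring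
      _ ≤ h * K ^ 2 * (44 * K ^ 3) := mul_le_mul_of_nonneg_left hN2 (by positivity)
      _ = 44 * K ^ 5 * h := by ring
  have h8 : (τ / 2) ^ 2 < (h * K * N) ^ 2 := pow_lt_pow_left₀ hlow2 (by positivity) two_ne_zero
  nlinarith

/-- end of the W-group: all directions are good.
Proof: let `‖v‖ = 1` and suppose `gramV F v x = 0`; `F_1, F_2` are independent (metric bound), so
`F_vv ∈ span (F_1, F_2)`; `F_vv·F_j` is a combination of first derivatives of the metric, so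
`|F_vv| ≤ C(K)`; `|F_22| ≤ K/h`; by `gauss_id` `|F_v2|² ≤ |F_vv| |F_22| + C ≤ C(K)/h`.  On the other hand
`slo (F_v2) = ∂₂ (slo F_v) + (1/h) 𝒯 (slo F_v)`, `𝒯 = diag (iτ, -iτ)`, `|∂₂ (slo F_v)| ≤ 2K`,
`|𝒯 (slo F_v)| = τ |F_v| ≥ τ/sqrt K`: so `|F_v2| ≥ τ/(sqrt K h) - 2K`: contradiction for small `h`. -/
theorem all_good {τ K : ℝ} (hτ : 0 < τ) (hK : 1 ≤ K) :
    ∃ h₂ : ℝ, 0 < h₂ ∧ ∀ h ∈ Ioo 0 h₂, ∀ (F : E2 → V4) (x : E2), ContDiffAt ℝ ∞ F x →
      INV τ h K F x → (∀ v : E2, ‖v‖ ^ 2 ≤ K * metrU F x v v) →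
      (∀ i j k l : Fin 2, |pd k (fun y => metrU F y (bv i) (bv j)) x| ≤ K ∧
        |pd l (pd k (fun y => metrU F y (bv i) (bv j))) x| ≤ K) →
      ∀ v : E2, v ≠ 0 → 0 < gramV F v x := by
  have hK0 : 0 < K := by linarith
  refine ⟨min 1 (min (τ / (4 * K ^ 2)) (τ ^ 2 / (176 * K ^ 5))), by positivity, ?_⟩
  intro h hh F x hF hI hm hd v hv
  have h0 : 0 < h := hh.1
  have h1 : h < 1 := lt_of_lt_of_le hh.2 (min_le_left _ _)
  have h2 : h < τ / (4 * K ^ 2) :=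
    lt_of_lt_of_le hh.2 ((min_le_right _ _).trans (min_le_left _ _))
  have h3 : h < τ ^ 2 / (176 * K ^ 5) :=
    lt_of_lt_of_le hh.2 ((min_le_right _ _).trans (min_le_right _ _))
  rw [lt_div_iff₀ (by positivity)] at h2 h3
  have hn : 0 < ‖v‖ := norm_pos_iff.2 hv
  have hu : ‖(‖v‖⁻¹ • v : E2)‖ = 1 := by
    rw [norm_smul, norm_inv, norm_norm, inv_mul_cancel₀ hn.ne']
  have h4 := AI4_unit hτ hK h0 h1 (by linarith) (by linarith) hF hI hm hd hu
  rw [gramV_smul] at h4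
  by_contra hcon
  have h5 : ‖v‖⁻¹ ^ 4 * gramV F v x ≤ 0 :=
    mul_nonpos_of_nonneg_of_nonpos (by positivity) (not_lt.1 hcon)
  linarith

end P205F
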