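import Mathlib
import Vale.Agent.Lib.P205B.AF0
import Vale.Agent.Lib.P205B.AInvDefs
import Vale.Agent.Lib.P205F.MD2

/-!
# P205F ASSEMBLY: propagation of the invariant, and the end of the W-group
-/

noncomputable section

namespace P205F

open scoped Manifold ContDiff Topology RealInnerProductSpace
open Set

section AInvBasics

variable {V : Type} [NormedAddCommGroup V] [NormedSpace ℝ V]

theorem AInv_fin {f : E2 → V} {x : E2} (hf : ContDiffAt ℝ ∞ f x) (n : ℕ) :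
    ContDiffAt ℝ n f x := hf.of_le (by exact_mod_cast le_top)

theorem AInv_dir {f : E2 → V} {x : E2} {n m : WithTop ℕ∞} (hf : ContDiffAt ℝ n f x)
    (h : m + 1 ≤ n) (v : E2) : ContDiffAt ℝ m (fun y => fderiv ℝ f y v) x :=
  (hf.fderiv_right h).clm_apply contDiffAt_const

theorem AInv_dir_inf {f : E2 → V} {x : E2} (hf : ContDiffAt ℝ ∞ f x) (v : E2) :
    ContDiffAt ℝ ∞ (fun y => fderiv ℝ f y v) x :=
  AInv_dir hf (by norm_cast) v

theorem AInv_pd_inf {f : E2 → V} {x : E2} (hf : ContDiffAt ℝ ∞ f x) (k : Fin 2) :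
    ContDiffAt ℝ ∞ (pd k f) x := AInv_dir_inf hf (bv k)

theorem AInv_diff {f : E2 → V} {x : E2} (hf : ContDiffAt ℝ ∞ f x) : DifferentiableAt ℝ f x :=
  hf.differentiableAt (by simp)

/-- second derivative as an iterated directional derivative -/
theorem AInv_second {f : E2 → V} {x : E2} (hf : ContDiffAt ℝ 2 f x) (u w : E2) :
    fderiv ℝ (fun y => fderiv ℝ f y u) x w = fderiv ℝ (fderiv ℝ f) x w u := by
  have h1 : DifferentiableAt ℝ (fderiv ℝ f) x :=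
    (hf.fderiv_right (m := 1) (by norm_num)).differentiableAt (by norm_num)
  have h2 := h1.hasFDerivAt.clm_apply (hasFDerivAt_const u x)
  rw [h2.fderiv]
  simp

theorem AInv_symm {f : E2 → V} {x : E2} (hf : ContDiffAt ℝ 2 f x) (u w : E2) :
    fderiv ℝ (fun y => fderiv ℝ f y u) x w = fderiv ℝ (fun y => fderiv ℝ f y w) x u := by
  rw [AInv_second hf, AInv_second hf]
  exact (hf.isSymmSndFDerivAt (by simp)) w u

/-- near `x`, the mixed derivatives commute -/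
theorem AInv_symm_ev {f : E2 → V} {x : E2} (hf : ContDiffAt ℝ ∞ f x) (u w : E2) :
    (fun y => fderiv ℝ (fun z => fderiv ℝ f z u) y w) =ᶠ[𝓝 x]
      fun y => fderiv ℝ (fun z => fderiv ℝ f z w) y u := by
  filter_upwards [(AInv_fin hf 2).eventually (by simp)] with y hy
  exact AInv_symm hy u w

end AInvBasics

theorem AInv_inner_ev {a b : E2 → V4} {x : E2} (ha : ContDiffAt ℝ ∞ a x)
    (hb : ContDiffAt ℝ ∞ b x) (w : E2) :
    (fun y => fderiv ℝ (fun z => ⟪a z, b z⟫) y w) =ᶠ[𝓝 x]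
      fun y => ⟪fderiv ℝ a y w, b y⟫ + ⟪a y, fderiv ℝ b y w⟫ := by
  filter_upwards [(AInv_fin ha 1).eventually (by simp), (AInv_fin hb 1).eventually (by simp)]
    with y hy1 hy2
  rw [fderiv_inner_apply ℝ (hy1.differentiableAt (by simp)) (hy2.differentiableAt (by simp)),
    add_comm]

/-- second derivatives of an inner product -/
theorem AInv_inner_second {a b : E2 → V4} {x : E2} (ha : ContDiffAt ℝ ∞ a x)
    (hb : ContDiffAt ℝ ∞ b x) (w v : E2) :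
    fderiv ℝ (fun y => fderiv ℝ (fun z => ⟪a z, b z⟫) y w) x v =
      ⟪fderiv ℝ (fun y => fderiv ℝ a y w) x v, b x⟫ + ⟪fderiv ℝ a x w, fderiv ℝ b x v⟫ +
      (⟪fderiv ℝ a x v, fderiv ℝ b x w⟫ + ⟪a x, fderiv ℝ (fun y => fderiv ℝ b y w) x v⟫) := by
  have ha' := AInv_dir_inf ha w
  have hb' := AInv_dir_inf hb w
  rw [(AInv_inner_ev ha hb w).fderiv_eq]
  have h1 : DifferentiableAt ℝ (fun y => (⟪fderiv ℝ a y w, b y⟫ : ℝ)) x :=
    (AInv_diff ha').inner ℝ (AInv_diff hb)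
  have h2 : DifferentiableAt ℝ (fun y => (⟪a y, fderiv ℝ b y w⟫ : ℝ)) x :=
    (AInv_diff ha).inner ℝ (AInv_diff hb')
  rw [fderiv_fun_add h1 h2, add_apply,
    fderiv_inner_apply ℝ (AInv_diff ha') (AInv_diff hb),
    fderiv_inner_apply ℝ (AInv_diff ha) (AInv_diff hb')]
  ring

/-- Gauss equation: `F_vv·F_ww - |F_vw|² = ∂_v∂_w g_vw - ½ ∂_w² g_vv - ½ ∂_v² g_ww` -/
theorem gauss_id {F : E2 → V4} {x : E2} (hF : ContDiffAt ℝ ∞ F x) (v w : E2) :
    ⟪ddv v F x, ddv w F x⟫ - ‖fderiv ℝ (fun y => fderiv ℝ F y v) x w‖ ^ 2 =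
      fderiv ℝ (fun y => fderiv ℝ (fun z => ⟪fderiv ℝ F z v, fderiv ℝ F z w⟫) y w) x v
      - ddv w (fun y => ⟪fderiv ℝ F y v, fderiv ℝ F y v⟫) x / 2
      - ddv v (fun y => ⟪fderiv ℝ F y w, fderiv ℝ F y w⟫) x / 2 := by
  have hv := AInv_dir_inf hF v
  have hw := AInv_dir_inf hF w
  rw [AInv_inner_second hv hw w v]
  unfold ddv
  rw [AInv_inner_second hv hv w w, AInv_inner_second hw hw v v]
  -- `q = F_vw`
  have e1 : fderiv ℝ (fun y => fderiv ℝ F y w) x v = fderiv ℝ (fun y => fderiv ℝ F y v) x w :=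
    AInv_symm (AInv_fin hF 2) w v
  have s1 := AInv_symm_ev hF v w
  -- `D_v D_w (F_v) = D_v D_v (F_w)`
  have e2 : fderiv ℝ (fun y => fderiv ℝ (fun z => fderiv ℝ F z v) y w) x v =
      fderiv ℝ (fun y => fderiv ℝ (fun z => fderiv ℝ F z w) y v) x v := by
    rw [s1.fderiv_eq]
  have e3 : fderiv ℝ (fun y => fderiv ℝ (fun z => fderiv ℝ F z w) y w) x v =
      fderiv ℝ (fun y => fderiv ℝ (fun z => fderiv ℝ F z v) y w) x w := by
    rw [AInv_symm (AInv_fin hw 2) w v, s1.fderiv_eq]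
  rw [e2, e3, e1]
  have n1 : (⟪fderiv ℝ (fun y => fderiv ℝ F y v) x w, fderiv ℝ (fun y => fderiv ℝ F y v) x w⟫ : ℝ) =
      ‖fderiv ℝ (fun y => fderiv ℝ F y v) x w‖ ^ 2 := real_inner_self_eq_norm_sq _
  have c1 := real_inner_comm (fderiv ℝ F x v)
    (fderiv ℝ (fun y => fderiv ℝ (fun z => fderiv ℝ F z v) y w) x w)
  have c2 := real_inner_comm (fderiv ℝ F x w)
    (fderiv ℝ (fun y => fderiv ℝ (fun z => fderiv ℝ F z w) y v) x v)
  rw [n1]
  linarith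

/-- the four elementary maps in `rotV` -/
def AInv_P1 : V4 →L[ℝ] V4 := LinearMap.toContinuousLinearMap
  { toFun := fun u => !₂[u 0, u 1, 0, 0]
    map_add' := by intro u v; ext i; fin_cases i <;> simp
    map_smul' := by intro c u; ext i; fin_cases i <;> simp }

def AInv_P2 : V4 →L[ℝ] V4 := LinearMap.toContinuousLinearMap
  { toFun := fun u => !₂[u 1, -u 0, 0, 0]
    map_add' := by intro u v; ext i; fin_cases i <;> simp; ring
    map_smul' := by intro c u; ext i; fin_cases i <;> simp }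

def AInv_P3 : V4 →L[ℝ] V4 := LinearMap.toContinuousLinearMap
  { toFun := fun u => !₂[0, 0, u 2, u 3]
    map_add' := by intro u v; ext i; fin_cases i <;> simp
    map_smul' := by intro c u; ext i; fin_cases i <;> simp }

def AInv_P4 : V4 →L[ℝ] V4 := LinearMap.toContinuousLinearMap
  { toFun := fun u => !₂[0, 0, u 3, -u 2]
    map_add' := by intro u v; ext i; fin_cases i <;> simp; ring
    map_smul' := by intro c u; ext i; fin_cases i <;> simp }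

theorem AInv_P1_apply (u : V4) : AInv_P1 u = !₂[u 0, u 1, 0, 0] := rfl
theorem AInv_P2_apply (u : V4) : AInv_P2 u = !₂[u 1, -u 0, 0, 0] := rfl
theorem AInv_P3_apply (u : V4) : AInv_P3 u = !₂[0, 0, u 2, u 3] := rfl
theorem AInv_P4_apply (u : V4) : AInv_P4 u = !₂[0, 0, u 3, -u 2] := rfl

theorem AInv_rotV (a b : ℝ) (u : V4) : rotV a b u =
    Real.cos a • AInv_P1 u + Real.sin a • AInv_P2 u + (Real.cos b • AInv_P3 u
      + Real.sin b • AInv_P4 u) := by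
  rw [AInv_P1_apply, AInv_P2_apply, AInv_P3_apply, AInv_P4_apply]
  unfold rotV
  ext i
  fin_cases i <;> simp
  all_goals ring

/-- the rotation generator composed with the rotation -/
def AInv_G (a b : ℝ) (u : V4) : V4 :=
    (-Real.sin a) • AInv_P1 u + Real.cos a • AInv_P2 u + (Real.sin b • AInv_P3 u
      + (-Real.cos b) • AInv_P4 u)

theorem AInv_G_norm (a b : ℝ) (u : V4) : ‖AInv_G a b u‖ = ‖u‖ := by
  have h : ‖AInv_G a b u‖ ^ 2 = ‖u‖ ^ 2 := by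
    rw [← real_inner_self_eq_norm_sq, ← real_inner_self_eq_norm_sq, TA_inner, TA_inner]
    unfold AInv_G
    rw [AInv_P1_apply, AInv_P2_apply, AInv_P3_apply, AInv_P4_apply]
    simp only [PiLp.add_apply, PiLp.smul_apply, smul_eq_mul]
    simp
    have h1 := Real.sin_sq_add_cos_sq a
    have h2 := Real.sin_sq_add_cos_sq b
    linear_combination (u 0 ^ 2 + u 1 ^ 2) * h1 + (u 2 ^ 2 + u 3 ^ 2) * h2
  exact (sq_eq_sq₀ (norm_nonneg _) (norm_nonneg _)).1 h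

theorem AInv_G_sub (a b : ℝ) (u v : V4) : AInv_G a b (u - v) = AInv_G a b u - AInv_G a b v := by
  unfold AInv_G
  simp only [map_sub, smul_sub]
  abel

theorem AInv_G_add (a b : ℝ) (u v : V4) : AInv_G a b (u + v) = AInv_G a b u + AInv_G a b v := by
  unfold AInv_G
  simp only [map_add, smul_add]
  abel

theorem AInv_G_smul (a b c : ℝ) (u : V4) : AInv_G a b (c • u) = c • AInv_G a b u := by
  unfold AInv_G
  simp only [map_smul, smul_add]
  simp only [smul_comm c]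

theorem AInv_rot_sub (a b : ℝ) (u v : V4) : rotV a b (u - v) = rotV a b u - rotV a b v := by
  simp only [AInv_rotV, map_sub, smul_sub]
  abel

theorem AInv_rot_add (a b : ℝ) (u v : V4) : rotV a b (u + v) = rotV a b u + rotV a b v := by
  simp only [AInv_rotV, map_add, smul_add]
  abel

theorem AInv_rot_smul (a b c : ℝ) (u : V4) : rotV a b (c • u) = c • rotV a b u := by
  simp only [AInv_rotV, map_smul, smul_add]
  simp only [smul_comm c]

/-- the derivative of `slo` -/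
theorem AInv_slo_hasFDerivAt {τ h : ℝ} {u : E2 → V4} {x : E2} (hu : DifferentiableAt ℝ u x) :
    ∃ L : E2 →L[ℝ] V4, HasFDerivAt (fun y => slo τ h y (u y)) L x ∧
      L (bv 1) = slo τ h x (pd 1 u x) +
        (τ / h) • AInv_G ((x.1 + τ * x.2) / h) ((x.1 - τ * x.2) / h) (u x) := by
  have ha : HasFDerivAt (fun y : E2 => (y.1 + τ * y.2) / h)
      (h⁻¹ • (ContinuousLinearMap.fst ℝ ℝ ℝ + τ • ContinuousLinearMap.snd ℝ ℝ ℝ)) x := by
    have h1 : HasFDerivAt (fun y : E2 => y.1 + τ * y.2)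
        (ContinuousLinearMap.fst ℝ ℝ ℝ + τ • ContinuousLinearMap.snd ℝ ℝ ℝ) x :=
      hasFDerivAt_fst.add (hasFDerivAt_snd.const_mul τ)
    exact (h1.const_mul h⁻¹).congr_of_eventuallyEq
      (Filter.Eventually.of_forall fun y => div_eq_inv_mul _ _)
  have hb : HasFDerivAt (fun y : E2 => (y.1 - τ * y.2) / h)
      (h⁻¹ • (ContinuousLinearMap.fst ℝ ℝ ℝ - τ • ContinuousLinearMap.snd ℝ ℝ ℝ)) x := by
    have h1 : HasFDerivAt (fun y : E2 => y.1 - τ * y.2)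
        (ContinuousLinearMap.fst ℝ ℝ ℝ - τ • ContinuousLinearMap.snd ℝ ℝ ℝ) x :=
      hasFDerivAt_fst.sub (hasFDerivAt_snd.const_mul τ)
    exact (h1.const_mul h⁻¹).congr_of_eventuallyEq
      (Filter.Eventually.of_forall fun y => div_eq_inv_mul _ _)
  have hu' := hu.hasFDerivAt
  have t1 := ha.cos.smul (AInv_P1.hasFDerivAt.comp x hu')
  have t2 := ha.sin.smul (AInv_P2.hasFDerivAt.comp x hu')
  have t3 := hb.cos.smul (AInv_P3.hasFDerivAt.comp x hu')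
  have t4 := hb.sin.smul (AInv_P4.hasFDerivAt.comp x hu')
  have t := (t1.add t2).add (t3.add t4)
  refine ⟨_, t.congr_of_eventuallyEq (Filter.Eventually.of_forall fun y => ?_), ?_⟩
  · simp only [slo, AInv_rotV]
    rfl
  · have e1 : (ContinuousLinearMap.fst ℝ ℝ ℝ) (bv 1) = 0 := by simp [bv]
    have e2' : (ContinuousLinearMap.snd ℝ ℝ ℝ) (bv 1) = 1 := by simp [bv]
    simp only [add_apply, FunLike.coe_smul, Pi.smul_apply,
      ContinuousLinearMap.smulRight_apply, ContinuousLinearMap.comp_apply, sub_apply,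
      Function.comp_apply, e1, e2', smul_eq_mul, slo, AInv_rotV, AInv_G, pd]
    simp only [smul_add, smul_smul]
    have e3 : ∀ z : ℝ, z * (h⁻¹ * (0 + τ * 1)) = τ / h * z := by intro z; ring
    have e4 : ∀ z : ℝ, z * (h⁻¹ * (0 - τ * 1)) = τ / h * (-z) := by intro z; ring
    rw [e3, e3, e4, e4, neg_neg]
    abel

theorem AInv_pd_slo {τ h : ℝ} {u : E2 → V4} {x : E2} (hu : DifferentiableAt ℝ u x) :
    pd 1 (fun y => slo τ h y (u y)) x = slo τ h x (pd 1 u x) +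
        (τ / h) • AInv_G ((x.1 + τ * x.2) / h) ((x.1 - τ * x.2) / h) (u x) := by
  obtain ⟨L, h1, h2⟩ := AInv_slo_hasFDerivAt (τ := τ) (h := h) hu
  unfold pd at h2 ⊢
  rw [h1.fderiv, h2]

theorem AInv_slo_norm (τ h : ℝ) (x : E2) (u : V4) : ‖slo τ h x u‖ = ‖u‖ := rotV_norm _ _ _

/-- closeness of the derivatives in the slow frame -/
theorem AInv_slo_close {τ h e e' : ℝ} (hτ : 0 < τ) (hh : 0 < h) {u v : E2 → V4} {x : E2}
    (hu : DifferentiableAt ℝ u x) (hv : DifferentiableAt ℝ v x) (h0 : ‖u x - v x‖ ≤ e)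
    (h1 : ‖pd 1 u x - pd 1 v x‖ ≤ e') :
    ‖pd 1 (fun y => slo τ h y (u y)) x - pd 1 (fun y => slo τ h y (v y)) x‖ ≤
      e' + τ / h * e := by
  rw [AInv_pd_slo hu, AInv_pd_slo hv]
  have e1 : slo τ h x (pd 1 u x) + (τ / h) • AInv_G ((x.1 + τ * x.2) / h) ((x.1 - τ * x.2) / h) (u x)
      - (slo τ h x (pd 1 v x) +
        (τ / h) • AInv_G ((x.1 + τ * x.2) / h) ((x.1 - τ * x.2) / h) (v x)) =
      slo τ h x (pd 1 u x - pd 1 v x) +
        (τ / h) • AInv_G ((x.1 + τ * x.2) / h) ((x.1 - τ * x.2) / h) (u x - v x) := by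
    rw [AInv_G_sub]
    unfold slo
    rw [AInv_rot_sub, smul_sub]
    abel
  rw [e1]
  refine (norm_add_le _ _).trans (add_le_add ?_ ?_)
  · rw [AInv_slo_norm]; exact h1
  · have h2 : 0 < τ / h := div_pos hτ hh
    rw [norm_smul, AInv_G_norm, Real.norm_eq_abs, abs_of_pos h2]
    exact mul_le_mul_of_nonneg_left h0 h2.le

theorem AInv_pd_smul {V : Type} [NormedAddCommGroup V] [NormedSpace ℝ V] (c : ℝ) {u : E2 → V}
    {x : E2} (hu : DifferentiableAt ℝ u x) (k : Fin 2) :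
    pd k (fun y => c • u y) x = c • pd k u x := by
  unfold pd
  rw [fderiv_fun_const_smul hu]
  rfl

theorem AInv_gram_rot (a b : ℝ) (u v w : V4) :
    gram3 (rotV a b u) (rotV a b v) (rotV a b w) = gram3 u v w := by
  unfold gram3
  simp only [rotV_inner]

/-- the derived invariants of `F'` from those of `F`, apart from the first derivative `F'_1` -/
theorem AInv_common {τ h K tol : ℝ} (hτ : 0 < τ) (hh : 0 < h) (hh1 : h < 1) (hK : 1 ≤ K)
    (ht0 : 0 < tol) (ht1 : tol ≤ 1) (ht2 : tol + τ / h * tol ≤ 1) (ht3 : tol + τ * tol ≤ 1)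
    {F F' : E2 → V4} {x : E2} (hF : ContDiffAt ℝ ∞ F x) (hF' : ContDiffAt ℝ ∞ F' x)
    (hI : INV τ h K F x)
    (h1 : ‖pd 1 F' x - pd 1 F x‖ ≤ tol)
    (h2 : ‖pd 1 (pd 1 F') x - pd 1 (pd 1 F) x‖ ≤ tol)
    (h3 : ‖pd 1 (pd 1 (pd 1 F')) x - pd 1 (pd 1 (pd 1 F)) x‖ ≤ tol) :
    ‖pd 1 F' x‖ ≤ K + 1 ∧ ‖h • pd 1 (pd 1 F') x‖ ≤ K + 1 ∧
    ‖pd 1 (fun y => slo τ h y (pd 1 F' y)) x‖ ≤ K + 1 ∧
    ‖pd 1 (fun y => slo τ h y (h • pd 1 (pd 1 F') y)) x‖ ≤ K + 1 := by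
  obtain ⟨i1, i2, i3, i4, i5, i6, i7⟩ := hI
  have d1 := AInv_pd_inf hF 1
  have d1' := AInv_pd_inf hF' 1
  have d2 := AInv_pd_inf d1 1
  have d2' := AInv_pd_inf d1' 1
  have tri : ∀ {a b : V4} {e M : ℝ}, ‖a - b‖ ≤ e → ‖b‖ ≤ M → e ≤ 1 → ‖a‖ ≤ M + 1 := by
    intro a b e M hab hb he
    have : a = (a - b) + b := by abel
    rw [this]
    exact (norm_add_le _ _).trans (by linarith)
  have h2' : ‖h • pd 1 (pd 1 F') x - h • pd 1 (pd 1 F) x‖ ≤ tol := by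
    rw [← smul_sub, norm_smul, Real.norm_eq_abs, abs_of_pos hh]
    nlinarith [norm_nonneg (pd 1 (pd 1 F') x - pd 1 (pd 1 F) x)]
  refine ⟨tri h1 i2 ht1, tri h2' i3 ht1, ?_, ?_⟩
  · exact tri (AInv_slo_close hτ hh (AInv_diff d1') (AInv_diff d1) h1 h2) i5 ht2
  · have h3' : ‖pd 1 (fun y => h • pd 1 (pd 1 F') y) x - pd 1 (fun y => h • pd 1 (pd 1 F) y) x‖ ≤
        tol := by
      rw [AInv_pd_smul h (AInv_diff d2'), AInv_pd_smul h (AInv_diff d2), ← smul_sub, norm_smul,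
        Real.norm_eq_abs, abs_of_pos hh]
      nlinarith [norm_nonneg (pd 1 (pd 1 (pd 1 F')) x - pd 1 (pd 1 (pd 1 F)) x)]
    have h2'' : ‖h • pd 1 (pd 1 F') x - h • pd 1 (pd 1 F) x‖ ≤ h * tol := by
      rw [← smul_sub, norm_smul, Real.norm_eq_abs, abs_of_pos hh]
      exact mul_le_mul_of_nonneg_left h2 hh.le
    refine tri (AInv_slo_close hτ hh ((AInv_diff d2').const_smul h) ((AInv_diff d2).const_smul h)
      h2'' h3') i6 ?_
    have : τ / h * (h * tol) = τ * tol := by field_simp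
    rw [this]
    exact ht3

/-- nondegeneracy under small changes -/
theorem AInv_gram {K tol R : ℝ} (hK : 1 ≤ K) (hR : 1 ≤ R) (ht0 : 0 < tol) (ht1 : tol ≤ 1)
    (ht4 : 2000 * R ^ 5 * K * tol ≤ 1) {a b c a' b' c' : V4} (ha : ‖a‖ ≤ R) (hb : ‖b‖ ≤ R)
    (hc : ‖c‖ ≤ R) (ha' : ‖a' - a‖ ≤ tol) (hb' : ‖b' - b‖ ≤ tol) (hc' : ‖c' - c‖ ≤ tol)
    (hg : 1 ≤ K * gram3 a b c) : 1 ≤ 2 * K * gram3 a' b' c' := by
  have h1 := gram3_sub_le a b c a' b' c' R tol ha hb hc ha' hb' hc' ht1 hR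
  have h2 := (abs_le.1 h1).1
  have h3 : K * (gram3 a b c - 1000 * R ^ 5 * tol) ≤ K * gram3 a' b' c' :=
    mul_le_mul_of_nonneg_left (by linarith) (by linarith)
  nlinarith

/-- the tolerance -/
theorem AInv_tol {τ K R : ℝ} (hτ : 0 < τ) (hK : 1 ≤ K) (hR : 1 ≤ R) {h : ℝ} (hh : 0 < h) :
    ∃ tol : ℝ, 0 < tol ∧ tol ≤ 1 ∧ tol + τ / h * tol ≤ 1 ∧ tol + τ * tol ≤ 1 ∧
      2000 * R ^ 5 * K * tol ≤ 1 := by
  have h1 : 0 < τ / h := div_pos hτ hh
  have h2 : 0 < 2000 * R ^ 5 * K := by positivity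
  refine ⟨(1 + τ / h + τ + 2000 * R ^ 5 * K)⁻¹, by positivity, ?_, ?_, ?_, ?_⟩
  · exact inv_le_one_of_one_le₀ (by linarith)
  · have h3 : 0 < 1 + τ / h + τ + 2000 * R ^ 5 * K := by positivity
    rw [← one_add_mul, ← div_eq_mul_inv, div_le_one h3]
    linarith
  · have h3 : 0 < 1 + τ / h + τ + 2000 * R ^ 5 * K := by positivity
    rw [← one_add_mul, ← div_eq_mul_inv, div_le_one h3]
    linarith
  · have h3 : 0 < 1 + τ / h + τ + 2000 * R ^ 5 * K := by positivity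
    rw [← div_eq_mul_inv, div_le_one h3]
    linarith

/-- the compact set of the arguments of `F0` -/
def AInv_C (K : ℝ) : Set ((V4 × V4 × V4) × ℝ × ℝ) :=
  {q | ‖q‖ ≤ K ∧ 1 ≤ K * gram3 q.1.1 q.1.2.1 q.1.2.2}

theorem AInv_gram_cont : Continuous (fun q : (V4 × V4 × V4) × ℝ × ℝ =>
    gram3 q.1.1 q.1.2.1 q.1.2.2) := by
  unfold gram3
  fun_prop

theorem AInv_C_compact (K : ℝ) : IsCompact (AInv_C K) := by
  refine Metric.isCompact_of_isClosed_isBounded ?_ ?_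
  · exact (isClosed_le continuous_norm continuous_const).inter
      (isClosed_le continuous_const (continuous_const.mul AInv_gram_cont))
  · refine (Metric.isBounded_closedBall (x := (0 : (V4 × V4 × V4) × ℝ × ℝ)) (r := K)).subset ?_
    intro q hq
    rw [mem_closedBall_zero_iff]
    exact hq.1

theorem AInv_bound {tf : ℝ → ℝ} (htf : ContDiff ℝ ∞ tf) {K : ℝ} (hK : 1 ≤ K) :
    ∃ D : ℝ, 0 ≤ D ∧ ∀ q ∈ AInv_C K, ‖fderiv ℝ (fun q : (V4 × V4 × V4) × ℝ × ℝ =>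
      F0 tf q.1.1 q.1.2.1 q.1.2.2 q.2.1 q.2.2) q‖ ≤ D := by
  have hopen : IsOpen {q : (V4 × V4 × V4) × ℝ × ℝ | 0 < gram3 q.1.1 q.1.2.1 q.1.2.2} :=
    isOpen_lt continuous_const AInv_gram_cont
  have h1 := (contDiffOn_F0 htf).continuousOn_fderiv_of_isOpen hopen (by simp)
  have hsub : AInv_C K ⊆ {q : (V4 × V4 × V4) × ℝ × ℝ | 0 < gram3 q.1.1 q.1.2.1 q.1.2.2} := by
    intro q hq
    have h2 := hq.2
    have h3 : 0 < K := by linarith
    exact (mul_pos_iff_of_pos_left h3).1 (by linarith)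
  obtain ⟨D, hD⟩ := (AInv_C_compact K).exists_bound_of_continuousOn (h1.mono hsub)
  exact ⟨max D 0, le_max_right _ _, fun q hq => (hD q hq).trans (le_max_left _ _)⟩

theorem AInv_slo_smul (τ h c : ℝ) (x : E2) (u : V4) : slo τ h x (c • u) = c • slo τ h x u :=
  AInv_rot_smul _ _ _ _

/-- the slow derivative of the output of `F0` -/
theorem AInv_F0_slow {tf : ℝ → ℝ} (htf : ContDiff ℝ ∞ tf) {τ h K D c : ℝ} (hh : 0 < h)
    (hK : 1 ≤ K) (hc : c ∈ Icc (-1 : ℝ) 1)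
    (hD : ∀ q ∈ AInv_C K, ‖fderiv ℝ (fun q : (V4 × V4 × V4) × ℝ × ℝ =>
      F0 tf q.1.1 q.1.2.1 q.1.2.2 q.2.1 q.2.2) q‖ ≤ D)
    {F : E2 → V4} {a : E2 → ℝ} {x : E2} (hF : ContDiffAt ℝ ∞ F x) (ha : ContDiffAt ℝ ∞ a x)
    (hI : INV τ h K F x) (ha0 : |a x| ≤ K) (ha1 : |pd 1 a x| ≤ K) :
    ‖pd 1 (fun y => slo τ h y (F0 tf (pd 0 F y) (pd 1 F y) (pd 1 (pd 1 F) y) (a y) c)) x‖
      ≤ D * K := by
  obtain ⟨i1, i2, i3, i4, i5, i6, i7⟩ := hI
  have d0 := AInv_diff (AInv_pd_inf hF 0)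
  have d1 := AInv_diff (AInv_pd_inf hF 1)
  have d2 := AInv_diff (AInv_pd_inf (AInv_pd_inf hF 1) 1)
  have d2h : DifferentiableAt ℝ (fun y => h • pd 1 (pd 1 F) y) x := d2.const_smul h
  obtain ⟨L0, l0, m0⟩ := AInv_slo_hasFDerivAt (τ := τ) (h := h) d0
  obtain ⟨L1, l1, m1⟩ := AInv_slo_hasFDerivAt (τ := τ) (h := h) d1
  obtain ⟨L2, l2, m2⟩ := AInv_slo_hasFDerivAt (τ := τ) (h := h) d2h
  rw [← AInv_pd_slo d0] at m0
  rw [← AInv_pd_slo d1] at m1
  rw [← AInv_pd_slo d2h] at m2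
  have hah := (AInv_diff ha).hasFDerivAt
  have hq := (l0.prodMk (l1.prodMk l2)).prodMk (hah.prodMk (hasFDerivAt_const c x))
  set q : E2 → (V4 × V4 × V4) × ℝ × ℝ := fun y =>
    ((slo τ h y (pd 0 F y), slo τ h y (pd 1 F y), slo τ h y (h • pd 1 (pd 1 F) y)), (a y, c))
    with hqdef
  have hfun : (fun y => slo τ h y (F0 tf (pd 0 F y) (pd 1 F y) (pd 1 (pd 1 F) y) (a y) c)) =
      (fun q : (V4 × V4 × V4) × ℝ × ℝ => F0 tf q.1.1 q.1.2.1 q.1.2.2 q.2.1 q.2.2) ∘ q := by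
    funext y
    simp only [Function.comp_apply, hqdef]
    rw [AInv_slo_smul, F0_smul3 tf hh]
    unfold slo
    rw [F0_rotV]
  have hxC : q x ∈ AInv_C K := by
    constructor
    · simp only [hqdef, Prod.norm_def, AInv_slo_norm]
      have hc1 : ‖c‖ ≤ K := by
        rw [Real.norm_eq_abs]
        exact (abs_le.2 hc).trans hK
      exact max_le (max_le i1 (max_le i2 i3)) (max_le ha0 hc1)
    · simp only [hqdef]
      unfold slo
      rw [AInv_gram_rot]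
      exact i7
  have hopen : IsOpen {q : (V4 × V4 × V4) × ℝ × ℝ | 0 < gram3 q.1.1 q.1.2.1 q.1.2.2} :=
    isOpen_lt continuous_const AInv_gram_cont
  have hxU : q x ∈ {q : (V4 × V4 × V4) × ℝ × ℝ | 0 < gram3 q.1.1 q.1.2.1 q.1.2.2} := by
    have h2 := hxC.2
    exact (mul_pos_iff_of_pos_left (by linarith : 0 < K)).1 (by linarith)
  have hΦ := (((contDiffOn_F0 htf).contDiffAt (hopen.mem_nhds hxU)).differentiableAt
    (by simp)).hasFDerivAt
  have hcomp := hΦ.comp x hq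
  rw [hfun]
  unfold pd
  rw [hcomp.fderiv, ContinuousLinearMap.comp_apply]
  refine (ContinuousLinearMap.le_opNorm _ _).trans ?_
  refine mul_le_mul (hD _ hxC) ?_ (norm_nonneg _) ((norm_nonneg _).trans (hD _ hxC))
  simp only [ContinuousLinearMap.prod_apply, Prod.norm_def]
  rw [m0, m1, m2]
  refine max_le (max_le i4 (max_le i5 i6)) (max_le ha1 ?_)
  simp only [zero_apply, norm_zero]
  linarith

/-- propagation of the invariant; `K'` does not depend on `h`.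
Proof: `slo y (F0[F_1, F_2, F_22, a, c](y)) = F0[slo F_1, slo F_2, slo (h F_22), a, c](y)` (`F0_rotV`,
`F0_smul3`), so its `x₂`-derivative at `x` is `DF0` applied to the `x₂`-derivatives of the arguments
(`c` constant); `DF0` and `F0` are bounded on the compact set
`{|u_i| ≤ K, gram3 ≥ 1/K, |a| ≤ K, |c| ≤ 1}`.  Errors: `tol · C / h`.  `gram3` by `gram3_F0`. -/
theorem inv_prop {tf : ℝ → ℝ} (htf : ContDiff ℝ ∞ tf) {τ K : ℝ} (hτ : 0 < τ) (hK : 1 ≤ K) :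
    ∃ K' : ℝ, K ≤ K' ∧ ∀ h ∈ Ioo (0 : ℝ) 1, ∃ tol : ℝ, 0 < tol ∧ ∀ (F F' : E2 → V4) (a : E2 → ℝ)
      (x : E2), ContDiffAt ℝ ∞ F x → ContDiffAt ℝ ∞ F' x → ContDiffAt ℝ ∞ a x → INV τ h K F x →
      |a x| ≤ K → |pd 1 a x| ≤ K → StageCl tf F F' a tol x → INV τ h K' F' x := by
  obtain ⟨D, hD0, hD⟩ := AInv_bound htf hK
  refine ⟨2 * K + 2 + D * K, by nlinarith, fun h hh => ?_⟩
  obtain ⟨tol, t0, t1, t2, t3, t4⟩ := AInv_tol (R := 2 * K) hτ hK (by linarith) hh.1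
  refine ⟨tol, t0, fun F F' a x hF hF' ha hI ha0 ha1 hS => ?_⟩
  obtain ⟨s1, s2, s3, c, hc, s4, s5⟩ := hS
  obtain ⟨c2, c3, c5, c6⟩ := AInv_common hτ hh.1 hh.2 hK t0 t1 t2 t3 hF hF' hI s1 s2 s3
  have hI' := hI
  obtain ⟨i1, i2, i3, i4, i5, i6, i7⟩ := hI'
  have hDK : 0 ≤ D * K := by positivity
  have hg3 : 0 < gram3 (pd 0 F x) (pd 1 F x) (h • pd 1 (pd 1 F) x) :=
    (mul_pos_iff_of_pos_left (by linarith : 0 < K)).1 (by linarith)
  have hg3' : 0 < gram3 (pd 0 F x) (pd 1 F x) (pd 1 (pd 1 F) x) := by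
    rw [gram3_smul] at hg3
    exact (mul_pos_iff_of_pos_left (by have := hh.1; positivity)).1 hg3
  have hn := (norm_F0 tf hg3' (a x) c).1
  have hn' : ‖F0 tf (pd 0 F x) (pd 1 F x) (pd 1 (pd 1 F) x) (a x) c‖ ≤ 2 * K := by
    have e1 : ‖pd 0 F x‖ ^ 2 ≤ K ^ 2 := pow_le_pow_left₀ (norm_nonneg _) i1 2
    have e2 : (a x) ^ 2 ≤ K ^ 2 := sq_le_sq' (by linarith [(abs_le.1 ha0).1]) (abs_le.1 ha0).2
    nlinarith [norm_nonneg (F0 tf (pd 0 F x) (pd 1 F x) (pd 1 (pd 1 F) x) (a x) c)]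
  have tri : ∀ {a b : V4} {e M : ℝ}, ‖a - b‖ ≤ e → ‖b‖ ≤ M → e ≤ 1 → ‖a‖ ≤ M + 1 := by
    intro a b e M hab hb he
    have : a = (a - b) + b := by abel
    rw [this]
    exact (norm_add_le _ _).trans (by linarith)
  refine ⟨?_, ?_, ?_, ?_, ?_, ?_, ?_⟩
  · have := tri s4 hn' t1
    linarith
  · linarith
  · linarith
  · -- the slow derivative of `F'_1`
    have d0' := AInv_diff (AInv_pd_inf hF' 0)
    have hG : DifferentiableAt ℝ
        (fun y => F0 tf (pd 0 F y) (pd 1 F y) (pd 1 (pd 1 F) y) (a y) c) x := by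
      have hopen : IsOpen {q : (V4 × V4 × V4) × ℝ × ℝ | 0 < gram3 q.1.1 q.1.2.1 q.1.2.2} :=
        isOpen_lt continuous_const AInv_gram_cont
      have hΦ := ((contDiffOn_F0 htf).contDiffAt (x := ((pd 0 F x, pd 1 F x, pd 1 (pd 1 F) x),
        (a x, c))) (hopen.mem_nhds hg3')).differentiableAt (by simp)
      have d0 := AInv_diff (AInv_pd_inf hF 0)
      have d1 := AInv_diff (AInv_pd_inf hF 1)
      have d2 := AInv_diff (AInv_pd_inf (AInv_pd_inf hF 1) 1)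
      have hq : DifferentiableAt ℝ (fun y => (((pd 0 F y, pd 1 F y, pd 1 (pd 1 F) y),
        (a y, c)) : (V4 × V4 × V4) × ℝ × ℝ)) x :=
        (d0.prodMk (d1.prodMk d2)).prodMk ((AInv_diff ha).prodMk (differentiableAt_const c))
      exact DifferentiableAt.comp (f := fun y => (((pd 0 F y, pd 1 F y, pd 1 (pd 1 F) y),
        (a y, c)) : (V4 × V4 × V4) × ℝ × ℝ)) x hΦ hq
    have h1 := AInv_slo_close hτ hh.1 d0' hG s4 s5
    have h2 := AInv_F0_slow htf hh.1 hK hc hD hF ha hI ha0 ha1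
    have := tri h1 h2 t2
    linarith
  · linarith
  · linarith
  · have e1 := gram3_F0 tf hg3' (a x) c
    have e2 : gram3 (pd 0 F x) (pd 1 F x) (h • pd 1 (pd 1 F) x) ≤
        gram3 (F0 tf (pd 0 F x) (pd 1 F x) (pd 1 (pd 1 F) x) (a x) c) (pd 1 F x)
          (h • pd 1 (pd 1 F) x) := by
      rw [gram3_smul, gram3_smul]
      exact mul_le_mul_of_nonneg_left e1 (sq_nonneg h)
    have e3 : 1 ≤ K * gram3 (F0 tf (pd 0 F x) (pd 1 F x) (pd 1 (pd 1 F) x) (a x) c) (pd 1 F x)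
          (h • pd 1 (pd 1 F) x) :=
      i7.trans (mul_le_mul_of_nonneg_left e2 (by linarith))
    have s2' : ‖h • pd 1 (pd 1 F') x - h • pd 1 (pd 1 F) x‖ ≤ tol := by
      rw [← smul_sub, norm_smul, Real.norm_eq_abs, abs_of_pos hh.1]
      nlinarith [norm_nonneg (pd 1 (pd 1 F') x - pd 1 (pd 1 F) x), hh.1, hh.2]
    have e4 := AInv_gram hK (R := 2 * K) (by linarith) t0 t1 t4 hn' (by linarith) (by linarith)
      s4 s1 s2' e3
    have e5 := gram3_nonneg (pd 0 F' x) (pd 1 F' x) (h • pd 1 (pd 1 F') x)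
    nlinarith

theorem AInv_norm_pd {V : Type} [NormedAddCommGroup V] [NormedSpace ℝ V] {f : E2 → V} {x : E2}
    (hf : ContDiffAt ℝ ∞ f x) (j : ℕ) (k : Fin 2) :
    ‖iteratedFDeriv ℝ j (pd k f) x‖ ≤ ‖iteratedFDeriv ℝ (j + 1) f x‖ := by
  have h1 : ContDiffAt ℝ j (fderiv ℝ f) x := (AInv_fin hf (j + 1)).fderiv_right (by simp)
  have h2 := (ContinuousLinearMap.apply ℝ V (bv k)).norm_iteratedFDeriv_comp_left h1 le_rfl
  have h3 : ‖ContinuousLinearMap.apply ℝ V (bv k)‖ ≤ 1 := by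
    refine ContinuousLinearMap.opNorm_le_bound _ zero_le_one fun L => ?_
    rw [ContinuousLinearMap.apply_apply, one_mul]
    refine (L.le_opNorm _).trans ?_
    have := norm_bv_le k
    nlinarith [norm_nonneg L]
  rw [← norm_iteratedFDeriv_fderiv]
  refine h2.trans ?_
  nlinarith [norm_nonneg (iteratedFDeriv ℝ j (fderiv ℝ f) x)]

theorem AInv_pd_sub {V : Type} [NormedAddCommGroup V] [NormedSpace ℝ V] {f g : E2 → V} {x : E2}
    (hf : ContDiffAt ℝ ∞ f x) (hg : ContDiffAt ℝ ∞ g x) (k : Fin 2) :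
    pd k (fun y => f y - g y) =ᶠ[𝓝 x] fun y => pd k f y - pd k g y := by
  filter_upwards [(AInv_fin hf 1).eventually (by simp), (AInv_fin hg 1).eventually (by simp)]
    with y h1 h2
  unfold pd
  rw [fderiv_fun_sub (h1.differentiableAt (by simp)) (h2.differentiableAt (by simp))]
  rfl

/-- `C³`-small perturbations -/
theorem inv_prop0 {τ K : ℝ} (hτ : 0 < τ) (hK : 1 ≤ K) :
    ∀ h ∈ Ioo (0 : ℝ) 1, ∃ tol : ℝ, 0 < tol ∧ ∀ (F F' : E2 → V4) (x : E2), ContDiffAt ℝ ∞ F x →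
      ContDiffAt ℝ ∞ F' x → INV τ h K F x →
      (∀ j ≤ 3, ‖iteratedFDeriv ℝ j (F' - F) x‖ ≤ tol) → INV τ h (2 * K) F' x := by
  intro h hh
  obtain ⟨tol, t0, t1, t2, t3, t4⟩ := AInv_tol (R := K) hτ hK hK hh.1
  refine ⟨tol, t0, fun F F' x hF hF' hI hj => ?_⟩
  have hS : ContDiffAt ℝ ∞ (F' - F) x := hF'.sub hF
  have hS1 := AInv_pd_inf hS 1
  have hS0 := AInv_pd_inf hS 0
  have hS11 := AInv_pd_inf hS1 1
  have E : ∀ k, pd k (F' - F) =ᶠ[𝓝 x] fun y => pd k F' y - pd k F y := AInv_pd_sub hF' hF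
  have e0 : pd 0 (F' - F) x = pd 0 F' x - pd 0 F x := (E 0).eq_of_nhds
  have e1 : pd 1 (F' - F) x = pd 1 F' x - pd 1 F x := (E 1).eq_of_nhds
  have E2' : ∀ k, pd 1 (pd k (F' - F)) =ᶠ[𝓝 x] fun y => pd 1 (pd k F') y - pd 1 (pd k F) y := by
    intro k
    have h1 := (E k).fderiv (𝕜 := ℝ)
    have h2 := AInv_pd_sub (AInv_pd_inf hF' k) (AInv_pd_inf hF k) 1
    filter_upwards [h1, h2] with y hy1 hy2
    rw [← hy2]
    unfold pd at hy1 ⊢
    rw [hy1]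
  have e10 : pd 1 (pd 0 (F' - F)) x = pd 1 (pd 0 F') x - pd 1 (pd 0 F) x := (E2' 0).eq_of_nhds
  have e11 : pd 1 (pd 1 (F' - F)) x = pd 1 (pd 1 F') x - pd 1 (pd 1 F) x := (E2' 1).eq_of_nhds
  have e111 : pd 1 (pd 1 (pd 1 (F' - F))) x = pd 1 (pd 1 (pd 1 F')) x - pd 1 (pd 1 (pd 1 F)) x := by
    have h1 := (E2' 1).fderiv_eq (𝕜 := ℝ)
    have h2 := (AInv_pd_sub (AInv_pd_inf (AInv_pd_inf hF' 1) 1)
      (AInv_pd_inf (AInv_pd_inf hF 1) 1) 1).eq_of_nhds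
    rw [← h2]
    conv_lhs => unfold pd
    conv_rhs => unfold pd
    unfold pd at h1
    rw [h1]
  have n0 : ‖pd 0 (F' - F) x‖ ≤ tol := by
    have := (AInv_norm_pd hS 0 0).trans (hj 1 (by norm_num))
    rwa [norm_iteratedFDeriv_zero] at this
  have n1 : ‖pd 1 (F' - F) x‖ ≤ tol := by
    have := (AInv_norm_pd hS 0 1).trans (hj 1 (by norm_num))
    rwa [norm_iteratedFDeriv_zero] at this
  have n10 : ‖pd 1 (pd 0 (F' - F)) x‖ ≤ tol := by
    have := ((AInv_norm_pd hS0 0 1).trans (AInv_norm_pd hS 1 0)).trans (hj 2 (by norm_num))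
    rwa [norm_iteratedFDeriv_zero] at this
  have n11 : ‖pd 1 (pd 1 (F' - F)) x‖ ≤ tol := by
    have := ((AInv_norm_pd hS1 0 1).trans (AInv_norm_pd hS 1 1)).trans (hj 2 (by norm_num))
    rwa [norm_iteratedFDeriv_zero] at this
  have n111 : ‖pd 1 (pd 1 (pd 1 (F' - F))) x‖ ≤ tol := by
    have := (((AInv_norm_pd hS11 0 1).trans (AInv_norm_pd hS1 1 1)).trans
      (AInv_norm_pd hS 2 1)).trans (hj 3 (by norm_num))
    rwa [norm_iteratedFDeriv_zero] at this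
  rw [e0] at n0
  rw [e1] at n1
  rw [e10] at n10
  rw [e11] at n11
  rw [e111] at n111
  obtain ⟨c2, c3, c5, c6⟩ := AInv_common hτ hh.1 hh.2 hK t0 t1 t2 t3 hF hF' hI n1 n11 n111
  obtain ⟨i1, i2, i3, i4, i5, i6, i7⟩ := hI
  have tri : ∀ {a b : V4} {e M : ℝ}, ‖a - b‖ ≤ e → ‖b‖ ≤ M → e ≤ 1 → ‖a‖ ≤ M + 1 := by
    intro a b e M hab hb he
    have : a = (a - b) + b := by abel
    rw [this]
    exact (norm_add_le _ _).trans (by linarith)
  refine ⟨?_, ?_, ?_, ?_, ?_, ?_, ?_⟩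
  · have := tri n0 i1 t1
    linarith
  · linarith
  · linarith
  · have h1 := AInv_slo_close hτ hh.1 (AInv_diff (AInv_pd_inf hF' 0))
      (AInv_diff (AInv_pd_inf hF 0)) n0 n10
    have := tri h1 i4 t2
    linarith
  · linarith
  · linarith
  · have s2' : ‖h • pd 1 (pd 1 F') x - h • pd 1 (pd 1 F) x‖ ≤ tol := by
      rw [← smul_sub, norm_smul, Real.norm_eq_abs, abs_of_pos hh.1]
      nlinarith [norm_nonneg (pd 1 (pd 1 F') x - pd 1 (pd 1 F) x), hh.1, hh.2]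
    exact AInv_gram hK hK t0 t1 t4 i1 i2 i3 n0 n1 s2' i7

/-- quadratic expressions in `v`, `‖v‖ ≤ 1`, with coefficients bounded by `K` -/
theorem AInv_quad {K p q a b c d : ℝ} (hp : |p| ≤ K) (hq : |q| ≤ K) (ha : |a| ≤ 1) (hb : |b| ≤ 1)
    (hc : |c| ≤ 1) (hd : |d| ≤ 1) : |a * b * p + c * d * q| ≤ 2 * K := by
  have h1 : |a * b| ≤ 1 := by rw [abs_mul]; exact mul_le_one₀ ha (abs_nonneg _) hb
  have h2 : |c * d| ≤ 1 := by rw [abs_mul]; exact mul_le_one₀ hc (abs_nonneg _) hd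
  refine (abs_add_le _ _).trans ?_
  rw [abs_mul (a * b), abs_mul (c * d)]
  nlinarith [abs_nonneg p, abs_nonneg q, abs_nonneg (a * b), abs_nonneg (c * d)]

/-- first and second partial derivatives at `x` bounded by `K` -/
def AInv_B (K : ℝ) (x : E2) (G : E2 → ℝ) : Prop :=
  ContDiffAt ℝ ∞ G x ∧ (∀ k, |pd k G x| ≤ K) ∧ ∀ k l, |pd l (pd k G) x| ≤ K

theorem AInv_B_add {K K' : ℝ} {x : E2} {G H : E2 → ℝ} (hG : AInv_B K x G) (hH : AInv_B K' x H) :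
    AInv_B (K + K') x (fun y => G y + H y) := by
  have ev : ∀ k, pd k (fun y => G y + H y) =ᶠ[𝓝 x] fun y => pd k G y + pd k H y := by
    intro k
    filter_upwards [(AInv_fin hG.1 1).eventually (by simp), (AInv_fin hH.1 1).eventually (by simp)]
      with y h1 h2
    unfold pd
    rw [fderiv_fun_add (h1.differentiableAt (by simp)) (h2.differentiableAt (by simp))]
    rfl
  refine ⟨hG.1.add hH.1, fun k => ?_, fun k l => ?_⟩
  · rw [(ev k).eq_of_nhds]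
    exact (abs_add_le _ _).trans (add_le_add (hG.2.1 k) (hH.2.1 k))
  · have h1 : pd l (pd k (fun y => G y + H y)) x = pd l (pd k G) x + pd l (pd k H) x := by
      have e1 : pd l (pd k (fun y => G y + H y)) x = pd l (fun y => pd k G y + pd k H y) x := by
        unfold pd
        have := (ev k).fderiv_eq (𝕜 := ℝ)
        unfold pd at this
        rw [this]
      rw [e1]
      show fderiv ℝ (fun y => pd k G y + pd k H y) x (bv l) =
        fderiv ℝ (pd k G) x (bv l) + fderiv ℝ (pd k H) x (bv l)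
      rw [fderiv_fun_add (AInv_diff (AInv_pd_inf hG.1 k)) (AInv_diff (AInv_pd_inf hH.1 k))]
      rfl
    rw [h1]
    exact (abs_add_le _ _).trans (add_le_add (hG.2.2 k l) (hH.2.2 k l))

theorem AInv_B_mul {K c : ℝ} {x : E2} {G : E2 → ℝ} (hc : |c| ≤ 1) (hG : AInv_B K x G) :
    AInv_B K x (fun y => c * G y) := by
  have ev : ∀ k, pd k (fun y => c * G y) =ᶠ[𝓝 x] fun y => c * pd k G y := by
    intro k
    filter_upwards [(AInv_fin hG.1 1).eventually (by simp)] with y h1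
    have := AInv_pd_smul c (h1.differentiableAt (by simp)) k
    simpa only [smul_eq_mul] using this
  have hb : ∀ z : ℝ, |z| ≤ K → |c * z| ≤ K := by
    intro z hz
    rw [abs_mul]
    nlinarith [abs_nonneg z, abs_nonneg c]
  refine ⟨contDiffAt_const.mul hG.1, fun k => ?_, fun k l => ?_⟩
  · rw [(ev k).eq_of_nhds]
    exact hb _ (hG.2.1 k)
  · have h1 : pd l (pd k (fun y => c * G y)) x = c * pd l (pd k G) x := by
      have e1 : pd l (pd k (fun y => c * G y)) x = pd l (fun y => c * pd k G y) x := by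
        unfold pd
        have := (ev k).fderiv_eq (𝕜 := ℝ)
        unfold pd at this
        rw [this]
      rw [e1]
      have := AInv_pd_smul c (AInv_diff (AInv_pd_inf hG.1 k)) l
      simpa only [smul_eq_mul] using this
    rw [h1]
    exact hb _ (hG.2.2 k l)

theorem AInv_comp_le {v : E2} (h : ‖v‖ ≤ 1) : |v.1| ≤ 1 ∧ |v.2| ≤ 1 :=
  ⟨(norm_fst_le v).trans h, (norm_snd_le v).trans h⟩

/-- linear forms -/
theorem AInv_lin {K : ℝ} (L : E2 →L[ℝ] ℝ) (h0 : |L (bv 0)| ≤ K) (h1 : |L (bv 1)| ≤ K) {u : E2}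
    (hu : ‖u‖ ≤ 1) : |L u| ≤ 2 * K := by
  obtain ⟨u1, u2⟩ := AInv_comp_le hu
  rw [MD2_app L u, smul_eq_mul, smul_eq_mul]
  refine (abs_add_le _ _).trans ?_
  rw [abs_mul, abs_mul]
  nlinarith [abs_nonneg (L (bv 0)), abs_nonneg (L (bv 1)), abs_nonneg u.1, abs_nonneg u.2]

theorem AInv_B_first {K : ℝ} {x : E2} {G : E2 → ℝ} (hG : AInv_B K x G) {u : E2} (hu : ‖u‖ ≤ 1) :
    |fderiv ℝ G x u| ≤ 2 * K := AInv_lin _ (hG.2.1 0) (hG.2.1 1) hu

theorem AInv_B_second {K : ℝ} {x : E2} {G : E2 → ℝ} (hG : AInv_B K x G) {u w : E2} (hu : ‖u‖ ≤ 1)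
    (hw : ‖w‖ ≤ 1) : |fderiv ℝ (fun y => fderiv ℝ G y u) x w| ≤ 4 * K := by
  have h2 := AInv_fin hG.1 2
  have e : ∀ u w : E2, fderiv ℝ (fun y => fderiv ℝ G y u) x w = (fderiv ℝ (fderiv ℝ G) x w) u :=
    fun u w => AInv_second h2 u w
  have k1 : ∀ l : Fin 2, |(fderiv ℝ (fderiv ℝ G) x (bv l)) u| ≤ 2 * K := by
    intro l
    refine AInv_lin _ ?_ ?_ hu
    · rw [← e]; exact hG.2.2 0 l
    · rw [← e]; exact hG.2.2 1 l
  rw [e]
  obtain ⟨w1, w2⟩ := AInv_comp_le hw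
  have h3 : (fderiv ℝ (fderiv ℝ G) x w) u =
      w.1 * (fderiv ℝ (fderiv ℝ G) x (bv 0)) u + w.2 * (fderiv ℝ (fderiv ℝ G) x (bv 1)) u := by
    rw [MD2_app (fderiv ℝ (fderiv ℝ G) x) w]
    rfl
  rw [h3]
  refine (abs_add_le _ _).trans ?_
  rw [abs_mul, abs_mul]
  have a0 := k1 0
  have a1 := k1 1
  nlinarith [abs_nonneg ((fderiv ℝ (fderiv ℝ G) x (bv 0)) u),
    abs_nonneg ((fderiv ℝ (fderiv ℝ G) x (bv 1)) u), abs_nonneg w.1, abs_nonneg w.2]

theorem AInv_metr (F : E2 → V4) (y v w : E2) :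
    metrU F y v w = ⟪fderiv ℝ F y v, fderiv ℝ F y w⟫ := rfl

/-- inner products of directional derivatives in terms of the metric -/
theorem AInv_inner_comb (F : E2 → V4) (y v w : E2) :
    (⟪fderiv ℝ F y v, fderiv ℝ F y w⟫ : ℝ) =
      ((v.1 * w.1) * metrU F y (bv 0) (bv 0) + (v.1 * w.2) * metrU F y (bv 0) (bv 1)) +
      ((v.2 * w.1) * metrU F y (bv 1) (bv 0) + (v.2 * w.2) * metrU F y (bv 1) (bv 1)) := by
  simp only [AInv_metr]
  rw [MD2_app (fderiv ℝ F y) v, MD2_app (fderiv ℝ F y) w]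
  simp only [inner_add_left, inner_add_right, real_inner_smul_left, real_inner_smul_right]
  ring

theorem AInv_B_inner {K : ℝ} {F : E2 → V4} {x : E2} (hF : ContDiffAt ℝ ∞ F x)
    (hm : ∀ i j k l : Fin 2, |pd k (fun y => metrU F y (bv i) (bv j)) x| ≤ K ∧
        |pd l (pd k (fun y => metrU F y (bv i) (bv j))) x| ≤ K) {v w : E2} (hv : ‖v‖ ≤ 1)
    (hw : ‖w‖ ≤ 1) :
    AInv_B (4 * K) x (fun y => ⟪fderiv ℝ F y v, fderiv ℝ F y w⟫) := by
  obtain ⟨v1, v2⟩ := AInv_comp_le hv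
  obtain ⟨w1, w2⟩ := AInv_comp_le hw
  have hb : ∀ i j : Fin 2, AInv_B K x (fun y => metrU F y (bv i) (bv j)) := fun i j =>
    ⟨(AInv_dir_inf hF (bv i)).inner ℝ (AInv_dir_inf hF (bv j)), fun k => (hm i j k 0).1,
      fun k l => (hm i j k l).2⟩
  have hmul : ∀ {a b : ℝ}, |a| ≤ 1 → |b| ≤ 1 → |a * b| ≤ 1 := by
    intro a b ha hb
    rw [abs_mul]
    exact mul_le_one₀ ha (abs_nonneg _) hb
  have h := AInv_B_add
    (AInv_B_add (AInv_B_mul (hmul v1 w1) (hb 0 0)) (AInv_B_mul (hmul v1 w2) (hb 0 1)))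
    (AInv_B_add (AInv_B_mul (hmul v2 w1) (hb 1 0)) (AInv_B_mul (hmul v2 w2) (hb 1 1)))
  have e1 : (fun y => (⟪fderiv ℝ F y v, fderiv ℝ F y w⟫ : ℝ)) = fun y =>
      ((v.1 * w.1) * metrU F y (bv 0) (bv 0) + (v.1 * w.2) * metrU F y (bv 0) (bv 1)) +
      ((v.2 * w.1) * metrU F y (bv 1) (bv 0) + (v.2 * w.2) * metrU F y (bv 1) (bv 1)) := by
    funext y
    exact AInv_inner_comb F y v w
  rw [e1]
  have e2 : 4 * K = K + K + (K + K) := by ring
  rw [e2]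
  exact h

/-- Christoffel symbols -/
theorem AInv_chr {K : ℝ} {F : E2 → V4} {x : E2} (hF : ContDiffAt ℝ ∞ F x)
    (hm : ∀ i j k l : Fin 2, |pd k (fun y => metrU F y (bv i) (bv j)) x| ≤ K ∧
        |pd l (pd k (fun y => metrU F y (bv i) (bv j))) x| ≤ K) {v w : E2} (hv : ‖v‖ ≤ 1)
    (hw : ‖w‖ ≤ 1) : |(⟪ddv v F x, fderiv ℝ F x w⟫ : ℝ)| ≤ 12 * K := by
  have b1 := AInv_B_first (AInv_B_inner hF hm hv hw) hv
  have b2 := AInv_B_first (AInv_B_inner hF hm hv hv) hw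
  have dv := AInv_diff (AInv_dir_inf hF v)
  have dw := AInv_diff (AInv_dir_inf hF w)
  rw [fderiv_inner_apply ℝ dv dw] at b1
  rw [fderiv_inner_apply ℝ dv dv] at b2
  have e1 : fderiv ℝ (fun y => fderiv ℝ F y w) x v = fderiv ℝ (fun y => fderiv ℝ F y v) x w :=
    AInv_symm (AInv_fin hF 2) w v
  rw [e1] at b1
  rw [real_inner_comm (fderiv ℝ F x v)] at b2
  have e2 : (⟪ddv v F x, fderiv ℝ F x w⟫ : ℝ) =
      (⟪fderiv ℝ F x v, fderiv ℝ (fun y => fderiv ℝ F y v) x w⟫ +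
        ⟪fderiv ℝ (fun y => fderiv ℝ F y v) x v, fderiv ℝ F x w⟫) -
      (⟪fderiv ℝ F x v, fderiv ℝ (fun y => fderiv ℝ F y v) x w⟫ +
        ⟪fderiv ℝ F x v, fderiv ℝ (fun y => fderiv ℝ F y v) x w⟫) / 2 := by
    unfold ddv
    ring
  rw [e2]
  refine (abs_sub _ _).trans ?_
  rw [abs_div, abs_of_pos (by norm_num : (0 : ℝ) < 2)]
  linarith

theorem AInv_exW {K : ℝ} {F : E2 → V4} {x v : E2}
    (hpos : ∀ v : E2, ‖v‖ ^ 2 ≤ K * metrU F x v v) (h0 : 0 = gramV F v x) :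
    ∃ w : E2, ddv v F x = fderiv ℝ F x w := by
  have hnl : ¬ LinearIndependent ℝ ![pd 0 F x, pd 1 F x, ddv v F x] := by
    rw [← gram3_pos_iff]
    intro hp
    unfold gramV at h0
    linarith
  rw [Fintype.not_linearIndependent_iff] at hnl
  obtain ⟨g, hg1, hg2⟩ := hnl
  rw [Fin.sum_univ_three] at hg1
  have hg3 : g 0 • pd 0 F x + g 1 • pd 1 F x + g 2 • ddv v F x = 0 := by simpa using hg1
  have hg4 : g 2 ≠ 0 := by
    intro h2
    rw [h2, zero_smul, add_zero] at hg3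
    have h3 : fderiv ℝ F x (g 0, g 1) = 0 := by
      rw [MD2_app]
      exact hg3
    have h4 := hpos (g 0, g 1)
    rw [AInv_metr, h3, inner_zero_left, mul_zero] at h4
    have h5 : ((g 0, g 1) : E2) = 0 := by
      rw [← norm_eq_zero]
      exact pow_eq_zero_iff (two_ne_zero) |>.1 (le_antisymm h4 (sq_nonneg _))
    have h6 : g 0 = 0 := congrArg Prod.fst h5
    have h7 : g 1 = 0 := congrArg Prod.snd h5
    obtain ⟨i, hi⟩ := hg2
    fin_cases i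
    · exact hi h6
    · exact hi h7
    · exact hi h2
  refine ⟨(-(g 2)⁻¹ * g 0, -(g 2)⁻¹ * g 1), ?_⟩
  rw [MD2_app]
  show ddv v F x = (-(g 2)⁻¹ * g 0) • pd 0 F x + (-(g 2)⁻¹ * g 1) • pd 1 F x
  have h8 : ddv v F x = (g 2)⁻¹ • (g 2 • ddv v F x) := by
    rw [smul_smul, inv_mul_cancel₀ hg4, one_smul]
  have h9 : g 2 • ddv v F x = -(g 0 • pd 0 F x + g 1 • pd 1 F x) := by
    rw [eq_neg_iff_add_eq_zero, add_comm]
    exact hg3
  rw [h8, h9, smul_neg, smul_add, smul_smul, smul_smul, neg_add, neg_mul, neg_mul, neg_smul,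
    neg_smul]

theorem AInv_vv {K : ℝ} (hK : 1 ≤ K) {F : E2 → V4} {x v w : E2}
    (hF : ContDiffAt ℝ ∞ F x) (hpos : ∀ v : E2, ‖v‖ ^ 2 ≤ K * metrU F x v v)
    (hm : ∀ i j k l : Fin 2, |pd k (fun y => metrU F y (bv i) (bv j)) x| ≤ K ∧
        |pd l (pd k (fun y => metrU F y (bv i) (bv j))) x| ≤ K) (hv1 : ‖v‖ ≤ 1)
    (hw : ddv v F x = fderiv ℝ F x w) : ‖ddv v F x‖ ≤ 24 * K ^ 2 := by
  have hb1 : ‖bv 1‖ ≤ 1 := norm_bv_le 1
  have a0 := AInv_chr hF hm hv1 (norm_bv_le 0)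
  have a1 := AInv_chr hF hm hv1 hb1
  have e1 : ‖ddv v F x‖ ^ 2 = w.1 * ⟪ddv v F x, fderiv ℝ F x (bv 0)⟫ +
      w.2 * ⟪ddv v F x, fderiv ℝ F x (bv 1)⟫ := by
    rw [← real_inner_self_eq_norm_sq]
    conv_lhs => rw [hw, MD2_app (fderiv ℝ F x) w, ← MD2_app (fderiv ℝ F x) w, ← hw]
    conv_lhs =>
      arg 3
      rw [hw, MD2_app (fderiv ℝ F x) w]
    rw [inner_add_right, real_inner_smul_right, real_inner_smul_right]
  have w1 : |w.1| ≤ ‖w‖ := norm_fst_le w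
  have w2 : |w.2| ≤ ‖w‖ := norm_snd_le w
  have e2' : ‖ddv v F x‖ ^ 2 ≤ 24 * K * ‖w‖ := by
    rw [e1]
    have m1 : w.1 * ⟪ddv v F x, fderiv ℝ F x (bv 0)⟫ ≤ ‖w‖ * (12 * K) := by
      refine (le_abs_self _).trans ?_
      rw [abs_mul]
      exact mul_le_mul w1 a0 (abs_nonneg _) (norm_nonneg _)
    have m2 : w.2 * ⟪ddv v F x, fderiv ℝ F x (bv 1)⟫ ≤ ‖w‖ * (12 * K) := by
      refine (le_abs_self _).trans ?_
      rw [abs_mul]
      exact mul_le_mul w2 a1 (abs_nonneg _) (norm_nonneg _)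
    linarith
  have e3 : ‖w‖ ^ 2 ≤ K * ‖ddv v F x‖ ^ 2 := by
    have := hpos w
    rw [AInv_metr, ← hw, real_inner_self_eq_norm_sq] at this
    exact this
  set N := ‖ddv v F x‖ with hN
  have hN0 : 0 ≤ N := norm_nonneg _
  by_contra hcon
  have hcon' : 24 * K ^ 2 < N := not_le.1 hcon
  have hK2 : 0 < 24 * K ^ 2 := by positivity
  -- `N^4 ≤ 576 K^2 |w|^2 ≤ 576 K^3 N^2`
  have e4 : (N ^ 2) ^ 2 ≤ (24 * K * ‖w‖) ^ 2 := pow_le_pow_left₀ (sq_nonneg _) e2' 2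
  have e5 : (24 * K * ‖w‖) ^ 2 ≤ 576 * K ^ 3 * N ^ 2 := by
    have : (24 * K * ‖w‖) ^ 2 = 576 * K ^ 2 * ‖w‖ ^ 2 := by ring
    rw [this]
    have h6 : 576 * K ^ 2 * ‖w‖ ^ 2 ≤ 576 * K ^ 2 * (K * N ^ 2) :=
      mul_le_mul_of_nonneg_left e3 (by positivity)
    linarith
  have hNpos : 0 < N ^ 2 := by
    have : 0 < N := hK2.trans hcon'
    positivity
  have e6 : N ^ 2 ≤ 576 * K ^ 3 := by
    have : N ^ 2 * N ^ 2 ≤ 576 * K ^ 3 * N ^ 2 := by
      have := e4.trans e5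
      linarith
    exact le_of_mul_le_mul_right this hNpos
  have e7 : (24 * K ^ 2) ^ 2 < N ^ 2 := pow_lt_pow_left₀ hcon' hK2.le two_ne_zero
  have e8 : 576 * K ^ 3 ≤ (24 * K ^ 2) ^ 2 := by
    have : (24 * K ^ 2) ^ 2 = 576 * K ^ 3 * K := by ring
    rw [this]
    have h9 : 0 ≤ 576 * K ^ 3 := by positivity
    nlinarith
  linarith

theorem AInv_up {K h : ℝ} (hK : 1 ≤ K) (hh : 0 < h) (hh1 : h < 1) {F : E2 → V4} {x v : E2}
    (hF : ContDiffAt ℝ ∞ F x) (i3 : ‖h • pd 1 (pd 1 F) x‖ ≤ K)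
    (hm : ∀ i j k l : Fin 2, |pd k (fun y => metrU F y (bv i) (bv j)) x| ≤ K ∧
        |pd l (pd k (fun y => metrU F y (bv i) (bv j))) x| ≤ K) (hv1 : ‖v‖ ≤ 1)
    (hvv : ‖ddv v F x‖ ≤ 24 * K ^ 2) :
    h * ‖fderiv ℝ (fun y => fderiv ℝ F y v) x (bv 1)‖ ^ 2 ≤ 56 * K ^ 3 := by
  have hb1 : ‖bv 1‖ ≤ 1 := norm_bv_le 1
  set q : V4 := fderiv ℝ (fun y => fderiv ℝ F y v) x (bv 1) with hq
  have g1 := gauss_id hF v (bv 1)
  rw [← hq] at g1
  have r1 := AInv_B_second (AInv_B_inner hF hm hv1 hb1) hb1 hv1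
  have r2 := AInv_B_second (AInv_B_inner hF hm hv1 hv1) hb1 hb1
  have r3 := AInv_B_second (AInv_B_inner hF hm hb1 hb1) hv1 hv1
  have g2 : ‖q‖ ^ 2 ≤ |(⟪ddv v F x, ddv (bv 1) F x⟫ : ℝ)| + 32 * K := by
    have g3 := le_abs_self (⟪ddv v F x, ddv (bv 1) F x⟫ : ℝ)
    unfold ddv at g1 g3 ⊢
    have r1' := (abs_le.1 r1).1
    have r2' := (abs_le.1 r2).2
    have r3' := (abs_le.1 r3).2
    linarith
  have g4 : |(⟪ddv v F x, ddv (bv 1) F x⟫ : ℝ)| ≤ 24 * K ^ 2 * ‖ddv (bv 1) F x‖ :=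
    (abs_real_inner_le_norm _ _).trans (mul_le_mul_of_nonneg_right hvv (norm_nonneg _))
  have g5 : h * ‖ddv (bv 1) F x‖ ≤ K := by
    have : ‖h • pd 1 (pd 1 F) x‖ = h * ‖ddv (bv 1) F x‖ := by
      rw [norm_smul, Real.norm_eq_abs, abs_of_pos hh]
      rfl
    rw [← this]
    exact i3
  have g6 : h * ‖q‖ ^ 2 ≤ h * (24 * K ^ 2 * ‖ddv (bv 1) F x‖ + 32 * K) :=
    mul_le_mul_of_nonneg_left (g2.trans (by linarith)) hh.le
  have g7 : 24 * K ^ 2 * (h * ‖ddv (bv 1) F x‖) ≤ 24 * K ^ 2 * K :=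
    mul_le_mul_of_nonneg_left g5 (by positivity)
  have g8 : h * (32 * K) ≤ 32 * K ^ 3 := by
    have t1 : h * (32 * K) ≤ 1 * (32 * K) := mul_le_mul_of_nonneg_right hh1.le (by linarith)
    have t2 : K ≤ K ^ 3 := le_self_pow₀ hK (by norm_num)
    linarith
  have g9 : h * (24 * K ^ 2 * ‖ddv (bv 1) F x‖ + 32 * K) =
      24 * K ^ 2 * (h * ‖ddv (bv 1) F x‖) + h * (32 * K) := by ring
  rw [g9] at g6
  have g10 : 24 * K ^ 2 * K = 24 * K ^ 3 := by ring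
  linarith

theorem AInv_low {τ K h : ℝ} (hτ : 0 < τ) (hh : 0 < h) {F : E2 → V4} {x v : E2}
    (hF : ContDiffAt ℝ ∞ F x) (i4 : ‖pd 1 (fun y => slo τ h y (pd 0 F y)) x‖ ≤ K)
    (i5 : ‖pd 1 (fun y => slo τ h y (pd 1 F y)) x‖ ≤ K) (hv1 : ‖v‖ ≤ 1) :
    τ / h * ‖fderiv ℝ F x v‖ ≤ 2 * K + ‖fderiv ℝ (fun y => fderiv ℝ F y v) x (bv 1)‖ := by
  obtain ⟨c1, c2⟩ := AInv_comp_le hv1
  set q : V4 := fderiv ℝ (fun y => fderiv ℝ F y v) x (bv 1) with hq
  have dF0 := AInv_diff (AInv_pd_inf hF 0)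
  have dF1 := AInv_diff (AInv_pd_inf hF 1)
  have dv := AInv_diff (AInv_dir_inf hF v)
  have s1 := AInv_pd_slo (τ := τ) (h := h) dv
  have s2 : pd 1 (fun y => slo τ h y (fderiv ℝ F y v)) x =
      v.1 • pd 1 (fun y => slo τ h y (pd 0 F y)) x +
        v.2 • pd 1 (fun y => slo τ h y (pd 1 F y)) x := by
    obtain ⟨L0, l0, m0⟩ := AInv_slo_hasFDerivAt (τ := τ) (h := h) dF0
    obtain ⟨L1, l1, m1⟩ := AInv_slo_hasFDerivAt (τ := τ) (h := h) dF1
    have hsum := (l0.const_smul v.1).add (l1.const_smul v.2)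
    have hfun : (fun y => slo τ h y (fderiv ℝ F y v)) = fun y =>
        v.1 • slo τ h y (pd 0 F y) + v.2 • slo τ h y (pd 1 F y) := by
      funext y
      rw [MD2_app (fderiv ℝ F y) v]
      unfold slo
      rw [AInv_rot_add, AInv_rot_smul, AInv_rot_smul]
      rfl
    have hsum' : HasFDerivAt (fun y => slo τ h y (fderiv ℝ F y v)) (v.1 • L0 + v.2 • L1) x := by
      rw [hfun]
      exact hsum
    unfold pd
    rw [hsum'.fderiv]
    have k0 : fderiv ℝ (fun y => slo τ h y (fderiv ℝ F y (bv 0))) x = L0 := l0.fderiv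
    have k1 : fderiv ℝ (fun y => slo τ h y (fderiv ℝ F y (bv 1))) x = L1 := l1.fderiv
    rw [k0, k1]
    rfl
  have s3 : ‖pd 1 (fun y => slo τ h y (fderiv ℝ F y v)) x‖ ≤ 2 * K := by
    rw [s2]
    refine (norm_add_le _ _).trans ?_
    rw [norm_smul, norm_smul, Real.norm_eq_abs, Real.norm_eq_abs]
    have t1 : |v.1| * ‖pd 1 (fun y => slo τ h y (pd 0 F y)) x‖ ≤ 1 * K :=
      mul_le_mul c1 i4 (norm_nonneg _) zero_le_one
    have t2 : |v.2| * ‖pd 1 (fun y => slo τ h y (pd 1 F y)) x‖ ≤ 1 * K :=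
      mul_le_mul c2 i5 (norm_nonneg _) zero_le_one
    linarith
  have s4 : (τ / h) • AInv_G ((x.1 + τ * x.2) / h) ((x.1 - τ * x.2) / h) (fderiv ℝ F x v) =
      pd 1 (fun y => slo τ h y (fderiv ℝ F y v)) x - slo τ h x q := by
    rw [s1]
    have : pd 1 (fun y => fderiv ℝ F y v) x = q := rfl
    rw [this]
    abel
  have s5 := congrArg norm s4
  rw [norm_smul, AInv_G_norm, Real.norm_eq_abs, abs_of_pos (div_pos hτ hh)] at s5
  rw [s5]
  refine (norm_sub_le _ _).trans ?_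
  rw [AInv_slo_norm]
  linarith

/-- the unit vector case -/
theorem AInv_good_unit {τ K h : ℝ} (hτ : 0 < τ) (hK : 1 ≤ K) (hh : 0 < h) (hh1 : h < 1)
    (hh2 : 4 * K ^ 2 * h ≤ τ) (hh3 : 224 * K ^ 5 * h < τ ^ 2) {F : E2 → V4} {x : E2}
    (hF : ContDiffAt ℝ ∞ F x) (hI : INV τ h K F x)
    (hpos : ∀ v : E2, ‖v‖ ^ 2 ≤ K * metrU F x v v)
    (hm : ∀ i j k l : Fin 2, |pd k (fun y => metrU F y (bv i) (bv j)) x| ≤ K ∧
        |pd l (pd k (fun y => metrU F y (bv i) (bv j))) x| ≤ K) {v : E2} (hv : ‖v‖ = 1) :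
    0 < gramV F v x := by
  obtain ⟨i1, i2, i3, i4, i5, i6, i7⟩ := hI
  refine lt_of_le_of_ne (gram3_nonneg _ _ _) fun h0 => ?_
  have hv1 : ‖v‖ ≤ 1 := hv.le
  obtain ⟨w, hw⟩ := AInv_exW hpos h0
  have hvv := AInv_vv hK hF hpos hm hv1 hw
  have hup := AInv_up hK hh hh1 hF i3 hm hv1 hvv
  have hlow := AInv_low hτ hh hF i4 i5 hv1
  set q : V4 := fderiv ℝ (fun y => fderiv ℝ F y v) x (bv 1) with hq
  have hFv : 1 ≤ K * ‖fderiv ℝ F x v‖ := by
    have p1 := hpos v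
    rw [AInv_metr, real_inner_self_eq_norm_sq, hv, one_pow] at p1
    set n := ‖fderiv ℝ F x v‖ with hn
    have hn0 : 0 ≤ n := norm_nonneg _
    by_contra hcon
    have hcon' : K * n < 1 := not_le.1 hcon
    have : K * n * (K * n) < 1 := by
      have h1 : 0 ≤ K * n := by positivity
      nlinarith
    nlinarith
  -- conclusion
  have f1 : τ ≤ K * (2 * K * h + h * ‖q‖) := by
    have u1 : h * (τ / h * ‖fderiv ℝ F x v‖) ≤ h * (2 * K + ‖q‖) :=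
      mul_le_mul_of_nonneg_left hlow hh.le
    have u2 : h * (τ / h * ‖fderiv ℝ F x v‖) = τ * ‖fderiv ℝ F x v‖ := by field_simp
    rw [u2] at u1
    have u3 : τ * 1 ≤ τ * (K * ‖fderiv ℝ F x v‖) := mul_le_mul_of_nonneg_left hFv hτ.le
    have u4 : K * (τ * ‖fderiv ℝ F x v‖) ≤ K * (h * (2 * K + ‖q‖)) :=
      mul_le_mul_of_nonneg_left u1 (by linarith)
    nlinarith
  have f2 : τ / 2 ≤ K * (h * ‖q‖) := by nlinarith
  have f3 : (τ / 2) ^ 2 ≤ (K * (h * ‖q‖)) ^ 2 := pow_le_pow_left₀ (by linarith) f2 2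
  have f4 : (K * (h * ‖q‖)) ^ 2 = K ^ 2 * h * (h * ‖q‖ ^ 2) := by ring
  have f5 : K ^ 2 * h * (h * ‖q‖ ^ 2) ≤ K ^ 2 * h * (56 * K ^ 3) :=
    mul_le_mul_of_nonneg_left hup (by positivity)
  have f6 : K ^ 2 * h * (56 * K ^ 3) = 56 * K ^ 5 * h := by ring
  have f7 : (τ / 2) ^ 2 = τ ^ 2 / 4 := by ring
  rw [f4] at f3
  rw [f6] at f5
  rw [f7] at f3
  linarith

/-- end of the W-group: all directions are good.
Proof: let `‖v‖ = 1` and suppose `gramV F v x = 0`; `F_1, F_2` are independent (metric bound), so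
`F_vv ∈ span (F_1, F_2)`; `F_vv·F_j` is a combination of first derivatives of the metric, so
`|F_vv| ≤ C(K)`; `|F_22| ≤ K/h`; by `gauss_id` `|F_v2|² ≤ |F_vv| |F_22| + C ≤ C(K)/h`.  On the other hand
`slo (F_v2) = ∂₂ (slo F_v) + (1/h) 𝒯 (slo F_v)`, `𝒯 = diag (iτ, -iτ)`, `|∂₂ (slo F_v)| ≤ 2K`,
`|𝒯 (slo F_v)| = τ |F_v| ≥ τ/sqrt K`: so `|F_v2| ≥ τ/(sqrt K h) - 2K`: contradiction for small `h`. -/
theorem all_good {τ K : ℝ} (hτ : 0 < τ) (hK : 1 ≤ K) :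
    ∃ h₂ : ℝ, 0 < h₂ ∧ ∀ h ∈ Ioo 0 h₂, ∀ (F : E2 → V4) (x : E2), ContDiffAt ℝ ∞ F x →
      INV τ h K F x → (∀ v : E2, ‖v‖ ^ 2 ≤ K * metrU F x v v) →
      (∀ i j k l : Fin 2, |pd k (fun y => metrU F y (bv i) (bv j)) x| ≤ K ∧
        |pd l (pd k (fun y => metrU F y (bv i) (bv j))) x| ≤ K) →
      ∀ v : E2, v ≠ 0 → 0 < gramV F v x := by
  refine ⟨min 1 (min (τ / (4 * K ^ 2)) (τ ^ 2 / (224 * K ^ 5))), by positivity,
    fun h hh F x hF hI hpos hm v hv => ?_⟩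
  have h1 : h < 1 := hh.2.trans_le (min_le_left _ _)
  have h2 : h < τ / (4 * K ^ 2) := hh.2.trans_le ((min_le_right _ _).trans (min_le_left _ _))
  have h3 : h < τ ^ 2 / (224 * K ^ 5) :=
    hh.2.trans_le ((min_le_right _ _).trans (min_le_right _ _))
  have hK2 : 0 < 4 * K ^ 2 := by positivity
  have hK5 : 0 < 224 * K ^ 5 := by positivity
  rw [lt_div_iff₀ hK2] at h2
  rw [lt_div_iff₀ hK5] at h3
  have hn : 0 < ‖v‖ := norm_pos_iff.2 hv
  have hu : ‖(‖v‖⁻¹ • v : E2)‖ = 1 := by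
    rw [norm_smul, norm_inv, norm_norm, inv_mul_cancel₀ hn.ne']
  have key := AInv_good_unit hτ hK hh.1 h1 (by linarith) (by linarith) hF hI hpos hm hu
  rw [gramV_smul] at key
  have h4 : 0 < (‖v‖⁻¹) ^ 4 := by positivity
  exact (mul_pos_iff_of_pos_left h4).1 key

end P205F
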