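import Mathlib
import Vale.Agent.Lib.P205B.BDefs
import Vale.Agent.Lib.P205F.MD1

/-!
# P205F ASSEMBLY: flat partitions, the W-group
-/

noncomputable section

namespace P205F

open scoped Manifold ContDiff Topology RealInnerProductSpace
open Set

set_option maxSynthPendingDepth 3

variable {M : Type} [TopologicalSpace M] [ChartedSpace E2 M] [IsManifold 𝓘(ℝ, E2) ∞ M]

/-- scaling of a chart -/
theorem AW3_scale {χ0 : OpenPartialHomeomorph M E2} (hχ0 : χ0 ∈ ATL M) {p : M}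
    (hp : p ∈ χ0.source) {W : Set M} (hW : W ∈ 𝓝 p) :
    ∃ φ ∈ ATL M, ∃ ρ : ℝ, 0 < ρ ∧ p ∈ φ.source ∧ φ p = 0 ∧
      Metric.closedBall (0 : E2) 4 ⊆ φ.target ∧ φ.source ⊆ W ∧ φ.source ⊆ χ0.source ∧
      ∀ q ∈ φ.source, χ0 q = ρ • φ q + χ0 p := by
  obtain ⟨O, hOW, hO, hpO⟩ := mem_nhds_iff.1 hW
  set χ : OpenPartialHomeomorph M E2 := χ0.restr O with hχ
  have hχA : χ ∈ ATL M :=
    restr_mem_maximalAtlas (contDiffGroupoid ∞ 𝓘(ℝ, E2)) hχ0 hO
  have hsrc : χ.source = χ0.source ∩ O := by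
    rw [hχ, OpenPartialHomeomorph.restr_source, hO.interior_eq]
  have hpχ : p ∈ χ.source := by
    rw [hsrc]
    exact ⟨hp, hpO⟩
  obtain ⟨ε, hε, hball⟩ := Metric.isOpen_iff.1 χ.open_target (χ p) (χ.map_source hpχ)
  have hc : (8 / ε : ℝ) ≠ 0 := by positivity
  set A : E2 ≃ₜ E2 := (Homeomorph.addRight (-(χ p))).trans (Homeomorph.smulOfNeZero (8 / ε : ℝ) hc)
    with hA
  have hAapp : ∀ y, A y = (8 / ε : ℝ) • (y + -(χ p)) := fun y => rfl
  have hAsymm : ∀ z, A.symm z = (8 / ε : ℝ)⁻¹ • z + χ p := by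
    intro z
    rw [Homeomorph.symm_apply_eq]
    rw [hAapp, add_neg_cancel_right, smul_smul, mul_inv_cancel₀ hc, one_smul]
  have hAs : ContDiff ℝ ∞ (A : E2 → E2) := by
    have : (A : E2 → E2) = fun y => (8 / ε : ℝ) • (y + -(χ p)) := funext hAapp
    rw [this]
    fun_prop
  have hAs' : ContDiff ℝ ∞ (A.symm : E2 → E2) := by
    have : (A.symm : E2 → E2) = fun z => (8 / ε : ℝ)⁻¹ • z + χ p := funext hAsymm
    rw [this]
    fun_prop
  refine ⟨χ.transHomeomorph A, ?_, ε / 8, by positivity, ?_, ?_, ?_, ?_, ?_, ?_⟩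
  · refine OpenPartialHomeomorph.mem_maximalAtlas_of_contMDiffOn _ ?_ ?_
    · have h1 := contMDiffOn_of_mem_maximalAtlas hχA
      exact (hAs.contMDiff.contMDiffOn (s := univ)).comp h1 (fun _ _ => mem_univ _)
    · have h1 := contMDiffOn_symm_of_mem_maximalAtlas hχA
      exact h1.comp (hAs'.contMDiff.contMDiffOn (s := A.symm ⁻¹' χ.target)) (fun z hz => hz)
  · exact hpχ
  · change A (χ p) = 0
    rw [hAapp, add_neg_cancel, smul_zero]
  · intro z hz
    change A.symm z ∈ χ.target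
    apply hball
    rw [hAsymm, Metric.mem_ball, dist_eq_norm, add_sub_cancel_right, norm_smul, norm_inv,
      Real.norm_of_nonneg (by positivity : (0 : ℝ) ≤ 8 / ε)]
    rw [mem_closedBall_zero_iff] at hz
    have h8 : (8 / ε : ℝ)⁻¹ = ε / 8 := by rw [inv_div]
    rw [h8]
    have : ε / 8 * ‖z‖ ≤ ε / 8 * 4 := mul_le_mul_of_nonneg_left hz (by positivity)
    linarith
  · intro y hy
    have hy' : y ∈ χ.source := hy
    rw [hsrc] at hy'
    exact hOW hy'.2
  · intro y hy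
    have hy' : y ∈ χ.source := hy
    rw [hsrc] at hy'
    exact hy'.1
  · intro q _
    change χ0 q = (ε / 8) • A (χ q) + χ0 p
    have e1 : χ q = χ0 q := rfl
    have e2 : χ p = χ0 p := rfl
    have h8 : ε / 8 * (8 / ε) = 1 := by field_simp
    rw [hAapp, smul_smul, h8, one_smul, e1, e2, neg_add_cancel_right]

/-- inverse function theorem: a smooth map to the plane with injective differential at `p` is a
chart near `p` -/
theorem AW3_ift {u : M → E2} (hu : Sm u) {p : M} (hinj : ∀ v, dP u p v = 0 → v = 0) :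
    ∃ χ ∈ ATL M, p ∈ χ.source ∧ ∀ q ∈ χ.source, χ q = u q := by
  set c := chartAt E2 p with hcdef
  have hps : p ∈ c.source := mem_chart_source E2 p
  have hcA : c ∈ ATL M := chart_mem_ATL p
  set G : E2 → E2 := u ∘ c.symm with hG
  have hGs : ContDiffOn ℝ ∞ G c.target := hu.loc hcA
  have hGat : ∀ x ∈ c.target, ContDiffAt ℝ ∞ G x := fun x hx =>
    hGs.contDiffAt (c.open_target.mem_nhds hx)
  have hx0 : c p ∈ c.target := c.map_source hps
  -- the invertible differentials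
  set R : Set (E2 →L[ℝ] E2) := range ((↑) : (E2 ≃L[ℝ] E2) → (E2 →L[ℝ] E2)) with hR
  have hRo : IsOpen R := ContinuousLinearEquiv.isOpen
  have hG' : ContinuousOn (fderiv ℝ G) c.target :=
    hGs.continuousOn_fderiv_of_isOpen c.open_target (by simp)
  set O : Set E2 := c.target ∩ fderiv ℝ G ⁻¹' R with hO
  have hOo : IsOpen O := hG'.isOpen_inter_preimage c.open_target hRo
  have hx0R : fderiv ℝ G (c p) ∈ R := by
    have hi : Function.Injective (fderiv ℝ G (c p) : E2 →ₗ[ℝ] E2) := by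
      refine (injective_iff_map_eq_zero _).2 fun v hv => hinj v hv
    refine ⟨(LinearEquiv.ofInjectiveEndo _ hi).toContinuousLinearEquiv, ?_⟩
    ext <;> rfl
  obtain ⟨L, hL⟩ := hx0R
  have hLd : HasFDerivAt G (L : E2 →L[ℝ] E2) (c p) := by
    rw [hL]
    exact ((hGat _ hx0).differentiableAt (by simp)).hasFDerivAt
  set Ψ0 : OpenPartialHomeomorph E2 E2 :=
    (hGat _ hx0).toOpenPartialHomeomorph G hLd (by simp) with hΨ0
  have hΨ0c : ∀ x, Ψ0 x = G x := fun x => rfl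
  set Ψ : OpenPartialHomeomorph E2 E2 := Ψ0.restr O with hΨ
  have hΨc : ∀ x, Ψ x = G x := fun x => rfl
  have hΨs : Ψ.source = Ψ0.source ∩ O := by
    rw [hΨ, OpenPartialHomeomorph.restr_source, hOo.interior_eq]
  have hx0s : c p ∈ Ψ.source := by
    rw [hΨs]
    exact ⟨(hGat _ hx0).mem_toOpenPartialHomeomorph_source hLd (by simp), hx0, L, hL⟩
  have hΨsymm : ∀ y ∈ Ψ.target, ContDiffAt ℝ ∞ Ψ.symm y := by
    intro y hy
    have h1 : Ψ.symm y ∈ Ψ.source := Ψ.map_target hy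
    rw [hΨs] at h1
    obtain ⟨_, h2, L', hL'⟩ := h1
    have h3 : HasFDerivAt Ψ (L' : E2 →L[ℝ] E2) (Ψ.symm y) := by
      rw [hL']
      exact ((hGat _ h2).differentiableAt (by simp)).hasFDerivAt
    exact Ψ.contDiffAt_symm hy h3 (hGat _ h2)
  refine ⟨c.trans Ψ, ?_, ?_, ?_⟩
  · refine OpenPartialHomeomorph.mem_maximalAtlas_of_contMDiffOn _ ?_ ?_
    · have h1 : ContMDiffOn 𝓘(ℝ, E2) 𝓘(ℝ, E2) ∞ u (c.trans Ψ).source :=
        ContMDiff.contMDiffOn hu
      refine h1.congr fun q hq => ?_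
      change G (c q) = u q
      rw [OpenPartialHomeomorph.trans_source] at hq
      rw [hG]
      simp only [Function.comp_apply, c.left_inv hq.1]
    · have h1 := contMDiffOn_symm_of_mem_maximalAtlas hcA
      have h2 : ContMDiffOn 𝓘(ℝ, E2) 𝓘(ℝ, E2) ∞ Ψ.symm Ψ.target := by
        rw [contMDiffOn_iff_contDiffOn]
        exact fun y hy => (hΨsymm y hy).contDiffWithinAt
      rw [OpenPartialHomeomorph.trans_target]
      exact h1.comp (h2.mono inter_subset_left) (fun y hy => hy.2)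
  · rw [OpenPartialHomeomorph.trans_source]
    exact ⟨hps, hx0s⟩
  · intro q hq
    rw [OpenPartialHomeomorph.trans_source] at hq
    change G (c q) = u q
    rw [hG]
    simp only [Function.comp_apply, c.left_inv hq.1]

/-- scaled `(x, y)`-chart: `A = (ρ κ₁ + s₁) + τ (ρ κ₂ + s₂)`, `B = (ρ κ₁ + s₁) - τ (ρ κ₂ + s₂)` -/
def IsXYs (A B : M → ℝ) (τ ρ : ℝ) (s : E2) (κ : OpenPartialHomeomorph M E2) : Prop :=
  0 < ρ ∧ κ ∈ ATL M ∧ ∀ p ∈ κ.source,
    A p = (ρ * (κ p).1 + s.1) + τ * (ρ * (κ p).2 + s.2) ∧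
    B p = (ρ * (κ p).1 + s.1) - τ * (ρ * (κ p).2 + s.2)

theorem exists_XYs {A B : M → ℝ} (hA : Sm A) (hB : Sm B) {τ : ℝ} (hτ : 0 < τ) {p : M}
    (hp : detC (dP A p) (dP B p) ≠ 0) {W : Set M} (hW : W ∈ 𝓝 p) :
    ∃ κ ∈ ATL M, (∃ ρ s, IsXYs A B τ ρ s κ) ∧ p ∈ κ.source ∧ κ p = 0 ∧
      Metric.closedBall (0 : E2) 4 ⊆ κ.target ∧ κ.source ⊆ W := by
  have hX : Sm (fun q => (A q + B q) / 2) := by
    have h1 : ContMDiff 𝓘(ℝ, E2) 𝓘(ℝ, ℝ) ∞ A := hA
    have h2 : ContMDiff 𝓘(ℝ, E2) 𝓘(ℝ, ℝ) ∞ B := hB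
    have h3 : ContMDiff 𝓘(ℝ, E2) 𝓘(ℝ, ℝ) ∞ (fun q => (A q + B q) / 2) :=
      (h1.add h2).div_const 2
    exact h3
  have hY : Sm (fun q => (A q - B q) / (2 * τ)) := by
    have h1 : ContMDiff 𝓘(ℝ, E2) 𝓘(ℝ, ℝ) ∞ A := hA
    have h2 : ContMDiff 𝓘(ℝ, E2) 𝓘(ℝ, ℝ) ∞ B := hB
    have h3 : ContMDiff 𝓘(ℝ, E2) 𝓘(ℝ, ℝ) ∞ (fun q => (A q - B q) / (2 * τ)) :=
      (h1.sub h2).div_const (2 * τ)
    exact h3
  have hu : Sm (fun q => (((A q + B q) / 2, (A q - B q) / (2 * τ)) : E2)) := by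
    have h1 : ContMDiff 𝓘(ℝ, E2) 𝓘(ℝ, ℝ) ∞ (fun q => (A q + B q) / 2) := hX
    have h2 : ContMDiff 𝓘(ℝ, E2) 𝓘(ℝ, ℝ) ∞ (fun q => (A q - B q) / (2 * τ)) := hY
    have h3 : ContMDiff 𝓘(ℝ, E2) 𝓘(ℝ, ℝ × ℝ) ∞
        (fun q => (((A q + B q) / 2, (A q - B q) / (2 * τ)) : ℝ × ℝ)) := h1.prodMk_space h2
    exact h3
  obtain ⟨χ, hχ, hpχ, hχu⟩ := AW3_ift hu (p := p) (by
    intro v hv
    have hps := mem_chart_source E2 p
    have hAd : DifferentiableAt ℝ (A ∘ (chartAt E2 p).symm) (chartAt E2 p p) :=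
      ((hA.loc (chart_mem_ATL p)).contDiffAt ((chartAt E2 p).open_target.mem_nhds
        ((chartAt E2 p).map_source hps))).differentiableAt (by simp)
    have hBd : DifferentiableAt ℝ (B ∘ (chartAt E2 p).symm) (chartAt E2 p p) :=
      ((hB.loc (chart_mem_ATL p)).contDiffAt ((chartAt E2 p).open_target.mem_nhds
        ((chartAt E2 p).map_source hps))).differentiableAt (by simp)
    have hd : HasFDerivAt ((fun q => (((A q + B q) / 2, (A q - B q) / (2 * τ)) : E2)) ∘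
        (chartAt E2 p).symm)
        (((2 : ℝ)⁻¹ • (dP A p + dP B p)).prod ((2 * τ)⁻¹ • (dP A p - dP B p)))
        (chartAt E2 p p) := by
      have k1 := hAd.hasFDerivAt
      have k2 := hBd.hasFDerivAt
      have k3 := ((k1.add k2).const_smul ((2 : ℝ)⁻¹)).prodMk ((k1.sub k2).const_smul ((2 * τ)⁻¹))
      refine k3.congr_of_eventuallyEq (Filter.Eventually.of_forall fun y => ?_)
      simp [div_eq_inv_mul]
    have h1 := hd.fderiv
    have h2 : dP (fun q => (((A q + B q) / 2, (A q - B q) / (2 * τ)) : E2)) p =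
      (((2 : ℝ)⁻¹ • (dP A p + dP B p)).prod ((2 * τ)⁻¹ • (dP A p - dP B p))) := h1
    rw [h2] at hv
    have h3 : dP A p v + dP B p v = 0 := by
      have := congrArg Prod.fst hv
      have h3' : 2⁻¹ * (dP A p) v + 2⁻¹ * (dP B p) v = 0 := by simpa using this
      linarith
    have h4 : dP A p v - dP B p v = 0 := by
      have := congrArg Prod.snd hv
      simpa [hτ.ne'] using this
    have h5 : dP A p v = 0 := by linarith
    have h6 : dP B p v = 0 := by linarith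
    have hvv : v = v.1 • e1 + v.2 • e2 := by
      ext <;> simp [e1, e2]
    rw [hvv, map_add, map_smul, map_smul, smul_eq_mul, smul_eq_mul] at h5 h6
    unfold detC at hp
    have h7 : v.1 * (dP A p e1 * dP B p e2 - dP A p e2 * dP B p e1) = 0 := by
      linear_combination (dP B p e2) * h5 - (dP A p e2) * h6
    have h8 : v.2 * (dP A p e1 * dP B p e2 - dP A p e2 * dP B p e1) = 0 := by
      linear_combination (dP A p e1) * h6 - (dP B p e1) * h5
    have h9 := (mul_eq_zero.1 h7).resolve_right hp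
    have h10 := (mul_eq_zero.1 h8).resolve_right hp
    exact Prod.ext h9 h10)
  obtain ⟨κ, hκ, ρ, hρ, h1, h2, h3, h4, h5, h6⟩ := AW3_scale hχ hpχ hW
  refine ⟨κ, hκ, ⟨ρ, χ p, hρ, hκ, ?_⟩, h1, h2, h3, h4⟩
  intro q hq
  have h7 := h6 q hq
  rw [hχu q (h5 hq)] at h7
  have h8 : (A q + B q) / 2 = ρ * (κ q).1 + (χ p).1 := congrArg Prod.fst h7
  have h9 : (A q - B q) / (2 * τ) = ρ * (κ q).2 + (χ p).2 := congrArg Prod.snd h7
  rw [← h8, ← h9]
  constructor
  · field_simp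
    ring
  · field_simp
    ring

/-- `dκ₁²` for a scaled `(x, y)`-chart -/
theorem sq1_XYs {A B : M → ℝ} (hA : Sm A) (hB : Sm B) {τ ρ : ℝ} {s : E2}
    {κ : OpenPartialHomeomorph M E2} (h : IsXYs A B τ ρ s κ) {p : M} (hp : p ∈ κ.source) :
    ρ ^ 2 • sq1 κ p = sqT (fun q => (A q + B q) / 2) p := by
  obtain ⟨_, hκ, hAB⟩ := h
  have hev : ((fun q => (A q + B q) / 2) ∘ κ.symm : E2 → ℝ) =ᶠ[𝓝 (κ p)]
      fun y => ρ * y.1 + s.1 := by
    filter_upwards [κ.open_target.mem_nhds (κ.map_source hp)] with y hy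
    have h1 := hAB (κ.symm y) (κ.map_target hy)
    rw [κ.right_inv hy] at h1
    simp only [Function.comp_apply, h1.1, h1.2]
    ring
  have hd : HasFDerivAt (fun y : E2 => ρ * y.1 + s.1) (ρ • ContinuousLinearMap.fst ℝ ℝ ℝ)
      (κ p) := by
    exact ((hasFDerivAt_fst (𝕜 := ℝ) (E := ℝ) (F := ℝ) (p := κ p)).const_mul ρ).add_const _
  have hd2 := hd.congr_of_eventuallyEq hev
  have h2 := dP_eq hκ hp hd2.differentiableAt
  unfold sqT
  rw [h2, hd2.fderiv]
  unfold sq1 sqC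
  refine ContinuousLinearMap.ext fun v => ContinuousLinearMap.ext fun w => ?_
  simp only [ContinuousLinearMap.smul_apply, ContinuousLinearMap.smulRight_apply,
    ContinuousLinearMap.comp_apply, smul_eq_mul]
  ring

end P205F
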