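import Mathlib
import Vale.Agent.Lib.P205B.AInvDefs
import Vale.Agent.Lib.P205B.BDefs

/-!
# P205F ASSEMBLY: flat partitions, the W-group
-/

noncomputable section

namespace P205F

open scoped Manifold ContDiff Topology RealInnerProductSpace
open Set

set_option maxSynthPendingDepth 3

variable {M : Type} [TopologicalSpace M] [ChartedSpace E2 M] [IsManifold 𝓘(ℝ, E2) ∞ M]

/-- the invariant on `KO` -/
def INVM (A B : M → ℝ) (τ h K : ℝ) (KO : Set M) (f : M → V4) : Prop :=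
  ∀ χ, IsXY A B τ χ → ∀ x ∈ χ.target, χ.symm x ∈ KO → INV τ h K (f ∘ χ.symm) x

/-- the conclusion of an exact stage (`ThmES` for fixed `tf`) -/
def ESfor (M : Type) [TopologicalSpace M] [ChartedSpace E2 M] (tf : ℝ → ℝ) : Prop :=
    ∀ (f : M → V4) (κ : OpenPartialHomeomorph M E2) (a : M → ℝ),
      Sm f → GoodAll f → κ ∈ ATL M → Metric.closedBall (0 : E2) 4 ⊆ κ.target →
      Flat a → (∀ p, 0 ≤ a p) →
      (∀ p, a p ≠ 0 → p ∈ κ.source ∧ κ p ∈ Metric.closedBall (0 : E2) 1) →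
      (∀ x ∈ Metric.closedBall (0 : E2) 3, GoodIn κ f e2 x) →
      ∀ (𝒜 : FinAtlas M) (tol : ℝ), 0 < tol →
      ∃ F' : M → V4, Sm F' ∧ GoodAll F' ∧
        (∀ p, metr F' p = metr f p + a p ^ 2 • sq1 κ p) ∧
        (∀ p, ¬ (p ∈ κ.source ∧ κ p ∈ Metric.ball (0 : E2) 2) → ClAt 𝒜 3 (F' - f) tol p) ∧
        ∀ x ∈ Metric.closedBall (0 : E2) 3,
          StageCl tf (f ∘ κ.symm) (F' ∘ κ.symm) (a ∘ κ.symm) tol x

theorem thmES_iff : ThmES M ↔ ∃ tf : ℝ → ℝ, ContDiff ℝ ∞ tf ∧ ESfor M tf := Iff.rfl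

end P205F
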