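import Mathlib
import Vale.Agent.Lib.P205B.BDefs
import Vale.Agent.Lib.P205F.MD1

/-!
# P205F BASE: the compact set `KO`, the invariant for the base map, and the base package

`KO := {p | ε ≤ dW (wM g p)}`, `KT := {p | 2 ε ≤ dW (wM g p)}` with `ε` small:
`tsupport β(h) ⊆ {|w| ≤ r₀ d}` (for `G(·,h)`), and for `h`
small this closed set is contained in `KT` (compactness: at `h = 0` a point with
`|w| ≤ r₀ d`, `d ≤ ε` has `t² = |w|² + d ≤ r₀² ε² + ε`, impossible when `t ≥ t_min > 0` and `ε` small).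
-/

noncomputable section

namespace P205F

open scoped Manifold ContDiff Topology RealInnerProductSpace
open Set

set_option maxSynthPendingDepth 3

theorem BF1_inj {α β : E2 →L[ℝ] ℝ} (h : detC α β ≠ 0) {v : E2} (h1 : α v = 0) (h2 : β v = 0) :
    v = 0 := by
  have hv : ∀ γ : E2 →L[ℝ] ℝ, γ v = v.1 * γ e1 + v.2 * γ e2 := by
    intro γ
    have h : v = v.1 • e1 + v.2 • e2 := by
      ext <;> simp [e1, e2]
    conv_lhs => rw [h]
    rw [map_add, map_smul, map_smul, smul_eq_mul, smul_eq_mul]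
  rw [hv] at h1 h2
  unfold detC at h
  have a1 : v.1 = 0 := by
    apply (mul_eq_zero.1 (_ : v.1 * (α e1 * β e2 - α e2 * β e1) = 0)).resolve_right h
    linear_combination β e2 * h1 - α e2 * h2
  have a2 : v.2 = 0 := by
    apply (mul_eq_zero.1 (_ : v.2 * (α e1 * β e2 - α e2 * β e1) = 0)).resolve_right h
    linear_combination -β e1 * h1 + α e1 * h2
  exact Prod.ext a1 a2

/-- the derivative of `((A + B) / 2, (A - B) / (2 τ))` is invertible -/
theorem BF1_equiv {α β : E2 →L[ℝ] ℝ} (h : detC α β ≠ 0) {τ : ℝ} (hτ : 0 < τ) :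
    ∃ e : E2 ≃L[ℝ] E2, (e : E2 →L[ℝ] E2) =
      ((2 : ℝ)⁻¹ • (α + β)).prod ((2 * τ)⁻¹ • (α - β)) := by
  set L : E2 →L[ℝ] E2 := ((2 : ℝ)⁻¹ • (α + β)).prod ((2 * τ)⁻¹ • (α - β)) with hL
  have hinj : Function.Injective (L : E2 →ₗ[ℝ] E2) := by
    rw [injective_iff_map_eq_zero]
    intro v hv
    have h1 : (2 : ℝ)⁻¹ * (α v + β v) = 0 := congrArg Prod.fst hv
    have h2 : (2 * τ)⁻¹ * (α v - β v) = 0 := congrArg Prod.snd hv
    have h3 : α v + β v = 0 := (mul_eq_zero.1 h1).resolve_left (by norm_num)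
    have h4 : α v - β v = 0 := (mul_eq_zero.1 h2).resolve_left (by positivity)
    exact BF1_inj h (by linarith) (by linarith)
  refine ⟨(LinearEquiv.ofInjectiveEndo (L : E2 →ₗ[ℝ] E2) hinj).toContinuousLinearEquiv, ?_⟩
  ext <;> rfl

variable {M : Type} [TopologicalSpace M] [ChartedSpace E2 M] [IsManifold 𝓘(ℝ, E2) ∞ M]

/-- local `(x, y)`-charts where `dA ∧ dB ≠ 0` (inverse function theorem) -/
theorem exists_XY {A B : M → ℝ} (hA : Sm A) (hB : Sm B) {τ : ℝ} (hτ : 0 < τ) {p : M}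
    (hp : detC (dP A p) (dP B p) ≠ 0) : ∃ χ, IsXY A B τ χ ∧ p ∈ χ.source := by
  obtain ⟨φ, hφd⟩ : ∃ φ : OpenPartialHomeomorph M E2, φ = chartAt E2 p := ⟨_, rfl⟩
  have hφ : φ ∈ ATL M := by rw [hφd]; exact chart_mem_ATL p
  have hps : p ∈ φ.source := by rw [hφd]; exact mem_chart_source E2 p
  have hA' := hA.loc hφ
  have hB' := hB.loc hφ
  have hdet0 : detC (fderiv ℝ (A ∘ φ.symm) (φ p)) (fderiv ℝ (B ∘ φ.symm) (φ p)) ≠ 0 := by
    rw [hφd]
    exact hp
  obtain ⟨u, hu⟩ : ∃ u : E2 → E2, u = fun y => (((A ∘ φ.symm) y + (B ∘ φ.symm) y) / 2,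
    ((A ∘ φ.symm) y - (B ∘ φ.symm) y) / (2 * τ)) := ⟨_, rfl⟩
  have huc : ContDiffOn ℝ ∞ u φ.target := by
    rw [hu]
    exact ((hA'.add hB').div_const 2).prodMk ((hA'.sub hB').div_const (2 * τ))
  have hud : ∀ y ∈ φ.target, HasFDerivAt u
      (((2 : ℝ)⁻¹ • (fderiv ℝ (A ∘ φ.symm) y + fderiv ℝ (B ∘ φ.symm) y)).prod
        ((2 * τ)⁻¹ • (fderiv ℝ (A ∘ φ.symm) y - fderiv ℝ (B ∘ φ.symm) y))) y := by
    intro y hy
    have dA : DifferentiableAt ℝ (A ∘ φ.symm) y :=
      (hA'.contDiffAt (φ.open_target.mem_nhds hy)).differentiableAt (by simp)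
    have dB : DifferentiableAt ℝ (B ∘ φ.symm) y :=
      (hB'.contDiffAt (φ.open_target.mem_nhds hy)).differentiableAt (by simp)
    have h1 := (dA.hasFDerivAt.add dB.hasFDerivAt).mul_const (2 : ℝ)⁻¹
    have h2 := (dA.hasFDerivAt.sub dB.hasFDerivAt).mul_const (2 * τ)⁻¹
    have h3 := h1.prodMk h2
    rw [hu]
    exact h3
  -- the open set where the derivative is invertible
  obtain ⟨O, hOd⟩ : ∃ O : Set E2, O = φ.target ∩ {y | detC (fderiv ℝ (A ∘ φ.symm) y)
    (fderiv ℝ (B ∘ φ.symm) y) ≠ 0} := ⟨_, rfl⟩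
  have hO : IsOpen O := by
    have cA : ContinuousOn (fderiv ℝ (A ∘ φ.symm)) φ.target :=
      (hA'.fderiv_of_isOpen (m := ∞) φ.open_target (by simp)).continuousOn
    have cB : ContinuousOn (fderiv ℝ (B ∘ φ.symm)) φ.target :=
      (hB'.fderiv_of_isOpen (m := ∞) φ.open_target (by simp)).continuousOn
    have cD : ContinuousOn (fun y => detC (fderiv ℝ (A ∘ φ.symm) y) (fderiv ℝ (B ∘ φ.symm) y))
        φ.target := by
      unfold detC
      exact ((cA.clm_apply continuousOn_const).mul (cB.clm_apply continuousOn_const)).sub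
        ((cA.clm_apply continuousOn_const).mul (cB.clm_apply continuousOn_const))
    rw [hOd]
    exact cD.isOpen_inter_preimage φ.open_target isOpen_ne
  have hpO : φ p ∈ O := by
    rw [hOd]
    exact ⟨φ.map_source hps, hdet0⟩
  obtain ⟨e, he⟩ := BF1_equiv hdet0 hτ
  have hcd : ContDiffAt ℝ ∞ u (φ p) := huc.contDiffAt (φ.open_target.mem_nhds (φ.map_source hps))
  have hfd : HasFDerivAt u (e : E2 →L[ℝ] E2) (φ p) := by
    rw [he]
    exact hud _ (φ.map_source hps)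
  obtain ⟨ψ, hψu, hψp, hψO⟩ : ∃ ψ : OpenPartialHomeomorph E2 E2, (∀ y, ψ y = u y) ∧
      φ p ∈ ψ.source ∧ ψ.source ⊆ O := by
    refine ⟨(hcd.toOpenPartialHomeomorph u hfd (by simp)).restr O, fun y => rfl, ?_, ?_⟩
    · rw [OpenPartialHomeomorph.restr_source, hO.interior_eq]
      exact ⟨hcd.mem_toOpenPartialHomeomorph_source hfd (by simp), hpO⟩
    · rw [OpenPartialHomeomorph.restr_source, hO.interior_eq]
      exact inter_subset_right
  have hψc : ContDiffOn ℝ ∞ ψ ψ.source := by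
    refine ContDiffOn.congr (huc.mono fun y hy => ?_) fun y _ => hψu y
    have := hψO hy
    rw [hOd] at this
    exact this.1
  have hψfun : (ψ : E2 → E2) = u := funext hψu
  have hψs : ContDiffOn ℝ ∞ ψ.symm ψ.target := by
    intro z hz
    have hy := hψO (ψ.map_target hz)
    rw [hOd] at hy
    obtain ⟨e', he'⟩ := BF1_equiv hy.2 hτ
    refine (ψ.contDiffAt_symm hz (f₀' := e') ?_ ?_).contDiffWithinAt
    · rw [he', hψfun]
      exact hud _ hy.1
    · rw [hψfun]
      exact huc.contDiffAt (φ.open_target.mem_nhds hy.1)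
  refine ⟨φ.trans ψ, ⟨?_, ?_⟩, ?_⟩
  · refine OpenPartialHomeomorph.mem_maximalAtlas_of_contMDiffOn _ ?_ ?_
    · have h1 := (contMDiffOn_of_mem_maximalAtlas hφ).mono
        (inter_subset_left : φ.source ∩ φ ⁻¹' ψ.source ⊆ φ.source)
      have h2 := (contMDiffOn_iff_contDiffOn.mpr hψc).comp h1 (fun x hx => hx.2)
      exact h2
    · have h1 := (contMDiffOn_iff_contDiffOn.mpr hψs).mono
        (inter_subset_left : ψ.target ∩ ψ.symm ⁻¹' φ.target ⊆ ψ.target)
      have h2 := (contMDiffOn_symm_of_mem_maximalAtlas hφ).comp h1 (fun x hx => hx.2)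
      exact h2
  · intro q hq
    have hq' : q ∈ φ.source := hq.1
    have h1 : (φ.trans ψ) q = ((A q + B q) / 2, (A q - B q) / (2 * τ)) := by
      change ψ (φ q) = _
      rw [hψu, hu]
      simp only [Function.comp_apply, φ.left_inv hq']
    rw [h1]
    constructor
    · field_simp
      ring
    · field_simp
      ring
  · exact ⟨hps, hψp⟩

/-- two `(x, y)`-charts agree on the intersection of their sources -/
theorem isXY_eq {A B : M → ℝ} {τ : ℝ} (hτ : 0 < τ) {χ χ' : OpenPartialHomeomorph M E2}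
    (h : IsXY A B τ χ) (h' : IsXY A B τ χ') {p : M} (hp : p ∈ χ.source) (hp' : p ∈ χ'.source) :
    χ p = χ' p ∧ ∀ {V : Type} (F : M → V), F ∘ χ.symm =ᶠ[𝓝 (χ p)] F ∘ χ'.symm := by
  have key : ∀ q, q ∈ χ.source → q ∈ χ'.source → χ q = χ' q := by
    intro q hq hq'
    obtain ⟨a1, a2⟩ := h.2 q hq
    obtain ⟨b1, b2⟩ := h'.2 q hq'
    have c1 : (χ q).1 = (χ' q).1 := by linarith
    have c2 : τ * ((χ q).2 - (χ' q).2) = 0 := by linarith
    have c3 := (mul_eq_zero.1 c2).resolve_left hτ.ne'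
    exact Prod.ext c1 (by linarith)
  refine ⟨key p hp hp', fun F => ?_⟩
  have h1 : ∀ᶠ z in 𝓝 (χ p), z ∈ χ.target ∩ χ.symm ⁻¹' χ'.source := by
    refine (χ.symm.isOpen_inter_preimage χ'.open_source).mem_nhds ⟨χ.map_source hp, ?_⟩
    rw [mem_preimage, χ.left_inv hp]
    exact hp'
  filter_upwards [h1] with z hz
  have h2 := key (χ.symm z) (χ.map_target hz.1) hz.2
  rw [χ.right_inv hz.1] at h2
  have h3 : χ'.symm z = χ.symm z := by
    have h4 := χ'.left_inv hz.2
    rw [← h2] at h4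
    exact h4
  rw [Function.comp_apply, Function.comp_apply, h3]

end P205F
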