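import Mathlib
import Vale.Agent.Lib.P205B.AInv
import Vale.Agent.Lib.P205B.AW3
import Vale.Agent.Lib.P205B.AWDefs
import Vale.Agent.Lib.P205B.BF1
import Vale.Agent.Lib.P205F.MD3

/-!
# P205F ASSEMBLY: flat partitions, the W-group
-/

noncomputable section

namespace P205F

open scoped Manifold ContDiff Topology RealInnerProductSpace
open Set

set_option maxSynthPendingDepth 3

section AW4_planar

variable {V : Type} [NormedAddCommGroup V] [NormedSpace ℝ V]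

theorem AW4_pd_aff (G : E2 → V) (ρ : ℝ) (s : E2) (i : Fin 2) :
    pd i (fun z => G (ρ • z + s)) = fun y => ρ • pd i G (ρ • y + s) := by
  funext y
  unfold pd
  have h1 : fderiv ℝ (fun z => G (ρ • z + s)) y = ρ • fderiv ℝ (fun w => G (w + s)) (ρ • y) :=
    fderiv_comp_smul (f := fun w => G (w + s)) ρ
  rw [h1, fderiv_comp_add_right]
  rfl

theorem AW4_pd_smul (G : E2 → V) (c : ℝ) (i : Fin 2) :
    pd i (fun z => c • G z) = fun z => c • pd i G z := by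
  funext z
  unfold pd
  have h := congrFun (fderiv_const_smul_field (𝕜 := ℝ) (f := G) c) z
  have h2 : fderiv ℝ (fun z => c • G z) z = c • fderiv ℝ G z := h
  rw [h2]
  rfl

theorem AW4_pd_saff (G : E2 → V) (c ρ : ℝ) (s : E2) (i : Fin 2) :
    pd i (fun z => c • G (ρ • z + s)) = fun y => (c * ρ) • pd i G (ρ • y + s) := by
  rw [AW4_pd_smul (fun z => G (ρ • z + s)) c i, AW4_pd_aff]
  funext y
  rw [smul_smul]

theorem AW4_le {u v : V} {ρ t t' : ℝ} (hρ : 0 < ρ) (h1 : t ≤ ρ * t') (h : ‖ρ • u - ρ • v‖ ≤ t) :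
    ‖u - v‖ ≤ t' := by
  rw [← smul_sub, norm_smul, Real.norm_of_nonneg hρ.le] at h
  exact le_of_mul_le_mul_left (h.trans h1) hρ

/-- transformation of `StageCl` under scalings -/
theorem AW4_stage {tf : ℝ → ℝ} {F F' : E2 → V4} {a : E2 → ℝ} {ρ : ℝ} (hρ : 0 < ρ) {s : E2}
    {t t' : ℝ} (h1 : t ≤ ρ * t') (h2 : t ≤ ρ ^ 2 * t') (h3 : t ≤ ρ ^ 3 * t') {y : E2}
    (h : StageCl tf (fun z => F (ρ • z + s)) (fun z => F' (ρ • z + s))
      (fun z => ρ * a (ρ • z + s)) t y) : StageCl tf F F' a t' (ρ • y + s) := by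
  unfold StageCl at h ⊢
  have e2 : (ρ * ρ : ℝ) = ρ ^ 2 := by ring
  have e3 : (ρ * ρ * ρ : ℝ) = ρ ^ 3 := by ring
  simp only [AW4_pd_aff, AW4_pd_saff, e2] at h
  have e3' : (ρ ^ 2 * ρ : ℝ) = ρ ^ 3 := by ring
  simp only [e3'] at h
  obtain ⟨k1, k2, k3, c, hc, k4, k5⟩ := h
  refine ⟨AW4_le hρ h1 k1, AW4_le (pow_pos hρ 2) h2 k2, AW4_le (pow_pos hρ 3) h3 k3, c, hc, ?_, ?_⟩
  · rw [F0_homog tf hρ] at k4
    exact AW4_le hρ h1 k4
  · simp only [F0_homog tf hρ] at k5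
    have e5 := AW4_pd_saff (fun y => F0 tf (pd 0 F y) (pd 1 F y) (pd 1 (pd 1 F) y) (a y) c) ρ ρ s 1
    rw [e5, e2] at k5
    exact AW4_le (pow_pos hρ 2) h2 k5

theorem AW4_inv_mono {τ h K K' : ℝ} (hK : 1 ≤ K) (hKK : K ≤ K') {F : E2 → V4} {x : E2}
    (hI : INV τ h K F x) : INV τ h K' F x := by
  obtain ⟨h1, h2, h3, h4, h5, h6, h7⟩ := hI
  refine ⟨h1.trans hKK, h2.trans hKK, h3.trans hKK, h4.trans hKK, h5.trans hKK, h6.trans hKK, ?_⟩
  have hg : 0 ≤ gram3 (pd 0 F x) (pd 1 F x) (h • pd 1 (pd 1 F) x) := by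
    by_contra hneg
    rw [not_le] at hneg
    have : K * gram3 (pd 0 F x) (pd 1 F x) (h • pd 1 (pd 1 F) x) ≤ 0 :=
      mul_nonpos_of_nonneg_of_nonpos (by linarith) hneg.le
    linarith
  exact h7.trans (mul_le_mul_of_nonneg_right hKK hg)

theorem AW4_inv_congr {τ h K : ℝ} {F G : E2 → V4} {x : E2} (hFG : F =ᶠ[𝓝 x] G)
    (hI : INV τ h K F x) : INV τ h K G x := by
  have p : ∀ {F G : E2 → V4}, F =ᶠ[𝓝 x] G → ∀ i : Fin 2, pd i F =ᶠ[𝓝 x] pd i G := by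
    intro F G h i
    filter_upwards [h.fderiv (𝕜 := ℝ)] with y hy
    unfold pd
    rw [hy]
  have p0 := p hFG 0
  have p1 := p hFG 1
  have p11 := p p1 1
  have q0 : (fun y => slo τ h y (pd 0 F y)) =ᶠ[𝓝 x] fun y => slo τ h y (pd 0 G y) := by
    filter_upwards [p0] with y hy
    rw [hy]
  have q1 : (fun y => slo τ h y (pd 1 F y)) =ᶠ[𝓝 x] fun y => slo τ h y (pd 1 G y) := by
    filter_upwards [p1] with y hy
    rw [hy]
  have q2 : (fun y => slo τ h y (h • pd 1 (pd 1 F) y)) =ᶠ[𝓝 x]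
      fun y => slo τ h y (h • pd 1 (pd 1 G) y) := by
    filter_upwards [p11] with y hy
    rw [hy]
  obtain ⟨h1, h2, h3, h4, h5, h6, h7⟩ := hI
  rw [p0.eq_of_nhds] at h1
  rw [p1.eq_of_nhds] at h2
  rw [p11.eq_of_nhds] at h3
  rw [(p q0 1).eq_of_nhds] at h4
  rw [(p q1 1).eq_of_nhds] at h5
  rw [(p q2 1).eq_of_nhds] at h6
  rw [p0.eq_of_nhds, p1.eq_of_nhds, p11.eq_of_nhds] at h7
  exact ⟨h1, h2, h3, h4, h5, h6, h7⟩

theorem AW4_gram3_smul (a b c : ℝ) (u v w : V4) :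
    gram3 (a • u) (b • v) (c • w) = (a * b * c) ^ 2 * gram3 u v w := by
  unfold gram3
  simp only [real_inner_smul_left, real_inner_smul_right]
  ring

theorem AW4_good {τ h K ρ : ℝ} (hK : 1 ≤ K) (hρ : 0 < ρ) {F : E2 → V4} {s y : E2}
    (hI : INV τ h K F (ρ • y + s)) : 0 < gramV (fun z => F (ρ • z + s)) e2 y := by
  have hbv : bv 1 = e2 := by simp [bv, e2]
  have hdd : ddv e2 (fun z => F (ρ • z + s)) y = pd 1 (pd 1 (fun z => F (ρ • z + s))) y := by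
    unfold ddv pd
    rw [hbv]
  unfold gramV
  rw [hdd]
  simp only [AW4_pd_aff, AW4_pd_saff]
  rw [AW4_gram3_smul]
  have h7 := hI.2.2.2.2.2.2
  have e1 := AW4_gram3_smul 1 1 h (pd 0 F (ρ • y + s)) (pd 1 F (ρ • y + s))
    (pd 1 (pd 1 F) (ρ • y + s))
  rw [one_smul, one_smul] at e1
  rw [e1] at h7
  have hg : 0 < gram3 (pd 0 F (ρ • y + s)) (pd 1 F (ρ • y + s)) (pd 1 (pd 1 F) (ρ • y + s)) := by
    by_contra hneg
    rw [not_lt] at hneg
    have : K * ((1 * 1 * h) ^ 2 * gram3 (pd 0 F (ρ • y + s)) (pd 1 F (ρ • y + s))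
        (pd 1 (pd 1 F) (ρ • y + s))) ≤ 0 :=
      mul_nonpos_of_nonneg_of_nonpos (by linarith)
        (mul_nonpos_of_nonneg_of_nonpos (sq_nonneg _) hneg)
    linarith
  exact mul_pos (by positivity) hg

end AW4_planar

variable {M : Type} [TopologicalSpace M] [ChartedSpace E2 M] [IsManifold 𝓘(ℝ, E2) ∞ M]

theorem AW4_flat_smul {a : M → ℝ} (ha : Flat a) {ρ : ℝ} (hρ : 0 < ρ) :
    Flat (fun p => ρ * a p) := by
  intro n hn
  obtain ⟨θ, h1, h2⟩ := ha n hn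
  refine ⟨fun p => ρ ^ ((n : ℝ)⁻¹) * θ p, ?_,
    fun p => ⟨mul_nonneg (Real.rpow_nonneg hρ.le _) (h2 p).1, ?_⟩⟩
  · have k1 : ContMDiff 𝓘(ℝ, E2) 𝓘(ℝ, ℝ) ∞ θ := h1
    have k2 : ContMDiff 𝓘(ℝ, E2) 𝓘(ℝ, ℝ) ∞ (fun _ : M => ρ ^ ((n : ℝ)⁻¹)) := contMDiff_const
    exact k2.mul k1
  · rw [mul_pow, (h2 p).2, Real.rpow_inv_natCast_pow hρ.le (by omega)]

theorem AW4_flat_sm {a : M → ℝ} (ha : Flat a) : Sm a := by
  obtain ⟨θ, h1, h2⟩ := ha 1 le_rfl
  have : a = θ := by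
    funext p
    rw [← (h2 p).2, pow_one]
  rw [this]
  exact h1

/-- the unscaled chart -/
theorem AW4_chart {A B : M → ℝ} {τ ρ : ℝ} {s : E2} {κ : OpenPartialHomeomorph M E2}
    (h : IsXYs A B τ ρ s κ) : ∃ χ : OpenPartialHomeomorph M E2, IsXY A B τ χ ∧
      χ.source = κ.source ∧ (∀ p, χ p = ρ • κ p + s) ∧ (∀ y, κ.symm y = χ.symm (ρ • y + s)) ∧
      ∀ y ∈ κ.target, ρ • y + s ∈ χ.target := by
  obtain ⟨hρ, hκ, hAB⟩ := h
  set T : E2 ≃ₜ E2 := (Homeomorph.smulOfNeZero ρ hρ.ne').trans (Homeomorph.addRight s) with hT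
  have hTapp : ∀ y, T y = ρ • y + s := fun y => rfl
  have hTsymm : ∀ z, T.symm z = ρ⁻¹ • (z - s) := by
    intro z
    rw [Homeomorph.symm_apply_eq, hTapp, smul_smul, mul_inv_cancel₀ hρ.ne', one_smul,
      sub_add_cancel]
  have hTs : ContDiff ℝ ∞ (T : E2 → E2) := by
    have : (T : E2 → E2) = fun y => ρ • y + s := funext hTapp
    rw [this]
    fun_prop
  have hTs' : ContDiff ℝ ∞ (T.symm : E2 → E2) := by
    have : (T.symm : E2 → E2) = fun z => ρ⁻¹ • (z - s) := funext hTsymm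
    rw [this]
    fun_prop
  refine ⟨κ.transHomeomorph T, ⟨?_, ?_⟩, rfl, fun p => rfl, ?_, ?_⟩
  · refine OpenPartialHomeomorph.mem_maximalAtlas_of_contMDiffOn _ ?_ ?_
    · have h1 := contMDiffOn_of_mem_maximalAtlas hκ
      exact (hTs.contMDiff.contMDiffOn (s := univ)).comp h1 (fun _ _ => mem_univ _)
    · have h1 := contMDiffOn_symm_of_mem_maximalAtlas hκ
      exact h1.comp (hTs'.contMDiff.contMDiffOn (s := T.symm ⁻¹' κ.target)) (fun z hz => hz)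
  · intro p hp
    have h1 := hAB p hp
    exact h1
  · intro y
    change κ.symm y = κ.symm (T.symm (T y))
    rw [Homeomorph.symm_apply_apply]
  · intro y hy
    change T.symm (T y) ∈ κ.target
    rw [Homeomorph.symm_apply_apply]
    exact hy

/-- comparison of the derivatives in `(x, y)`-charts with those in a finite atlas -/
theorem AW4_cover (𝒜 : FinAtlas M) {A B : M → ℝ} (hA : Sm A) (hB : Sm B) {τ : ℝ} (hτ : 0 < τ)
    {KO : Set M} (hKc : IsCompact KO) (hKO : ∀ p ∈ KO, detC (dP A p) (dP B p) ≠ 0) :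
    ∃ C : ℝ, 0 < C ∧ ∀ p ∈ KO, ∃ χ, IsXY A B τ χ ∧ p ∈ χ.source ∧ ∀ (u : M → V4) (η : ℝ), Sm u →
      0 ≤ η → ClAt 𝒜 3 u η p → ∀ j ≤ 3, ‖iteratedFDeriv ℝ j (u ∘ χ.symm) (χ p)‖ ≤ C * η := by
  refine hKc.induction_on (p := fun S => ∃ C : ℝ, 0 < C ∧ ∀ p ∈ S, ∃ χ, IsXY A B τ χ ∧
    p ∈ χ.source ∧ ∀ (u : M → V4) (η : ℝ), Sm u →
      0 ≤ η → ClAt 𝒜 3 u η p → ∀ j ≤ 3, ‖iteratedFDeriv ℝ j (u ∘ χ.symm) (χ p)‖ ≤ C * η)
    ?_ ?_ ?_ ?_
  · exact ⟨1, one_pos, fun p hp => absurd hp (notMem_empty p)⟩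
  · rintro S T hST ⟨C, hC, h⟩
    exact ⟨C, hC, fun p hp => h p (hST hp)⟩
  · rintro S T ⟨C, hC, h⟩ ⟨C', hC', h'⟩
    refine ⟨max C C', lt_max_of_lt_left hC, fun p hp => ?_⟩
    rcases hp with hp | hp
    · obtain ⟨χ, h1, h2, h3⟩ := h p hp
      exact ⟨χ, h1, h2, fun u η hu hη hcl j hj => (h3 u η hu hη hcl j hj).trans
        (mul_le_mul_of_nonneg_right (le_max_left _ _) hη)⟩
    · obtain ⟨χ, h1, h2, h3⟩ := h' p hp
      exact ⟨χ, h1, h2, fun u η hu hη hcl j hj => (h3 u η hu hη hcl j hj).trans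
        (mul_le_mul_of_nonneg_right (le_max_right _ _) hη)⟩
  · intro p hp
    obtain ⟨χ, hχ, hpχ⟩ := exists_XY hA hB hτ (hKO p hp)
    obtain ⟨ε, hε, hsub⟩ := Metric.nhds_basis_closedBall.mem_iff.1
      (χ.open_target.mem_nhds (χ.map_source hpχ))
    obtain ⟨C, hC, hcl⟩ := clAt_chart 𝒜 hχ.1 (isCompact_closedBall (χ p) ε) hsub 3
    have hN : χ.source ∩ χ ⁻¹' Metric.ball (χ p) ε ∈ 𝓝 p :=
      (χ.isOpen_inter_preimage Metric.isOpen_ball).mem_nhds ⟨hpχ, Metric.mem_ball_self hε⟩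
    refine ⟨_, mem_nhdsWithin_of_mem_nhds hN, C, hC, fun q hq => ⟨χ, hχ, hq.1, ?_⟩⟩
    intro u η hu hη hu2 j hj
    refine hcl u η hu hη (χ q) (Metric.ball_subset_closedBall hq.2) ?_ j hj
    rw [χ.left_inv hq.1]
    exact hu2

/-- one stage of the W-group: adds `a² dx²`, `x = (A + B)/2`, in a scaled `(x, y)`-chart inside
`KO`.  `K'` does not depend on `h`, `f`, `a`.  (Apply ES with amplitude `ρ a`; transform `StageCl` from
the coordinates `κ` to the coordinates `x = ρ κ + s` by `F0_homog`; then `inv_prop` on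
`κ⁻¹ (closedBall 0 3)` and `inv_prop0` elsewhere on `KO`.) -/
theorem w_stage [CompactSpace M] [T2Space M] {tf : ℝ → ℝ} (htf : ContDiff ℝ ∞ tf)
    (hES : ESfor M tf) (𝒜 : FinAtlas M) {A B : M → ℝ} (hA : Sm A) (hB : Sm B) {τ : ℝ} (hτ : 0 < τ)
    {KO : Set M} (hKc : IsCompact KO) (hKO : ∀ p ∈ KO, detC (dP A p) (dP B p) ≠ 0)
    {κ : OpenPartialHomeomorph M E2} (hκ : ∃ ρ s, IsXYs A B τ ρ s κ) (hκK : κ.source ⊆ KO)
    (hκ4 : Metric.closedBall (0 : E2) 4 ⊆ κ.target) {K : ℝ} (hK : 1 ≤ K) :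
    ∃ K' : ℝ, K ≤ K' ∧ ∀ h ∈ Ioo (0 : ℝ) 1, ∀ (f : M → V4) (a : M → ℝ), Sm f → GoodAll f →
      Flat a → (∀ p, 0 ≤ a p) →
      (∀ p, a p ≠ 0 → p ∈ κ.source ∧ κ p ∈ Metric.closedBall (0 : E2) 1) →
      INVM A B τ h K KO f →
      (∀ χ, IsXY A B τ χ → ∀ x ∈ χ.target, χ.symm x ∈ KO →
        |a (χ.symm x)| ≤ K ∧ |pd 1 (a ∘ χ.symm) x| ≤ K) →
      ∀ tol : ℝ, 0 < tol → ∃ F' : M → V4, Sm F' ∧ GoodAll F' ∧
        (∀ p, metr F' p = metr f p + a p ^ 2 • sqT (fun q => (A q + B q) / 2) p) ∧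
        INVM A B τ h K' KO F' ∧ ∀ p, p ∉ KO → ClAt 𝒜 3 (F' - f) tol p := by
  obtain ⟨K1, hK1, hinv⟩ := inv_prop htf hτ hK
  obtain ⟨C, hC, hcov⟩ := AW4_cover 𝒜 hA hB hτ hKc hKO
  obtain ⟨ρ, s, hXYs⟩ := hκ
  obtain ⟨χ, hχ, hsrc, happ, hsymm, htgt⟩ := AW4_chart hXYs
  have hρ : 0 < ρ := hXYs.1
  have hκA : κ ∈ ATL M := hXYs.2.1
  refine ⟨max K1 (2 * K), hK1.trans (le_max_left _ _),
    fun h hh f a hf hG ha ha0 has hI haK tol htol => ?_⟩
  obtain ⟨t1, ht1, hinv1⟩ := hinv h hh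
  obtain ⟨t0, ht0, hinv0⟩ := inv_prop0 hτ hK h hh
  have hK1' : 1 ≤ K1 := hK.trans hK1
  -- the tolerance
  obtain ⟨t, ht, htol', hCt, hr1, hr2, hr3⟩ : ∃ t : ℝ, 0 < t ∧ t ≤ tol ∧ C * t ≤ t0 ∧
      t ≤ ρ * t1 ∧ t ≤ ρ ^ 2 * t1 ∧ t ≤ ρ ^ 3 * t1 := by
    refine ⟨min tol (min (t0 / C) (min (ρ * t1) (min (ρ ^ 2 * t1) (ρ ^ 3 * t1)))), ?_,
      min_le_left _ _, ?_, ?_, ?_, ?_⟩
    · exact lt_min htol (lt_min (by positivity) (lt_min (by positivity)
        (lt_min (by positivity) (by positivity))))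
    · have h1 : min tol (min (t0 / C) (min (ρ * t1) (min (ρ ^ 2 * t1) (ρ ^ 3 * t1)))) ≤ t0 / C :=
        (min_le_right _ _).trans (min_le_left _ _)
      calc C * _ ≤ C * (t0 / C) := mul_le_mul_of_nonneg_left h1 hC.le
        _ = t0 := by field_simp
    · exact (min_le_right _ _).trans ((min_le_right _ _).trans (min_le_left _ _))
    · exact (min_le_right _ _).trans ((min_le_right _ _).trans
        ((min_le_right _ _).trans (min_le_left _ _)))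
    · exact (min_le_right _ _).trans ((min_le_right _ _).trans
        ((min_le_right _ _).trans (min_le_right _ _)))
  have hfun : ∀ {W : Type} (F : M → W), F ∘ κ.symm = fun z => (F ∘ χ.symm) (ρ • z + s) := by
    intro W F
    funext z
    simp only [Function.comp_apply, hsymm z]
  have hball : ∀ y ∈ Metric.closedBall (0 : E2) 3, y ∈ κ.target := fun y hy =>
    hκ4 (Metric.closedBall_subset_closedBall (by norm_num) hy)
  have hKOx : ∀ y ∈ κ.target, χ.symm (ρ • y + s) ∈ KO := by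
    intro y hy
    rw [← hsymm y]
    exact hκK (κ.map_target hy)
  obtain ⟨F', hF', hGF', hm, hout, hin⟩ := hES f κ (fun p => ρ * a p) hf hG hκA hκ4
    (AW4_flat_smul ha hρ) (fun p => mul_nonneg hρ.le (ha0 p))
    (fun p hp => has p (right_ne_zero_of_mul hp))
    (by
      intro y hy
      have h1 := hI χ hχ (ρ • y + s) (htgt y (hball y hy)) (hKOx y (hball y hy))
      unfold GoodIn
      rw [hfun f]
      exact AW4_good hK hρ h1) 𝒜 t ht
  refine ⟨F', hF', hGF', ?_, ?_, ?_⟩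
  · intro p
    rw [hm p]
    congr 1
    by_cases hp : a p = 0
    · simp [hp]
    · have hps := (has p hp).1
      rw [← sq1_XYs hA hB hXYs hps, smul_smul]
      congr 1
      ring
  · intro χ' hχ' x' hx' hpK
    set p := χ'.symm x' with hpdef
    have hpχ' : p ∈ χ'.source := χ'.map_target hx'
    have hx'p : χ' p = x' := χ'.right_inv hx'
    -- transfer between (x, y)-charts
    have htrans : ∀ χ'', IsXY A B τ χ'' → p ∈ χ''.source → ∀ K'' : ℝ, 1 ≤ K'' →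
        K'' ≤ max K1 (2 * K) → INV τ h K'' (F' ∘ χ''.symm) (χ'' p) →
        INV τ h (max K1 (2 * K)) (F' ∘ χ'.symm) x' := by
      intro χ'' hχ'' hp'' K'' hK'' hle hII
      obtain ⟨e1, e2⟩ := isXY_eq hτ hχ'' hχ' hp'' hpχ'
      have h3 := AW4_inv_mono hK'' hle (AW4_inv_congr (e2 F') hII)
      rw [e1, hx'p] at h3
      exact h3
    by_cases hcase : p ∈ κ.source ∧ κ p ∈ Metric.ball (0 : E2) 2
    · have hκp : κ p ∈ Metric.closedBall (0 : E2) 3 :=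
        Metric.ball_subset_closedBall (Metric.ball_subset_ball (by norm_num) hcase.2)
      have hps : p ∈ χ.source := by
        rw [hsrc]
        exact hcase.1
      have hst := hin (κ p) hκp
      rw [hfun f, hfun F', hfun (fun p => ρ * a p)] at hst
      have hst2 := AW4_stage (F := f ∘ χ.symm) (F' := F' ∘ χ.symm) (a := a ∘ χ.symm) hρ hr1 hr2 hr3
        hst
      rw [← happ p] at hst2
      have hχt : χ p ∈ χ.target := χ.map_source hps
      have hχK : χ.symm (χ p) ∈ KO := by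
        rw [χ.left_inv hps]
        exact hpK
      have hn := χ.open_target.mem_nhds hχt
      have hI' := hI χ hχ (χ p) hχt hχK
      obtain ⟨ha1, ha2⟩ := haK χ hχ (χ p) hχt hχK
      have hres := hinv1 (f ∘ χ.symm) (F' ∘ χ.symm) (a ∘ χ.symm) (χ p)
        ((hf.loc hχ.1).contDiffAt hn) ((hF'.loc hχ.1).contDiffAt hn)
        (((AW4_flat_sm ha).loc hχ.1).contDiffAt hn) hI' ha1 ha2 hst2
      exact htrans χ hχ hps K1 hK1' (le_max_left _ _) hres
    · have hcl := hout p hcase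
      obtain ⟨χ'', hχ'', hp'', hder⟩ := hcov p hpK
      have hd : Sm (F' - f) := by
        have k1 : ContMDiff 𝓘(ℝ, E2) 𝓘(ℝ, V4) ∞ F' := hF'
        have k2 : ContMDiff 𝓘(ℝ, E2) 𝓘(ℝ, V4) ∞ f := hf
        exact k1.sub k2
      have hχt : χ'' p ∈ χ''.target := χ''.map_source hp''
      have hχK : χ''.symm (χ'' p) ∈ KO := by
        rw [χ''.left_inv hp'']
        exact hpK
      have hn := χ''.open_target.mem_nhds hχt
      have hI' := hI χ'' hχ'' (χ'' p) hχt hχK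
      have hres := hinv0 (f ∘ χ''.symm) (F' ∘ χ''.symm) (χ'' p)
        ((hf.loc hχ''.1).contDiffAt hn) ((hF'.loc hχ''.1).contDiffAt hn) hI'
        (fun j hj => (hder (F' - f) t hd ht.le hcl j hj).trans hCt)
      exact htrans χ'' hχ'' hp'' (2 * K) (by linarith) (le_max_right _ _) hres
  · intro p hp
    have h1 : ¬ (p ∈ κ.source ∧ κ p ∈ Metric.ball (0 : E2) 2) := fun h => hp (hκK h.1)
    intro k h2 h3 j hj
    exact (hout p h1 k h2 h3 j hj).trans htol'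

end P205F
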