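import Vale.Agent.Lib.P205B.AW2
import Vale.Agent.Lib.P205B.AW4

/-!
# P205F ASSEMBLY: flat partitions, the W-group
-/

noncomputable section

namespace P205F

open scoped Manifold ContDiff Topology RealInnerProductSpace
open Set

set_option maxSynthPendingDepth 3

variable {M : Type} [TopologicalSpace M] [ChartedSpace E2 M] [IsManifold 𝓘(ℝ, E2) ∞ M]

private theorem AW_inv_mono {τ h K K' : ℝ} {F : E2 → V4} {x : E2} (hK : 1 ≤ K) (hKK : K ≤ K')
    (H : INV τ h K F x) : INV τ h K' F x := by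
  obtain ⟨h1, h2, h3, h4, h5, h6, h7⟩ := H
  refine ⟨h1.trans hKK, h2.trans hKK, h3.trans hKK, h4.trans hKK, h5.trans hKK, h6.trans hKK, ?_⟩
  have hg : 0 < gram3 (pd 0 F x) (pd 1 F x) (h • pd 1 (pd 1 F) x) := by
    by_contra hcon
    have h8 := not_lt.1 hcon
    nlinarith
  nlinarith

private theorem AW_cl_mono {𝒜 : FinAtlas M} {r r' : ℕ} {u : M → V4} {η η' : ℝ} {p : M}
    (hr : r ≤ r') (hη : η' ≤ η) (h : ClAt 𝒜 r' u η' p) : ClAt 𝒜 r u η p :=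
  fun k h1 h2 j hj => (h k h1 h2 j (hj.trans hr)).trans hη

private theorem AW_cl_add {𝒜 : FinAtlas M} {r : ℕ} {u v : M → V4} {a b : ℝ} {p : M} (hu : Sm u)
    (hv : Sm v) (h : ClAt 𝒜 r u a p) (h' : ClAt 𝒜 r v b p) : ClAt 𝒜 r (u + v) (a + b) p := by
  intro k h1 h2 j hj
  have hn := (𝒜.φ k).open_target.mem_nhds ((𝒜.φ k).map_source h1)
  have c1 : ContDiffAt ℝ j (u ∘ (𝒜.φ k).symm) (𝒜.φ k p) :=
    ((hu.loc (𝒜.mem k)).contDiffAt hn).of_le (by exact_mod_cast le_top)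
  have c2 : ContDiffAt ℝ j (v ∘ (𝒜.φ k).symm) (𝒜.φ k p) :=
    ((hv.loc (𝒜.mem k)).contDiffAt hn).of_le (by exact_mod_cast le_top)
  have e : (u + v) ∘ (𝒜.φ k).symm = (u ∘ (𝒜.φ k).symm) + (v ∘ (𝒜.φ k).symm) := rfl
  rw [e, iteratedFDeriv_add_apply c1 c2]
  exact (norm_add_le _ _).trans (add_le_add (h k h1 h2 j hj) (h' k h1 h2 j hj))

private theorem AW_sm_of_flat {β : M → ℝ} (hβ : Flat β) : Sm β := by
  obtain ⟨θ, hθ, h⟩ := hβ 1 le_rfl
  have e : θ = β := by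
    funext p
    rw [← (h p).2, pow_one]
  rwa [← e]

/-- uniform bound of the `x₂`-derivative in all `(x, y)`-charts -/
private theorem AW_bd {A B : M → ℝ} (hA : Sm A) (hB : Sm B) {τ : ℝ} (hτ : 0 < τ) {T U : Set M}
    (hT : IsCompact T) (hU : IsOpen U) (hTU : T ⊆ U)
    (hd : ∀ p ∈ T, detC (dP A p) (dP B p) ≠ 0) (b : M → ℝ)
    (hb : ∀ χ ∈ ATL M, ContDiffOn ℝ ∞ (b ∘ χ.symm) (χ.target ∩ χ.symm ⁻¹' U)) :
    ∃ C : ℝ, 0 ≤ C ∧ ∀ χ, IsXY A B τ χ → ∀ x ∈ χ.target, χ.symm x ∈ T →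
      |pd 1 (b ∘ χ.symm) x| ≤ C := by
  refine hT.induction_on (p := fun s => ∃ C : ℝ, 0 ≤ C ∧ ∀ χ, IsXY A B τ χ → ∀ x ∈ χ.target,
    χ.symm x ∈ s → |pd 1 (b ∘ χ.symm) x| ≤ C) ?_ ?_ ?_ ?_
  · exact ⟨0, le_rfl, fun χ _ x _ hx => absurd hx (notMem_empty _)⟩
  · rintro s t hst ⟨C, hC, h⟩
    exact ⟨C, hC, fun χ hχ x hx hs => h χ hχ x hx (hst hs)⟩
  · rintro s t ⟨C, hC, h⟩ ⟨C', hC', h'⟩
    refine ⟨max C C', hC.trans (le_max_left _ _), fun χ hχ x hx hs => ?_⟩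
    rcases hs with hs | hs
    · exact (h χ hχ x hx hs).trans (le_max_left _ _)
    · exact (h' χ hχ x hx hs).trans (le_max_right _ _)
  · intro p hp
    obtain ⟨ψ, hψ, hpψ⟩ := exists_XY hA hB hτ (hd p hp)
    have hO : IsOpen (ψ.target ∩ ψ.symm ⁻¹' U) := ψ.symm.isOpen_inter_preimage hU
    have hmem : ψ p ∈ ψ.target ∩ ψ.symm ⁻¹' U :=
      ⟨ψ.map_source hpψ, by
        change ψ.symm (ψ p) ∈ U
        rw [ψ.left_inv hpψ]
        exact hTU hp⟩
    have hc : ContinuousAt (fun y => pd 1 (b ∘ ψ.symm) y) (ψ p) := by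
      have h1 : ContDiffOn ℝ ∞ (fderiv ℝ (b ∘ ψ.symm)) (ψ.target ∩ ψ.symm ⁻¹' U) :=
        (hb ψ hψ.1).fderiv_of_isOpen hO (by simp)
      exact (h1.continuousOn.continuousAt (hO.mem_nhds hmem)).clm_apply continuousAt_const
    have hev : ∀ᶠ y in 𝓝 (ψ p), |pd 1 (b ∘ ψ.symm) y| < |pd 1 (b ∘ ψ.symm) (ψ p)| + 1 :=
      hc.abs.eventually_lt_const (lt_add_one _)
    have hcont : ContinuousAt ψ p := ψ.continuousAt hpψ
    refine ⟨_, mem_nhdsWithin_of_mem_nhds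
      ((hcont.eventually hev).and (ψ.open_source.mem_nhds hpψ)),
      |pd 1 (b ∘ ψ.symm) (ψ p)| + 1, by positivity, fun χ hχ x hx hq => ?_⟩
    obtain ⟨hq1, hq2⟩ := hq
    obtain ⟨h1, h2⟩ := isXY_eq hτ hχ hψ (p := χ.symm x) (χ.map_target hx) hq2
    rw [χ.right_inv hx] at h1 h2
    have h3 := (h2 b).fderiv_eq (𝕜 := ℝ)
    have h4 : pd 1 (b ∘ χ.symm) x = pd 1 (b ∘ ψ.symm) (ψ (χ.symm x)) := by
      unfold pd
      rw [h3, ← h1]
    rw [h4]
    exact le_of_lt hq1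

/-- the amplitudes of the W-group are bounded in `C¹` -/
private theorem AW_amp {A B : M → ℝ} {τ : ℝ} {KT KO U : Set M} {K C : ℝ} (hK : 1 ≤ K) (hC : 0 ≤ C)
    {b β : M → ℝ} (hU : IsOpen U) (hTU : KT ⊆ U)
    (hb : ∀ χ ∈ ATL M, ContDiffOn ℝ ∞ (b ∘ χ.symm) (χ.target ∩ χ.symm ⁻¹' U))
    (hb1 : ∀ p ∈ U, |b p| ≤ 1)
    (hbC : ∀ χ, IsXY A B τ χ → ∀ x ∈ χ.target, χ.symm x ∈ KT → |pd 1 (b ∘ χ.symm) x| ≤ C)
    (hβ : Flat β) (hβs : tsupport β ⊆ KT)
    (hβK : ∀ χ, IsXY A B τ χ → ∀ x ∈ χ.target, χ.symm x ∈ KO →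
      |β (χ.symm x)| ≤ K ∧ |pd 1 (β ∘ χ.symm) x| ≤ K) :
    ∀ χ, IsXY A B τ χ → ∀ x ∈ χ.target, χ.symm x ∈ KO →
      |b (χ.symm x) * (2 * β (χ.symm x))| ≤ 2 * K * (C + 1) ∧
      |pd 1 ((fun p => b p * (2 * β p)) ∘ χ.symm) x| ≤ 2 * K * (C + 1) := by
  intro χ hχ x hx hxK
  obtain ⟨h1, h2⟩ := hβK χ hχ x hx hxK
  have hKC : 0 ≤ K * C := mul_nonneg (by linarith) hC
  by_cases hp : χ.symm x ∈ tsupport β
  · have hpT := hβs hp
    have hpU := hTU hpT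
    have hO : IsOpen (χ.target ∩ χ.symm ⁻¹' U) := χ.symm.isOpen_inter_preimage hU
    have hd1 : DifferentiableAt ℝ (b ∘ χ.symm) x :=
      ((hb χ hχ.1).contDiffAt (hO.mem_nhds ⟨hx, hpU⟩)).differentiableAt (by simp)
    have hd2 : DifferentiableAt ℝ (β ∘ χ.symm) x :=
      (((AW_sm_of_flat hβ).loc hχ.1).contDiffAt
        (χ.open_target.mem_nhds hx)).differentiableAt (by simp)
    have h3 := hb1 _ hpU
    have h4 := hbC χ hχ x hx hpT
    refine ⟨?_, ?_⟩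
    · rw [abs_mul, abs_mul, abs_two]
      nlinarith [abs_nonneg (b (χ.symm x)), abs_nonneg (β (χ.symm x))]
    · have h5 : pd 1 ((fun p => b p * (2 * β p)) ∘ χ.symm) x =
          2 * (b (χ.symm x) * pd 1 (β ∘ χ.symm) x + β (χ.symm x) * pd 1 (b ∘ χ.symm) x) := by
        have e : ((fun p => b p * (2 * β p)) ∘ χ.symm) =
            (2 : ℝ) • ((b ∘ χ.symm) * (β ∘ χ.symm)) := by
          funext y
          simp only [Function.comp_apply, smul_eq_mul, Pi.smul_apply, Pi.mul_apply]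
          ring
        unfold pd
        rw [e, ((hd1.hasFDerivAt.mul hd2.hasFDerivAt).const_smul (2 : ℝ)).fderiv]
        simp
        ring
      rw [h5, abs_mul, abs_two]
      have h6 : |b (χ.symm x) * pd 1 (β ∘ χ.symm) x + β (χ.symm x) * pd 1 (b ∘ χ.symm) x| ≤
          K + K * C := by
        refine (abs_add_le _ _).trans ?_
        rw [abs_mul, abs_mul]
        have h7 : |b (χ.symm x)| * |pd 1 (β ∘ χ.symm) x| ≤ 1 * K :=
          mul_le_mul h3 h2 (abs_nonneg _) zero_le_one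
        have h8 : |β (χ.symm x)| * |pd 1 (b ∘ χ.symm) x| ≤ K * C :=
          mul_le_mul h1 h4 (abs_nonneg _) (by linarith)
        linarith
      linarith
  · have h3 : β =ᶠ[𝓝 (χ.symm x)] 0 := notMem_tsupport_iff_eventuallyEq.1 hp
    have h4 : β (χ.symm x) = 0 := h3.eq_of_nhds
    have h5 : ContinuousAt χ.symm x := χ.symm.continuousAt hx
    have h6 : ((fun p => b p * (2 * β p)) ∘ χ.symm) =ᶠ[𝓝 x] fun _ => (0 : ℝ) := by
      filter_upwards [h5.eventually h3] with y hy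
      simp only [Function.comp_apply]
      rw [hy]
      simp
    refine ⟨?_, ?_⟩
    · rw [h4, mul_zero, mul_zero, abs_zero]
      nlinarith
    · unfold pd
      rw [h6.fderiv_eq]
      simp only [fderiv_fun_const, Pi.zero_apply, ContinuousLinearMap.zero_apply, abs_zero]
      nlinarith

/-- the induction over the stages -/
private theorem AW_ind [CompactSpace M] [T2Space M] {tf : ℝ → ℝ} (htf : ContDiff ℝ ∞ tf)
    (hES : ESfor M tf) (𝒜 : FinAtlas M) {A B : M → ℝ} (hA : Sm A) (hB : Sm B) {τ : ℝ} (hτ : 0 < τ)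
    {KO : Set M} (hKc : IsCompact KO) (hKO : ∀ p ∈ KO, detC (dP A p) (dP B p) ≠ 0)
    {K₁ : ℝ} (hK₁ : 1 ≤ K₁) {n : ℕ} (φ : Fin n → OpenPartialHomeomorph M E2)
    (hφ : ∀ i, (∃ ρ s, IsXYs A B τ ρ s (φ i)) ∧ (φ i).source ⊆ KO ∧
      Metric.closedBall (0 : E2) 4 ⊆ (φ i).target)
    (s : Finset (Fin n)) :
    ∃ K' : ℝ, K₁ ≤ K' ∧ ∀ h ∈ Ioo (0 : ℝ) 1, ∀ (f : M → V4) (a : Fin n → M → ℝ), Sm f →
      GoodAll f → (∀ i, Flat (a i)) → (∀ i p, 0 ≤ a i p) →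
      (∀ i p, a i p ≠ 0 → p ∈ (φ i).source ∧ φ i p ∈ Metric.closedBall (0 : E2) 1) →
      INVM A B τ h K₁ KO f →
      (∀ i χ, IsXY A B τ χ → ∀ x ∈ χ.target, χ.symm x ∈ KO →
        |a i (χ.symm x)| ≤ K₁ ∧ |pd 1 (a i ∘ χ.symm) x| ≤ K₁) →
      ∀ tol : ℝ, 0 < tol → ∃ F' : M → V4, Sm F' ∧ GoodAll F' ∧
        (∀ p, metr F' p = metr f p +
          (∑ i ∈ s, a i p ^ 2) • sqT (fun q => (A q + B q) / 2) p) ∧
        INVM A B τ h K' KO F' ∧ ∀ p, p ∉ KO → ClAt 𝒜 3 (F' - f) tol p := by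
  classical
  induction s using Finset.induction_on with
  | empty =>
    refine ⟨K₁, le_rfl, fun h hh f a hf hg hfl h0 hsup hinv hbd tol htol =>
      ⟨f, hf, hg, fun p => ?_, hinv, fun p hp => ?_⟩⟩
    · rw [Finset.sum_empty, zero_smul, add_zero]
    · intro k h1 h2 j hj
      have e : (f - f) ∘ (𝒜.φ k).symm = fun _ => (0 : V4) := by
        funext y
        simp
      have e2 : iteratedFDeriv ℝ j (fun _ : E2 => (0 : V4)) (𝒜.φ k p) = 0 := by
        rw [iteratedFDeriv_zero_fun]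
        rfl
      rw [e, e2, norm_zero]
      exact htol.le
  | insert i s hi ih =>
    obtain ⟨K', hK', H⟩ := ih
    obtain ⟨K'', hK'', H'⟩ := w_stage htf hES 𝒜 hA hB hτ hKc hKO (hφ i).1 (hφ i).2.1 (hφ i).2.2
      (hK₁.trans hK')
    refine ⟨K'', hK'.trans hK'', fun h hh f a hf hg hfl h0 hsup hinv hbd tol htol => ?_⟩
    obtain ⟨F, hF, hFg, hFm, hFi, hFc⟩ := H h hh f a hf hg hfl h0 hsup hinv hbd (tol / 2)
      (by linarith)
    obtain ⟨F', hF', hFg', hFm', hFi', hFc'⟩ := H' h hh F (a i) hF hFg (hfl i) (h0 i) (hsup i)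
      hFi (fun χ hχ x hx hxK => ⟨(hbd i χ hχ x hx hxK).1.trans hK',
        (hbd i χ hχ x hx hxK).2.trans hK'⟩) (tol / 2) (by linarith)
    refine ⟨F', hF', hFg', fun p => ?_, hFi', fun p hp => ?_⟩
    · rw [hFm', hFm, Finset.sum_insert hi, add_smul]
      abel
    · have e : F' - f = (F' - F) + (F - f) := by abel
      have hs1 : Sm (F' - F) := ContMDiff.sub hF' hF
      have hs2 : Sm (F - f) := ContMDiff.sub hF hf
      have h1 := AW_cl_add hs1 hs2 (hFc' p hp) (hFc p hp)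
      rw [add_halves] at h1
      rw [e]
      exact h1

/-- stability of the good directions off `KO` -/
private theorem AW_far [CompactSpace M] (𝒜 : FinAtlas M) {T : M → Bil} (hT : SmT T) {f : M → V4}
    (hf : Sm f) (hG : ∀ p v, v ≠ 0 → T p v v = 0 → GoodIn (chartAt E2 p) f v (chartAt E2 p p)) :
    ∃ η : ℝ, 0 < η ∧ ∀ F' : M → V4, Sm F' → ∀ p, ClAt 𝒜 3 (F' - f) η p → ∀ v, v ≠ 0 →
      T p v v = 0 → GoodIn (chartAt E2 p) F' v (chartAt E2 p p) := by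
  have key : ∀ k : Fin 𝒜.n, ∃ η : ℝ, 0 < η ∧ ∀ F' : M → V4, Sm F' →
      ∀ x ∈ Metric.closedBall (0 : E2) 3, ∀ v : E2,
      ‖v‖ = 1 → locT (𝒜.φ k) T x v v = 0 → ClAt 𝒜 2 (F' - f) η ((𝒜.φ k).symm x) →
      GoodIn (𝒜.φ k) F' v x := by
    intro k
    have hsub : Metric.closedBall (0 : E2) 3 ⊆ (𝒜.φ k).target :=
      (Metric.closedBall_subset_closedBall (by norm_num)).trans (𝒜.target k)
    have hc : ContinuousOn (fun q : E2 × E2 => locT (𝒜.φ k) T q.1 q.2 q.2)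
        (Metric.closedBall (0 : E2) 3 ×ˢ (univ : Set E2)) := by
      have h1 : ContinuousOn (locT (𝒜.φ k) T) (𝒜.φ k).target := (hT _ (𝒜.mem k)).continuousOn
      have h2 : ContinuousOn (fun q : E2 × E2 => locT (𝒜.φ k) T q.1)
          (Metric.closedBall (0 : E2) 3 ×ˢ (univ : Set E2)) :=
        h1.comp continuousOn_fst (fun q hq => hsub hq.1)
      exact (h2.clm_apply continuousOn_snd).clm_apply continuousOn_snd
    have hcl : IsClosed ((Metric.closedBall (0 : E2) 3 ×ˢ (univ : Set E2)) ∩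
        (fun q : E2 × E2 => locT (𝒜.φ k) T q.1 q.2 q.2) ⁻¹' {0}) :=
      hc.preimage_isClosed_of_isClosed (Metric.isClosed_closedBall.prod isClosed_univ)
        isClosed_singleton
    obtain ⟨η, hη, H⟩ := good_stable 𝒜 hf k hcl (by
      rintro x hx v hv ⟨_, hxv⟩
      have hxt := hsub hx
      have h1 : T ((𝒜.φ k).symm x) (TTi (𝒜.φ k) x v) (TTi (𝒜.φ k) x v) = 0 := hxv
      have h2 : TT (𝒜.φ k) ((𝒜.φ k).symm x) (TTi (𝒜.φ k) x v) = v := by
        rw [← ContinuousLinearMap.comp_apply, TT_comp_TTi (𝒜.mem k) hxt]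
        rfl
      have h3 : TTi (𝒜.φ k) x v ≠ 0 := by
        intro h0
        rw [h0, map_zero] at h2
        rw [← h2, norm_zero] at hv
        exact zero_ne_one hv
      have h4 := (goodIn_TT hf (𝒜.mem k) ((𝒜.φ k).map_target hxt) _).1 (hG _ _ h3 h1)
      rwa [h2, (𝒜.φ k).right_inv hxt] at h4)
    refine ⟨η, hη, fun F' hF' x hx v hv hz hcl' => H F' hF' x hx v hv ⟨⟨hx, mem_univ _⟩, hz⟩ hcl'⟩
  choose η hη H using key
  obtain ⟨η0, hη0, hle⟩ := MD3_fin_pos η hη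
  refine ⟨η0, hη0, fun F' hF' p hcl v hv hz => ?_⟩
  obtain ⟨k, hk1, hk2⟩ := 𝒜.cover p
  have hk3 : 𝒜.φ k p ∈ Metric.closedBall (0 : E2) 3 :=
    Metric.ball_subset_closedBall (Metric.ball_subset_ball (by norm_num) hk2)
  set w := TT (𝒜.φ k) p v with hw
  have hw0 : w ≠ 0 := by
    intro h0
    have h1 : TTi (𝒜.φ k) (𝒜.φ k p) (TT (𝒜.φ k) p v) = v := by
      rw [← ContinuousLinearMap.comp_apply, TTi_comp_TT (𝒜.mem k) hk1]
      rfl
    rw [← hw, h0, map_zero] at h1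
    exact hv h1.symm
  have hwn : ‖w‖ ≠ 0 := norm_ne_zero_iff.2 hw0
  have hzz : locT (𝒜.φ k) T (𝒜.φ k p) w w = 0 := by
    have h1 := tens_eq T (𝒜.mem k) hk1
    rw [h1] at hz
    exact hz
  have h5 : GoodIn (𝒜.φ k) F' (‖w‖⁻¹ • w) (𝒜.φ k p) := by
    refine H k F' hF' _ hk3 _ ?_ ?_ ?_
    · rw [norm_smul, norm_inv, norm_norm, inv_mul_cancel₀ hwn]
    · simp only [map_smul, ContinuousLinearMap.smul_apply, hzz, smul_zero]
    · rw [(𝒜.φ k).left_inv hk1]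
      exact AW_cl_mono (by norm_num) (hle k) hcl
  rw [goodIn_smul (inv_ne_zero hwn)] at h5
  exact (goodIn_TT hF' (𝒜.mem k) hk1 v).2 h5

/-- the W-group: from the base package to a map with metric `g - η² Q̃` for which all directions are
good on `KO` -/
theorem w_group [CompactSpace M] [T2Space M] {tf : ℝ → ℝ} (htf : ContDiff ℝ ∞ tf)
    (hES : ESfor M tf) {g : M → Bil} (hg : IsMetric g) (hB : BasePack g) :
    ∃ (f : M → V4) (η : M → ℝ) (Q : M → Bil), Sm f ∧ GoodAll f ∧ Flat η ∧ (∀ p, 0 ≤ η p) ∧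
      (∀ p, metr f p = g p - η p ^ 2 • Q p) ∧
      (∀ p ∈ tsupport η, RankOneNear Q p) ∧
      (∀ p v, v ≠ 0 → η p ^ 2 * Q p v v = 0 →
        GoodIn (chartAt E2 p) f v (chartAt E2 p p)) := by
  obtain ⟨A, B, τ, KT, KO, K, hA, hB, hτ, hK, hKTc, hKOc, hKTO, hdet, H⟩ := hB
  obtain ⟨𝒜⟩ := exists_finAtlas (M := M)
  have hKTK : KT ⊆ KO := hKTO.trans interior_subset
  -- the partition
  obtain ⟨n, φ, b, U, hφ, hU, hTU, hbsup, hbsum, hbsm, hb0, hbfl⟩ :=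
    flat_partition hKTc (fun κ => (∃ ρ s, IsXYs A B τ ρ s κ) ∧ κ.source ⊆ KO) (by
      intro p hp
      obtain ⟨κ, hκ, h1, h2, h3, h4, h5⟩ := exists_XYs hA hB hτ (hdet p (hKTK hp))
        (isOpen_interior.mem_nhds (hKTO hp))
      exact ⟨κ, hκ, ⟨h1, h5.trans interior_subset⟩, h2, h3, h4⟩)
  have hb1 : ∀ i, ∀ p ∈ U, |b i p| ≤ 1 := by
    intro i p hp
    have h1 : b i p ^ 2 ≤ ∑ j, b j p ^ 2 :=
      Finset.single_le_sum (f := fun j => b j p ^ 2) (fun j _ => sq_nonneg _) (Finset.mem_univ i)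
    rw [hbsum p hp] at h1
    exact (sq_le_one_iff_abs_le_one _).1 h1
  -- bounds
  choose C hC hCb using fun i => AW_bd hA hB hτ hKTc hU hTU (fun p hp => hdet p (hKTK hp)) (b i)
    (hbsm i)
  set C₀ : ℝ := ∑ i, C i with hC₀
  have hC₀0 : 0 ≤ C₀ := Finset.sum_nonneg fun i _ => hC i
  have hCC : ∀ i, C i ≤ C₀ := fun i =>
    Finset.single_le_sum (f := C) (fun j _ => hC j) (Finset.mem_univ i)
  have hKC : 0 ≤ K * C₀ := mul_nonneg (by linarith) hC₀0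
  have hK₁ : K ≤ 2 * K * (C₀ + 1) := by nlinarith
  obtain ⟨K', hK', HI⟩ := AW_ind htf hES 𝒜 hA hB hτ hKOc hdet (hK.trans hK₁) φ
    (fun i => ⟨(hφ i).2.1.1, (hφ i).2.1.2, (hφ i).2.2⟩) Finset.univ
  have hKK' : K ≤ K' := hK₁.trans hK'
  have hK'1 : 1 ≤ K' := hK.trans hKK'
  obtain ⟨h₂, hh₂, HG⟩ := all_good hτ hK'1
  obtain ⟨h, hh0, hhlt, f, β, η, Q, hf, hfg, hβfl, hηfl, hβ0, hη0, hβs, hm, hRk, hgood, hbnd⟩ :=
    H (min 1 h₂) (lt_min one_pos hh₂)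
  have hh1 : h ∈ Ioo (0 : ℝ) 1 := ⟨hh0, hhlt.trans_le (min_le_left _ _)⟩
  have hh2 : h ∈ Ioo 0 h₂ := ⟨hh0, hhlt.trans_le (min_le_right _ _)⟩
  -- the tensor `η² Q` is smooth
  have hβsm := AW_sm_of_flat hβfl
  have hABsm : Sm (fun q => (A q + B q) / 2) := by
    have hAB : ContMDiff 𝓘(ℝ, E2) 𝓘(ℝ, ℝ) ∞ (A + B) := ContMDiff.add hA hB
    have hc : ContMDiff 𝓘(ℝ, E2) 𝓘(ℝ, ℝ) ∞ (fun _ : M => (2⁻¹ : ℝ)) := contMDiff_const
    have h0 : ContMDiff 𝓘(ℝ, E2) 𝓘(ℝ, ℝ) ∞ ((fun _ : M => (2⁻¹ : ℝ)) • (A + B)) := hc.smul hAB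
    have h1 : Sm (fun q => (2⁻¹ : ℝ) • (A q + B q)) := h0
    have e : (fun q => (A q + B q) / 2) = fun q => (2⁻¹ : ℝ) • (A q + B q) := by
      funext q
      simp only [smul_eq_mul]
      ring
    rw [e]
    exact h1
  have hTsm : SmT (fun p => η p ^ 2 • Q p) := by
    have h1 : Sm (fun p => 4 * β p ^ 2) := by
      have hβ' : ContMDiff 𝓘(ℝ, E2) 𝓘(ℝ, ℝ) ∞ β := hβsm
      have hc : ContMDiff 𝓘(ℝ, E2) 𝓘(ℝ, ℝ) ∞ (fun _ : M => (4 : ℝ)) := contMDiff_const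
      have h0 : ContMDiff 𝓘(ℝ, E2) 𝓘(ℝ, ℝ) ∞ ((fun _ : M => (4 : ℝ)) • (β • β)) :=
        hc.smul (hβ'.smul hβ')
      have h2 : Sm (fun p => (4 : ℝ) • (β p • β p)) := h0
      have e : (fun p => 4 * β p ^ 2) = fun p => (4 : ℝ) • (β p • β p) := by
        funext p
        simp only [smul_eq_mul]
        ring
      rw [e]
      exact h2
    have h3 := (hg.1.sub (SmT.smul h1 (smT_sqT hABsm))).sub (smT_metr hf)
    have e : (fun p => η p ^ 2 • Q p) = fun p => g p -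
        (4 * β p ^ 2) • sqT (fun q => (A q + B q) / 2) p - metr f p := by
      funext p
      rw [hm p]
      abel
    rw [e]
    exact h3
  obtain ⟨tol, htol, HF⟩ := AW_far 𝒜 hTsm hf (fun p v hv hz => hgood p v hv hz)
  -- the amplitudes
  have h2β : Flat (fun p => 2 * β p) := by
    refine hβfl.mul_pos (v := fun _ => 2) isOpen_univ (subset_univ _) (fun χ _ => ?_)
      (fun p _ => two_pos)
    exact contDiffOn_const
  have h2βs : tsupport (fun p => 2 * β p) ⊆ KT :=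
    (closure_mono (Function.support_mul_subset_right _ _)).trans hβs
  have hβz : ∀ p, p ∉ U → β p = 0 := by
    intro p hp
    by_contra hcon
    exact hp (hTU (hβs (subset_tsupport _ hcon)))
  obtain ⟨F', hF', hF'g, hF'm, hF'i, hF'c⟩ := HI h hh1 f (fun i p => b i p * (2 * β p)) hf hfg
    (fun i => hbfl i _ h2β h2βs)
    (fun i p => mul_nonneg (hb0 i p) (mul_nonneg zero_le_two (hβ0 p)))
    (fun i p hp => hbsup i p (left_ne_zero_of_mul hp))
    (fun χ hχ x hx hxK => AW_inv_mono hK hK₁ (hbnd χ hχ x hx hxK).1)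
    (fun i => AW_amp hK hC₀0 hU hTU (hbsm i) (hb1 i)
      (fun χ hχ x hx hxK => (hCb i χ hχ x hx hxK).trans (hCC i)) hβfl hβs
      (fun χ hχ x hx hxK => ⟨(hbnd χ hχ x hx hxK).2.1, (hbnd χ hχ x hx hxK).2.2.1⟩))
    tol htol
  -- the metric
  have hmF : ∀ p, metr F' p = g p - η p ^ 2 • Q p := by
    intro p
    have hs : (∑ i, (b i p * (2 * β p)) ^ 2) = 4 * β p ^ 2 := by
      by_cases hp : p ∈ U
      · have e : ∀ i, (b i p * (2 * β p)) ^ 2 = (4 * β p ^ 2) * b i p ^ 2 := fun i => by ring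
        rw [Finset.sum_congr rfl (fun i _ => e i), ← Finset.mul_sum, hbsum p hp, mul_one]
      · rw [hβz p hp]
        simp
    rw [hF'm p, hs, hm p]
    abel
  refine ⟨F', η, Q, hF', hF'g, hηfl, hη0, hmF, hRk, fun p v hv hz => ?_⟩
  by_cases hp : p ∈ KO
  · obtain ⟨χ, hχ, hpχ⟩ := exists_XY hA hB hτ (hdet p hp)
    have hxt : χ p ∈ χ.target := χ.map_source hpχ
    have hxp : χ.symm (χ p) = p := χ.left_inv hpχ
    have hxK : χ.symm (χ p) ∈ KO := by rwa [hxp]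
    have hcd : ContDiffAt ℝ ∞ (F' ∘ χ.symm) (χ p) :=
      (hF'.loc hχ.1).contDiffAt (χ.open_target.mem_nhds hxt)
    obtain ⟨-, -, -, hpos, hder⟩ := hbnd χ hχ (χ p) hxt hxK
    have hloc : ∀ y ∈ χ.target, metrU (F' ∘ χ.symm) y = locT χ (fun p => g p - η p ^ 2 • Q p) y := by
      intro y hy
      rw [← locT_metr hF' hχ.1 hy]
      have e : metr F' = fun p => g p - η p ^ 2 • Q p := funext hmF
      rw [e]
    have hev : ∀ᶠ y in 𝓝 (χ p), y ∈ χ.target := χ.open_target.mem_nhds hxt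
    have hfun : ∀ v w : E2, (fun y => metrU (F' ∘ χ.symm) y v w) =ᶠ[𝓝 (χ p)]
        fun y => locT χ (fun p => g p - η p ^ 2 • Q p) y v w := by
      intro v w
      filter_upwards [hev] with y hy
      rw [hloc y hy]
    have hGd := HG h hh2 (F' ∘ χ.symm) (χ p) hcd (hF'i χ hχ (χ p) hxt hxK) (by
        intro w
        rw [hloc _ hxt]
        have h1 := hpos w
        have h2 : 0 ≤ locT χ (fun p => g p - η p ^ 2 • Q p) (χ p) w w := by
          by_contra hcon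
          have h3 := not_le.1 hcon
          nlinarith [sq_nonneg ‖w‖]
        exact h1.trans (mul_le_mul_of_nonneg_right hKK' h2)) (by
        intro i j k l
        obtain ⟨h1, h2⟩ := hder i j k l
        have h3 := hfun (bv i) (bv j)
        have h4 : pd k (fun y => metrU (F' ∘ χ.symm) y (bv i) (bv j)) =ᶠ[𝓝 (χ p)]
            pd k (fun y => locT χ (fun p => g p - η p ^ 2 • Q p) y (bv i) (bv j)) := by
          filter_upwards [Filter.EventuallyEq.fderiv (𝕜 := ℝ) h3] with y hy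
          unfold pd
          rw [hy]
        refine ⟨?_, ?_⟩
        · rw [h4.eq_of_nhds]
          exact h1.trans hKK'
        · have h5 : pd l (pd k (fun y => metrU (F' ∘ χ.symm) y (bv i) (bv j))) (χ p) =
              pd l (pd k (fun y => locT χ (fun p => g p - η p ^ 2 • Q p) y (bv i) (bv j)))
                (χ p) := by
            unfold pd at h4 ⊢
            rw [h4.fderiv_eq]
          rw [h5]
          exact h2.trans hKK')
    refine (goodIn_TT hF' hχ.1 hpχ v).2 (hGd _ ?_)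
    intro h0
    have h1 : TTi χ (χ p) (TT χ p v) = v := by
      rw [← ContinuousLinearMap.comp_apply, TTi_comp_TT hχ.1 hpχ]
      rfl
    rw [h0, map_zero] at h1
    exact hv h1.symm
  · exact HF F' hF' p (hF'c p hp) v hv hz

end P205F
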