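import Vale.Agent.Lib.P205B.AV2
import Vale.Agent.Lib.P205B.AW

/-!
# P205F ASSEMBLY: the V-group
-/

noncomputable section

namespace P205F

open scoped Manifold ContDiff Topology RealInnerProductSpace
open Set

set_option maxSynthPendingDepth 3

variable {M : Type} [TopologicalSpace M] [ChartedSpace E2 M] [IsManifold 𝓘(ℝ, E2) ∞ M]

/-- iteration of the stages -/
theorem AV_iter [CompactSpace M] [T2Space M] {tf : ℝ → ℝ} (htf : ContDiff ℝ ∞ tf)
    (hES : ESfor M tf) {Q : M → Bil} {n : ℕ} {κ : Fin n → OpenPartialHomeomorph M E2}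
    (hκ : ∀ j, κ j ∈ ATL M ∧ RankChart Q (κ j) ∧ Metric.closedBall (0 : E2) 4 ⊆ (κ j).target)
    {a : Fin n → M → ℝ} (ha : ∀ i, Flat (a i)) (ha0 : ∀ i p, 0 ≤ a i p)
    (has : ∀ i p, a i p ≠ 0 → p ∈ (κ i).source ∧ κ i p ∈ Metric.closedBall (0 : E2) 1)
    {f : M → V4} (hf : Sm f) (hG : GoodAll f)
    (hv : ∀ j, ∀ x ∈ Metric.closedBall (0 : E2) 3, GoodIn (κ j) f e2 x) (s : Finset (Fin n)) :
    ∃ F : M → V4, Sm F ∧ GoodAll F ∧
      (∀ p, metr F p = metr f p + ∑ i ∈ s, a i p ^ 2 • sq1 (κ i) p) ∧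
      ∀ j, ∀ x ∈ Metric.closedBall (0 : E2) 3, GoodIn (κ j) F e2 x := by
  classical
  induction s using Finset.induction_on with
  | empty => exact ⟨f, hf, hG, fun p => by rw [Finset.sum_empty, add_zero], hv⟩
  | insert i s hi ih =>
    obtain ⟨F, hF, hGF, hm, hgF⟩ := ih
    obtain ⟨F', hF', hGF', hm', hgF'⟩ :=
      v_stage htf hES hκ hF hGF hgF i (ha i) (ha0 i) (has i)
    refine ⟨F', hF', hGF', fun p => ?_, hgF'⟩
    rw [hm', hm, Finset.sum_insert hi, add_assoc,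
      add_comm (∑ i ∈ s, a i p ^ 2 • sq1 (κ i) p)]

/-- a function supported in the closed unit ball of a chart has its closed support in the chart -/
theorem AV_tsupport [T2Space M] {φ : OpenPartialHomeomorph M E2}
    (h4 : Metric.closedBall (0 : E2) 4 ⊆ φ.target) {u : M → ℝ}
    (hu : ∀ p, u p ≠ 0 → p ∈ φ.source ∧ φ p ∈ Metric.closedBall (0 : E2) 1) :
    tsupport u ⊆ φ.source := by
  have hsub : Metric.closedBall (0 : E2) 1 ⊆ φ.target :=
    (Metric.closedBall_subset_closedBall (by norm_num)).trans h4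
  have hc : IsCompact (φ.symm '' Metric.closedBall (0 : E2) 1) :=
    (isCompact_closedBall (0 : E2) 1).image_of_continuousOn (φ.continuousOn_symm.mono hsub)
  have h1 : tsupport u ⊆ φ.symm '' Metric.closedBall (0 : E2) 1 := by
    refine closure_minimal (fun p hp => ?_) hc.isClosed
    obtain ⟨h2, h3⟩ := hu p hp
    exact ⟨φ p, h3, φ.left_inv h2⟩
  refine h1.trans ?_
  rintro p ⟨x, hx, rfl⟩
  exact φ.map_target (hsub hx)

/-- the direction `e₂` of a rank chart is good -/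
theorem AV_good {f : M → V4} {η : M → ℝ} {Q : M → Bil} (hf : Sm f)
    (hv : ∀ p v, v ≠ 0 → η p ^ 2 * Q p v v = 0 →
        GoodIn (chartAt E2 p) f v (chartAt E2 p p))
    {κ : OpenPartialHomeomorph M E2} (hκ : κ ∈ ATL M) (hr : RankChart Q κ) {x : E2}
    (hx : x ∈ κ.target) : GoodIn κ f e2 x := by
  obtain ⟨ρ, hρ, _⟩ := hr
  have hp := κ.map_target hx
  have h1 := TT_comp_TTi hκ hx
  have h2 : TT κ (κ.symm x) (TTi κ x e2) = e2 := by
    have := congrArg (fun L : E2 →L[ℝ] E2 => L e2) h1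
    simpa using this
  have hne : TTi κ x e2 ≠ 0 := by
    intro h0
    rw [h0, map_zero] at h2
    have h3 : (0 : ℝ) = 1 := congrArg Prod.snd h2
    norm_num at h3
  have hQ0 : Q (κ.symm x) (TTi κ x e2) (TTi κ x e2) = 0 := by
    rw [(hρ _ hp).2]
    have h3 : sq1 κ (κ.symm x) (TTi κ x e2) (TTi κ x e2) = 0 := by
      have h4 : sq1 κ (κ.symm x) (TTi κ x e2) (TTi κ x e2) =
          (TT κ (κ.symm x) (TTi κ x e2)).1 * (TT κ (κ.symm x) (TTi κ x e2)).1 := rfl
      rw [h4, h2]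
      have h5 : (e2 : E2).1 = 0 := rfl
      rw [h5, zero_mul]
    have h6 : (ρ (κ.symm x) ^ 2 • sq1 κ (κ.symm x)) (TTi κ x e2) (TTi κ x e2) =
        ρ (κ.symm x) ^ 2 * sq1 κ (κ.symm x) (TTi κ x e2) (TTi κ x e2) := rfl
    rw [h6, h3, mul_zero]
  have h7 := hv (κ.symm x) (TTi κ x e2) hne (by rw [hQ0, mul_zero])
  have h8 := (goodIn_TT hf hκ hp (TTi κ x e2)).1 h7
  rwa [h2, κ.right_inv hx] at h8

/-- the V-group -/
theorem v_group [CompactSpace M] [T2Space M] {tf : ℝ → ℝ} (htf : ContDiff ℝ ∞ tf)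
    (hES : ESfor M tf) {f : M → V4} {η : M → ℝ} {Q : M → Bil} (hf : Sm f) (hG : GoodAll f)
    (hη : Flat η) (hη0 : ∀ p, 0 ≤ η p) (hQ : ∀ p ∈ tsupport η, RankOneNear Q p)
    (hv : ∀ p v, v ≠ 0 → η p ^ 2 * Q p v v = 0 →
        GoodIn (chartAt E2 p) f v (chartAt E2 p p)) :
    ∃ F : M → V4, Sm F ∧ ∀ p, metr F p = metr f p + η p ^ 2 • Q p := by
  classical
  have hT : IsCompact (tsupport η) := (isClosed_tsupport η).isCompact
  obtain ⟨n, φ, b, U, hφ, _, hTU, hbs, hb1, _, hb0, hbF⟩ := flat_partition hT (RankChart Q)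
    (fun p hp => by
      obtain ⟨κ, h1, h2, h3, h4, h5⟩ := exists_rankChart (hQ p hp)
      exact ⟨κ, h1, h2, h3, h4, h5⟩)
  choose ρ hρ hρs using fun i => (hφ i).2.1
  -- the amplitudes
  have hbη : ∀ i p, b i p * η p ≠ 0 → p ∈ (φ i).source ∧ φ i p ∈ Metric.closedBall (0 : E2) 1 :=
    fun i p h => hbs i p (left_ne_zero_of_mul h)
  have ha : ∀ i, Flat (fun p => ρ i p * (b i p * η p)) := fun i =>
    Flat.mul_pos (hbF i η hη le_rfl) (φ i).open_source (AV_tsupport (hφ i).2.2 (hbη i))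
      (hρs i) fun p hp => (hρ i p hp).1
  have ha0 : ∀ i p, 0 ≤ ρ i p * (b i p * η p) := by
    intro i p
    by_cases h : b i p = 0
    · rw [h, zero_mul, mul_zero]
    · exact mul_nonneg (hρ i p (hbs i p h).1).1.le (mul_nonneg (hb0 i p) (hη0 p))
  obtain ⟨F, hF, _, hm, _⟩ := AV_iter htf hES hφ
    (a := fun i p => ρ i p * (b i p * η p)) ha ha0
    (fun i p h => hbη i p (right_ne_zero_of_mul h)) hf hG
    (fun j x hx => AV_good hf hv (hφ j).1 (hφ j).2.1
      ((hφ j).2.2 (Metric.closedBall_subset_closedBall (by norm_num) hx))) Finset.univ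
  refine ⟨F, hF, fun p => ?_⟩
  rw [hm]
  congr 1
  have h1 : ∀ i, (ρ i p * (b i p * η p)) ^ 2 • sq1 (φ i) p =
      (b i p ^ 2 * η p ^ 2) • Q p := by
    intro i
    by_cases h : b i p = 0
    · rw [h]
      simp
    · rw [(hρ i p (hbs i p h).1).2, smul_smul]
      congr 1
      ring
  rw [Finset.sum_congr rfl fun i _ => h1 i, ← Finset.sum_smul, ← Finset.sum_mul]
  by_cases h : η p = 0
  · rw [h]
    simp
  · rw [hb1 p (hTU (subset_tsupport η h)), one_mul]

/-- ASSEMBLY -/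
theorem assembly [CompactSpace M] [T2Space M] (hES : ThmES M) {g : M → Bil} (hg : IsMetric g)
    (hB : BasePack g) : ∃ F : M → V4, Sm F ∧ ∀ p, metr F p = g p := by
  obtain ⟨tf, htf, hE⟩ := thmES_iff.1 hES
  obtain ⟨f, η, Q, hf, hG, hη, hη0, hm, hQ, hv⟩ := w_group htf hE hg hB
  obtain ⟨F, hF, hF2⟩ := v_group htf hE hf hG hη hη0 hQ hv
  refine ⟨F, hF, fun p => ?_⟩
  refine ContinuousLinearMap.ext fun v => ContinuousLinearMap.ext fun w => ?_
  rw [hF2, hm]
  simp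

end P205F
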