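import Mathlib
import Vale.Agent.Lib.P205B.BDefs
import Vale.Agent.Lib.P205F.FlowC
import Vale.Agent.Lib.P205F.MD1

/-!
# P205F ASSEMBLY: the V-group
-/

noncomputable section

namespace P205F

open scoped Manifold ContDiff Topology RealInnerProductSpace
open Set

set_option maxSynthPendingDepth 3

section AV1_planar

/-- the linear map with matrix `(p, q; -b, a)` -/
def AV1_lin (p q a b : ℝ) (hd : p * a + q * b ≠ 0) : E2 ≃L[ℝ] E2 :=
  ContinuousLinearEquiv.equivOfInverse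
    ((p • ContinuousLinearMap.fst ℝ ℝ ℝ + q • ContinuousLinearMap.snd ℝ ℝ ℝ).prod
      ((-b) • ContinuousLinearMap.fst ℝ ℝ ℝ + a • ContinuousLinearMap.snd ℝ ℝ ℝ))
    (((p * a + q * b)⁻¹ • (a • ContinuousLinearMap.fst ℝ ℝ ℝ - q • ContinuousLinearMap.snd ℝ ℝ ℝ)).prod
      ((p * a + q * b)⁻¹ • (b • ContinuousLinearMap.fst ℝ ℝ ℝ + p • ContinuousLinearMap.snd ℝ ℝ ℝ)))
    (by
      intro v
      ext
      · simp
        linear_combination v.1 * mul_inv_cancel₀ hd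
      · simp
        linear_combination v.2 * mul_inv_cancel₀ hd)
    (by
      intro v
      ext
      · simp
        linear_combination v.1 * mul_inv_cancel₀ hd
      · simp
        linear_combination v.2 * mul_inv_cancel₀ hd)

theorem AV1_lin_coe (p q a b : ℝ) (hd : p * a + q * b ≠ 0) :
    ((AV1_lin p q a b hd : E2 ≃L[ℝ] E2) : E2 →L[ℝ] E2) =
      (p • ContinuousLinearMap.fst ℝ ℝ ℝ + q • ContinuousLinearMap.snd ℝ ℝ ℝ).prod
      ((-b) • ContinuousLinearMap.fst ℝ ℝ ℝ + a • ContinuousLinearMap.snd ℝ ℝ ℝ) := rfl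

theorem AV1_expand (L : E2 →L[ℝ] ℝ) : L = L e1 • ContinuousLinearMap.fst ℝ ℝ ℝ +
    L e2 • ContinuousLinearMap.snd ℝ ℝ ℝ := by
  ext
  · simp [e1]
  · simp [e2]

theorem AV1_plane {φ : E2 → ℝ} (hφ : ContDiff ℝ ∞ φ) {x0 : E2} (h0 : fderiv ℝ φ x0 ≠ 0)
    {W : Set E2} (hW : W ∈ 𝓝 x0) :
    ∃ (e : OpenPartialHomeomorph E2 E2) (c : ℝ), 0 < c ∧ x0 ∈ e.source ∧ e.source ⊆ W ∧
      ContDiffOn ℝ ∞ e e.source ∧ ContDiffOn ℝ ∞ e.symm e.target ∧ e x0 = 0 ∧
      Metric.closedBall (0 : E2) 4 ⊆ e.target ∧ ∀ x ∈ e.source, (e x).1 = c * (φ x - φ x0) := by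
  set a : ℝ := fderiv ℝ φ x0 e1 with ha
  set b : ℝ := fderiv ℝ φ x0 e2 with hb
  have hab : a * a + b * b ≠ 0 := by
    intro h
    have h1 : a = 0 := by nlinarith [mul_self_nonneg a, mul_self_nonneg b]
    have h2 : b = 0 := by nlinarith [mul_self_nonneg a, mul_self_nonneg b]
    apply h0
    rw [AV1_expand (fderiv ℝ φ x0), ← ha, ← hb, h1, h2, zero_smul, zero_smul, add_zero]
  let Ψ : E2 → E2 := fun x => (φ x - φ x0, -b * (x.1 - x0.1) + a * (x.2 - x0.2))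
  have hΨs : ContDiff ℝ ∞ Ψ := by
    have h1 : ContDiff ℝ ∞ fun x : E2 => -b * (x.1 - x0.1) + a * (x.2 - x0.2) := by fun_prop
    exact (hφ.sub contDiff_const).prodMk h1
  have hΨd : ∀ x, HasFDerivAt Ψ ((fderiv ℝ φ x e1 • ContinuousLinearMap.fst ℝ ℝ ℝ +
      fderiv ℝ φ x e2 • ContinuousLinearMap.snd ℝ ℝ ℝ).prod
      ((-b) • ContinuousLinearMap.fst ℝ ℝ ℝ + a • ContinuousLinearMap.snd ℝ ℝ ℝ)) x := by
    intro x
    rw [← AV1_expand]
    have h1 : HasFDerivAt (fun x => φ x - φ x0) (fderiv ℝ φ x) x :=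
      ((hφ.differentiable (by simp)) x).hasFDerivAt.sub_const _
    have h2 : HasFDerivAt (fun x : E2 => -b * (x.1 - x0.1) + a * (x.2 - x0.2))
        ((-b) • ContinuousLinearMap.fst ℝ ℝ ℝ + a • ContinuousLinearMap.snd ℝ ℝ ℝ) x :=
      ((hasFDerivAt_fst.sub_const _).const_mul (-b)).add ((hasFDerivAt_snd.sub_const _).const_mul a)
    exact h1.prodMk h2
  have hΨ0 : HasFDerivAt Ψ ((AV1_lin a b a b hab : E2 ≃L[ℝ] E2) : E2 →L[ℝ] E2) x0 := by
    rw [AV1_lin_coe]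
    exact hΨd x0
  set e0 := (hΨs.contDiffAt (x := x0)).toOpenPartialHomeomorph Ψ hΨ0 (by simp) with he0
  have hec : ∀ q, e0 q = Ψ q := fun q => rfl
  have hx0s : x0 ∈ e0.source :=
    (hΨs.contDiffAt (x := x0)).mem_toOpenPartialHomeomorph_source hΨ0 (by simp)
  -- the open set
  have hcd : Continuous fun x => fderiv ℝ φ x := hφ.continuous_fderiv (by simp)
  have hc1 : Continuous fun x => fderiv ℝ φ x e1 * a + fderiv ℝ φ x e2 * b :=
    ((hcd.clm_apply continuous_const).mul continuous_const).add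
      ((hcd.clm_apply continuous_const).mul continuous_const)
  set O : Set E2 := interior W ∩ {x | fderiv ℝ φ x e1 * a + fderiv ℝ φ x e2 * b ≠ 0} with hO
  have hOo : IsOpen O := isOpen_interior.inter (isOpen_ne_fun hc1 continuous_const)
  have hx0O : x0 ∈ O := ⟨mem_interior_iff_mem_nhds.2 hW, hab⟩
  set e' := e0.restr O with he'
  have hsrc : e'.source = e0.source ∩ O := by
    rw [he', OpenPartialHomeomorph.restr_source, hOo.interior_eq]
  have hx0' : x0 ∈ e'.source := by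
    rw [hsrc]
    exact ⟨hx0s, hx0O⟩
  have he'0 : e' x0 = 0 := by
    change Ψ x0 = 0
    simp only [Ψ, sub_self, mul_zero, add_zero]
    rfl
  obtain ⟨ε, hε, hball⟩ := Metric.isOpen_iff.1 e'.open_target 0 (by
    have h := e'.map_source hx0'
    rwa [he'0] at h)
  have hc : (8 / ε : ℝ) ≠ 0 := by positivity
  set A : E2 ≃ₜ E2 := Homeomorph.smulOfNeZero (8 / ε : ℝ) hc with hA
  have hAapp : ∀ y, A y = (8 / ε : ℝ) • y := fun y => rfl
  have hAsymm : ∀ z, A.symm z = (8 / ε : ℝ)⁻¹ • z := by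
    intro z
    rw [Homeomorph.symm_apply_eq, hAapp, smul_smul, mul_inv_cancel₀ hc, one_smul]
  have hAs : ContDiff ℝ ∞ (A : E2 → E2) := by
    have : (A : E2 → E2) = fun y => (8 / ε : ℝ) • y := funext hAapp
    rw [this]
    fun_prop
  have hAs' : ContDiff ℝ ∞ (A.symm : E2 → E2) := by
    have : (A.symm : E2 → E2) = fun z => (8 / ε : ℝ)⁻¹ • z := funext hAsymm
    rw [this]
    fun_prop
  refine ⟨e'.transHomeomorph A, 8 / ε, by positivity, hx0', ?_, ?_, ?_, ?_, ?_, ?_⟩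
  · intro y hy
    have hy' : y ∈ e'.source := hy
    rw [hsrc] at hy'
    exact interior_subset hy'.2.1
  · exact (hAs.comp hΨs).contDiffOn
  · intro z hz
    have hz' : A.symm z ∈ e'.target := hz
    have h1 : ContDiffAt ℝ ∞ e'.symm (A.symm z) := by
      have h2 : e'.symm (A.symm z) ∈ e'.source := e'.map_target hz'
      rw [hsrc] at h2
      refine e'.contDiffAt_symm hz' (f₀' := AV1_lin _ _ a b h2.2.2) ?_ hΨs.contDiffAt
      rw [AV1_lin_coe]
      exact hΨd _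
    exact (ContDiffAt.comp z h1 hAs'.contDiffAt).contDiffWithinAt
  · change A (e' x0) = 0
    rw [he'0, hAapp, smul_zero]
  · intro z hz
    change A.symm z ∈ e'.target
    apply hball
    rw [hAsymm, mem_ball_zero_iff, norm_smul, norm_inv,
      Real.norm_of_nonneg (by positivity : (0 : ℝ) ≤ 8 / ε)]
    rw [mem_closedBall_zero_iff] at hz
    have h8 : (8 / ε : ℝ)⁻¹ = ε / 8 := by rw [inv_div]
    rw [h8]
    have : ε / 8 * ‖z‖ ≤ ε / 8 * 4 := mul_le_mul_of_nonneg_left hz (by positivity)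
    linarith
  · intro x _
    rfl

/-- algebra: two covectors orthogonal to the same nonzero vector -/
theorem AV1_par {a b c d u v : ℝ} (h1 : a * u + b * v = 0) (h2 : c * u + d * v = 0)
    (h : u ≠ 0 ∨ v ≠ 0) : a * d = b * c := by
  have e1' : (a * d - b * c) * u = 0 := by linear_combination d * h1 - b * h2
  have e2' : (a * d - b * c) * v = 0 := by linear_combination a * h2 - c * h1
  have h3 : a * d - b * c = 0 := by
    rcases h with h | h
    · exact (mul_eq_zero.1 e1').resolve_right h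
    · exact (mul_eq_zero.1 e2').resolve_right h
  linarith

/-- symmetric, positive semidefinite, of rank one -/
def AV1_R1 (B : Bil) : Prop :=
  (∀ v w, B v w = B w v) ∧ B e1 e1 * B e2 e2 = B e1 e2 ^ 2 ∧ 0 < B e1 e1 + B e2 e2

theorem AV1_bil_apply (B : Bil) (v w : E2) : B v w = v.1 * w.1 * B e1 e1 + v.1 * w.2 * B e1 e2 +
    v.2 * w.1 * B e2 e1 + v.2 * w.2 * B e2 e2 := by
  have h : ∀ z : E2, z = z.1 • e1 + z.2 • e2 := by
    intro z
    ext <;> simp [e1, e2]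
  conv_lhs => rw [h v, h w]
  simp only [map_add, map_smul, add_apply, smul_apply, smul_eq_mul]
  ring

theorem AV1_sqC_apply (α : E2 →L[ℝ] ℝ) (v w : E2) : sqC α v w = α v * α w := by
  simp [sqC]

/-- a tensor of rank one and a covector with the same kernel -/
theorem AV1_eq {B : Bil} (hB : AV1_R1 B) {α : E2 →L[ℝ] ℝ} (hα : α ≠ 0) {u v : ℝ}
    (huv : u ≠ 0 ∨ v ≠ 0) (h1 : B e1 e1 * u + B e1 e2 * v = 0)
    (h2 : B e1 e2 * u + B e2 e2 * v = 0) (h3 : α e1 * u + α e2 * v = 0) :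
    B = ((B e1 e1 + B e2 e2) / (α e1 ^ 2 + α e2 ^ 2)) • sqC α := by
  obtain ⟨hs, hd, ht⟩ := hB
  have hne : α e1 ^ 2 + α e2 ^ 2 ≠ 0 := by
    intro h
    apply hα
    have h4 : α e1 = 0 := by nlinarith [sq_nonneg (α e1), sq_nonneg (α e2)]
    have h5 : α e2 = 0 := by nlinarith [sq_nonneg (α e1), sq_nonneg (α e2)]
    rw [AV1_expand α, h4, h5, zero_smul, zero_smul, add_zero]
  have p1 := AV1_par h1 h3 huv
  have p2 := AV1_par h2 h3 huv
  have q1 : B e1 e1 = (B e1 e1 + B e2 e2) / (α e1 ^ 2 + α e2 ^ 2) * (α e1 * α e1) := by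
    rw [div_mul_eq_mul_div, eq_div_iff hne]
    linear_combination α e2 * p1 + α e1 * p2
  have q2 : B e1 e2 = (B e1 e1 + B e2 e2) / (α e1 ^ 2 + α e2 ^ 2) * (α e1 * α e2) := by
    rw [div_mul_eq_mul_div, eq_div_iff hne]
    linear_combination (-α e1) * p1 + α e2 * p2
  have q3 : B e2 e2 = (B e1 e1 + B e2 e2) / (α e1 ^ 2 + α e2 ^ 2) * (α e2 * α e2) := by
    rw [div_mul_eq_mul_div, eq_div_iff hne]
    linear_combination (-α e2) * p1 - α e1 * p2
  have ha : ∀ z : E2, α z = z.1 * α e1 + z.2 * α e2 := by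
    intro z
    conv_lhs => rw [AV1_expand α]
    simp only [add_apply, smul_apply, ContinuousLinearMap.coe_fst', ContinuousLinearMap.coe_snd',
      smul_eq_mul]
    ring
  refine ContinuousLinearMap.ext fun z => ContinuousLinearMap.ext fun w => ?_
  rw [smul_apply, smul_apply, AV1_sqC_apply, AV1_bil_apply, hs e2 e1, ha z, ha w, smul_eq_mul]
  generalize (B e1 e1 + B e2 e2) / (α e1 ^ 2 + α e2 ^ 2) = t at q1 q2 q3 ⊢
  rw [q1, q2, q3]
  ring

/-- a tensor of rank one is the square of a covector -/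
theorem AV1_exists_cov {B : Bil} (hB : AV1_R1 B) : ∃ α : E2 →L[ℝ] ℝ, α ≠ 0 ∧ B = sqC α := by
  obtain ⟨hs, hd, ht⟩ := id hB
  obtain ⟨u, v, huv, h1, h2⟩ : ∃ u v : ℝ, (u ≠ 0 ∨ v ≠ 0) ∧ B e1 e1 * u + B e1 e2 * v = 0 ∧
      B e1 e2 * u + B e2 e2 * v = 0 := by
    by_cases ha : B e1 e1 = 0
    · have hb : B e1 e2 = 0 := by
        rw [ha, zero_mul] at hd
        exact pow_eq_zero_iff (two_ne_zero) |>.1 hd.symm
      exact ⟨1, 0, Or.inl one_ne_zero, by rw [ha]; ring, by rw [hb]; ring⟩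
    · exact ⟨-B e1 e2, B e1 e1, Or.inr ha, by ring, by linear_combination hd⟩
  set α : E2 →L[ℝ] ℝ := v • ContinuousLinearMap.fst ℝ ℝ ℝ + (-u) • ContinuousLinearMap.snd ℝ ℝ ℝ
    with hα
  have hα1 : α e1 = v := by simp [hα, e1]
  have hα2 : α e2 = -u := by simp [hα, e2]
  have hα0 : α ≠ 0 := by
    intro h
    rw [h] at hα1 hα2
    simp only [zero_apply] at hα1 hα2
    rcases huv with huv | huv
    · exact huv (by linarith)
    · exact huv hα1.symm
  have h3 : α e1 * u + α e2 * v = 0 := by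
    rw [hα1, hα2]
    ring
  have h4 := AV1_eq hB hα0 huv h1 h2 h3
  have hne : 0 < α e1 ^ 2 + α e2 ^ 2 := by
    rw [hα1, hα2]
    rcases huv with huv | huv
    · have h5 : 0 < u ^ 2 := by positivity
      nlinarith [sq_nonneg v]
    · have h5 : 0 < v ^ 2 := by positivity
      nlinarith [sq_nonneg u]
  have ht' : 0 < (B e1 e1 + B e2 e2) / (α e1 ^ 2 + α e2 ^ 2) := div_pos ht hne
  generalize (B e1 e1 + B e2 e2) / (α e1 ^ 2 + α e2 ^ 2) = t at h4 ht'
  refine ⟨√t • α, smul_ne_zero (Real.sqrt_pos.2 ht').ne' hα0, ?_⟩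
  rw [h4]
  refine ContinuousLinearMap.ext fun z => ContinuousLinearMap.ext fun w => ?_
  rw [smul_apply, smul_apply, AV1_sqC_apply, AV1_sqC_apply, smul_apply, smul_apply, smul_eq_mul,
    smul_eq_mul, smul_eq_mul]
  linear_combination (-(α z * α w)) * Real.mul_self_sqrt ht'.le

theorem AV1_R1_sqC {α : E2 →L[ℝ] ℝ} (hα : α ≠ 0) : AV1_R1 (sqC α) := by
  refine ⟨fun v w => ?_, ?_, ?_⟩
  · rw [AV1_sqC_apply, AV1_sqC_apply, mul_comm]
  · rw [AV1_sqC_apply, AV1_sqC_apply, AV1_sqC_apply]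
    ring
  · rw [AV1_sqC_apply, AV1_sqC_apply]
    by_contra hcon
    apply hα
    have h4 : α e1 = 0 := by nlinarith [mul_self_nonneg (α e1), mul_self_nonneg (α e2)]
    have h5 : α e2 = 0 := by nlinarith [mul_self_nonneg (α e1), mul_self_nonneg (α e2)]
    rw [AV1_expand α, h4, h5, zero_smul, zero_smul, add_zero]

theorem AV1_field {L : E2 → Bil} {x0 : E2}
    (hL : ∀ᶠ x in 𝓝 x0, ContDiffAt ℝ ∞ L x ∧ AV1_R1 (L x)) :
    ∃ φ : E2 → ℝ, ContDiff ℝ ∞ φ ∧ fderiv ℝ φ x0 ≠ 0 ∧ ∃ r : E2 → ℝ, ∀ᶠ x in 𝓝 x0,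
      ContDiffAt ℝ ∞ r x ∧ 0 < r x ∧ L x = r x ^ 2 • sqC (fderiv ℝ φ x) := by
  have hLs : ∀ v w : E2, ∀ᶠ x in 𝓝 x0, ContDiffAt ℝ ∞ (fun x => L x v w) x := by
    intro v w
    filter_upwards [hL] with x hx
    exact (hx.1.clm_apply contDiffAt_const).clm_apply contDiffAt_const
  have hx0 := hL.self_of_nhds
  obtain ⟨hs0, hd0, ht0⟩ := hx0.2
  have hcont : ∀ v w : E2, ContinuousAt (fun x => L x v w) x0 := fun v w =>
    ((hLs v w).self_of_nhds).continuousAt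
  -- the kernel field
  obtain ⟨a, b, ha, hb, hab⟩ : ∃ a b : E2 → ℝ, ContDiff ℝ ∞ a ∧ ContDiff ℝ ∞ b ∧
      ∀ᶠ x in 𝓝 x0, (a x ≠ 0 ∨ b x ≠ 0) ∧ L x e1 e1 * a x + L x e1 e2 * b x = 0 ∧
        L x e1 e2 * a x + L x e2 e2 * b x = 0 := by
    by_cases h : L x0 e1 e1 = 0
    · have h22 : L x0 e2 e2 ≠ 0 := by
        rw [h, zero_add] at ht0
        exact ht0.ne'
      obtain ⟨a, ha, ha'⟩ := FlowC_cut (hLs e2 e2)
      obtain ⟨b, hb, hb'⟩ := FlowC_cut (h := fun x => -L x e1 e2) (p := x0) (by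
        filter_upwards [hLs e1 e2] with x hx
        exact hx.neg)
      refine ⟨a, b, ha, hb, ?_⟩
      filter_upwards [ha', hb', hL, (hcont e2 e2).eventually_ne h22] with x h1 h2 h3 h4
      refine ⟨Or.inl (by rw [h1]; exact h4), ?_, ?_⟩
      · rw [h1, h2]
        linear_combination h3.2.2.1
      · rw [h1, h2]
        ring
    · obtain ⟨a, ha, ha'⟩ := FlowC_cut (h := fun x => -L x e1 e2) (p := x0) (by
        filter_upwards [hLs e1 e2] with x hx
        exact hx.neg)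
      obtain ⟨b, hb, hb'⟩ := FlowC_cut (hLs e1 e1)
      refine ⟨a, b, ha, hb, ?_⟩
      filter_upwards [ha', hb', hL, (hcont e1 e1).eventually_ne h] with x h1 h2 h3 h4
      refine ⟨Or.inr (by rw [h2]; exact h4), ?_, ?_⟩
      · rw [h1, h2]
        ring
      · rw [h1, h2]
        linear_combination h3.2.2.1
  obtain ⟨φ, hφ, U, hU, hφU⟩ := flowBox a b ha hb x0 hab.self_of_nhds.1
  refine ⟨φ, hφ, (hφU x0 (mem_of_mem_nhds hU)).2,
    fun x => √((L x e1 e1 + L x e2 e2) / (fderiv ℝ φ x e1 ^ 2 + fderiv ℝ φ x e2 ^ 2)), ?_⟩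
  filter_upwards [hL, hab, hU, hLs e1 e1, hLs e2 e2] with x h1 h2 h3 h4 h5
  obtain ⟨h6, h7⟩ := hφU x h3
  have h8 : fderiv ℝ φ x e1 * a x + fderiv ℝ φ x e2 * b x = 0 := by
    rw [AV1_expand (fderiv ℝ φ x)] at h6
    simpa using h6
  have h9 := AV1_eq h1.2 h7 h2.1 h2.2.1 h2.2.2 h8
  have h10 : 0 < fderiv ℝ φ x e1 ^ 2 + fderiv ℝ φ x e2 ^ 2 := by
    have h11 := (AV1_R1_sqC h7).2.2
    rw [AV1_sqC_apply, AV1_sqC_apply] at h11
    rw [sq, sq]
    exact h11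
  have h12 : 0 < (L x e1 e1 + L x e2 e2) / (fderiv ℝ φ x e1 ^ 2 + fderiv ℝ φ x e2 ^ 2) :=
    div_pos h1.2.2.2 h10
  refine ⟨?_, Real.sqrt_pos.2 h12, ?_⟩
  · have hfd : ∀ v : E2, ContDiffAt ℝ ∞ (fun x => fderiv ℝ φ x v) x := fun v =>
      (hφ.contDiffAt.fderiv_right (m := ∞) (by simp)).clm_apply contDiffAt_const
    exact ((h4.add h5).div (((hfd e1).pow 2).add ((hfd e2).pow 2)) h10.ne').sqrt h12.ne'
  · rw [Real.sq_sqrt h12.le]
    exact h9

end AV1_planar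

variable {M : Type} [TopologicalSpace M] [ChartedSpace E2 M] [IsManifold 𝓘(ℝ, E2) ∞ M]

/-- on the source of `κ`: `Q = ρ² dκ₁²` with `ρ > 0` smooth -/
def RankChart (Q : M → Bil) (κ : OpenPartialHomeomorph M E2) : Prop :=
  ∃ ρ : M → ℝ, (∀ p ∈ κ.source, 0 < ρ p ∧ Q p = ρ p ^ 2 • sq1 κ p) ∧
    ∀ χ ∈ ATL M, ContDiffOn ℝ ∞ (ρ ∘ χ.symm) (χ.target ∩ χ.symm ⁻¹' κ.source)

/-- flow box: in the chart at `p` the kernel of `Q` is spanned near `p` by a smooth nowhere zero vector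
field (`(-q₁₂, q₁₁)` or `(q₂₂, -q₁₂)`); `flowBox` gives `Φ` with `dΦ ≠ 0`, `dΦ(kernel) = 0`, so
`Q = ρ² dΦ²` with `ρ > 0` smooth; complete `Φ` to a chart, restrict and scale -/
theorem exists_rankChart {Q : M → Bil} {p : M} (h : RankOneNear Q p) :
    ∃ κ ∈ ATL M, RankChart Q κ ∧ p ∈ κ.source ∧ κ p = 0 ∧
      Metric.closedBall (0 : E2) 4 ⊆ κ.target := by
  obtain ⟨U, hU, hpU, hQs, hQ⟩ := h
  set χ := chartAt E2 p with hχ
  have hχA : χ ∈ ATL M := chart_mem_ATL p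
  have hpχ : p ∈ χ.source := mem_chart_source E2 p
  set x0 := χ p with hx0
  have hx0t : x0 ∈ χ.target := χ.map_source hpχ
  have hsx0 : χ.symm x0 = p := χ.left_inv hpχ
  have hVo : IsOpen (χ.target ∩ χ.symm ⁻¹' U) := χ.isOpen_inter_preimage_symm hU
  have hx0V : x0 ∈ χ.target ∩ χ.symm ⁻¹' U := ⟨hx0t, by rw [mem_preimage, hsx0]; exact hpU⟩
  -- the tensor in the chart
  have hL : ∀ᶠ x in 𝓝 x0, ContDiffAt ℝ ∞ (locT χ Q) x ∧ AV1_R1 (locT χ Q x) := by
    filter_upwards [hVo.mem_nhds hx0V] with x hx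
    refine ⟨(hQs χ hχA).contDiffAt (hVo.mem_nhds hx), ?_⟩
    obtain ⟨α, hα, hα'⟩ := AV1_exists_cov (B := Q (χ.symm x)) (hQ _ hx.2)
    have h1 : locT χ Q x = sqC (α.comp (TTi χ x)) := by
      unfold locT
      rw [hα']
      refine ContinuousLinearMap.ext fun v => ContinuousLinearMap.ext fun w => ?_
      rw [ContinuousLinearMap.bilinearComp_apply, AV1_sqC_apply, AV1_sqC_apply]
      rfl
    rw [h1]
    refine AV1_R1_sqC fun h2 => hα ?_
    refine ContinuousLinearMap.ext fun v => ?_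
    -- `TTi` is surjective
    have h3 : (TTi χ (χ (χ.symm x))).comp (TT χ (χ.symm x)) = ContinuousLinearMap.id ℝ E2 :=
      TTi_comp_TT hχA (χ.map_target hx.1)
    rw [χ.right_inv hx.1] at h3
    have h4 := DFunLike.congr_fun h3 v
    have h5 := DFunLike.congr_fun h2 (TT χ (χ.symm x) v)
    simp only [ContinuousLinearMap.comp_apply, ContinuousLinearMap.id_apply] at h4 h5
    rw [h4] at h5
    exact h5
  obtain ⟨φ, hφ, hφ0, r, hr⟩ := AV1_field hL
  obtain ⟨W, hWsub, hWo, hx0W⟩ := mem_nhds_iff.1 hr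
  obtain ⟨e, c, hc, hx0e, heW, hes, hes', he0, he4, he1⟩ :=
    AV1_plane hφ hφ0 ((hWo.inter χ.open_target).mem_nhds ⟨hx0W, hx0t⟩)
  set κ : OpenPartialHomeomorph M E2 := χ.trans e with hκ
  have hκsrc : κ.source = χ.source ∩ χ ⁻¹' e.source := by
    rw [hκ, OpenPartialHomeomorph.trans_source]
  have hκtgt : κ.target = e.target := by
    rw [hκ, OpenPartialHomeomorph.trans_target]
    exact inter_eq_left.2 fun z hz => (heW (e.map_target hz)).2
  have hκA : κ ∈ ATL M := by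
    refine OpenPartialHomeomorph.mem_maximalAtlas_of_contMDiffOn _ ?_ ?_
    · have h1 := contMDiffOn_of_mem_maximalAtlas hχA
      rw [hκsrc]
      exact (contMDiffOn_iff_contDiffOn.2 hes).comp (h1.mono inter_subset_left) fun q hq => hq.2
    · have h1 := contMDiffOn_symm_of_mem_maximalAtlas hχA
      rw [hκtgt]
      exact h1.comp (contMDiffOn_iff_contDiffOn.2 hes') fun z hz => (heW (e.map_target hz)).2
  have hgood : ∀ q ∈ κ.source, χ q ∈ W ∧ χ q ∈ e.source ∧ q ∈ χ.source := by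
    intro q hq
    rw [hκsrc] at hq
    exact ⟨(heW hq.2).1, hq.2, hq.1⟩
  refine ⟨κ, hκA, ⟨fun q => c⁻¹ * r (χ q), fun q hq => ?_, fun ψ hψ => ?_⟩, ?_, ?_, ?_⟩
  · obtain ⟨hqW, hqe, hqχ⟩ := hgood q hq
    obtain ⟨h1, h2, h3⟩ := hWsub hqW
    refine ⟨mul_pos (inv_pos.2 hc) h2, ?_⟩
    have hχq : χ q ∈ χ.target := χ.map_source hqχ
    have hsq : χ.symm (χ q) = q := χ.left_inv hqχ
    have h4 : fderiv ℝ (κ ∘ χ.symm) (χ q) = fderiv ℝ e (χ q) := by
      have h5 : (κ ∘ χ.symm : E2 → E2) =ᶠ[𝓝 (χ q)] e := by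
        filter_upwards [χ.open_target.mem_nhds hχq] with y hy
        change e (χ (χ.symm y)) = e y
        rw [χ.right_inv hy]
      exact h5.fderiv_eq
    have h6 : (ContinuousLinearMap.fst ℝ ℝ ℝ).comp (fderiv ℝ e (χ q)) =
        c • fderiv ℝ φ (χ q) := by
      have h7 : HasFDerivAt e (fderiv ℝ e (χ q)) (χ q) :=
        ((hes.contDiffAt (e.open_source.mem_nhds hqe)).differentiableAt (by simp)).hasFDerivAt
      have h8 : HasFDerivAt (fun y => (e y).1)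
          ((ContinuousLinearMap.fst ℝ ℝ ℝ).comp (fderiv ℝ e (χ q))) (χ q) := h7.fst
      have h9 : HasFDerivAt (fun y => (e y).1) (c • fderiv ℝ φ (χ q)) (χ q) := by
        have h10 : HasFDerivAt (fun y => c * (φ y - φ x0)) (c • fderiv ℝ φ (χ q)) (χ q) :=
          (((hφ.differentiable (by simp)) (χ q)).hasFDerivAt.sub_const _).const_mul c
        refine h10.congr_of_eventuallyEq ?_
        filter_upwards [e.open_source.mem_nhds hqe] with y hy
        exact he1 y hy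
      exact h8.unique h9
    refine tens_ext (H := Q) (H' := fun q => (c⁻¹ * r (χ q)) ^ 2 • sq1 κ q) hχA hqχ ?_
    have h11 := locT_sq1 hχA hκA hχq (by rw [hsq]; exact hq)
    rw [h4, h6] at h11
    have h12 : locT χ (fun q => (c⁻¹ * r (χ q)) ^ 2 • sq1 κ q) (χ q) =
        (c⁻¹ * r (χ q)) ^ 2 • locT χ (sq1 κ) (χ q) := by
      unfold locT
      dsimp only
      rw [hsq]
      rfl
    rw [h12, h11, h3]
    refine ContinuousLinearMap.ext fun v => ContinuousLinearMap.ext fun w => ?_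
    rw [smul_apply, smul_apply, smul_apply, smul_apply, AV1_sqC_apply, AV1_sqC_apply, smul_apply,
      smul_apply, smul_eq_mul, smul_eq_mul, smul_eq_mul, smul_eq_mul]
    have h13 : c⁻¹ * c = 1 := inv_mul_cancel₀ hc.ne'
    have h14 : (c⁻¹ * r (χ q)) ^ 2 * (c * fderiv ℝ φ (χ q) v * (c * fderiv ℝ φ (χ q) w)) =
        (c⁻¹ * c) ^ 2 * (r (χ q) ^ 2 * (fderiv ℝ φ (χ q) v * fderiv ℝ φ (χ q) w)) := by ring
    rw [h14, h13, one_pow, one_mul]
  · intro y hy
    obtain ⟨hqW, hqe, hqχ⟩ := hgood _ hy.2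
    have h1 : ContDiffAt ℝ ∞ r ((χ ∘ ψ.symm) y) := (hWsub hqW).1
    have h2 : ContDiffAt ℝ ∞ (χ ∘ ψ.symm) y :=
      (ATL_trans hψ hχA).contDiffAt
        ((ψ.isOpen_inter_preimage_symm χ.open_source).mem_nhds ⟨hy.1, hqχ⟩)
    exact (contDiffAt_const.mul (ContDiffAt.comp y h1 h2)).contDiffWithinAt
  · rw [hκsrc]
    exact ⟨hpχ, hx0e⟩
  · change e (χ p) = 0
    exact he0
  · rw [hκtgt]
    exact he4

end P205F
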