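import Mathlib
import Vale.Agent.Lib.P205B.AF0
import Vale.Agent.Lib.P205B.AV1
import Vale.Agent.Lib.P205B.AWDefs
import Vale.Agent.Lib.P205F.MD3

/-!
# P205F ASSEMBLY: the V-group
-/

noncomputable section

namespace P205F

open scoped Manifold ContDiff Topology RealInnerProductSpace
open Set

set_option maxSynthPendingDepth 3

variable {M : Type} [TopologicalSpace M] [ChartedSpace E2 M] [IsManifold 𝓘(ℝ, E2) ∞ M]

theorem AV2_sq1 (κ : OpenPartialHomeomorph M E2) (q : M) (v w : E2) :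
    sq1 κ q v w = (TT κ q v).1 * (TT κ q w).1 := rfl

theorem AV2_ker {Q : M → Bil} {κ : OpenPartialHomeomorph M E2} (hR : RankChart Q κ) {q : M}
    (hq : q ∈ κ.source) (w : E2) : Q q w w = 0 ↔ (TT κ q w).1 = 0 := by
  obtain ⟨ρ, hρ, -⟩ := hR
  obtain ⟨h0, h1⟩ := hρ q hq
  have h2 : Q q w w = ρ q ^ 2 * ((TT κ q w).1 * (TT κ q w).1) := by
    rw [h1]
    rfl
  rw [h2]
  constructor
  · intro h
    have h3 := (mul_eq_zero.1 h).resolve_left (pow_ne_zero 2 h0.ne')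
    exact mul_self_eq_zero.1 h3
  · intro h
    rw [h]
    ring

theorem AV2_TT_TTi {κ : OpenPartialHomeomorph M E2} (hκ : κ ∈ ATL M) {q : M} (hq : q ∈ κ.source)
    (u : E2) : TT κ q (TTi κ (κ q) u) = u := by
  have h4 := TT_comp_TTi hκ (κ.map_source hq)
  rw [κ.left_inv hq] at h4
  exact congrArg (fun L : E2 →L[ℝ] E2 => L u) h4

/-- the direction `e₂` is the same in all charts of rank one type -/
theorem AV2_trans {Q : M → Bil} {κ κ' : OpenPartialHomeomorph M E2} (hκ : κ ∈ ATL M)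
    (hκ' : κ' ∈ ATL M) (hR : RankChart Q κ) (hR' : RankChart Q κ') {q : M} (hq : q ∈ κ.source)
    (hq' : q ∈ κ'.source) : ∃ t : ℝ, t ≠ 0 ∧ fderiv ℝ (κ' ∘ κ.symm) (κ q) e2 = t • e2 := by
  set w : E2 := TTi κ (κ q) e2 with hw
  have h1 : TT κ q w = e2 := AV2_TT_TTi hκ hq e2
  have h2 : Q q w w = 0 := by
    rw [AV2_ker hR hq, h1]
    rfl
  have h3 : (TT κ' q w).1 = 0 := (AV2_ker hR' hq' w).1 h2
  have h4 : TT κ' q w = fderiv ℝ (κ' ∘ κ.symm) (κ q) e2 := by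
    rw [TT_trans hκ hκ' hq hq']
    change fderiv ℝ (κ' ∘ κ.symm) (κ q) (TT κ q w) = _
    rw [h1]
  rw [h4] at h3
  refine ⟨(fderiv ℝ (κ' ∘ κ.symm) (κ q) e2).2, ?_, ?_⟩
  · intro h0
    have h5 : fderiv ℝ (κ' ∘ κ.symm) (κ q) e2 = 0 := Prod.ext h3 h0
    have h6 := trans_inv hκ hκ' (κ.map_source hq) (by rw [κ.left_inv hq]; exact hq')
    have h7 := congrArg (fun L : E2 →L[ℝ] E2 => L e2) h6
    have h8 : fderiv ℝ (κ ∘ κ'.symm) (κ' (κ.symm (κ q))) (fderiv ℝ (κ' ∘ κ.symm) (κ q) e2) = e2 := h7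
    rw [h5, map_zero] at h8
    have h9 := congrArg Prod.snd h8
    simp [e2] at h9
  · refine Prod.ext ?_ ?_
    · rw [h3]
      simp [e2]
    · simp [e2]

theorem AV2_good {Q : M → Bil} {κ κ' : OpenPartialHomeomorph M E2} (hκ : κ ∈ ATL M)
    (hκ' : κ' ∈ ATL M) (hR : RankChart Q κ) (hR' : RankChart Q κ') {q : M} (hq : q ∈ κ.source)
    (hq' : q ∈ κ'.source) {F : M → V4} (hF : Sm F) (h : GoodIn κ F e2 (κ q)) :
    GoodIn κ' F e2 (κ' q) := by
  obtain ⟨t, ht, h1⟩ := AV2_trans hκ hκ' hR hR' hq hq'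
  have h2 := (goodIn_trans hF hκ hκ' hq hq' e2).1 h
  rw [h1] at h2
  exact (goodIn_smul ht).1 h2

/-- the charts `κ j` added to a finite atlas -/
theorem AV2_atlas [CompactSpace M] {n : ℕ} {κ : Fin n → OpenPartialHomeomorph M E2}
    (hκ : ∀ j, κ j ∈ ATL M ∧ Metric.closedBall (0 : E2) 4 ⊆ (κ j).target) :
    ∃ (𝒜 : FinAtlas M) (ι : Fin n → Fin 𝒜.n), ∀ j, 𝒜.φ (ι j) = κ j := by
  obtain ⟨𝒜⟩ := exists_finAtlas (M := M)
  refine ⟨{ n := 𝒜.n + n
            φ := Fin.append 𝒜.φ κ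
            mem := ?_
            target := ?_
            cover := ?_ }, fun j => Fin.natAdd 𝒜.n j, fun j => Fin.append_right _ _ j⟩
  · intro k
    refine Fin.addCases (fun k => ?_) (fun k => ?_) k
    · rw [Fin.append_left]
      exact 𝒜.mem k
    · rw [Fin.append_right]
      exact (hκ k).1
  · intro k
    refine Fin.addCases (fun k => ?_) (fun k => ?_) k
    · rw [Fin.append_left]
      exact 𝒜.target k
    · rw [Fin.append_right]
      exact (hκ k).2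
  · intro p
    obtain ⟨k, hk⟩ := 𝒜.cover p
    refine ⟨Fin.castAdd n k, ?_⟩
    rw [Fin.append_left]
    exact hk

theorem AV2_cont {G : E2 → V4} {O K : Set E2} (hO : IsOpen O) (hG : ContDiffOn ℝ ∞ G O)
    (hK : K ⊆ O) : ContinuousOn (fun x : E2 => gramV G e2 x) K := by
  have h1 := MD3_gramV_cont hO hG
  have h2 : ContinuousOn (fun x : E2 => ((x, e2) : E2 × E2)) K :=
    continuousOn_id.prodMk continuousOn_const
  refine ContinuousOn.comp (g := fun q : E2 × E2 => gramV G q.2 q.1)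
    (f := fun x : E2 => ((x, e2) : E2 × E2)) (t := O ×ˢ univ) h1 h2 ?_
  intro x hx
  exact ⟨hK hx, mem_univ _⟩

/-- one stage in its own chart: the direction `e₂` stays good -/
theorem AV2_inside {tf : ℝ → ℝ} {κ : OpenPartialHomeomorph M E2} (hκ : κ ∈ ATL M)
    (h4 : Metric.closedBall (0 : E2) 4 ⊆ κ.target) {f : M → V4} (hf : Sm f)
    (hv : ∀ x ∈ Metric.closedBall (0 : E2) 3, GoodIn κ f e2 x) {a : M → ℝ} (ha : Sm a) :
    ∃ tol : ℝ, 0 < tol ∧ ∀ tol' ≤ tol, ∀ F' : M → V4, ∀ x ∈ Metric.closedBall (0 : E2) 3,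
      StageCl tf (f ∘ κ.symm) (F' ∘ κ.symm) (a ∘ κ.symm) tol' x → GoodIn κ F' e2 x := by
  have hsub : Metric.closedBall (0 : E2) 3 ⊆ κ.target :=
    (Metric.closedBall_subset_closedBall (by norm_num)).trans h4
  have hK : IsCompact (Metric.closedBall (0 : E2) 3) := isCompact_closedBall 0 3
  have hfl : ContDiffOn ℝ ∞ (f ∘ κ.symm) κ.target := hf.loc hκ
  -- lower bound of the Gram determinant
  have hcont : ContinuousOn (fun x : E2 => gramV (f ∘ κ.symm) e2 x) (Metric.closedBall 0 3) :=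
    AV2_cont κ.open_target hfl hsub
  obtain ⟨c, hc, hcb⟩ := hK.exists_forall_le' hcont (a := 0) (fun x hx => hv x hx)
  -- bounds
  obtain ⟨R, hR, hRb⟩ := MD3_bound κ.open_target hfl hK hsub
  have hac : ContinuousOn (a ∘ κ.symm) (Metric.closedBall (0 : E2) 3) :=
    (ha.loc hκ).continuousOn.mono hsub
  obtain ⟨A, hA⟩ := hK.exists_bound_of_continuousOn hac
  set R' : ℝ := R + |A| with hR'
  have hR'1 : 1 ≤ R' := by
    have := abs_nonneg A
    linarith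
  have hR'0 : 0 < 1000 * R' ^ 5 := by positivity
  set tol : ℝ := min 1 (c / (2 * (1000 * R' ^ 5))) with htol
  have htol0 : 0 < tol := lt_min one_pos (div_pos hc (by positivity))
  refine ⟨tol, htol0, fun tol' htol' F' x hx hcl => ?_⟩
  obtain ⟨h1, h2, -, c', -, h5, -⟩ := hcl
  have he2 : ‖e2‖ = 1 := by simp [e2, Prod.norm_def]
  obtain ⟨b1, b2, b3⟩ := hRb x hx e2 he2
  have b3' : ‖pd 1 (pd 1 (f ∘ κ.symm)) x‖ ≤ R := b3
  have hg : c ≤ gram3 (pd 0 (f ∘ κ.symm) x) (pd 1 (f ∘ κ.symm) x) (pd 1 (pd 1 (f ∘ κ.symm)) x) :=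
    hcb x hx
  have hg0 := lt_of_lt_of_le hc hg
  have hF0 := gram3_F0 tf hg0 ((a ∘ κ.symm) x) c'
  have hnF := (norm_F0 tf hg0 ((a ∘ κ.symm) x) c').1
  have hax : |(a ∘ κ.symm) x| ≤ |A| := (hA x hx).trans (le_abs_self A)
  have hnF' : ‖F0 tf (pd 0 (f ∘ κ.symm) x) (pd 1 (f ∘ κ.symm) x) (pd 1 (pd 1 (f ∘ κ.symm)) x)
      ((a ∘ κ.symm) x) c'‖ ≤ R' := by
    refine abs_le_of_sq_le_sq' ?_ (by linarith) |>.2
    rw [hnF, hR']
    have k1 : ‖pd 0 (f ∘ κ.symm) x‖ ^ 2 ≤ R ^ 2 := pow_le_pow_left₀ (norm_nonneg _) b1 2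
    have k2 : ((a ∘ κ.symm) x) ^ 2 ≤ |A| ^ 2 := by
      rw [← sq_abs ((a ∘ κ.symm) x)]
      exact pow_le_pow_left₀ (abs_nonneg _) hax 2
    have k3 : 0 ≤ R * |A| := mul_nonneg (by linarith) (abs_nonneg A)
    nlinarith
  have hle : R ≤ R' := by
    have := abs_nonneg A
    linarith
  have t1 : tol' ≤ 1 := htol'.trans (min_le_left _ _)
  have key := gram3_sub_le _ _ _ (pd 0 (F' ∘ κ.symm) x) (pd 1 (F' ∘ κ.symm) x)
    (pd 1 (pd 1 (F' ∘ κ.symm)) x) R' tol' hnF' (b2.trans hle) (b3'.trans hle) h5 h1 h2 t1 hR'1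
  have key2 := (abs_le.1 key).1
  have t2 : 1000 * R' ^ 5 * tol' ≤ c / 2 := by
    have k1 : tol' ≤ c / (2 * (1000 * R' ^ 5)) := htol'.trans (min_le_right _ _)
    calc 1000 * R' ^ 5 * tol' ≤ 1000 * R' ^ 5 * (c / (2 * (1000 * R' ^ 5))) :=
          mul_le_mul_of_nonneg_left k1 hR'0.le
      _ = c / 2 := by field_simp
  change 0 < gram3 (pd 0 (F' ∘ κ.symm) x) (pd 1 (F' ∘ κ.symm) x) (pd 1 (pd 1 (F' ∘ κ.symm)) x)
  linarith

/-- one stage of the V-group.  `κ' j`: the charts of the following stages; the kernels of `dκ₁`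
agree (`RankChart Q`), so the good direction `e₂` persists in all charts -/
theorem v_stage [CompactSpace M] [T2Space M] {tf : ℝ → ℝ} (htf : ContDiff ℝ ∞ tf)
    (hES : ESfor M tf) {Q : M → Bil} {n : ℕ} {κ : Fin n → OpenPartialHomeomorph M E2}
    (hκ : ∀ j, κ j ∈ ATL M ∧ RankChart Q (κ j) ∧ Metric.closedBall (0 : E2) 4 ⊆ (κ j).target)
    {f : M → V4} (hf : Sm f) (hG : GoodAll f)
    (hv : ∀ j, ∀ x ∈ Metric.closedBall (0 : E2) 3, GoodIn (κ j) f e2 x) (i : Fin n) {a : M → ℝ}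
    (ha : Flat a) (ha0 : ∀ p, 0 ≤ a p)
    (has : ∀ p, a p ≠ 0 → p ∈ (κ i).source ∧ κ i p ∈ Metric.closedBall (0 : E2) 1) :
    ∃ F' : M → V4, Sm F' ∧ GoodAll F' ∧ (∀ p, metr F' p = metr f p + a p ^ 2 • sq1 (κ i) p) ∧
      ∀ j, ∀ x ∈ Metric.closedBall (0 : E2) 3, GoodIn (κ j) F' e2 x := by
  obtain ⟨𝒜, ι, hι⟩ := AV2_atlas (fun j => ⟨(hκ j).1, (hκ j).2.2⟩)
  -- stability outside
  have hst : ∀ j : Fin n, ∃ η : ℝ, 0 < η ∧ ∀ F' : M → V4, Sm F' →
      ∀ x ∈ Metric.closedBall (0 : E2) 3, ClAt 𝒜 2 (F' - f) η ((κ j).symm x) →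
        GoodIn (κ j) F' e2 x := by
    intro j
    obtain ⟨η, hη, h⟩ := good_stable 𝒜 hf (ι j) (S := {q : E2 × E2 | q.2 = e2})
      (isClosed_eq continuous_snd continuous_const) (by
        intro x hx v _ hs
        have hs' : v = e2 := hs
        rw [hs', hι]
        exact hv j x hx)
    refine ⟨η, hη, fun F' hF' x hx hcl => ?_⟩
    have he2 : ‖e2‖ = 1 := by simp [e2, Prod.norm_def]
    have h1 := h F' hF' x hx e2 he2 rfl
    rw [hι] at h1
    exact h1 hcl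
  choose η hη hst using hst
  obtain ⟨η0, hη0, hle⟩ := MD3_fin_pos η hη
  have hasm : Sm a := by
    obtain ⟨θ, hθ, hθ2⟩ := ha 1 le_rfl
    have h1 : θ = a := by
      funext p
      have := (hθ2 p).2
      rwa [pow_one] at this
    rw [← h1]
    exact hθ
  obtain ⟨tol, htol, hin⟩ := AV2_inside (tf := tf) (hκ i).1 (hκ i).2.2 hf (hv i) hasm
  obtain ⟨F', hF', hG', hm, hcl, hst'⟩ := hES f (κ i) a hf hG (hκ i).1 (hκ i).2.2 ha ha0 has
    (hv i) 𝒜 (min tol η0) (lt_min htol hη0)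
  refine ⟨F', hF', hG', hm, fun j x hx => ?_⟩
  have hxt : x ∈ (κ j).target :=
    (hκ j).2.2 (Metric.closedBall_subset_closedBall (by norm_num) hx)
  by_cases hp : (κ j).symm x ∈ (κ i).source ∧ κ i ((κ j).symm x) ∈ Metric.ball (0 : E2) 2
  · have hx3 : κ i ((κ j).symm x) ∈ Metric.closedBall (0 : E2) 3 :=
      Metric.ball_subset_closedBall (Metric.ball_subset_ball (by norm_num) hp.2)
    have h1 : GoodIn (κ i) F' e2 (κ i ((κ j).symm x)) :=
      hin (min tol η0) (min_le_left _ _) F' _ hx3 (hst' _ hx3)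
    have h2 := AV2_good (hκ i).1 (hκ j).1 (hκ i).2.1 (hκ j).2.1 hp.1 ((κ j).map_target hxt) hF' h1
    rwa [(κ j).right_inv hxt] at h2
  · apply hst j F' hF' x hx
    intro k h1 h2 l hl
    exact (hcl _ hp k h1 h2 l (hl.trans (by norm_num))).trans
      ((min_le_right _ _).trans (hle j))

end P205F
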