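import Mathlib
import Vale.Agent.Lib.P205F.MD1

/-!
# P205F ASSEMBLY: flat partitions, the W-group
-/

noncomputable section

namespace P205F

open scoped Manifold ContDiff Topology RealInnerProductSpace
open Set

set_option maxSynthPendingDepth 3

variable {M : Type} [TopologicalSpace M] [ChartedSpace E2 M] [IsManifold 𝓘(ℝ, E2) ∞ M]

/-- extension by zero -/
theorem AW1_ext [T2Space M] {φ : OpenPartialHomeomorph M E2} (hφ : φ ∈ ATL M)
    (ht : Metric.closedBall (0 : E2) 4 ⊆ φ.target) {θ : E2 → ℝ} (hθ : ContDiff ℝ ∞ θ)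
    (h0 : ∀ x, x ∉ Metric.closedBall (0 : E2) 1 → θ x = 0) :
    Sm (fun p => by classical exact if p ∈ φ.source then θ (φ p) else 0) := by
  classical
  refine sm_of_loc fun p => ?_
  by_cases hp : p ∈ φ.source
  · refine ⟨φ, hφ, hp, ?_⟩
    refine hθ.contDiffAt.congr_of_eventuallyEq ?_
    filter_upwards [φ.open_target.mem_nhds (φ.map_source hp)] with y hy
    simp [φ.map_target hy, φ.right_inv hy]
  · have hsub : Metric.closedBall (0 : E2) 1 ⊆ φ.target :=
      (Metric.closedBall_subset_closedBall (by norm_num)).trans ht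
    have hK : IsCompact (φ.symm '' Metric.closedBall (0 : E2) 1) :=
      (isCompact_closedBall _ _).image_of_continuousOn (φ.continuousOn_symm.mono hsub)
    have hpK : p ∉ φ.symm '' Metric.closedBall (0 : E2) 1 := by
      rintro ⟨x, hx, rfl⟩
      exact hp (φ.map_target (hsub hx))
    refine ⟨chartAt E2 p, chart_mem_ATL p, mem_chart_source E2 p, ?_⟩
    refine (contDiffAt_const (c := (0 : ℝ))).congr_of_eventuallyEq ?_
    have hps := mem_chart_source E2 p
    have h1 : (chartAt E2 p).symm ⁻¹' (φ.symm '' Metric.closedBall (0 : E2) 1)ᶜ ∈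
        𝓝 (chartAt E2 p p) := by
      apply ((chartAt E2 p).continuousAt_symm ((chartAt E2 p).map_source hps)).preimage_mem_nhds
      rw [(chartAt E2 p).left_inv hps]
      exact hK.isClosed.isOpen_compl.mem_nhds hpK
    filter_upwards [h1] with y hy
    change (if (chartAt E2 p).symm y ∈ φ.source then θ (φ ((chartAt E2 p).symm y)) else 0) = 0
    split_ifs with h
    · apply h0
      intro h2
      exact hy ⟨φ ((chartAt E2 p).symm y), h2, φ.left_inv h⟩
    · rfl

/-- the function on the plane -/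
def AW1_th (n : ℕ) (x : E2) : ℝ :=
  expNegInvGlue (n * (1 - x.1 ^ 2)) * expNegInvGlue (n * (1 - x.2 ^ 2))

theorem AW1_th_smooth (n : ℕ) : ContDiff ℝ ∞ (AW1_th n) := by
  have h0 : ContDiff ℝ ∞ expNegInvGlue := expNegInvGlue.contDiff
  unfold AW1_th
  refine ContDiff.mul ?_ ?_
  · exact h0.comp (by fun_prop)
  · exact h0.comp (by fun_prop)

theorem AW1_th_nonneg (n : ℕ) (x : E2) : 0 ≤ AW1_th n x :=
  mul_nonneg (expNegInvGlue.nonneg _) (expNegInvGlue.nonneg _)

theorem AW1_glue_pow {n : ℕ} (hn : 1 ≤ n) (t : ℝ) :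
    expNegInvGlue (n * t) ^ n = expNegInvGlue t := by
  have hn0 : (0 : ℝ) < n := by exact_mod_cast hn
  rcases le_or_gt t 0 with h | h
  · rw [expNegInvGlue.zero_of_nonpos h,
      expNegInvGlue.zero_of_nonpos (mul_nonpos_of_nonneg_of_nonpos hn0.le h),
      zero_pow (by omega)]
  · unfold expNegInvGlue
    rw [if_neg (not_le.2 h), if_neg (not_le.2 (mul_pos hn0 h)), ← Real.exp_nat_mul]
    congr 1
    field_simp

theorem AW1_th_pow {n : ℕ} (hn : 1 ≤ n) (x : E2) : AW1_th n x ^ n = AW1_th 1 x := by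
  unfold AW1_th
  rw [mul_pow, AW1_glue_pow hn, AW1_glue_pow hn]
  simp

theorem AW1_th_zero (n : ℕ) {x : E2} (hx : x ∉ Metric.closedBall (0 : E2) 1) :
    AW1_th n x = 0 := by
  rw [mem_closedBall_zero_iff, Prod.norm_def, sup_le_iff, not_and_or, not_le, not_le,
    Real.norm_eq_abs, Real.norm_eq_abs] at hx
  unfold AW1_th
  rcases hx with h | h
  · have h1 : 1 - x.1 ^ 2 ≤ 0 := by
      have : 1 < x.1 ^ 2 := by
        rw [← sq_abs]
        nlinarith
      linarith
    rw [expNegInvGlue.zero_of_nonpos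
      (mul_nonpos_of_nonneg_of_nonpos (Nat.cast_nonneg n) h1), zero_mul]
  · have h1 : 1 - x.2 ^ 2 ≤ 0 := by
      have : 1 < x.2 ^ 2 := by
        rw [← sq_abs]
        nlinarith
      linarith
    rw [expNegInvGlue.zero_of_nonpos (x := (n : ℝ) * (1 - x.2 ^ 2))
      (mul_nonpos_of_nonneg_of_nonpos (Nat.cast_nonneg n) h1), mul_zero]

theorem AW1_th_pos {x : E2} (hx : x ∈ Metric.ball (0 : E2) (1 / 2)) : 0 < AW1_th 1 x := by
  rw [mem_ball_zero_iff, Prod.norm_def, sup_lt_iff, Real.norm_eq_abs, Real.norm_eq_abs] at hx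
  obtain ⟨h1, h2⟩ := hx
  have k1 : 0 < (1 : ℕ) * (1 - x.1 ^ 2) := by
    rw [← sq_abs]
    have := abs_nonneg x.1
    push_cast
    nlinarith
  have k2 : 0 < (1 : ℕ) * (1 - x.2 ^ 2) := by
    rw [← sq_abs]
    have := abs_nonneg x.2
    push_cast
    nlinarith
  exact mul_pos (expNegInvGlue.pos_of_pos k1) (expNegInvGlue.pos_of_pos k2)

/-- a flat bump function: `> 0` on `φ⁻¹ (ball 0 (1/2))`, `0` off `φ⁻¹ (closedBall 0 1)`.
(`θ(x) = e(1 - x₁²) e(1 - x₂²)`, `e = expNegInvGlue`, `e(t)^{1/n} = e(n t)`.) -/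
theorem exists_flat_bump [T2Space M] {φ : OpenPartialHomeomorph M E2} (hφ : φ ∈ ATL M)
    (ht : Metric.closedBall (0 : E2) 4 ⊆ φ.target) :
    ∃ u : M → ℝ, Flat u ∧ (∀ p, u p ≠ 0 → p ∈ φ.source ∧ φ p ∈ Metric.closedBall (0 : E2) 1) ∧
      ∀ p ∈ φ.source, φ p ∈ Metric.ball (0 : E2) (1 / 2) → 0 < u p := by
  classical
  refine ⟨fun p => if p ∈ φ.source then AW1_th 1 (φ p) else 0, ?_, ?_, ?_⟩
  · intro n hn
    refine ⟨_, AW1_ext hφ ht (AW1_th_smooth n) (fun x hx => AW1_th_zero n hx), fun p => ?_⟩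
    by_cases hp : p ∈ φ.source
    · simp only [hp, if_true]
      exact ⟨AW1_th_nonneg n _, AW1_th_pow hn _⟩
    · simp only [hp, if_false]
      exact ⟨le_rfl, zero_pow (by omega)⟩
  · intro p hp
    by_cases h : p ∈ φ.source
    · refine ⟨h, ?_⟩
      by_contra h2
      apply hp
      simp only [h, if_true]
      exact AW1_th_zero 1 h2
    · exact absurd (if_neg h) hp
  · intro p hp hb
    simp only [hp, if_true]
    exact AW1_th_pos hb

end P205F
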