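import Vale.Agent.Lib.P205B.AW1

/-!
# P205F ASSEMBLY: flat partitions, the W-group
-/

noncomputable section

namespace P205F

open scoped Manifold ContDiff Topology RealInnerProductSpace
open Set

set_option maxSynthPendingDepth 3

variable {M : Type} [TopologicalSpace M] [ChartedSpace E2 M] [IsManifold 𝓘(ℝ, E2) ∞ M]

theorem AW2_flat_mul {a b : M → ℝ} (ha : Flat a) (hb : Flat b) : Flat (fun p => a p * b p) := by
  intro n hn
  obtain ⟨θ, h1, h2⟩ := ha n hn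
  obtain ⟨θ', h1', h2'⟩ := hb n hn
  refine ⟨fun p => θ p * θ' p, ?_, fun p => ⟨mul_nonneg (h2 p).1 (h2' p).1, ?_⟩⟩
  · have k1 : ContMDiff 𝓘(ℝ, E2) 𝓘(ℝ, ℝ) ∞ θ := h1
    have k2 : ContMDiff 𝓘(ℝ, E2) 𝓘(ℝ, ℝ) ∞ θ' := h1'
    exact k1.mul k2
  · rw [mul_pow, (h2 p).2, (h2' p).2]

theorem AW2_flat_sm {a : M → ℝ} (ha : Flat a) : Sm a := by
  obtain ⟨θ, h1, h2⟩ := ha 1 le_rfl
  have : a = θ := by
    funext p
    rw [← (h2 p).2, pow_one]
  rw [this]
  exact h1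

theorem AW2_flat_nonneg {a : M → ℝ} (ha : Flat a) (p : M) : 0 ≤ a p := by
  obtain ⟨θ, h1, h2⟩ := ha 1 le_rfl
  rw [← (h2 p).2, pow_one]
  exact (h2 p).1

theorem AW2_pre_nhds {χ : OpenPartialHomeomorph M E2} {p : M} (hp : p ∈ χ.source) {U : Set M}
    (hU : IsOpen U) (hpU : p ∈ U) : χ.target ∩ χ.symm ⁻¹' U ∈ 𝓝 (χ p) := by
  refine Filter.inter_mem (χ.open_target.mem_nhds (χ.map_source hp)) ?_
  apply (χ.continuousAt_symm (χ.map_source hp)).preimage_mem_nhds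
  rw [χ.left_inv hp]
  exact hU.mem_nhds hpU

theorem AW2_mul_pos {u : M → ℝ} (hu : Flat u) {v : M → ℝ} {U : Set M} (hU : IsOpen U)
    (hs : tsupport u ⊆ U) (hv : ∀ χ ∈ ATL M, ContDiffOn ℝ ∞ (v ∘ χ.symm) (χ.target ∩ χ.symm ⁻¹' U))
    (hp : ∀ p ∈ U, 0 < v p) : Flat (fun p => v p * u p) := by
  intro n hn
  obtain ⟨θ, hθ, hθ2⟩ := hu n hn
  have hn0 : n ≠ 0 := by omega
  have hz : ∀ p, u p = 0 → θ p = 0 := by
    intro p h
    have := (hθ2 p).2
    rw [h] at this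
    exact pow_eq_zero_iff hn0 |>.1 this
  have hU0 : ∀ p, p ∉ U → u p = 0 := by
    intro p h
    by_contra h2
    exact h (hs (subset_tsupport u h2))
  refine ⟨fun p => v p ^ ((n : ℝ)⁻¹) * θ p, ?_, fun p => ?_⟩
  · refine sm_of_loc fun p => ?_
    refine ⟨chartAt E2 p, chart_mem_ATL p, mem_chart_source E2 p, ?_⟩
    have hps := mem_chart_source E2 p
    by_cases h : p ∈ U
    · have hN := AW2_pre_nhds hps hU h
      have h1 : ContDiffAt ℝ ∞ (v ∘ (chartAt E2 p).symm) (chartAt E2 p p) :=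
        (hv _ (chart_mem_ATL p)).contDiffAt hN
      have h2 : ContDiffAt ℝ ∞ (θ ∘ (chartAt E2 p).symm) (chartAt E2 p p) :=
        (hθ.loc (chart_mem_ATL p)).contDiffAt
          ((chartAt E2 p).open_target.mem_nhds ((chartAt E2 p).map_source hps))
      have h3 : (v ∘ (chartAt E2 p).symm) (chartAt E2 p p) ≠ 0 := by
        simp only [Function.comp_apply, (chartAt E2 p).left_inv hps]
        exact (hp p h).ne'
      exact (h1.rpow_const_of_ne h3).mul h2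
    · have h0 : p ∈ (tsupport u)ᶜ := fun h2 => h (hs h2)
      have hN := AW2_pre_nhds hps (isClosed_tsupport u).isOpen_compl h0
      refine (contDiffAt_const (c := (0 : ℝ))).congr_of_eventuallyEq ?_
      filter_upwards [hN] with y hy
      have h4 : u ((chartAt E2 p).symm y) = 0 := image_eq_zero_of_notMem_tsupport hy.2
      simp only [Function.comp_apply, hz _ h4, mul_zero]
  · by_cases h : p ∈ U
    · refine ⟨mul_nonneg (Real.rpow_nonneg (hp p h).le _) (hθ2 p).1, ?_⟩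
      simp only [mul_pow, (hθ2 p).2, Real.rpow_inv_natCast_pow (hp p h).le hn0]
    · have h4 := hU0 p h
      simp only [hz _ h4, h4, mul_zero, zero_pow hn0, le_refl, and_self]

/-- flat partition subordinate to a family of charts: `P φ` is any property of charts such that
every point of the compact set `T` is the centre of a chart with this property -/
theorem flat_partition [T2Space M] {T : Set M} (hT : IsCompact T)
    (P : OpenPartialHomeomorph M E2 → Prop)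
    (hP : ∀ p ∈ T, ∃ φ ∈ ATL M, P φ ∧ p ∈ φ.source ∧ φ p = 0 ∧
      Metric.closedBall (0 : E2) 4 ⊆ φ.target) :
    ∃ (n : ℕ) (φ : Fin n → OpenPartialHomeomorph M E2) (b : Fin n → M → ℝ) (U : Set M),
      (∀ i, φ i ∈ ATL M ∧ P (φ i) ∧ Metric.closedBall (0 : E2) 4 ⊆ (φ i).target) ∧
      IsOpen U ∧ T ⊆ U ∧
      (∀ i p, b i p ≠ 0 → p ∈ (φ i).source ∧ φ i p ∈ Metric.closedBall (0 : E2) 1) ∧
      (∀ p ∈ U, ∑ i, b i p ^ 2 = 1) ∧
      (∀ i, ∀ χ ∈ ATL M, ContDiffOn ℝ ∞ (b i ∘ χ.symm) (χ.target ∩ χ.symm ⁻¹' U)) ∧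
      (∀ i p, 0 ≤ b i p) ∧
      ∀ i, ∀ u : M → ℝ, Flat u → tsupport u ⊆ T → Flat (fun p => b i p * u p) := by
  classical
  have key : ∀ p : T, ∃ (φ : OpenPartialHomeomorph M E2) (u : M → ℝ), (φ ∈ ATL M ∧ P φ ∧
      Metric.closedBall (0 : E2) 4 ⊆ φ.target) ∧ Flat u ∧
      (∀ q, u q ≠ 0 → q ∈ φ.source ∧ φ q ∈ Metric.closedBall (0 : E2) 1) ∧ 0 < u p := by
    intro p
    obtain ⟨φ, h1, h2, h3, h4, h5⟩ := hP p p.2
    obtain ⟨u, k1, k2, k3⟩ := exists_flat_bump h1 h5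
    refine ⟨φ, u, ⟨h1, h2, h5⟩, k1, k2, k3 p h3 ?_⟩
    rw [h4]
    exact Metric.mem_ball_self (by norm_num)
  choose φ u hφ hu hsu hpos using key
  have hVo : ∀ p : T, IsOpen {q | 0 < u p q} := by
    intro p
    have h1 : ContMDiff 𝓘(ℝ, E2) 𝓘(ℝ, ℝ) ∞ (u p) := AW2_flat_sm (hu p)
    exact isOpen_lt continuous_const h1.continuous
  obtain ⟨t, ht⟩ := hT.elim_finite_subcover _ hVo
    (fun q hq => mem_iUnion.2 ⟨⟨q, hq⟩, hpos ⟨q, hq⟩⟩)
  let w : Fin t.card → M → ℝ := fun i => u (t.equivFin.symm i).1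
  have hw : ∀ i, Flat (w i) := fun i => hu _
  let σ : M → ℝ := fun q => ∑ i, w i q ^ 2
  have hσ0 : ∀ q, 0 ≤ σ q := fun q => Finset.sum_nonneg fun i _ => sq_nonneg _
  have hσS : Sm σ := by
    have h1 : ∀ i, ContMDiff 𝓘(ℝ, E2) 𝓘(ℝ, ℝ) ∞ (w i) := fun i => AW2_flat_sm (hw i)
    have h2 : ContMDiff 𝓘(ℝ, E2) 𝓘(ℝ, ℝ) ∞ (fun q => ∑ i, w i q ^ 2) :=
      contMDiff_finsetSum fun i _ => (h1 i).pow 2
    exact h2
  have hσc : Continuous σ := by
    have h2 : ContMDiff 𝓘(ℝ, E2) 𝓘(ℝ, ℝ) ∞ σ := hσS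
    exact h2.continuous
  have hv : ∀ χ ∈ ATL M, ContDiffOn ℝ ∞ ((fun q => (Real.sqrt (σ q))⁻¹) ∘ χ.symm)
      (χ.target ∩ χ.symm ⁻¹' {q | 0 < σ q}) := by
    intro χ hχ x hx
    have h1 : ContDiffAt ℝ ∞ (σ ∘ χ.symm) x :=
      (hσS.loc hχ).contDiffAt (χ.open_target.mem_nhds hx.1)
    have h2 : 0 < (σ ∘ χ.symm) x := hx.2
    have h3 : ContDiffAt ℝ ∞ (fun y => Real.sqrt ((σ ∘ χ.symm) y)) x := h1.sqrt h2.ne'
    exact (h3.inv (Real.sqrt_pos.2 h2).ne').contDiffWithinAt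
  have hvp : ∀ q ∈ {q | 0 < σ q}, 0 < (Real.sqrt (σ q))⁻¹ :=
    fun q hq => inv_pos.2 (Real.sqrt_pos.2 hq)
  refine ⟨t.card, fun i => φ (t.equivFin.symm i).1, fun i q => w i q * (Real.sqrt (σ q))⁻¹,
    {q | 0 < σ q}, fun i => hφ _, isOpen_lt continuous_const hσc, ?_, ?_, ?_, ?_, ?_, ?_⟩
  · intro q hq
    have h1 := ht hq
    simp only [mem_iUnion] at h1
    obtain ⟨p, hp, hpq⟩ := h1
    have h2 : 0 < w (t.equivFin ⟨p, hp⟩) q := by
      change 0 < u (t.equivFin.symm (t.equivFin ⟨p, hp⟩)).1 q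
      rw [Equiv.symm_apply_apply]
      exact hpq
    refine lt_of_lt_of_le (pow_pos h2 2) ?_
    exact Finset.single_le_sum (f := fun i => w i q ^ 2) (fun i _ => sq_nonneg _)
      (Finset.mem_univ _)
  · intro i p h
    exact hsu _ p (left_ne_zero_of_mul h)
  · intro p hp
    have h1 : 0 < σ p := hp
    have h2 : ∀ i, (w i p * (Real.sqrt (σ p))⁻¹) ^ 2 = w i p ^ 2 * (σ p)⁻¹ := by
      intro i
      rw [mul_pow, inv_pow, Real.sq_sqrt h1.le]
    simp only [h2]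
    rw [← Finset.sum_mul]
    exact mul_inv_cancel₀ h1.ne'
  · intro i χ hχ
    have h1 : ContDiffOn ℝ ∞ (w i ∘ χ.symm) (χ.target ∩ χ.symm ⁻¹' {q | 0 < σ q}) :=
      ((AW2_flat_sm (hw i)).loc hχ).mono inter_subset_left
    exact h1.mul (hv χ hχ)
  · intro i p
    exact mul_nonneg (AW2_flat_nonneg (hw i) p) (inv_nonneg.2 (Real.sqrt_nonneg _))
  · intro i a ha hs
    have hTU : T ⊆ {q | 0 < σ q} := by
      intro q hq
      have h1 := ht hq
      simp only [mem_iUnion] at h1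
      obtain ⟨p, hp, hpq⟩ := h1
      have h2 : 0 < w (t.equivFin ⟨p, hp⟩) q := by
        change 0 < u (t.equivFin.symm (t.equivFin ⟨p, hp⟩)).1 q
        rw [Equiv.symm_apply_apply]
        exact hpq
      refine lt_of_lt_of_le (pow_pos h2 2) ?_
      exact Finset.single_le_sum (f := fun i => w i q ^ 2) (fun i _ => sq_nonneg _)
        (Finset.mem_univ _)
    have h1 := AW2_mul_pos ha (isOpen_lt continuous_const hσc) (hs.trans hTU) hv hvp
    have h2 := AW2_flat_mul (hw i) h1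
    simp only [mul_assoc]
    exact h2

/-- multiplication of a flat function by a function which is smooth and positive near its
support -/
theorem Flat.mul_pos {u : M → ℝ} (hu : Flat u) {v : M → ℝ} {U : Set M} (hU : IsOpen U)
    (hs : tsupport u ⊆ U) (hv : ∀ χ ∈ ATL M, ContDiffOn ℝ ∞ (v ∘ χ.symm) (χ.target ∩ χ.symm ⁻¹' U))
    (hp : ∀ p ∈ U, 0 < v p) : Flat (fun p => v p * u p) :=
  AW2_mul_pos hu hU hs hv hp

end P205F
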