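import Vale.Agent.Lib.P205B.BIp

/-!
# P205F BASE: the decomposition functions

For covectors `α, β` (not both zero) and an inner product `G`: `w = (t, w₁, w₂)`,
`t = (|α|² + |β|²)/2`, `w₁ = (|α|² - |β|²)/2`, `w₂ = ⟨α, β⟩`; `d = t² - w₁² - w₂² ≥ 0`.
If `d > 0` then `G = E α² + F (αβ + βα) + G' β²`, `E = (t - w₁)/d`, `G' = (t + w₁)/d`, `F = - w₂/d`;
`ζ = (E - G')/2 + i F = - (w₁ + i w₂)/d`, `|ζ| = |w|/d`, `σ := (E + G')/2 - |ζ| = 1/(t + |w|)`.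
`c = i r₁`, `r₁ = r₀/4`; `χ₀ = 1` for `|ζ| ≤ r₀/2`, `= 0` for `|ζ| ≥ r₀`; `η = 0` for `|ζ - c| ≤ r₁/4`,
`= 1` for `|ζ - c| ≥ r₁/2`.  (If `χ₀ ≠ 1` then `η = 1`.)  `Ψ̃ = ζ - χ₀² c`,
`b = χ₀ sqrt ((1 - η²) Im ζ + η² r₁)`.
-/

noncomputable section

namespace P205F

open scoped Manifold ContDiff Topology RealInnerProductSpace
open Set

/-- the space of `(t, w₁, w₂)` -/
abbrev W3 := ℝ × ℝ × ℝ

def nW (w : W3) : ℝ := Real.sqrt (w.2.1 ^ 2 + w.2.2 ^ 2)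
def dW (w : W3) : ℝ := w.1 ^ 2 - w.2.1 ^ 2 - w.2.2 ^ 2
def zr (w : W3) : ℝ := -w.2.1 / dW w
def zi (w : W3) : ℝ := -w.2.2 / dW w

/-- `χ₀` -/
def chiW (r0 : ℝ) (w : W3) : ℝ :=
  Real.smoothTransition ((r0 ^ 2 - (zr w ^ 2 + zi w ^ 2)) / (r0 ^ 2 - r0 ^ 2 / 4))

/-- `η` for `d > 0` -/
def eta0 (r0 : ℝ) (w : W3) : ℝ :=
  Real.smoothTransition ((zr w ^ 2 + (zi w - r0 / 4) ^ 2 - (r0 / 4) ^ 2 / 16) /
    ((r0 / 4) ^ 2 / 4 - (r0 / 4) ^ 2 / 16))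

/-- imaginary part of `Ψ̃` (the real part is `zr w`) -/
def piW (r0 : ℝ) (w : W3) : ℝ := zi w - chiW r0 w ^ 2 * (r0 / 4)

/-- `|Ψ̃|` -/
def pnW (r0 : ℝ) (w : W3) : ℝ := Real.sqrt (zr w ^ 2 + piW r0 w ^ 2)

open Classical in
/-- the flat function `η` -/
def etW (r0 : ℝ) (w : W3) : ℝ := if nW w ≤ r0 * dW w then eta0 r0 w else 1

open Classical in
/-- the flat function `b` -/
def bW (r0 : ℝ) (w : W3) : ℝ :=
  if nW w ≤ r0 * dW w then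
    chiW r0 w * Real.sqrt ((1 - eta0 r0 w ^ 2) * zi w + eta0 r0 w ^ 2 * (r0 / 4))
  else 0

open Classical in
def SW (r0 : ℝ) (w : W3) (m : ℝ) : ℝ :=
  if nW w ≤ r0 * dW w then
    (w.1 - w.2.1) / dW w - bW r0 w ^ 2 * Real.exp (-(2 * m))
      - eta0 r0 w ^ 2 * (pnW r0 w + zr w)
  else 1 / (w.1 + nW w)

open Classical in
def TW (r0 : ℝ) (w : W3) (m : ℝ) : ℝ :=
  if nW w ≤ r0 * dW w then
    (w.1 + w.2.1) / dW w - bW r0 w ^ 2 * Real.exp (2 * m)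
      - eta0 r0 w ^ 2 * (pnW r0 w - zr w)
  else 1 / (w.1 + nW w)

/-- `αβ + βα` -/
def symC (α β : E2 →L[ℝ] ℝ) : Bil := α.smulRight β + β.smulRight α

open Classical in
/-- the rank one form `Q̃` -/
def QtW (r0 : ℝ) (w : W3) (G : Bil) (α β : E2 →L[ℝ] ℝ) : Bil :=
  if nW w ≤ r0 * dW w then
    (pnW r0 w + zr w) • sqC α + piW r0 w • symC α β + (pnW r0 w - zr w) • sqC β
  else G - (1 / (w.1 + nW w)) • (sqC α + sqC β)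

/-- the invariants of `(G, α, β)` -/
def wOf (G : Bil) (α β : E2 →L[ℝ] ℝ) : W3 :=
  ((ip G α α + ip G β β) / 2, (ip G α α - ip G β β) / 2, ip G α β)

end P205F
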