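import Mathlib
import Vale.Agent.Lib.P205B.BDecDefs

/-!
# P205F BASE: properties of the decomposition functions

On `{t > 0}`: if `d > 0` and `|ζ| ≥ r₀` the first branch of every definition has the same value as
the second one (`χ₀ = 0`, `η = 1`, `Ψ̃ = ζ`, `E - |ζ| - Re ζ = t/d - |w|/d = 1/(t+|w|)`).  So each
function is equal to the first branch on the open set `{d > 0}` and to the second branch on the
open set `{t > 0, |w| > r₀ d}`; these two open sets cover `{t > 0}` (if `d ≤ 0` then `|w| ≥ t > 0`).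
In the first branch `|Ψ̃|` is only multiplied by `η²`, which is `0` near the only zero `ζ = c` of `Ψ̃`
(`Ψ̃ = 0` implies `|ζ| ≤ r₁ < r₀/2`, so `χ₀ = 1`); the radicand in `b` is `≥ r₁/2 > 0` for `d > 0`
(if `η < 1` then `|ζ - c| < r₁/2` and `Im ζ > r₁/2`).
-/

noncomputable section

namespace P205F

open scoped Manifold ContDiff Topology RealInnerProductSpace
open Set

set_option maxSynthPendingDepth 3

/-- the `n`-th root of the smooth transition function -/
def BDec2_tau (n : ℕ) (x : ℝ) : ℝ :=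
  expNegInvGlue (n * x) * (expNegInvGlue x + expNegInvGlue (1 - x)) ^ (-((n : ℝ)⁻¹))

theorem BDec2_pow {n : ℕ} (hn : 1 ≤ n) (x : ℝ) :
    BDec2_tau n x ^ n = Real.smoothTransition x := by
  have hn0 : (n : ℝ) ≠ 0 := by
    have : (1 : ℝ) ≤ n := by exact_mod_cast hn
    linarith
  have hd := Real.smoothTransition.pos_denom x
  unfold BDec2_tau
  rw [mul_pow, Real.rpow_neg hd.le, inv_pow, Real.rpow_inv_natCast_pow hd.le (by omega)]
  unfold Real.smoothTransition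
  rw [div_eq_mul_inv]
  congr 1
  rcases le_or_gt x 0 with hx | hx
  · rw [expNegInvGlue.zero_of_nonpos hx,
      expNegInvGlue.zero_of_nonpos (mul_nonpos_of_nonneg_of_nonpos (Nat.cast_nonneg n) hx),
      zero_pow (by omega)]
  · have h1 : (0 : ℝ) < n := lt_of_le_of_ne (Nat.cast_nonneg n) hn0.symm
    have h2 : 0 < (n : ℝ) * x := mul_pos h1 hx
    unfold expNegInvGlue
    rw [if_neg (not_le.mpr h2), if_neg (not_le.mpr hx), ← Real.exp_nat_mul]
    congr 1
    field_simp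

theorem BDec2_nonneg (n : ℕ) (x : ℝ) : 0 ≤ BDec2_tau n x :=
  mul_nonneg (expNegInvGlue.nonneg _)
    (Real.rpow_nonneg (Real.smoothTransition.pos_denom x).le _)

theorem BDec2_contDiff (n : ℕ) : ContDiff ℝ ∞ (BDec2_tau n) := by
  have h0 : ContDiff ℝ ∞ expNegInvGlue := expNegInvGlue.contDiff
  have h1 : ContDiff ℝ ∞ (fun x : ℝ => expNegInvGlue (n * x)) :=
    h0.comp (contDiff_const.mul contDiff_id)
  have h2 : ContDiff ℝ ∞ (fun x : ℝ => expNegInvGlue x + expNegInvGlue (1 - x)) :=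
    h0.add (h0.comp (contDiff_const.sub contDiff_id))
  exact h1.mul (h2.rpow_const_of_ne fun x => (Real.smoothTransition.pos_denom x).ne')

theorem BDec2_zero {n : ℕ} (hn : 1 ≤ n) {x : ℝ} (hx : x ≤ 0) : BDec2_tau n x = 0 := by
  have h1 := BDec2_pow hn x
  rw [Real.smoothTransition.zero_of_nonpos hx] at h1
  exact pow_eq_zero_iff (by omega) |>.mp h1

theorem BDec2_one {n : ℕ} (hn : 1 ≤ n) {x : ℝ} (hx : 1 ≤ x) : BDec2_tau n x = 1 := by
  have h1 := BDec2_pow hn x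
  rw [Real.smoothTransition.one_of_one_le hx] at h1
  exact (pow_eq_one_iff_of_nonneg (BDec2_nonneg n x) (by omega)).mp h1

theorem BDec2_contDiff_dW : ContDiff ℝ ∞ dW := by
  unfold dW
  fun_prop

theorem BDec2_continuous_nW : Continuous nW := by
  unfold nW
  fun_prop

theorem BDec2_nW_sq (w : W3) : nW w ^ 2 = w.2.1 ^ 2 + w.2.2 ^ 2 := by
  unfold nW
  exact Real.sq_sqrt (by positivity)

theorem BDec2_nW_nonneg (w : W3) : 0 ≤ nW w := Real.sqrt_nonneg _

theorem BDec2_isOpen_dW : IsOpen {w : W3 | 0 < dW w} :=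
  isOpen_lt continuous_const BDec2_contDiff_dW.continuous

/-- if `t > 0` and `d ≤ 0` then the second branch is used -/
theorem BDec2_branch {r0 : ℝ} (h : 0 < r0) {w : W3} (ht : 0 < w.1) (hd : dW w ≤ 0) :
    r0 * dW w < nW w := by
  have h1 := BDec2_nW_sq w
  have h2 : 0 < nW w := by
    rcases (BDec2_nW_nonneg w).lt_or_eq with h2 | h2
    · exact h2
    · exfalso
      rw [← h2] at h1
      unfold dW at hd
      nlinarith
  have h3 : r0 * dW w ≤ 0 := mul_nonpos_of_nonneg_of_nonpos h.le hd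
  linarith

/-- in the first branch, `t > 0` implies `d > 0` -/
theorem BDec2_dpos {r0 : ℝ} (h : 0 < r0) {w : W3} (ht : 0 < w.1) (hb : nW w ≤ r0 * dW w) :
    0 < dW w := by
  by_contra hd
  exact absurd (BDec2_branch h ht (not_lt.1 hd)) (not_lt.2 hb)

/-- gluing of the two branches -/
theorem BDec2_piece {r0 : ℝ} (h : 0 < r0) {g f : W3 → ℝ} {c : ℝ}
    (hg : ContDiffOn ℝ ∞ g {w | 0 < dW w})
    (hc : ∀ w, 0 < dW w → r0 * dW w < nW w → g w = c)
    (hf1 : ∀ w, nW w ≤ r0 * dW w → f w = g w) (hf2 : ∀ w, ¬ nW w ≤ r0 * dW w → f w = c) :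
    ContDiffOn ℝ ∞ f {w | 0 < w.1} := by
  intro w hw
  apply ContDiffAt.contDiffWithinAt
  by_cases hd : 0 < dW w
  · have h1 : f =ᶠ[𝓝 w] g := by
      filter_upwards [BDec2_isOpen_dW.mem_nhds hd] with w' hw'
      by_cases hb : nW w' ≤ r0 * dW w'
      · exact hf1 w' hb
      · rw [hf2 w' hb, hc w' hw' (not_le.1 hb)]
    exact (hg.contDiffAt (BDec2_isOpen_dW.mem_nhds hd)).congr_of_eventuallyEq h1
  · have h2 : IsOpen {w : W3 | r0 * dW w < nW w} :=
      isOpen_lt (continuous_const.mul BDec2_contDiff_dW.continuous) BDec2_continuous_nW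
    have h1 : f =ᶠ[𝓝 w] fun _ => c := by
      filter_upwards [h2.mem_nhds (BDec2_branch h hw (not_lt.1 hd))] with w' hw'
      exact hf2 w' (not_le.2 hw')
    exact contDiffAt_const.congr_of_eventuallyEq h1

theorem BDec2_zr : ContDiffOn ℝ ∞ zr {w | 0 < dW w} := by
  unfold zr
  exact ContDiffOn.div (by fun_prop) BDec2_contDiff_dW.contDiffOn fun w hw => ne_of_gt hw

theorem BDec2_zi : ContDiffOn ℝ ∞ zi {w | 0 < dW w} := by
  unfold zi
  exact ContDiffOn.div (by fun_prop) BDec2_contDiff_dW.contDiffOn fun w hw => ne_of_gt hw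

/-- `|ζ|² = |w|² / d²` -/
theorem BDec2_zeta {w : W3} (hd : 0 < dW w) : zr w ^ 2 + zi w ^ 2 = nW w ^ 2 / dW w ^ 2 := by
  rw [BDec2_nW_sq]
  unfold zr zi
  have := hd.ne'
  field_simp

theorem BDec2_zeta_lt {r0 : ℝ} (h : 0 < r0) {w : W3} (hd : 0 < dW w)
    (hb : r0 * dW w < nW w) : r0 ^ 2 < zr w ^ 2 + zi w ^ 2 := by
  rw [BDec2_zeta hd, lt_div_iff₀ (by positivity), ← mul_pow]
  exact pow_lt_pow_left₀ hb (by positivity) two_ne_zero

/-- the argument of `χ₀` -/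
def BDec2_ca (r0 : ℝ) (w : W3) : ℝ := (r0 ^ 2 - (zr w ^ 2 + zi w ^ 2)) / (r0 ^ 2 - r0 ^ 2 / 4)

/-- the argument of `η` -/
def BDec2_ea (r0 : ℝ) (w : W3) : ℝ :=
  (zr w ^ 2 + (zi w - r0 / 4) ^ 2 - (r0 / 4) ^ 2 / 16) / ((r0 / 4) ^ 2 / 4 - (r0 / 4) ^ 2 / 16)

theorem BDec2_ca_le {r0 : ℝ} (h : 0 < r0) {w : W3} (hd : 0 < dW w)
    (hb : r0 * dW w < nW w) : BDec2_ca r0 w ≤ 0 := by
  have h1 := BDec2_zeta_lt h hd hb
  have h2 : 0 < r0 ^ 2 := by positivity
  exact div_nonpos_of_nonpos_of_nonneg (by linarith) (by linarith)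

theorem BDec2_ea_iff {r0 : ℝ} (h : 0 < r0) (w : W3) :
    1 ≤ BDec2_ea r0 w ↔ (r0 / 8) ^ 2 ≤ zr w ^ 2 + (zi w - r0 / 4) ^ 2 := by
  have h2 : 0 < r0 ^ 2 := by positivity
  unfold BDec2_ea
  rw [le_div_iff₀ (by nlinarith)]
  constructor
  · intro h3
    nlinarith
  · intro h3
    nlinarith

theorem BDec2_ea_ge {r0 : ℝ} (h : 0 < r0) {w : W3} (hd : 0 < dW w)
    (hb : r0 * dW w < nW w) : 1 ≤ BDec2_ea r0 w := by
  rw [BDec2_ea_iff h]
  have h1 := BDec2_zeta_lt h hd hb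
  rcases le_or_gt (zi w) (r0 / 2) with h3 | h3
  · nlinarith
  · nlinarith [sq_nonneg (zr w)]

theorem BDec2_ca_smooth (r0 : ℝ) : ContDiffOn ℝ ∞ (BDec2_ca r0) {w | 0 < dW w} := by
  unfold BDec2_ca
  exact ((contDiffOn_const.sub ((BDec2_zr.pow 2).add (BDec2_zi.pow 2))).div_const _)

theorem BDec2_ea_smooth (r0 : ℝ) : ContDiffOn ℝ ∞ (BDec2_ea r0) {w | 0 < dW w} := by
  unfold BDec2_ea
  exact ((((BDec2_zr.pow 2).add ((BDec2_zi.sub contDiffOn_const).pow 2)).sub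
    contDiffOn_const).div_const _)

theorem BDec2_eta0 (r0 : ℝ) (w : W3) : eta0 r0 w = Real.smoothTransition (BDec2_ea r0 w) := rfl

theorem BDec2_chiW (r0 : ℝ) (w : W3) : chiW r0 w = Real.smoothTransition (BDec2_ca r0 w) := rfl

theorem BDec2_eta0_smooth (r0 : ℝ) : ContDiffOn ℝ ∞ (eta0 r0) {w | 0 < dW w} :=
  Real.smoothTransition.contDiff.comp_contDiffOn (BDec2_ea_smooth r0)

/-- the radicand in `b` -/
def BDec2_rad (r0 : ℝ) (w : W3) : ℝ := (1 - eta0 r0 w ^ 2) * zi w + eta0 r0 w ^ 2 * (r0 / 4)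

theorem BDec2_rad_pos {r0 : ℝ} (h : 0 < r0) (w : W3) : 0 < BDec2_rad r0 w := by
  unfold BDec2_rad
  by_cases h1 : 1 ≤ BDec2_ea r0 w
  · have h2 : eta0 r0 w = 1 := Real.smoothTransition.one_of_one_le h1
    rw [h2]
    linarith
  · rw [BDec2_ea_iff h, not_le] at h1
    have h2 : r0 / 8 < zi w := by
      by_contra h3
      rw [not_lt] at h3
      nlinarith [sq_nonneg (zr w)]
    have h3 : 0 ≤ eta0 r0 w := Real.smoothTransition.nonneg _
    have h4 : eta0 r0 w ≤ 1 := Real.smoothTransition.le_one _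
    have h5 : eta0 r0 w ^ 2 ≤ 1 := by nlinarith
    nlinarith [sq_nonneg (eta0 r0 w)]

theorem BDec2_rad_smooth (r0 : ℝ) : ContDiffOn ℝ ∞ (BDec2_rad r0) {w | 0 < dW w} := by
  unfold BDec2_rad
  have h1 := (BDec2_eta0_smooth r0).pow 2
  exact ((contDiffOn_const.sub h1).mul BDec2_zi).add (h1.mul contDiffOn_const)

theorem flatOn_etW {r0 : ℝ} (h : 0 < r0) : FlatOn (etW r0) {w | 0 < w.1} := by
  classical
  intro n hn
  refine ⟨fun w => if nW w ≤ r0 * dW w then BDec2_tau n (BDec2_ea r0 w) else 1,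
    BDec2_piece h (g := fun w => BDec2_tau n (BDec2_ea r0 w)) (c := 1)
      ((BDec2_contDiff n).comp_contDiffOn (BDec2_ea_smooth r0))
      (fun w hd hb => BDec2_one hn (BDec2_ea_ge h hd hb))
      (fun w hb => if_pos hb) (fun w hb => if_neg hb), fun w _ => ?_⟩
  by_cases hb : nW w ≤ r0 * dW w
  · have h1 : etW r0 w = eta0 r0 w := if_pos hb
    simp only [if_pos hb, h1]
    exact ⟨BDec2_nonneg _ _, BDec2_pow hn _⟩
  · have h1 : etW r0 w = 1 := if_neg hb
    simp only [if_neg hb, h1]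
    exact ⟨zero_le_one, one_pow n⟩

theorem flatOn_bW {r0 : ℝ} (h : 0 < r0) : FlatOn (bW r0) {w | 0 < w.1} := by
  classical
  intro n hn
  have hn0 : (n : ℝ) ≠ 0 := by
    have : (1 : ℝ) ≤ n := by exact_mod_cast hn
    linarith
  refine ⟨fun w => if nW w ≤ r0 * dW w then
      BDec2_tau n (BDec2_ca r0 w) * BDec2_rad r0 w ^ ((2 * (n : ℝ))⁻¹) else 0,
    BDec2_piece h
      (g := fun w => BDec2_tau n (BDec2_ca r0 w) * BDec2_rad r0 w ^ ((2 * (n : ℝ))⁻¹)) (c := 0)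
      (((BDec2_contDiff n).comp_contDiffOn (BDec2_ca_smooth r0)).mul
        ((BDec2_rad_smooth r0).rpow_const_of_ne fun w _ => (BDec2_rad_pos h w).ne'))
      (fun w hd hb => by rw [BDec2_zero hn (BDec2_ca_le h hd hb), zero_mul])
      (fun w hb => if_pos hb) (fun w hb => if_neg hb), fun w _ => ?_⟩
  by_cases hb : nW w ≤ r0 * dW w
  · have h1 : bW r0 w = chiW r0 w * Real.sqrt (BDec2_rad r0 w) := if_pos hb
    have hr := BDec2_rad_pos h w
    simp only [if_pos hb, h1]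
    refine ⟨mul_nonneg (BDec2_nonneg _ _) (Real.rpow_nonneg hr.le _), ?_⟩
    rw [mul_pow, BDec2_pow hn, BDec2_chiW]
    congr 1
    rw [← Real.rpow_natCast, ← Real.rpow_mul hr.le, Real.sqrt_eq_rpow]
    congr 1
    field_simp
  · have h1 : bW r0 w = 0 := if_neg hb
    simp only [if_neg hb, h1]
    exact ⟨le_rfl, zero_pow (by omega)⟩

end P205F
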