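import Vale.Agent.Lib.P205B.BDecDefs

/-!
# P205F BASE: properties of the decomposition functions

On `{t > 0}`: if `d > 0` and `|ζ| ≥ r₀` the first branch of every definition has the same value as
the second one (`χ₀ = 0`, `η = 1`, `Ψ̃ = ζ`, `E - |ζ| - Re ζ = t/d - |w|/d = 1/(t+|w|)`).  So each
function is equal to the first branch on the open set `{d > 0}` and to the second branch on the
open set `{t > 0, |w| > r₀ d}`; these two open sets cover `{t > 0}` (if `d ≤ 0` then `|w| ≥ t > 0`).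
In the first branch `|Ψ̃|` is only multiplied by `η²`, which is `0` near the only zero `ζ = c` of `Ψ̃`
(`Ψ̃ = 0` implies `|ζ| ≤ r₁ < r₀/2`, so `χ₀ = 1`); the radicand in `b` is `≥ r₁/2 > 0` for `d > 0`
(if `η < 1` then `|ζ - c| < r₁/2` and `Im ζ > r₁/2`).
-/

noncomputable section

namespace P205F

open scoped Manifold ContDiff Topology RealInnerProductSpace
open Set

set_option maxSynthPendingDepth 3

private theorem eta0_mem (r0 : ℝ) (w : W3) : 0 ≤ eta0 r0 w ∧ eta0 r0 w ≤ 1 :=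
  ⟨Real.smoothTransition.nonneg _, Real.smoothTransition.le_one _⟩

private theorem chiW_mem (r0 : ℝ) (w : W3) : 0 ≤ chiW r0 w ∧ chiW r0 w ≤ 1 :=
  ⟨Real.smoothTransition.nonneg _, Real.smoothTransition.le_one _⟩

private theorem eta0_lt {r0 : ℝ} (h : 0 < r0) {w : W3} (h1 : eta0 r0 w ≠ 1) :
    zr w ^ 2 + (zi w - r0 / 4) ^ 2 < (r0 / 8) ^ 2 := by
  by_contra hcon
  push Not at hcon
  apply h1
  unfold eta0
  apply Real.smoothTransition.one_of_one_le
  have h2 : 0 < (r0 / 4) ^ 2 / 4 - (r0 / 4) ^ 2 / 16 := by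
    have : 0 < r0 ^ 2 := by positivity
    nlinarith
  rw [le_div_iff₀ h2]
  nlinarith

private theorem zi_bd {r0 : ℝ} (h : 0 < r0) {w : W3} (h1 : eta0 r0 w ≠ 1) :
    r0 / 8 < zi w ∧ zi w < 3 * r0 / 8 := by
  have h2 := eta0_lt h h1
  have h3 : (zi w - r0 / 4) ^ 2 < (r0 / 8) ^ 2 := by
    have := sq_nonneg (zr w)
    linarith
  have h4 := abs_lt_of_sq_lt_sq' h3 (by positivity)
  constructor
  · linarith [h4.1]
  · linarith [h4.2]

private theorem chiW_one {r0 : ℝ} (h : 0 < r0) {w : W3} (h1 : eta0 r0 w ≠ 1) :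
    chiW r0 w = 1 := by
  have h2 := eta0_lt h h1
  have h3 := zi_bd h h1
  unfold chiW
  apply Real.smoothTransition.one_of_one_le
  have h4 : 0 < r0 ^ 2 - r0 ^ 2 / 4 := by
    have : 0 < r0 ^ 2 := by positivity
    linarith
  rw [le_div_iff₀ h4]
  have h5 : zi w * r0 ≤ 3 * r0 / 8 * r0 := mul_le_mul_of_nonneg_right h3.2.le h.le
  nlinarith

private theorem rad_bd {r0 : ℝ} (h : 0 < r0) (w : W3) :
    0 ≤ (1 - eta0 r0 w ^ 2) * zi w + eta0 r0 w ^ 2 * (r0 / 4) ∧
    (1 - eta0 r0 w ^ 2) * zi w + eta0 r0 w ^ 2 * (r0 / 4) ≤ 3 * r0 / 8 := by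
  by_cases h1 : eta0 r0 w = 1
  · rw [h1]
    constructor <;> linarith
  · have h2 := zi_bd h h1
    obtain ⟨h3, h4⟩ := eta0_mem r0 w
    have h5 : eta0 r0 w ^ 2 ≤ 1 := pow_le_one₀ h3 h4
    have h6 : 0 ≤ eta0 r0 w ^ 2 := sq_nonneg _
    set q := eta0 r0 w ^ 2
    constructor
    · have h7 : 0 ≤ (1 - q) * zi w := mul_nonneg (by linarith) (by linarith [h2.1])
      have h8 : 0 ≤ q * (r0 / 4) := by positivity
      linarith
    · have h7 : (1 - q) * zi w ≤ (1 - q) * (3 * r0 / 8) :=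
        mul_le_mul_of_nonneg_left h2.2.le (by linarith)
      have h8 : q * (r0 / 4) ≤ q * (3 * r0 / 8) := mul_le_mul_of_nonneg_left (by linarith) h6
      linarith

private theorem bW_sq {r0 : ℝ} (h : 0 < r0) {w : W3} (hc : nW w ≤ r0 * dW w) :
    bW r0 w ^ 2 = chiW r0 w ^ 2 * ((1 - eta0 r0 w ^ 2) * zi w + eta0 r0 w ^ 2 * (r0 / 4)) := by
  unfold bW
  rw [if_pos hc, mul_pow, Real.sq_sqrt (rad_bd h w).1]

private theorem bW_le {r0 : ℝ} (h : 0 < r0) {w : W3} (hc : nW w ≤ r0 * dW w) :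
    bW r0 w ^ 2 ≤ 3 * r0 / 8 := by
  rw [bW_sq h hc]
  obtain ⟨h1, h2⟩ := rad_bd h w
  obtain ⟨h3, h4⟩ := chiW_mem r0 w
  have h5 : chiW r0 w ^ 2 ≤ 1 := pow_le_one₀ h3 h4
  calc chiW r0 w ^ 2 * ((1 - eta0 r0 w ^ 2) * zi w + eta0 r0 w ^ 2 * (r0 / 4))
      ≤ 1 * ((1 - eta0 r0 w ^ 2) * zi w + eta0 r0 w ^ 2 * (r0 / 4)) :=
        mul_le_mul_of_nonneg_right h5 h1
    _ ≤ 3 * r0 / 8 := by rw [one_mul]; exact h2

private theorem nW_nonneg (w : W3) : 0 ≤ nW w := Real.sqrt_nonneg _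

private theorem nW_sq (w : W3) : nW w ^ 2 = w.2.1 ^ 2 + w.2.2 ^ 2 := by
  unfold nW
  exact Real.sq_sqrt (by positivity)

private theorem dW_eq (w : W3) : dW w = (w.1 - nW w) * (w.1 + nW w) := by
  have := nW_sq w
  unfold dW
  nlinarith

private theorem dW_pos {r0 : ℝ} {w : W3} (ht : 0 < w.1) (hd : 0 ≤ dW w)
    (hc : nW w ≤ r0 * dW w) : 0 < dW w := by
  rcases hd.lt_or_eq with h1 | h1
  · exact h1
  · exfalso
    rw [← h1, mul_zero] at hc
    have h2 : nW w = 0 := le_antisymm hc (nW_nonneg w)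
    have h3 := dW_eq w
    rw [← h1, h2] at h3
    have : 0 < w.1 * w.1 := by positivity
    linarith

private theorem z_sq (w : W3) : zr w ^ 2 + zi w ^ 2 = (nW w / dW w) ^ 2 := by
  unfold zr zi
  rw [div_pow, div_pow, div_pow, nW_sq, ← add_div]
  ring

private theorem z_bd {r0 : ℝ} (h : 0 < r0) {w : W3} (hd : 0 < dW w) (hc : nW w ≤ r0 * dW w) :
    |zr w| ≤ r0 ∧ |zi w| ≤ r0 := by
  have h1 : nW w / dW w ≤ r0 := by
    rw [div_le_iff₀ hd]
    exact hc
  have h2 : 0 ≤ nW w / dW w := div_nonneg (nW_nonneg w) hd.le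
  have h3 : (nW w / dW w) ^ 2 ≤ r0 ^ 2 := by gcongr
  have h4 := z_sq w
  have h5 := sq_nonneg (zr w)
  have h6 := sq_nonneg (zi w)
  constructor
  · exact abs_le_of_sq_le_sq (by linarith) h.le
  · exact abs_le_of_sq_le_sq (by linarith) h.le

private theorem pn_bd {r0 : ℝ} (h : 0 < r0) {w : W3} (hd : 0 < dW w) (hc : nW w ≤ r0 * dW w) :
    pnW r0 w ≤ 9 / 4 * r0 := by
  obtain ⟨h1, h2⟩ := z_bd h hd hc
  obtain ⟨h3, h4⟩ := chiW_mem r0 w
  have h5 : chiW r0 w ^ 2 ≤ 1 := pow_le_one₀ h3 h4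
  have h6 : 0 ≤ chiW r0 w ^ 2 := sq_nonneg _
  have h7 : |piW r0 w| ≤ 5 / 4 * r0 := by
    unfold piW
    rw [abs_le] at h2 ⊢
    have h8 : chiW r0 w ^ 2 * (r0 / 4) ≤ 1 * (r0 / 4) := mul_le_mul_of_nonneg_right h5 (by positivity)
    have h9 : 0 ≤ chiW r0 w ^ 2 * (r0 / 4) := by positivity
    constructor
    · linarith [h2.1]
    · linarith [h2.2]
  unfold pnW
  apply Real.sqrt_le_iff.2
  constructor
  · positivity
  · have h8 : zr w ^ 2 ≤ r0 ^ 2 := by
      rw [← sq_abs]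
      gcongr
    have h9 : piW r0 w ^ 2 ≤ (5 / 4 * r0) ^ 2 := by
      rw [← sq_abs]
      gcongr
    have : 0 < r0 ^ 2 := by positivity
    nlinarith

private theorem sig_bd {r0 : ℝ} {w : W3} (ht : 0 < w.1) (hd : 0 < dW w)
    (hw : 10 * r0 * (w.1 + nW w) ≤ 1) : 10 * r0 ≤ (w.1 - nW w) / dW w := by
  rw [le_div_iff₀ hd, dW_eq]
  have h1 : 0 < w.1 + nW w := by linarith [nW_nonneg w]
  have h2 : 0 < w.1 - nW w := by
    rw [dW_eq] at hd
    exact (mul_pos_iff_of_pos_right h1).1 hd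
  calc 10 * r0 * ((w.1 - nW w) * (w.1 + nW w)) = (10 * r0 * (w.1 + nW w)) * (w.1 - nW w) := by ring
    _ ≤ 1 * (w.1 - nW w) := mul_le_mul_of_nonneg_right hw h2.le
    _ = w.1 - nW w := one_mul _

private theorem w1_le (w : W3) : |w.2.1| ≤ nW w := by
  have h := nW_sq w
  have h2 := sq_nonneg w.2.2
  exact abs_le_of_sq_le_sq (by linarith) (nW_nonneg w)

private theorem exp_le_8 {x : ℝ} (hx : x ≤ 2) : Real.exp x ≤ 8 := by
  have h1 : Real.exp x ≤ Real.exp 2 := Real.exp_le_exp.2 hx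
  have h2 : Real.exp 2 = Real.exp 1 ^ 2 := by
    rw [← Real.exp_nat_mul]
    norm_num
  have h3 := Real.exp_one_lt_d9
  have h4 := Real.exp_pos 1
  nlinarith

/-- positivity: `S ≥ σ - 3.1 r₀`, `σ = 1/(t+|w|) ≥ 10 r₀` -/
theorem SW_pos {r0 : ℝ} (h : 0 < r0) {w : W3} (ht : 0 < w.1) (hd : 0 ≤ dW w)
    (hw : 10 * r0 * (w.1 + nW w) ≤ 1) {m : ℝ} (hm : |m| ≤ 1) : 0 < SW r0 w m := by
  unfold SW
  split_ifs with hc
  · have hd' := dW_pos ht hd hc
    have h1 := sig_bd ht hd' hw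
    have h2 : (w.1 - nW w) / dW w ≤ (w.1 - w.2.1) / dW w := by
      have := (abs_le.1 (w1_le w)).2
      gcongr
    obtain ⟨hm1, hm2⟩ := abs_le.1 hm
    have h3 : bW r0 w ^ 2 * Real.exp (-(2 * m)) ≤ 3 * r0 / 8 * 8 := by
      apply mul_le_mul (bW_le h hc) (exp_le_8 (by linarith)) (Real.exp_pos _).le (by positivity)
    have h4 := (abs_le.1 (z_bd h hd' hc).1).2
    have h5 := pn_bd h hd' hc
    obtain ⟨h6, h7⟩ := eta0_mem r0 w
    have h8 : eta0 r0 w ^ 2 ≤ 1 := pow_le_one₀ h6 h7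
    have h9 : eta0 r0 w ^ 2 * (pnW r0 w + zr w) ≤ 13 / 4 * r0 := by
      calc eta0 r0 w ^ 2 * (pnW r0 w + zr w) ≤ eta0 r0 w ^ 2 * (13 / 4 * r0) :=
            mul_le_mul_of_nonneg_left (by linarith) (sq_nonneg _)
        _ ≤ 1 * (13 / 4 * r0) := mul_le_mul_of_nonneg_right h8 (by positivity)
        _ = 13 / 4 * r0 := one_mul _
    linarith
  · have := nW_nonneg w
    positivity

theorem TW_pos {r0 : ℝ} (h : 0 < r0) {w : W3} (ht : 0 < w.1) (hd : 0 ≤ dW w)
    (hw : 10 * r0 * (w.1 + nW w) ≤ 1) {m : ℝ} (hm : |m| ≤ 1) : 0 < TW r0 w m := by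
  unfold TW
  split_ifs with hc
  · have hd' := dW_pos ht hd hc
    have h1 := sig_bd ht hd' hw
    have h2 : (w.1 - nW w) / dW w ≤ (w.1 + w.2.1) / dW w := by
      have := (abs_le.1 (w1_le w)).1
      have h3 : w.1 - nW w ≤ w.1 + w.2.1 := by linarith
      gcongr
    obtain ⟨hm1, hm2⟩ := abs_le.1 hm
    have h3 : bW r0 w ^ 2 * Real.exp (2 * m) ≤ 3 * r0 / 8 * 8 := by
      apply mul_le_mul (bW_le h hc) (exp_le_8 (by linarith)) (Real.exp_pos _).le (by positivity)
    have h4 := (abs_le.1 (z_bd h hd' hc).1).1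
    have h5 := pn_bd h hd' hc
    obtain ⟨h6, h7⟩ := eta0_mem r0 w
    have h8 : eta0 r0 w ^ 2 ≤ 1 := pow_le_one₀ h6 h7
    have h9 : eta0 r0 w ^ 2 * (pnW r0 w - zr w) ≤ 13 / 4 * r0 := by
      calc eta0 r0 w ^ 2 * (pnW r0 w - zr w) ≤ eta0 r0 w ^ 2 * (13 / 4 * r0) :=
            mul_le_mul_of_nonneg_left (by linarith) (sq_nonneg _)
        _ ≤ 1 * (13 / 4 * r0) := mul_le_mul_of_nonneg_right h8 (by positivity)
        _ = 13 / 4 * r0 := one_mul _
    linarith
  · have := nW_nonneg w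
    positivity

/-- invariants of an actual triple: `t > 0` and `d ≥ 0` -/
theorem wOf_pos {G : Bil} (hG : PosDef G) {α β : E2 →L[ℝ] ℝ} (h : α ≠ 0 ∨ β ≠ 0) :
    0 < (wOf G α β).1 ∧ 0 ≤ dW (wOf G α β) ∧ dW (wOf G α β) = detC α β ^ 2 / dtB G := by
  have h0 : ∀ γ : E2 →L[ℝ] ℝ, 0 ≤ ip G γ γ := by
    intro γ
    by_cases hγ : γ = 0
    · rw [hγ]
      unfold ip
      simp
    · exact (ip_self_pos hG hγ).le
  have h1 : dW (wOf G α β) = detC α β ^ 2 / dtB G := by
    rw [← ip_det hG]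
    unfold dW wOf
    ring
  refine ⟨?_, ?_, h1⟩
  · unfold wOf
    simp only
    rcases h with h | h
    · have h2 := ip_self_pos hG h
      have h3 := h0 β
      linarith
    · have h2 := ip_self_pos hG h
      have h3 := h0 α
      linarith
  · rw [h1]
    have := dtB_pos hG
    positivity

/-- the dual expansion of `G` -/
private theorem G_expand {G : Bil} (hG : PosDef G) {α β : E2 →L[ℝ] ℝ} (hd : 0 < dW (wOf G α β))
    (v v' : E2) :
    G v v' = ((ip G β β) * (α v * α v') - ip G α β * (α v * β v' + β v * α v')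
      + (ip G α α) * (β v * β v')) / dW (wOf G α β) := by
  have hD := dtB_pos hG
  have h1 : dW (wOf G α β) = detC α β ^ 2 / dtB G := by
    rw [← ip_det hG]
    unfold dW wOf
    ring
  rw [h1] at hd ⊢
  have hdet : detC α β ≠ 0 := by
    intro h0
    rw [h0] at hd
    simp at hd
  rw [bip_bil G v v', bip_cov α v, bip_cov α v', bip_cov β v, bip_cov β v']
  simp only [smul_eq_mul]
  have hs := hG.1 e1 e2
  unfold ip
  rw [← hs]
  unfold dtB at hD ⊢
  rw [← hs] at hD ⊢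
  unfold detC at hdet ⊢
  have hD' := hD.ne'
  have key : ∀ L X Y Z P Q R D δ : ℝ, D ≠ 0 → δ ≠ 0 → L * δ ^ 2 = X * P - Y * Q + Z * R →
      L = (X / D * P - Y / D * Q + Z / D * R) / (δ ^ 2 / D) := by
    intro L X Y Z P Q R D δ hD hδ h
    have h2 : X / D * P - Y / D * Q + Z / D * R = L * (δ ^ 2 / D) := by
      rw [← mul_div_assoc, h]
      ring
    rw [h2]
    have h3 : δ ^ 2 / D ≠ 0 := div_ne_zero (pow_ne_zero 2 hδ) hD
    rw [mul_div_assoc, div_self h3, mul_one]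
  apply key _ _ _ _ _ _ _ _ _ hD' hdet
  ring

/-- the decomposition -/
theorem dec_identity {r0 : ℝ} (hr : 0 < r0) {G : Bil} (hG : PosDef G) {α β : E2 →L[ℝ] ℝ}
    (h : α ≠ 0 ∨ β ≠ 0) (m : ℝ) :
    G = SW r0 (wOf G α β) m • sqC α + TW r0 (wOf G α β) m • sqC β
      + bW r0 (wOf G α β) ^ 2 • sqC (Real.exp (-m) • α + Real.exp m • β)
      + etW r0 (wOf G α β) ^ 2 • QtW r0 (wOf G α β) G α β := by
  obtain ⟨ht, hd0, hdet⟩ := wOf_pos hG h
  by_cases hc : nW (wOf G α β) ≤ r0 * dW (wOf G α β)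
  · have hd := dW_pos ht hd0 hc
    refine ContinuousLinearMap.ext fun v => ContinuousLinearMap.ext fun v' => ?_
    have hE := G_expand hG hd v v'
    have hb := bW_sq hr hc
    have hem : Real.exp (-m) * Real.exp m = 1 := by
      rw [← Real.exp_add]
      simp
    have he1 : Real.exp (-(2 * m)) = Real.exp (-m) * Real.exp (-m) := by
      rw [← Real.exp_add]
      congr 1
      ring
    have he2 : Real.exp (2 * m) = Real.exp m * Real.exp m := by
      rw [← Real.exp_add]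
      congr 1
      ring
    have hF : bW r0 (wOf G α β) ^ 2 + eta0 r0 (wOf G α β) ^ 2 * piW r0 (wOf G α β)
        = zi (wOf G α β) := by
      rw [hb]
      unfold piW
      by_cases h1 : eta0 r0 (wOf G α β) = 1
      · rw [h1]
        ring
      · rw [chiW_one hr h1]
        ring
    have hSd : SW r0 (wOf G α β) m = (ip G β β) / dW (wOf G α β)
        - bW r0 (wOf G α β) ^ 2 * (Real.exp (-m) * Real.exp (-m))
        - eta0 r0 (wOf G α β) ^ 2 * (pnW r0 (wOf G α β) + zr (wOf G α β)) := by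
      unfold SW
      rw [if_pos hc, he1]
      congr 3
      unfold wOf
      simp only
      ring
    have hTd : TW r0 (wOf G α β) m = (ip G α α) / dW (wOf G α β)
        - bW r0 (wOf G α β) ^ 2 * (Real.exp m * Real.exp m)
        - eta0 r0 (wOf G α β) ^ 2 * (pnW r0 (wOf G α β) - zr (wOf G α β)) := by
      unfold TW
      rw [if_pos hc, he2]
      congr 3
      unfold wOf
      simp only
      ring
    have hzi : zi (wOf G α β) = -(ip G α β) / dW (wOf G α β) := by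
      unfold zi
      rfl
    have hη : etW r0 (wOf G α β) = eta0 r0 (wOf G α β) := by
      unfold etW
      rw [if_pos hc]
    have hQ : QtW r0 (wOf G α β) G α β = (pnW r0 (wOf G α β) + zr (wOf G α β)) • sqC α
        + piW r0 (wOf G α β) • symC α β + (pnW r0 (wOf G α β) - zr (wOf G α β)) • sqC β := by
      unfold QtW
      rw [if_pos hc]
    rw [hQ, hη, hSd, hTd, hE]
    simp only [ContinuousLinearMap.add_apply, ContinuousLinearMap.smul_apply, sqC, symC,
      ContinuousLinearMap.smulRight_apply, smul_eq_mul]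
    rw [hzi] at hF
    generalize bW r0 (wOf G α β) ^ 2 = B at *
    generalize eta0 r0 (wOf G α β) ^ 2 = Y at *
    generalize piW r0 (wOf G α β) = P at *
    generalize pnW r0 (wOf G α β) = N at *
    generalize zr (wOf G α β) = Z at *
    generalize dW (wOf G α β) = D at *
    generalize Real.exp (-m) = x at *
    generalize Real.exp m = y at *
    generalize ip G α α = aa at *
    generalize ip G β β = bb at *
    generalize ip G α β = ab at *
    generalize α v = p at *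
    generalize α v' = p' at *
    generalize β v = q at *
    generalize β v' = q' at *
    have h2 : (bb * (p * p') - ab * (p * q' + q * p') + aa * (q * q')) / D
        = bb / D * (p * p') + (-ab / D) * (p * q' + q * p') + aa / D * (q * q') := by
      ring
    rw [h2, ← hF]
    have h3 : (x * p + y * q) * (x * p' + y * q') = x * x * (p * p') + (x * y) * (p * q' + q * p')
        + y * y * (q * q') := by ring
    rw [h3, hem]
    ring
  · unfold SW TW bW etW QtW
    rw [if_neg hc, if_neg hc, if_neg hc, if_neg hc, if_neg hc]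
    module

end P205F
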