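import Mathlib
import Vale.Agent.Lib.P205B.BDec3

/-!
# P205F BASE: properties of the decomposition functions

On `{t > 0}`: if `d > 0` and `|ζ| ≥ r₀` the first branch of every definition has the same value as
the second one (`χ₀ = 0`, `η = 1`, `Ψ̃ = ζ`, `E - |ζ| - Re ζ = t/d - |w|/d = 1/(t+|w|)`).  So each
function is equal to the first branch on the open set `{d > 0}` and to the second branch on the
open set `{t > 0, |w| > r₀ d}`; these two open sets cover `{t > 0}` (if `d ≤ 0` then `|w| ≥ t > 0`).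
In the first branch `|Ψ̃|` is only multiplied by `η²`, which is `0` near the only zero `ζ = c` of `Ψ̃`
(`Ψ̃ = 0` implies `|ζ| ≤ r₁ < r₀/2`, so `χ₀ = 1`); the radicand in `b` is `≥ r₁/2 > 0` for `d > 0`
(if `η < 1` then `|ζ - c| < r₁/2` and `Im ζ > r₁/2`).
-/

noncomputable section

namespace P205F

open scoped Manifold ContDiff Topology RealInnerProductSpace
open Set

set_option maxSynthPendingDepth 3

private theorem BDec4_nW_nonneg (w : W3) : 0 ≤ nW w := Real.sqrt_nonneg _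

private theorem BDec4_nW_sq (w : W3) : nW w ^ 2 = w.2.1 ^ 2 + w.2.2 ^ 2 :=
  Real.sq_sqrt (by positivity)

private theorem BDec4_dpos {r0 : ℝ} {w : W3} (ht : 0 < w.1) (hd : 0 ≤ dW w)
    (h1 : nW w ≤ r0 * dW w) : 0 < dW w := by
  rcases hd.lt_or_eq with h | h
  · exact h
  · exfalso
    rw [← h, mul_zero] at h1
    have h2 : nW w = 0 := le_antisymm h1 (BDec4_nW_nonneg w)
    have h3 := BDec4_nW_sq w
    rw [h2] at h3
    have h4 : dW w = w.1 ^ 2 - nW w ^ 2 := by
      rw [BDec4_nW_sq]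
      unfold dW
      ring
    rw [h2, ← h] at h4
    nlinarith

private theorem BDec4_pn_pos {r0 : ℝ} (hr : 0 < r0) {w : W3}
    (hc : ¬ (zr w = 0 ∧ zi w = r0 / 4)) : 0 < zr w ^ 2 + piW r0 w ^ 2 := by
  by_contra hcon
  have h1 : zr w = 0 := by nlinarith [sq_nonneg (zr w), sq_nonneg (piW r0 w)]
  have h2 : piW r0 w = 0 := by nlinarith [sq_nonneg (zr w), sq_nonneg (piW r0 w)]
  apply hc
  refine ⟨h1, ?_⟩
  have h3 : zi w = chiW r0 w ^ 2 * (r0 / 4) := by
    have h4 : piW r0 w = zi w - chiW r0 w ^ 2 * (r0 / 4) := rfl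
    rw [h2] at h4
    linarith
  have hc0 : 0 ≤ chiW r0 w := Real.smoothTransition.nonneg _
  have hc1 : chiW r0 w ≤ 1 := Real.smoothTransition.le_one _
  have hz0 : 0 ≤ zi w := by rw [h3]; positivity
  have hz1 : zi w ≤ r0 / 4 := by
    rw [h3]
    have : chiW r0 w ^ 2 ≤ 1 := pow_le_one₀ hc0 hc1
    nlinarith
  have hchi : chiW r0 w = 1 := by
    unfold chiW
    apply Real.smoothTransition.one_of_one_le
    rw [le_div_iff₀ (by nlinarith)]
    rw [h1]
    nlinarith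
  rw [hchi] at h3
  linarith

private theorem BDec4_bil_ext {G H : Bil} (h11 : G e1 e1 = H e1 e1) (h12 : G e1 e2 = H e1 e2)
    (h21 : G e2 e1 = H e2 e1) (h22 : G e2 e2 = H e2 e2) : G = H := by
  refine ContinuousLinearMap.ext fun v => ContinuousLinearMap.ext fun w => ?_
  rw [bip_bil G v w, bip_bil H v w, h11, h12, h21, h22]

private theorem BDec4_expand {G : Bil} (hG : PosDef G) {α β : E2 →L[ℝ] ℝ}
    (hdet : detC α β ≠ 0) :
    G = (ip G β β / (detC α β ^ 2 / dtB G)) • sqC α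
      + (-(ip G α β) / (detC α β ^ 2 / dtB G)) • symC α β
      + (ip G α α / (detC α β ^ 2 / dtB G)) • sqC β := by
  have hD := (dtB_pos hG).ne'
  have hs := hG.1 e1 e2
  have key : ∀ x : ℝ, x / dtB G / (detC α β ^ 2 / dtB G) = x / detC α β ^ 2 := by
    intro x
    field_simp
  have key2 : ∀ x : ℝ, -(x / dtB G) / (detC α β ^ 2 / dtB G) = -x / detC α β ^ 2 := by
    intro x
    field_simp
  unfold ip
  rw [key, key, key2]
  have hd2 : detC α β ^ 2 ≠ 0 := pow_ne_zero 2 hdet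
  refine BDec4_bil_ext ?_ ?_ ?_ ?_ <;>
  simp only [sqC, symC, ContinuousLinearMap.add_apply, ContinuousLinearMap.smul_apply,
    ContinuousLinearMap.smulRight_apply, smul_eq_mul] <;>
  rw [← hs] <;>
  rw [div_mul_eq_mul_div, div_mul_eq_mul_div, div_mul_eq_mul_div, ← add_div, ← add_div,
    eq_div_iff hd2] <;>
  unfold detC <;> ring

/-- in the overlap the two branches agree -/
private theorem BDec4_agree {r0 : ℝ} (hr : 0 < r0) {G : Bil} (hG : PosDef G)
    {α β : E2 →L[ℝ] ℝ} (h : α ≠ 0 ∨ β ≠ 0) (hd : 0 < dW (wOf G α β))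
    (hn : r0 * dW (wOf G α β) < nW (wOf G α β)) :
    G - (1 / ((wOf G α β).1 + nW (wOf G α β))) • (sqC α + sqC β) =
    (pnW r0 (wOf G α β) + zr (wOf G α β)) • sqC α + piW r0 (wOf G α β) • symC α β
      + (pnW r0 (wOf G α β) - zr (wOf G α β)) • sqC β := by
  obtain ⟨ht, hd0, hdd⟩ := wOf_pos hG h
  have hdet : detC α β ≠ 0 := by
    intro h0
    rw [hdd, h0] at hd
    simp at hd
  have hexp := BDec4_expand hG hdet
  rw [← hdd] at hexp
  set w := wOf G α β with hw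
  have h1 : ip G β β = w.1 - w.2.1 := by
    rw [hw]
    simp only [wOf]
    ring
  have h2 : ip G α α = w.1 + w.2.1 := by
    rw [hw]
    simp only [wOf]
    ring
  have h3 : ip G α β = w.2.2 := rfl
  rw [h1, h2, h3] at hexp
  have hnn := BDec4_nW_nonneg w
  have hz : zr w ^ 2 + zi w ^ 2 = (nW w / dW w) ^ 2 := by
    unfold zr zi
    rw [div_pow, div_pow, div_pow, ← add_div, BDec4_nW_sq]
    congr 1
    ring
  have hlt : r0 < nW w / dW w := by rwa [lt_div_iff₀ hd]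
  have hchi : chiW r0 w = 0 := by
    unfold chiW
    apply Real.smoothTransition.zero_of_nonpos
    apply div_nonpos_of_nonpos_of_nonneg
    · rw [hz]
      nlinarith
    · nlinarith
  have hpi : piW r0 w = zi w := by
    unfold piW
    rw [hchi]
    ring
  have hpn : pnW r0 w = nW w / dW w := by
    unfold pnW
    rw [hpi, hz, Real.sqrt_sq (by positivity)]
  have hsig : 1 / (w.1 + nW w) = (w.1 - nW w) / dW w := by
    rw [div_eq_div_iff (by positivity) hd.ne']
    have h4 : dW w = w.1 ^ 2 - nW w ^ 2 := by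
      rw [BDec4_nW_sq]
      unfold dW
      ring
    rw [h4]
    ring
  rw [hpi, hpn, hsig]
  conv_lhs => rw [hexp]
  unfold zr zi
  have e1 : nW w / dW w + -w.2.1 / dW w = (w.1 - w.2.1) / dW w - (w.1 - nW w) / dW w := by
    ring
  have e2 : nW w / dW w - -w.2.1 / dW w = (w.1 + w.2.1) / dW w - (w.1 - nW w) / dW w := by
    ring
  rw [e1, e2, sub_smul, sub_smul, smul_add]
  abel

private theorem BDec4_rank1 {P z p : ℝ} (hP : 0 < P) (hPz : P ^ 2 = z ^ 2 + p ^ 2)
    {α β : E2 →L[ℝ] ℝ} (hdet : detC α β ≠ 0) :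
    let Q : Bil := (P + z) • sqC α + p • symC α β + (P - z) • sqC β
    (∀ v w, Q v w = Q w v) ∧ Q e1 e1 * Q e2 e2 = Q e1 e2 ^ 2 ∧ 0 < Q e1 e1 + Q e2 e2 := by
  intro Q
  have hQ : ∀ v w, Q v w = (P + z) * (α v * α w) + p * (α v * β w + β v * α w) +
      (P - z) * (β v * β w) := by
    intro v w
    simp only [Q, sqC, symC, ContinuousLinearMap.add_apply, ContinuousLinearMap.smul_apply,
      ContinuousLinearMap.smulRight_apply, smul_eq_mul]
  refine ⟨fun v w => ?_, ?_, ?_⟩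
  · rw [hQ, hQ]
    ring
  · rw [hQ, hQ, hQ]
    have h1 : ((P + z) * (α e1 * α e1) + p * (α e1 * β e1 + β e1 * α e1) +
        (P - z) * (β e1 * β e1)) * ((P + z) * (α e2 * α e2) + p * (α e2 * β e2 + β e2 * α e2) +
        (P - z) * (β e2 * β e2)) - ((P + z) * (α e1 * α e2) + p * (α e1 * β e2 + β e1 * α e2) +
        (P - z) * (β e1 * β e2)) ^ 2 = (P ^ 2 - z ^ 2 - p ^ 2) * detC α β ^ 2 := by
      unfold detC
      ring
    rw [hPz] at h1
    have h2 : (z ^ 2 + p ^ 2 - z ^ 2 - p ^ 2) * detC α β ^ 2 = 0 := by ring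
    rw [h2] at h1
    linarith
  · rw [hQ, hQ]
    have hab : -P ≤ z := by nlinarith [sq_nonneg p]
    rcases hab.lt_or_eq with h | h
    · have hpz : 0 < P + z := by linarith
      have h1 : (P + z) * ((P + z) * (α e1 * α e1) + p * (α e1 * β e1 + β e1 * α e1) +
        (P - z) * (β e1 * β e1) + ((P + z) * (α e2 * α e2) + p * (α e2 * β e2 + β e2 * α e2) +
        (P - z) * (β e2 * β e2))) = ((P + z) * α e1 + p * β e1) ^ 2 +
          ((P + z) * α e2 + p * β e2) ^ 2 + (P ^ 2 - z ^ 2 - p ^ 2) * (β e1 ^ 2 + β e2 ^ 2) := by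
        ring
      have h2 : (P ^ 2 - z ^ 2 - p ^ 2) * (β e1 ^ 2 + β e2 ^ 2) = 0 := by
        rw [hPz]
        ring
      rw [h2, add_zero] at h1
      have h3 : 0 < ((P + z) * α e1 + p * β e1) ^ 2 + ((P + z) * α e2 + p * β e2) ^ 2 := by
        by_contra hcon
        have h4 : (P + z) * α e1 + p * β e1 = 0 := by
          nlinarith [sq_nonneg ((P + z) * α e1 + p * β e1), sq_nonneg ((P + z) * α e2 + p * β e2)]
        have h5 : (P + z) * α e2 + p * β e2 = 0 := by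
          nlinarith [sq_nonneg ((P + z) * α e1 + p * β e1), sq_nonneg ((P + z) * α e2 + p * β e2)]
        have h6 : (P + z) * detC α β = 0 := by
          have : (P + z) * detC α β = ((P + z) * α e1 + p * β e1) * β e2 -
            ((P + z) * α e2 + p * β e2) * β e1 := by
            unfold detC
            ring
          rw [this, h4, h5]
          ring
        exact (mul_ne_zero hpz.ne' hdet) h6
      rw [← h1] at h3
      exact (mul_pos_iff_of_pos_left hpz).1 h3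
    · have hp : p = 0 := by
        have : p ^ 2 = 0 := by
          rw [← h] at hPz
          nlinarith
        exact pow_eq_zero_iff (two_ne_zero) |>.1 this
      rw [hp, ← h]
      have hb : 0 < β e1 ^ 2 + β e2 ^ 2 := by
        by_contra hcon
        have h4 : β e1 = 0 := by nlinarith [sq_nonneg (β e1), sq_nonneg (β e2)]
        have h5 : β e2 = 0 := by nlinarith [sq_nonneg (β e1), sq_nonneg (β e2)]
        apply hdet
        unfold detC
        rw [h4, h5]
        ring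
      nlinarith

private theorem BDec4_trace {a b c A B q : ℝ} (ha : 0 < a) (hD : 0 < a * b - c * c)
    (hAB : A * B = q ^ 2) (htr : 0 < b * A - 2 * c * q + a * B) : 0 < A + B := by
  by_contra hcon
  have hcon' : A + B ≤ 0 := not_lt.1 hcon
  have hABn : 0 ≤ A * B := by rw [hAB]; positivity
  have hA0 : A ≤ 0 := by
    by_contra h0
    have h0' : 0 < A := not_le.1 h0
    have : B < 0 := by linarith
    nlinarith
  have hB0 : B ≤ 0 := by
    by_contra h0
    have h0' : 0 < B := not_le.1 h0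
    have : A < 0 := by linarith
    nlinarith
  have hb : 0 < b := by
    by_contra h0
    have h0' : b ≤ 0 := not_lt.1 h0
    nlinarith [mul_self_nonneg c]
  have hX : 0 ≤ b * (-A) + a * (-B) :=
    add_nonneg (mul_nonneg hb.le (neg_nonneg.2 hA0)) (mul_nonneg ha.le (neg_nonneg.2 hB0))
  have h9 : (2 * c * q) ^ 2 ≤ (b * (-A) + a * (-B)) ^ 2 := by
    have h10 : (2 * c * q) ^ 2 = 4 * (c * c) * (A * B) := by
      rw [hAB]
      ring
    rw [h10]
    have h11 : 4 * (c * c) * (A * B) ≤ 4 * (a * b) * (A * B) := by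
      apply mul_le_mul_of_nonneg_right _ hABn
      linarith
    refine h11.trans ?_
    nlinarith [sq_nonneg (b * A - a * B)]
  have h12 := abs_le.1 (abs_le_of_sq_le_sq h9 hX)
  linarith [h12.1]

private theorem BDec4_rank2 {G : Bil} (hG : PosDef G) {α β : E2 →L[ℝ] ℝ}
    (h : α ≠ 0 ∨ β ≠ 0) (hn : 0 < nW (wOf G α β)) :
    let Q : Bil := G - (1 / ((wOf G α β).1 + nW (wOf G α β))) • (sqC α + sqC β)
    (∀ v w, Q v w = Q w v) ∧ Q e1 e1 * Q e2 e2 = Q e1 e2 ^ 2 ∧ 0 < Q e1 e1 + Q e2 e2 := by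
  obtain ⟨ht, hd0, hdd⟩ := wOf_pos hG h
  set w := wOf G α β with hw
  set n := nW w with hndef
  set σ : ℝ := 1 / (w.1 + n) with hσ
  intro Q
  have hs := hG.1 e1 e2
  have hD := dtB_pos hG
  have hQ : ∀ v w, Q v w = G v w - σ * (α v * α w + β v * β w) := by
    intro v w
    simp only [Q, sqC, ContinuousLinearMap.add_apply, ContinuousLinearMap.smul_apply,
      ContinuousLinearMap.smulRight_apply, smul_eq_mul, ContinuousLinearMap.sub_apply]
  have hσ1 : σ * (w.1 + n) = 1 := by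
    rw [hσ, one_div, inv_mul_cancel₀]
    positivity
  have hdn : dW w = w.1 ^ 2 - n ^ 2 := by
    rw [hndef, BDec4_nW_sq]
    unfold dW
    ring
  -- trace identity
  have htr : G e2 e2 * (α e1 ^ 2 + β e1 ^ 2) - 2 * G e1 e2 * (α e1 * α e2 + β e1 * β e2) +
      G e1 e1 * (α e2 ^ 2 + β e2 ^ 2) = 2 * w.1 * dtB G := by
    have h1 : w.1 = (ip G α α + ip G β β) / 2 := rfl
    rw [h1]
    unfold ip
    rw [← hs]
    field_simp
    ring
  have hdet : detC α β ^ 2 = dtB G * (w.1 ^ 2 - n ^ 2) := by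
    rw [← hdn, hdd]
    field_simp
  refine ⟨fun v w => ?_, ?_, ?_⟩
  · rw [hQ, hQ, hG.1 v w]
    ring
  · rw [hQ, hQ, hQ]
    have h1 : (G e1 e1 - σ * (α e1 * α e1 + β e1 * β e1)) *
        (G e2 e2 - σ * (α e2 * α e2 + β e2 * β e2)) -
        (G e1 e2 - σ * (α e1 * α e2 + β e1 * β e2)) ^ 2 =
        (G e1 e1 * G e2 e2 - G e1 e2 * G e1 e2) - σ * (G e2 e2 * (α e1 ^ 2 + β e1 ^ 2) -
          2 * G e1 e2 * (α e1 * α e2 + β e1 * β e2) + G e1 e1 * (α e2 ^ 2 + β e2 ^ 2)) +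
          σ ^ 2 * detC α β ^ 2 := by
      unfold detC
      ring
    rw [htr, hdet] at h1
    have h2 : G e1 e1 * G e2 e2 - G e1 e2 * G e1 e2 = dtB G := by
      unfold dtB
      rw [← hs]
    rw [h2] at h1
    have h3 : dtB G - σ * (2 * w.1 * dtB G) + σ ^ 2 * (dtB G * (w.1 ^ 2 - n ^ 2)) =
        dtB G * (1 - σ * (w.1 + n)) * (1 - σ * (w.1 - n)) := by ring
    rw [h3, hσ1] at h1
    have h4 : dtB G * (1 - 1) * (1 - σ * (w.1 - n)) = 0 := by ring
    rw [h4] at h1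
    linarith
  · set A := Q e1 e1 with hA
    set B := Q e2 e2 with hB
    have hAB : A * B = Q e1 e2 ^ 2 := by
      rw [hA, hB, hQ, hQ, hQ]
      have h1 : (G e1 e1 - σ * (α e1 * α e1 + β e1 * β e1)) *
          (G e2 e2 - σ * (α e2 * α e2 + β e2 * β e2)) -
          (G e1 e2 - σ * (α e1 * α e2 + β e1 * β e2)) ^ 2 =
          (G e1 e1 * G e2 e2 - G e1 e2 * G e1 e2) - σ * (G e2 e2 * (α e1 ^ 2 + β e1 ^ 2) -
            2 * G e1 e2 * (α e1 * α e2 + β e1 * β e2) + G e1 e1 * (α e2 ^ 2 + β e2 ^ 2)) +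
            σ ^ 2 * detC α β ^ 2 := by
        unfold detC
        ring
      rw [htr, hdet] at h1
      have h2 : G e1 e1 * G e2 e2 - G e1 e2 * G e1 e2 = dtB G := by
        unfold dtB
        rw [← hs]
      rw [h2] at h1
      have h3 : dtB G - σ * (2 * w.1 * dtB G) + σ ^ 2 * (dtB G * (w.1 ^ 2 - n ^ 2)) =
          dtB G * (1 - σ * (w.1 + n)) * (1 - σ * (w.1 - n)) := by ring
      rw [h3, hσ1] at h1
      have h4 : dtB G * (1 - 1) * (1 - σ * (w.1 - n)) = 0 := by ring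
      rw [h4] at h1
      linarith
    have htrQ : 0 < G e2 e2 * A - 2 * G e1 e2 * Q e1 e2 + G e1 e1 * B := by
      have h5 : G e2 e2 * A - 2 * G e1 e2 * Q e1 e2 + G e1 e1 * B =
          2 * (G e1 e1 * G e2 e2 - G e1 e2 * G e1 e2) - σ * (G e2 e2 * (α e1 ^ 2 + β e1 ^ 2) -
            2 * G e1 e2 * (α e1 * α e2 + β e1 * β e2) + G e1 e1 * (α e2 ^ 2 + β e2 ^ 2)) := by
        rw [hA, hB, hQ, hQ, hQ]
        ring
      have h2 : G e1 e1 * G e2 e2 - G e1 e2 * G e1 e2 = dtB G := by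
        unfold dtB
        rw [← hs]
      rw [h5, htr, h2]
      have h6 : 2 * dtB G - σ * (2 * w.1 * dtB G) = 2 * dtB G * (1 - σ * w.1) := by ring
      rw [h6]
      have h7 : 0 < σ * n := by
        have : 0 < σ := by rw [hσ]; positivity
        positivity
      have h8 : 1 - σ * w.1 = σ * n := by linarith [hσ1, mul_add σ w.1 n]
      rw [h8]
      positivity
    have h2 : G e1 e1 * G e2 e2 - G e1 e2 * G e1 e2 = dtB G := by
      unfold dtB
      rw [← hs]
    exact BDec4_trace (bip_e1_pos hG) (by rw [h2]; exact hD) hAB htrQ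

/-- `Q̃` has rank one and is positive semidefinite, if not `ζ = c` -/
theorem QtW_rank {r0 : ℝ} (hr : 0 < r0) {G : Bil} (hG : PosDef G) {α β : E2 →L[ℝ] ℝ}
    (h : α ≠ 0 ∨ β ≠ 0)
    (hc : ¬ (nW (wOf G α β) ≤ r0 * dW (wOf G α β) ∧ zr (wOf G α β) = 0 ∧
      zi (wOf G α β) = r0 / 4)) :
    (∀ v w, QtW r0 (wOf G α β) G α β v w = QtW r0 (wOf G α β) G α β w v) ∧
    QtW r0 (wOf G α β) G α β e1 e1 * QtW r0 (wOf G α β) G α β e2 e2 =
      QtW r0 (wOf G α β) G α β e1 e2 ^ 2 ∧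
    0 < QtW r0 (wOf G α β) G α β e1 e1 + QtW r0 (wOf G α β) G α β e2 e2 := by
  obtain ⟨ht, hd0, hdd⟩ := wOf_pos hG h
  by_cases hn : nW (wOf G α β) ≤ r0 * dW (wOf G α β)
  · have hdp := BDec4_dpos ht hd0 hn
    have hdet : detC α β ≠ 0 := by
      intro h0
      rw [hdd, h0] at hdp
      simp at hdp
    have hpp := BDec4_pn_pos hr (fun h1 => hc ⟨hn, h1⟩)
    have e : QtW r0 (wOf G α β) G α β = (pnW r0 (wOf G α β) + zr (wOf G α β)) • sqC α +
        piW r0 (wOf G α β) • symC α β + (pnW r0 (wOf G α β) - zr (wOf G α β)) • sqC β := by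
      unfold QtW
      rw [if_pos hn]
    rw [e]
    exact BDec4_rank1 (Real.sqrt_pos.2 hpp) (Real.sq_sqrt hpp.le) hdet
  · have e : QtW r0 (wOf G α β) G α β = G - (1 / ((wOf G α β).1 + nW (wOf G α β))) •
        (sqC α + sqC β) := by
      unfold QtW
      rw [if_neg hn]
    rw [e]
    refine BDec4_rank2 hG h ?_
    have h1 : r0 * dW (wOf G α β) < nW (wOf G α β) := not_le.1 hn
    have h2 : 0 ≤ r0 * dW (wOf G α β) := mul_nonneg hr.le hd0
    linarith

private theorem BDec4_cd_ip {E : Type*} [NormedAddCommGroup E] [NormedSpace ℝ E]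
    {G : E → Bil} {α β : E → E2 →L[ℝ] ℝ} {x : E} (hG : ContDiffAt ℝ ∞ G x)
    (hα : ContDiffAt ℝ ∞ α x) (hβ : ContDiffAt ℝ ∞ β x) (hp : PosDef (G x)) :
    ContDiffAt ℝ ∞ (fun y => ip (G y) (α y) (β y)) x := by
  have h1 : ∀ v w : E2, ContDiffAt ℝ ∞ (fun x => G x v w) x := fun v w =>
    (hG.clm_apply contDiffAt_const).clm_apply contDiffAt_const
  have h2 : ∀ v : E2, ContDiffAt ℝ ∞ (fun x => α x v) x := fun v => hα.clm_apply contDiffAt_const
  have h3 : ∀ v : E2, ContDiffAt ℝ ∞ (fun x => β x v) x := fun v => hβ.clm_apply contDiffAt_const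
  unfold ip
  refine ContDiffAt.div ?_ ?_ (dtB_pos hp).ne'
  · exact ((((h1 e2 e2).mul ((h2 e1).mul (h3 e1))).sub ((h1 e1 e2).mul ((h2 e1).mul (h3 e2)))).sub
      ((h1 e2 e1).mul ((h2 e2).mul (h3 e1)))).add ((h1 e1 e1).mul ((h2 e2).mul (h3 e2)))
  · unfold dtB
    exact ((h1 e1 e1).mul (h1 e2 e2)).sub ((h1 e1 e2).mul (h1 e2 e1))

private theorem BDec4_cd_wOf {E : Type*} [NormedAddCommGroup E] [NormedSpace ℝ E]
    {G : E → Bil} {α β : E → E2 →L[ℝ] ℝ} {x : E} (hG : ContDiffAt ℝ ∞ G x)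
    (hα : ContDiffAt ℝ ∞ α x) (hβ : ContDiffAt ℝ ∞ β x) (hp : PosDef (G x)) :
    ContDiffAt ℝ ∞ (fun y => wOf (G y) (α y) (β y)) x := by
  have h1 := BDec4_cd_ip hG hα hα hp
  have h2 := BDec4_cd_ip hG hβ hβ hp
  have h3 := BDec4_cd_ip hG hα hβ hp
  unfold wOf
  exact ((h1.add h2).div_const 2).prodMk (((h1.sub h2).div_const 2).prodMk h3)

private theorem BDec4_cd_dW (w : W3) : ContDiffAt ℝ ∞ dW w := by
  unfold dW
  have h1 : ContDiffAt ℝ ∞ (fun w : W3 => w.1) w := contDiffAt_fst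
  have h2 : ContDiffAt ℝ ∞ (fun w : W3 => w.2.1) w := contDiffAt_fst.comp w contDiffAt_snd
  have h3 : ContDiffAt ℝ ∞ (fun w : W3 => w.2.2) w := contDiffAt_snd.comp w contDiffAt_snd
  exact ((h1.pow 2).sub (h2.pow 2)).sub (h3.pow 2)

private theorem BDec4_cd_nW {w : W3} (hw : 0 < nW w) : ContDiffAt ℝ ∞ nW w := by
  unfold nW
  have h2 : ContDiffAt ℝ ∞ (fun w : W3 => w.2.1) w := contDiffAt_fst.comp w contDiffAt_snd
  have h3 : ContDiffAt ℝ ∞ (fun w : W3 => w.2.2) w := contDiffAt_snd.comp w contDiffAt_snd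
  refine ((h2.pow 2).add (h3.pow 2)).sqrt ?_
  intro h0
  have h1 : nW w = 0 := by
    unfold nW
    rw [h0, Real.sqrt_zero]
  exact hw.ne' h1

private theorem BDec4_cont_nW : Continuous nW := by
  unfold nW
  fun_prop

private theorem BDec4_cont_dW : Continuous dW := by
  unfold dW
  fun_prop

private theorem BDec4_cd_zr {w : W3} (hw : dW w ≠ 0) : ContDiffAt ℝ ∞ zr w := by
  unfold zr
  have h2 : ContDiffAt ℝ ∞ (fun w : W3 => w.2.1) w := contDiffAt_fst.comp w contDiffAt_snd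
  exact h2.neg.div (BDec4_cd_dW w) hw

private theorem BDec4_cd_zi {w : W3} (hw : dW w ≠ 0) : ContDiffAt ℝ ∞ zi w := by
  unfold zi
  have h3 : ContDiffAt ℝ ∞ (fun w : W3 => w.2.2) w := contDiffAt_snd.comp w contDiffAt_snd
  exact h3.neg.div (BDec4_cd_dW w) hw

private theorem BDec4_cd_piW (r0 : ℝ) {w : W3} (hw : dW w ≠ 0) : ContDiffAt ℝ ∞ (piW r0) w := by
  have h1 := BDec4_cd_zr hw
  have h2 := BDec4_cd_zi hw
  have h3 : ContDiffAt ℝ ∞ (chiW r0) w := by
    unfold chiW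
    have h4 : ContDiffAt ℝ ∞ (fun w => (r0 ^ 2 - (zr w ^ 2 + zi w ^ 2)) /
        (r0 ^ 2 - r0 ^ 2 / 4)) w :=
      (contDiffAt_const.sub ((h1.pow 2).add (h2.pow 2))).div_const _
    exact (Real.smoothTransition.contDiffAt (n := ⊤)).comp w h4
  unfold piW
  exact h2.sub ((h3.pow 2).mul contDiffAt_const)

private theorem BDec4_cd_pnW (r0 : ℝ) {w : W3} (hw : dW w ≠ 0)
    (hp : 0 < zr w ^ 2 + piW r0 w ^ 2) : ContDiffAt ℝ ∞ (pnW r0) w := by
  unfold pnW
  exact (((BDec4_cd_zr hw).pow 2).add ((BDec4_cd_piW r0 hw).pow 2)).sqrt hp.ne'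

private theorem BDec4_cd_smulRight {E : Type*} [NormedAddCommGroup E] [NormedSpace ℝ E]
    {α β : E → E2 →L[ℝ] ℝ} {x : E} (hα : ContDiffAt ℝ ∞ α x) (hβ : ContDiffAt ℝ ∞ β x) :
    ContDiffAt ℝ ∞ (fun y => (α y).smulRight (β y)) x := ContDiffAt.smulRight hα hβ

/-- smoothness of `Q̃` as a function of `(G, α, β)` away from `ζ = c` -/
theorem contDiffAt_QtW {r0 : ℝ} (hr : 0 < r0) {E : Type*} [NormedAddCommGroup E] [NormedSpace ℝ E]
    {G : E → Bil} {α β : E → E2 →L[ℝ] ℝ} {x : E} (hG : ContDiffAt ℝ ∞ G x)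
    (hα : ContDiffAt ℝ ∞ α x) (hβ : ContDiffAt ℝ ∞ β x) (hp : PosDef (G x))
    (hGs : ∀ᶠ y in 𝓝 x, PosDef (G y))
    (h : α x ≠ 0 ∨ β x ≠ 0)
    (hc : ¬ (nW (wOf (G x) (α x) (β x)) ≤ r0 * dW (wOf (G x) (α x) (β x)) ∧
      zr (wOf (G x) (α x) (β x)) = 0 ∧ zi (wOf (G x) (α x) (β x)) = r0 / 4)) :
    ContDiffAt ℝ ∞ (fun y => QtW r0 (wOf (G y) (α y) (β y)) (G y) (α y) (β y)) x := by
  obtain ⟨ht, hd0, hdd⟩ := wOf_pos hp h
  set W : E → W3 := fun y => wOf (G y) (α y) (β y) with hW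
  have hWx : wOf (G x) (α x) (β x) = W x := rfl
  rw [hWx] at hc ht hd0 hdd
  have hWc : ContDiffAt ℝ ∞ W x := BDec4_cd_wOf hG hα hβ hp
  have hWcont : ContinuousAt W x := hWc.continuousAt
  have hab : ∀ᶠ y in 𝓝 x, α y ≠ 0 ∨ β y ≠ 0 := by
    rcases h with h | h
    · filter_upwards [hα.continuousAt.eventually_ne h] with y hy
      exact Or.inl hy
    · filter_upwards [hβ.continuousAt.eventually_ne h] with y hy
      exact Or.inr hy
  have hsa : ContDiffAt ℝ ∞ (fun y => sqC (α y)) x := BDec4_cd_smulRight hα hα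
  have hsb : ContDiffAt ℝ ∞ (fun y => sqC (β y)) x := BDec4_cd_smulRight hβ hβ
  have hsab : ContDiffAt ℝ ∞ (fun y => symC (α y) (β y)) x :=
    (BDec4_cd_smulRight hα hβ).add (BDec4_cd_smulRight hβ hα)
  by_cases hn : nW (W x) ≤ r0 * dW (W x)
  · have hdp := BDec4_dpos ht hd0 hn
    have hpp := BDec4_pn_pos hr (fun h1 => hc ⟨hn, h1⟩)
    have hev : ∀ᶠ y in 𝓝 x, 0 < dW (W y) :=
      continuousAt_const.eventually_lt (BDec4_cont_dW.continuousAt.comp hWcont) hdp
    have heq : (fun y => QtW r0 (wOf (G y) (α y) (β y)) (G y) (α y) (β y)) =ᶠ[𝓝 x]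
        fun y => (pnW r0 (W y) + zr (W y)) • sqC (α y) + piW r0 (W y) • symC (α y) (β y)
          + (pnW r0 (W y) - zr (W y)) • sqC (β y) := by
      filter_upwards [hev, hGs, hab] with y h1 h2 h3
      by_cases h4 : nW (W y) ≤ r0 * dW (W y)
      · unfold QtW
        rw [if_pos h4]
      · unfold QtW
        rw [if_neg h4]
        exact BDec4_agree hr h2 h3 h1 (not_le.1 h4)
    refine ContDiffAt.congr_of_eventuallyEq ?_ heq
    have c1 : ContDiffAt ℝ ∞ (fun y => pnW r0 (W y)) x :=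
      (BDec4_cd_pnW r0 hdp.ne' hpp).comp x hWc
    have c2 : ContDiffAt ℝ ∞ (fun y => zr (W y)) x := (BDec4_cd_zr hdp.ne').comp x hWc
    have c3 : ContDiffAt ℝ ∞ (fun y => piW r0 (W y)) x := (BDec4_cd_piW r0 hdp.ne').comp x hWc
    exact (((c1.add c2).smul hsa).add (c3.smul hsab)).add ((c1.sub c2).smul hsb)
  · have hn' : r0 * dW (W x) < nW (W x) := not_le.1 hn
    have hnpos : 0 < nW (W x) := lt_of_le_of_lt (mul_nonneg hr.le hd0) hn'
    have hev : ∀ᶠ y in 𝓝 x, r0 * dW (W y) < nW (W y) := by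
      have c1 : ContinuousAt (fun y => r0 * dW (W y)) x :=
        (BDec4_cont_dW.continuousAt.comp hWcont).const_mul r0
      have c2 : ContinuousAt (fun y => nW (W y)) x := BDec4_cont_nW.continuousAt.comp hWcont
      exact c1.eventually_lt c2 hn'
    have heq : (fun y => QtW r0 (wOf (G y) (α y) (β y)) (G y) (α y) (β y)) =ᶠ[𝓝 x]
        fun y => G y - (1 / ((W y).1 + nW (W y))) • (sqC (α y) + sqC (β y)) := by
      filter_upwards [hev] with y h1
      unfold QtW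
      rw [if_neg (not_le.2 h1)]
    refine ContDiffAt.congr_of_eventuallyEq ?_ heq
    have c1 : ContDiffAt ℝ ∞ (fun y => nW (W y)) x := (BDec4_cd_nW hnpos).comp x hWc
    have c2 : ContDiffAt ℝ ∞ (fun y => (W y).1) x := contDiffAt_fst.comp x hWc
    have c3 : ContDiffAt ℝ ∞ (fun y => 1 / ((W y).1 + nW (W y))) x :=
      contDiffAt_const.div (c2.add c1) (by positivity)
    exact hG.sub (c3.smul (hsa.add hsb))

end P205F
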