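import Vale.Agent.Lib.P205B.BDec1
import Vale.Agent.Lib.P205B.BDec2
import Vale.Agent.Lib.P205B.BDec3
import Vale.Agent.Lib.P205B.BDec4

/-!
# P205F BASE: properties of the decomposition functions

On `{t > 0}`: if `d > 0` and `|ζ| ≥ r₀` the first branch of every definition has the same value as
the second one (`χ₀ = 0`, `η = 1`, `Ψ̃ = ζ`, `E - |ζ| - Re ζ = t/d - |w|/d = 1/(t+|w|)`).  So each
function is equal to the first branch on the open set `{d > 0}` and to the second branch on the
open set `{t > 0, |w| > r₀ d}`; these two open sets cover `{t > 0}` (if `d ≤ 0` then `|w| ≥ t > 0`).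
In the first branch `|Ψ̃|` is only multiplied by `η²`, which is `0` near the only zero `ζ = c` of `Ψ̃`
(`Ψ̃ = 0` implies `|ζ| ≤ r₁ < r₀/2`, so `χ₀ = 1`); the radicand in `b` is `≥ r₁/2 > 0` for `d > 0`
(if `η < 1` then `|ζ - c| < r₁/2` and `Im ζ > r₁/2`).
-/

noncomputable section

namespace P205F

open scoped Manifold ContDiff Topology RealInnerProductSpace
open Set

set_option maxSynthPendingDepth 3



end P205F
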