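import Vale.Agent.Lib.P205B.BDecDefs

/-!
# P205F BASE: properties of the decomposition functions

On `{t > 0}`: if `d > 0` and `|ζ| ≥ r₀` the first branch of every definition has the same value as
the second one (`χ₀ = 0`, `η = 1`, `Ψ̃ = ζ`, `E - |ζ| - Re ζ = t/d - |w|/d = 1/(t+|w|)`).  So each
function is equal to the first branch on the open set `{d > 0}` and to the second branch on the
open set `{t > 0, |w| > r₀ d}`; these two open sets cover `{t > 0}` (if `d ≤ 0` then `|w| ≥ t > 0`).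
In the first branch `|Ψ̃|` is only multiplied by `η²`, which is `0` near the only zero `ζ = c` of `Ψ̃`
(`Ψ̃ = 0` implies `|ζ| ≤ r₁ < r₀/2`, so `χ₀ = 1`); the radicand in `b` is `≥ r₁/2 > 0` for `d > 0`
(if `η < 1` then `|ζ - c| < r₁/2` and `Im ζ > r₁/2`).
-/

noncomputable section

namespace P205F

open scoped Manifold ContDiff Topology RealInnerProductSpace
open Set

/-! ### elementary facts -/

theorem BDec_nW_nonneg (w : W3) : 0 ≤ nW w := Real.sqrt_nonneg _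

theorem BDec_nW_sq (w : W3) : nW w ^ 2 = w.2.1 ^ 2 + w.2.2 ^ 2 := Real.sq_sqrt (by positivity)

theorem BDec_d_eq (w : W3) : dW w = w.1 ^ 2 - nW w ^ 2 := by
  rw [BDec_nW_sq]
  unfold dW
  ring

theorem BDec_d_fac (w : W3) : dW w = (w.1 - nW w) * (w.1 + nW w) := by
  rw [BDec_d_eq]
  ring

theorem BDec_branch {r0 : ℝ} (h : 0 < r0) {w : W3} (ht : 0 < w.1) (hb : nW w ≤ r0 * dW w) :
    0 < dW w := by
  have h0 := BDec_nW_nonneg w
  by_contra hcon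
  have h1 : dW w ≤ 0 := not_lt.1 hcon
  have h2 : r0 * dW w ≤ 0 := mul_nonpos_of_nonneg_of_nonpos h.le h1
  have h3 : nW w = 0 := le_antisymm (hb.trans h2) h0
  have h4 := BDec_d_eq w
  rw [h3] at h4
  have h5 := pow_pos ht 2
  linarith

theorem BDec_cover {r0 : ℝ} (h : 0 < r0) {w : W3} (ht : 0 < w.1) :
    0 < dW w ∨ r0 * dW w < nW w := by
  by_contra hcon
  rw [not_or, not_lt, not_lt] at hcon
  exact absurd (BDec_branch h ht hcon.2) (not_lt.2 hcon.1)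

theorem BDec_z_sq {w : W3} (hd : dW w ≠ 0) :
    zr w ^ 2 + zi w ^ 2 = nW w ^ 2 / dW w ^ 2 := by
  unfold zr zi
  rw [BDec_nW_sq]
  field_simp

theorem BDec_chi_mem (r0 : ℝ) (w : W3) : 0 ≤ chiW r0 w ∧ chiW r0 w ≤ 1 :=
  ⟨Real.smoothTransition.nonneg _, Real.smoothTransition.le_one _⟩

theorem BDec_eta_mem (r0 : ℝ) (w : W3) : 0 ≤ eta0 r0 w ∧ eta0 r0 w ≤ 1 :=
  ⟨Real.smoothTransition.nonneg _, Real.smoothTransition.le_one _⟩

theorem BDec_arg_nonpos {r0 : ℝ} (h : 0 < r0) {w : W3} (hd : 0 < dW w)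
    (hb : r0 * dW w ≤ nW w) :
    (r0 ^ 2 - (zr w ^ 2 + zi w ^ 2)) / (r0 ^ 2 - r0 ^ 2 / 4) ≤ 0 := by
  apply div_nonpos_of_nonpos_of_nonneg
  · rw [BDec_z_sq hd.ne', sub_nonpos, le_div_iff₀ (pow_pos hd 2), ← mul_pow]
    exact pow_le_pow_left₀ (mul_nonneg h.le hd.le) hb 2
  · nlinarith [sq_nonneg r0]

theorem BDec_chi_zero {r0 : ℝ} (h : 0 < r0) {w : W3} (hd : 0 < dW w)
    (hb : r0 * dW w ≤ nW w) : chiW r0 w = 0 :=
  Real.smoothTransition.zero_of_nonpos (BDec_arg_nonpos h hd hb)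

theorem BDec_chi_one {r0 : ℝ} (h : 0 < r0) {w : W3} (hz : zr w ^ 2 + zi w ^ 2 ≤ r0 ^ 2 / 4) :
    chiW r0 w = 1 := by
  unfold chiW
  apply Real.smoothTransition.one_of_one_le
  have h1 : 0 < r0 ^ 2 := pow_pos h 2
  rw [one_le_div (by linarith)]
  linarith

theorem BDec_eta_one {r0 : ℝ} (h : 0 < r0) {w : W3}
    (hz : r0 ^ 2 / 64 ≤ zr w ^ 2 + (zi w - r0 / 4) ^ 2) : eta0 r0 w = 1 := by
  unfold eta0
  apply Real.smoothTransition.one_of_one_le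
  have h1 : 0 < r0 ^ 2 := pow_pos h 2
  rw [one_le_div (by nlinarith)]
  nlinarith

theorem BDec_eta_zero {r0 : ℝ} (h : 0 < r0) {w : W3}
    (hz : zr w ^ 2 + (zi w - r0 / 4) ^ 2 ≤ r0 ^ 2 / 256) : eta0 r0 w = 0 := by
  unfold eta0
  apply Real.smoothTransition.zero_of_nonpos
  have h1 : 0 < r0 ^ 2 := pow_pos h 2
  apply div_nonpos_of_nonpos_of_nonneg
  · nlinarith
  · nlinarith

theorem BDec_dich {r0 : ℝ} (h : 0 < r0) (w : W3) :
    eta0 r0 w = 1 ∨ (chiW r0 w = 1 ∧ r0 / 8 < zi w ∧ zi w < 3 * r0 / 8) := by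
  by_cases hz : r0 ^ 2 / 64 ≤ zr w ^ 2 + (zi w - r0 / 4) ^ 2
  · exact Or.inl (BDec_eta_one h hz)
  · right
    rw [not_le] at hz
    have h1 : (zi w - r0 / 4) ^ 2 < (r0 / 8) ^ 2 := by nlinarith [sq_nonneg (zr w)]
    have h2 := abs_lt_of_sq_lt_sq h1 (by positivity)
    rw [abs_lt] at h2
    refine ⟨BDec_chi_one h ?_, by linarith, by linarith⟩
    nlinarith [sq_nonneg (zi w - r0 / 4)]

/-- the radicand of `b` -/
def BDec_R (r0 : ℝ) (w : W3) : ℝ := (1 - eta0 r0 w ^ 2) * zi w + eta0 r0 w ^ 2 * (r0 / 4)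

theorem BDec_R_bd {r0 : ℝ} (h : 0 < r0) (w : W3) :
    r0 / 8 ≤ BDec_R r0 w ∧ BDec_R r0 w ≤ 3 * r0 / 8 := by
  obtain ⟨h0, h1⟩ := BDec_eta_mem r0 w
  unfold BDec_R
  rcases BDec_dich h w with h2 | ⟨_, h2, h3⟩
  · rw [h2]
    constructor <;> linarith
  · have h4 : 0 ≤ 1 - eta0 r0 w ^ 2 := by nlinarith
    have h5 : 0 ≤ eta0 r0 w ^ 2 := sq_nonneg _
    constructor
    · nlinarith [mul_le_mul_of_nonneg_left h2.le h4]
    · nlinarith [mul_le_mul_of_nonneg_left h3.le h4]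

theorem BDec_eta_one' {r0 : ℝ} (h : 0 < r0) {w : W3} (hd : 0 < dW w)
    (hb : r0 * dW w ≤ nW w) : eta0 r0 w = 1 := by
  rcases BDec_dich h w with h1 | ⟨h1, _⟩
  · exact h1
  · rw [BDec_chi_zero h hd hb] at h1
    exact absurd h1 zero_ne_one

theorem BDec_etW_A {r0 : ℝ} (h : 0 < r0) {w : W3} (hd : 0 < dW w) : etW r0 w = eta0 r0 w := by
  unfold etW
  split_ifs with hb
  · rfl
  · exact (BDec_eta_one' h hd (not_le.1 hb).le).symm

theorem BDec_bW_A {r0 : ℝ} (h : 0 < r0) {w : W3} (hd : 0 < dW w) :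
    bW r0 w = chiW r0 w * Real.sqrt (BDec_R r0 w) := by
  unfold bW
  split_ifs with hb
  · rfl
  · rw [BDec_chi_zero h hd (not_le.1 hb).le, zero_mul]

theorem BDec_sigma {w : W3} (hd : 0 < dW w) :
    (w.1 - nW w) / dW w = 1 / (w.1 + nW w) := by
  have h1 := BDec_d_fac w
  have h2 : w.1 - nW w ≠ 0 := by
    intro h0
    rw [h0, zero_mul] at h1
    exact hd.ne' h1
  have h3 : w.1 + nW w ≠ 0 := by
    intro h0
    rw [h0, mul_zero] at h1
    exact hd.ne' h1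
  rw [h1]
  field_simp

theorem BDec_pn_B {r0 : ℝ} (h : 0 < r0) {w : W3} (hd : 0 < dW w) (hb : r0 * dW w ≤ nW w) :
    piW r0 w = zi w ∧ pnW r0 w = nW w / dW w := by
  have h1 : piW r0 w = zi w := by
    unfold piW
    rw [BDec_chi_zero h hd hb]
    ring
  refine ⟨h1, ?_⟩
  unfold pnW
  rw [h1, BDec_z_sq hd.ne', ← div_pow,
    Real.sqrt_sq (div_nonneg (BDec_nW_nonneg w) hd.le)]

theorem BDec_SW_A {r0 : ℝ} (h : 0 < r0) {w : W3} (hd : 0 < dW w) (m : ℝ) :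
    SW r0 w m = (w.1 - w.2.1) / dW w - bW r0 w ^ 2 * Real.exp (-(2 * m))
      - eta0 r0 w ^ 2 * (pnW r0 w + zr w) := by
  unfold SW
  split_ifs with hb
  · rfl
  · have hb' := (not_le.1 hb).le
    rw [BDec_bW_A h hd, BDec_chi_zero h hd hb', BDec_eta_one' h hd hb', (BDec_pn_B h hd hb').2,
      ← BDec_sigma hd]
    unfold zr
    field_simp
    ring

theorem BDec_TW_A {r0 : ℝ} (h : 0 < r0) {w : W3} (hd : 0 < dW w) (m : ℝ) :
    TW r0 w m = (w.1 + w.2.1) / dW w - bW r0 w ^ 2 * Real.exp (2 * m)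
      - eta0 r0 w ^ 2 * (pnW r0 w - zr w) := by
  unfold TW
  split_ifs with hb
  · rfl
  · have hb' := (not_le.1 hb).le
    rw [BDec_bW_A h hd, BDec_chi_zero h hd hb', BDec_eta_one' h hd hb', (BDec_pn_B h hd hb').2,
      ← BDec_sigma hd]
    unfold zr
    field_simp
    ring

/-! ### continuity and smoothness -/

theorem BDec_cont_d : Continuous dW := by
  unfold dW
  fun_prop

theorem BDec_cont_n : Continuous nW := by
  unfold nW
  fun_prop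

theorem BDec_ev_d {w : W3} (hd : 0 < dW w) : ∀ᶠ w' in 𝓝 w, 0 < dW w' :=
  BDec_cont_d.continuousAt.eventually (lt_mem_nhds hd)

theorem BDec_ev_n {r0 : ℝ} {w : W3} (hb : r0 * dW w < nW w) :
    ∀ᶠ w' in 𝓝 w, r0 * dW w' < nW w' :=
  (continuous_const.mul BDec_cont_d).continuousAt.eventually_lt BDec_cont_n.continuousAt hb

theorem BDec_cd_d (w : W3) : ContDiffAt ℝ ∞ dW w := by
  unfold dW
  fun_prop

theorem BDec_cd_zr {w : W3} (hd : dW w ≠ 0) : ContDiffAt ℝ ∞ zr w := by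
  unfold zr
  exact ContDiffAt.div (by fun_prop) (BDec_cd_d w) hd

theorem BDec_cd_zi {w : W3} (hd : dW w ≠ 0) : ContDiffAt ℝ ∞ zi w := by
  unfold zi
  exact ContDiffAt.div (by fun_prop) (BDec_cd_d w) hd

theorem BDec_cd_argc (r0 : ℝ) {w : W3} (hd : dW w ≠ 0) : ContDiffAt ℝ ∞ (fun w =>
    (r0 ^ 2 - (zr w ^ 2 + zi w ^ 2)) / (r0 ^ 2 - r0 ^ 2 / 4)) w :=
  (contDiffAt_const.sub (((BDec_cd_zr hd).pow 2).add ((BDec_cd_zi hd).pow 2))).div_const _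

theorem BDec_cd_arge (r0 : ℝ) {w : W3} (hd : dW w ≠ 0) : ContDiffAt ℝ ∞ (fun w =>
    (zr w ^ 2 + (zi w - r0 / 4) ^ 2 - (r0 / 4) ^ 2 / 16) /
      ((r0 / 4) ^ 2 / 4 - (r0 / 4) ^ 2 / 16)) w :=
  ((((BDec_cd_zr hd).pow 2).add (((BDec_cd_zi hd).sub contDiffAt_const).pow 2)).sub
    contDiffAt_const).div_const _

theorem BDec_cd_chi (r0 : ℝ) {w : W3} (hd : dW w ≠ 0) : ContDiffAt ℝ ∞ (chiW r0) w :=
  Real.smoothTransition.contDiffAt.comp w (BDec_cd_argc r0 hd)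

theorem BDec_cd_eta (r0 : ℝ) {w : W3} (hd : dW w ≠ 0) : ContDiffAt ℝ ∞ (eta0 r0) w :=
  Real.smoothTransition.contDiffAt.comp w (BDec_cd_arge r0 hd)

theorem BDec_cd_pi (r0 : ℝ) {w : W3} (hd : dW w ≠ 0) : ContDiffAt ℝ ∞ (piW r0) w := by
  unfold piW
  exact (BDec_cd_zi hd).sub (((BDec_cd_chi r0 hd).pow 2).mul contDiffAt_const)

theorem BDec_cd_R (r0 : ℝ) {w : W3} (hd : dW w ≠ 0) : ContDiffAt ℝ ∞ (BDec_R r0) w := by
  unfold BDec_R
  exact ((contDiffAt_const.sub ((BDec_cd_eta r0 hd).pow 2)).mul (BDec_cd_zi hd)).add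
    (((BDec_cd_eta r0 hd).pow 2).mul contDiffAt_const)

theorem BDec_cd_pn (r0 : ℝ) {w : W3} (hd : dW w ≠ 0) (hne : zr w ^ 2 + piW r0 w ^ 2 ≠ 0) :
    ContDiffAt ℝ ∞ (pnW r0) w := by
  unfold pnW
  exact (((BDec_cd_zr hd).pow 2).add ((BDec_cd_pi r0 hd).pow 2)).sqrt hne

/-- the only zero of `Ψ̃` is `c` -/
theorem BDec_zero {r0 : ℝ} (h : 0 < r0) {w : W3} (h0 : zr w ^ 2 + piW r0 w ^ 2 = 0) :
    zr w = 0 ∧ zi w = r0 / 4 := by
  have h1 : zr w = 0 := by nlinarith [sq_nonneg (zr w), sq_nonneg (piW r0 w)]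
  have h2 : piW r0 w = 0 := by nlinarith [sq_nonneg (zr w), sq_nonneg (piW r0 w)]
  obtain ⟨c0, c1⟩ := BDec_chi_mem r0 w
  have h3 : zi w = chiW r0 w ^ 2 * (r0 / 4) := by
    unfold piW at h2
    linarith
  have h4 : chiW r0 w ^ 2 ≤ 1 := by nlinarith
  have h5 : zi w ≤ r0 / 4 := by
    rw [h3]
    nlinarith
  have h6 : 0 ≤ zi w := by
    rw [h3]
    positivity
  have h7 : chiW r0 w = 1 := by
    refine BDec_chi_one h ?_
    rw [h1]
    nlinarith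
  rw [h7] at h3
  exact ⟨h1, by linarith⟩

theorem BDec_ev_eta {r0 : ℝ} (h : 0 < r0) {w : W3} (hd : 0 < dW w) (h1 : zr w = 0)
    (h2 : zi w = r0 / 4) : ∀ᶠ w' in 𝓝 w, eta0 r0 w' = 0 := by
  have hc : ContinuousAt (fun w => zr w ^ 2 + (zi w - r0 / 4) ^ 2) w :=
    (((BDec_cd_zr hd.ne').continuousAt.pow 2).add
      (((BDec_cd_zi hd.ne').continuousAt.sub continuousAt_const).pow 2))
  have h3 : zr w ^ 2 + (zi w - r0 / 4) ^ 2 < r0 ^ 2 / 256 := by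
    rw [h1, h2]
    have := pow_pos h 2
    nlinarith
  filter_upwards [hc.eventually (gt_mem_nhds h3)] with w' hw'
  exact BDec_eta_zero h hw'.le

theorem BDec_cd_etapn {r0 : ℝ} (h : 0 < r0) {w : W3} (hd : 0 < dW w) :
    ContDiffAt ℝ ∞ (fun w => eta0 r0 w ^ 2 * pnW r0 w) w := by
  by_cases hne : zr w ^ 2 + piW r0 w ^ 2 = 0
  · obtain ⟨h1, h2⟩ := BDec_zero h hne
    refine (contDiffAt_const (c := (0 : ℝ))).congr_of_eventuallyEq ?_
    filter_upwards [BDec_ev_eta h hd h1 h2] with w' hw'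
    rw [hw']
    ring
  · exact ((BDec_cd_eta r0 hd.ne').pow 2).mul (BDec_cd_pn r0 hd.ne' hne)

theorem BDec_nW_pos {r0 : ℝ} (h : 0 < r0) {w : W3} (ht : 0 < w.1) (hb : r0 * dW w < nW w) :
    0 < nW w := by
  rcases (BDec_nW_nonneg w).eq_or_lt with h0 | h0
  · exfalso
    have h1 := BDec_d_eq w
    rw [← h0] at h1 hb
    have h2 : 0 < dW w := by
      rw [h1]
      have := pow_pos ht 2
      linarith
    have := mul_pos h h2
    linarith
  · exact h0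

theorem BDec_cd_n {w : W3} (hn : 0 < nW w) : ContDiffAt ℝ ∞ nW w := by
  have h1 : w.2.1 ^ 2 + w.2.2 ^ 2 ≠ 0 := by
    rw [← BDec_nW_sq]
    positivity
  unfold nW
  exact ContDiffAt.sqrt (by fun_prop) h1

theorem BDec_cd_sigma {w : W3} (ht : 0 < w.1) (hn : 0 < nW w) :
    ContDiffAt ℝ ∞ (fun w : W3 => 1 / (w.1 + nW w)) w :=
  contDiffAt_const.div (contDiffAt_fst.add (BDec_cd_n hn)) (by positivity)

/-- the second branch near `w` with `|w| > r₀ d` -/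
theorem near_sigma {r0 : ℝ} (h : 0 < r0) {w : W3} (hw : r0 * dW w < nW w) :
    ∀ᶠ w' in 𝓝 w, etW r0 w' = 1 ∧ bW r0 w' = 0 ∧
      ∀ m, SW r0 w' m = 1 / (w'.1 + nW w') ∧ TW r0 w' m = 1 / (w'.1 + nW w') := by
  have _ := h
  filter_upwards [BDec_ev_n hw] with w' hw'
  have hn := not_le.2 hw'
  refine ⟨if_neg hn, if_neg hn, fun m => ⟨if_neg hn, if_neg hn⟩⟩

theorem BDec_cdA_et {r0 : ℝ} (h : 0 < r0) {w : W3} (ht : 0 < w.1) :
    ContDiffAt ℝ ∞ (etW r0) w := by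
  rcases BDec_cover h ht with hd | hb
  · refine (BDec_cd_eta r0 hd.ne').congr_of_eventuallyEq ?_
    filter_upwards [BDec_ev_d hd] with w' hw'
    exact BDec_etW_A h hw'
  · refine (contDiffAt_const (c := (1 : ℝ))).congr_of_eventuallyEq ?_
    filter_upwards [near_sigma h hb] with w' hw'
    exact hw'.1

theorem BDec_cdA_b {r0 : ℝ} (h : 0 < r0) {w : W3} (ht : 0 < w.1) :
    ContDiffAt ℝ ∞ (bW r0) w := by
  rcases BDec_cover h ht with hd | hb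
  · have hR : BDec_R r0 w ≠ 0 := by
      have := (BDec_R_bd h w).1
      intro h0
      linarith
    refine ((BDec_cd_chi r0 hd.ne').mul ((BDec_cd_R r0 hd.ne').sqrt hR)).congr_of_eventuallyEq ?_
    filter_upwards [BDec_ev_d hd] with w' hw'
    exact BDec_bW_A h hw'
  · refine (contDiffAt_const (c := (0 : ℝ))).congr_of_eventuallyEq ?_
    filter_upwards [near_sigma h hb] with w' hw'
    exact hw'.2.1

theorem contDiffOn_etW {r0 : ℝ} (h : 0 < r0) : ContDiffOn ℝ ∞ (etW r0) {w | 0 < w.1} :=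
  fun _ hw => (BDec_cdA_et h hw).contDiffWithinAt

theorem contDiffOn_bW {r0 : ℝ} (h : 0 < r0) : ContDiffOn ℝ ∞ (bW r0) {w | 0 < w.1} :=
  fun _ hw => (BDec_cdA_b h hw).contDiffWithinAt

theorem contDiffOn_SW {r0 : ℝ} (h : 0 < r0) :
    ContDiffOn ℝ ∞ (fun q : W3 × ℝ => SW r0 q.1 q.2) {q | 0 < q.1.1} := by
  rintro q hq
  refine ContDiffAt.contDiffWithinAt ?_
  have hf : ContDiffAt ℝ ∞ (fun q : W3 × ℝ => q.1) q := contDiffAt_fst
  have hft : Filter.Tendsto (fun q : W3 × ℝ => q.1) (𝓝 q) (𝓝 q.1) := continuousAt_fst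
  rcases BDec_cover h (w := q.1) hq with hd | hb
  · have e1 : ContDiffAt ℝ ∞ (fun q : W3 × ℝ => (q.1.1 - q.1.2.1) / dW q.1) q :=
      ContDiffAt.div (by fun_prop) ((BDec_cd_d q.1).comp q hf) hd.ne'
    have e2 : ContDiffAt ℝ ∞ (fun q : W3 × ℝ => bW r0 q.1 ^ 2 * Real.exp (-(2 * q.2))) q :=
      (((BDec_cdA_b h (w := q.1) hq).comp q hf).pow 2).mul (by fun_prop)
    have e3 : ContDiffAt ℝ ∞ (fun q : W3 × ℝ => eta0 r0 q.1 ^ 2 * pnW r0 q.1) q :=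
      (BDec_cd_etapn h hd).comp q hf
    have e4 : ContDiffAt ℝ ∞ (fun q : W3 × ℝ => eta0 r0 q.1 ^ 2 * zr q.1) q :=
      (((BDec_cd_eta r0 hd.ne').comp q hf).pow 2).mul ((BDec_cd_zr hd.ne').comp q hf)
    refine ((e1.sub e2).sub (e3.add e4)).congr_of_eventuallyEq ?_
    filter_upwards [hft.eventually (BDec_ev_d hd)] with q' hq'
    rw [BDec_SW_A h hq']
    ring
  · have e1 : ContDiffAt ℝ ∞ (fun q : W3 × ℝ => 1 / (q.1.1 + nW q.1)) q :=
      (BDec_cd_sigma (w := q.1) hq (BDec_nW_pos h hq hb)).comp q hf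
    refine e1.congr_of_eventuallyEq ?_
    filter_upwards [hft.eventually (near_sigma h hb)] with q' hq'
    exact (hq'.2.2 q'.2).1

theorem contDiffOn_TW {r0 : ℝ} (h : 0 < r0) :
    ContDiffOn ℝ ∞ (fun q : W3 × ℝ => TW r0 q.1 q.2) {q | 0 < q.1.1} := by
  rintro q hq
  refine ContDiffAt.contDiffWithinAt ?_
  have hf : ContDiffAt ℝ ∞ (fun q : W3 × ℝ => q.1) q := contDiffAt_fst
  have hft : Filter.Tendsto (fun q : W3 × ℝ => q.1) (𝓝 q) (𝓝 q.1) := continuousAt_fst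
  rcases BDec_cover h (w := q.1) hq with hd | hb
  · have e1 : ContDiffAt ℝ ∞ (fun q : W3 × ℝ => (q.1.1 + q.1.2.1) / dW q.1) q :=
      ContDiffAt.div (by fun_prop) ((BDec_cd_d q.1).comp q hf) hd.ne'
    have e2 : ContDiffAt ℝ ∞ (fun q : W3 × ℝ => bW r0 q.1 ^ 2 * Real.exp (2 * q.2)) q :=
      (((BDec_cdA_b h (w := q.1) hq).comp q hf).pow 2).mul (by fun_prop)
    have e3 : ContDiffAt ℝ ∞ (fun q : W3 × ℝ => eta0 r0 q.1 ^ 2 * pnW r0 q.1) q :=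
      (BDec_cd_etapn h hd).comp q hf
    have e4 : ContDiffAt ℝ ∞ (fun q : W3 × ℝ => eta0 r0 q.1 ^ 2 * zr q.1) q :=
      (((BDec_cd_eta r0 hd.ne').comp q hf).pow 2).mul ((BDec_cd_zr hd.ne').comp q hf)
    refine ((e1.sub e2).sub (e3.sub e4)).congr_of_eventuallyEq ?_
    filter_upwards [hft.eventually (BDec_ev_d hd)] with q' hq'
    rw [BDec_TW_A h hq']
    ring
  · have e1 : ContDiffAt ℝ ∞ (fun q : W3 × ℝ => 1 / (q.1.1 + nW q.1)) q :=
      (BDec_cd_sigma (w := q.1) hq (BDec_nW_pos h hq hb)).comp q hf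
    refine e1.congr_of_eventuallyEq ?_
    filter_upwards [hft.eventually (near_sigma h hb)] with q' hq'
    exact (hq'.2.2 q'.2).2

/-- the points where `η ≠ 0` stay away from `ζ = c` -/
theorem etW_closure {r0 : ℝ} (hr : 0 < r0) {w : W3} (hw : w ∈ closure {w | etW r0 w ≠ 0})
    (ht : 0 < w.1) : ¬ (nW w ≤ r0 * dW w ∧ zr w = 0 ∧ zi w = r0 / 4) := by
  rintro ⟨hb, h1, h2⟩
  have hd := BDec_branch hr ht hb
  rw [mem_closure_iff_frequently] at hw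
  obtain ⟨w', hw1, hw2, hw3⟩ :=
    (hw.and_eventually ((BDec_ev_d hd).and (BDec_ev_eta hr hd h1 h2))).exists
  apply hw1
  rw [BDec_etW_A hr hw2]
  exact hw3

theorem bW_nonneg {r0 : ℝ} (h : 0 < r0) (w : W3) : 0 ≤ bW r0 w := by
  have _ := h
  unfold bW
  split_ifs
  · exact mul_nonneg (BDec_chi_mem r0 w).1 (Real.sqrt_nonneg _)
  · exact le_rfl

theorem etW_nonneg (r0 : ℝ) (w : W3) : 0 ≤ etW r0 w := by
  unfold etW
  split_ifs
  · exact (BDec_eta_mem r0 w).1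
  · exact zero_le_one

end P205F
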