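import Mathlib
import Vale.Agent.Lib.P205B.BF1
import Vale.Agent.Lib.P205F.MD3

/-!
# P205F BASE: the compact set `KO`, the invariant for the base map, and the base package

`KO := {p | ε ≤ dW (wM g p)}`, `KT := {p | 2 ε ≤ dW (wM g p)}` with `ε` small:
`tsupport β(h) ⊆ {|w| ≤ r₀ d}` (for `G(·,h)`), and for `h`
small this closed set is contained in `KT` (compactness: at `h = 0` a point with
`|w| ≤ r₀ d`, `d ≤ ε` has `t² = |w|² + d ≤ r₀² ε² + ε`, impossible when `t ≥ t_min > 0` and `ε` small).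
-/

noncomputable section

namespace P205F

open scoped Manifold ContDiff Topology RealInnerProductSpace
open Set

set_option maxSynthPendingDepth 3

variable {M : Type} [TopologicalSpace M] [ChartedSpace E2 M] [IsManifold 𝓘(ℝ, E2) ∞ M]


/-- bounds for partial derivatives of a parameter dependent function -/
theorem BF2_param {W : Type} [NormedAddCommGroup W] [NormedSpace ℝ W] {O : Set E2}
    (hO : IsOpen O) {h₁ : ℝ} (hh : 0 < h₁) {U : E2 → ℝ → W}
    (hU : ContDiffOn ℝ ∞ (fun q : E2 × ℝ => U q.1 q.2) (O ×ˢ Ioo (-h₁) h₁)) {K : Set E2}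
    (hK : IsCompact K) (hKO : K ⊆ O) (r : ℕ) :
    ∃ C : ℝ, ∀ x ∈ K, ∀ h : ℝ, |h| ≤ h₁ / 2 →
      ‖iteratedFDeriv ℝ r (fun y => U y h) x‖ ≤ C := by
  set U' : E2 × ℝ → W := fun q => U q.1 q.2 with hU'
  set s : Set (E2 × ℝ) := O ×ˢ Ioo (-h₁) h₁ with hs
  have hso : IsOpen s := hO.prod isOpen_Ioo
  have hcont : ContinuousOn (iteratedFDerivWithin ℝ r U' s) s :=
    hU.continuousOn_iteratedFDerivWithin (by exact_mod_cast le_top) hso.uniqueDiffOn
  have hK' : IsCompact (K ×ˢ Icc (-(h₁ / 2)) (h₁ / 2)) := hK.prod isCompact_Icc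
  have hK's : K ×ˢ Icc (-(h₁ / 2)) (h₁ / 2) ⊆ s := by
    refine prod_mono hKO fun t ht => ⟨?_, ?_⟩
    · linarith [ht.1]
    · linarith [ht.2]
  obtain ⟨C, hC⟩ := hK'.exists_bound_of_continuousOn (hcont.mono hK's)
  refine ⟨C, fun x hx h hh' => ?_⟩
  have hmem : ((x, h) : E2 × ℝ) ∈ K ×ˢ Icc (-(h₁ / 2)) (h₁ / 2) := ⟨hx, abs_le.1 hh'⟩
  refine le_trans ?_ (hC _ hmem)
  set f : E2 × ℝ → W := fun z => U' (z + ((0 : E2), h)) with hf
  set t : Set (E2 × ℝ) := (fun z => z + ((0 : E2), h)) ⁻¹' s with ht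
  have hto : IsOpen t := hso.preimage (by fun_prop)
  have hft : ContDiffOn ℝ ∞ f t :=
    hU.comp (ContDiff.contDiffOn (by fun_prop)) (fun z hz => hz)
  set i : E2 →L[ℝ] E2 × ℝ := ContinuousLinearMap.inl ℝ E2 ℝ with hi
  have hix : i x + ((0 : E2), h) = (x, h) := by simp [hi]
  have hxt : i x ∈ t := by
    change i x + ((0 : E2), h) ∈ s
    rw [hix]
    exact hK's hmem
  have hpre : IsOpen (i ⁻¹' t) := hto.preimage i.continuous
  have e1 : (fun y => U y h) = f ∘ i := by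
    funext y
    simp [hf, hi, hU']
  have e2 : iteratedFDeriv ℝ r (fun y => U y h) x =
      (iteratedFDerivWithin ℝ r f t (i x)).compContinuousLinearMap fun _ => i := by
    rw [e1, ← iteratedFDerivWithin_of_isOpen r hpre hxt]
    exact i.iteratedFDerivWithin_comp_right hft hto.uniqueDiffOn hpre.uniqueDiffOn hxt
      (by exact_mod_cast le_top)
  have e3 : iteratedFDerivWithin ℝ r f t (i x) = iteratedFDerivWithin ℝ r U' s (x, h) := by
    rw [iteratedFDerivWithin_of_isOpen r hto hxt, iteratedFDerivWithin_of_isOpen r hso (hK's hmem)]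
    rw [hf, iteratedFDeriv_comp_add_right, hix]
  rw [e2, e3]
  refine (ContinuousMultilinearMap.norm_compContinuousLinearMap_le _ _).trans ?_
  have h1 : ∏ _j : Fin r, ‖i‖ ≤ 1 :=
    Finset.prod_le_one (fun _ _ => norm_nonneg _)
      (fun _ _ => ContinuousLinearMap.norm_inl_le_one ℝ E2 ℝ)
  calc ‖iteratedFDerivWithin ℝ r U' s (x, h)‖ * ∏ _j : Fin r, ‖i‖
      ≤ ‖iteratedFDerivWithin ℝ r U' s (x, h)‖ * 1 :=
        mul_le_mul_of_nonneg_left h1 (norm_nonneg _)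
    _ = ‖iteratedFDerivWithin ℝ r U' s (x, h)‖ := mul_one _

/-- a compact neighbourhood in the source of a chart -/
theorem BF2_nhd {χ : OpenPartialHomeomorph M E2} {p : M} (hp : p ∈ χ.source) :
    ∃ K : Set E2, IsCompact K ∧ K ⊆ χ.target ∧ χ.source ∩ χ ⁻¹' K ∈ 𝓝 p := by
  obtain ⟨ρ, hρ, hρT⟩ := Metric.nhds_basis_closedBall.mem_iff.1
    (χ.open_target.mem_nhds (χ.map_source hp))
  refine ⟨Metric.closedBall (χ p) ρ, isCompact_closedBall _ _, hρT, ?_⟩
  exact Filter.inter_mem (χ.open_source.mem_nhds hp)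
    ((χ.continuousAt hp).preimage_mem_nhds (Metric.closedBall_mem_nhds _ hρ))

/-- reduction to one chart -/
theorem BF2_red {A B : M → ℝ} (hA : Sm A) (hB : Sm B) {τ : ℝ} (hτ : 0 < τ) {KO : Set M}
    (hK : IsCompact KO) (hKO : ∀ p ∈ KO, detC (dP A p) (dP B p) ≠ 0)
    (P : ℝ → OpenPartialHomeomorph M E2 → E2 → Prop)
    (hmono : ∀ C C' χ x, C ≤ C' → P C χ x → P C' χ x)
    (hloc : ∀ C χ χ' x, IsXY A B τ χ → IsXY A B τ χ' → x ∈ χ.target → x ∈ χ'.target →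
      (χ.symm : E2 → M) =ᶠ[𝓝 x] χ'.symm → P C χ' x → P C χ x)
    (hbd : ∀ χ, IsXY A B τ χ → ∀ K : Set E2, IsCompact K → K ⊆ χ.target →
      ∃ C, ∀ x ∈ K, P C χ x) :
    ∃ C : ℝ, ∀ χ, IsXY A B τ χ → ∀ x ∈ χ.target, χ.symm x ∈ KO → P C χ x := by
  refine hK.induction_on (p := fun s => ∃ C : ℝ, ∀ χ, IsXY A B τ χ → ∀ x ∈ χ.target,
    χ.symm x ∈ s → P C χ x) ?_ ?_ ?_ ?_
  · exact ⟨0, fun χ _ x _ hx => absurd hx (notMem_empty _)⟩
  · rintro s t hst ⟨C, hC⟩
    exact ⟨C, fun χ hχ x hx hs => hC χ hχ x hx (hst hs)⟩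
  · rintro s t ⟨C, hC⟩ ⟨C', hC'⟩
    refine ⟨max C C', fun χ hχ x hx hs => ?_⟩
    rcases hs with hs | hs
    · exact hmono _ _ _ _ (le_max_left _ _) (hC χ hχ x hx hs)
    · exact hmono _ _ _ _ (le_max_right _ _) (hC' χ hχ x hx hs)
  · intro p hp
    obtain ⟨χ', hχ', hpχ'⟩ := exists_XY hA hB hτ (hKO p hp)
    obtain ⟨K, hKc, hKt, hKn⟩ := BF2_nhd hpχ'
    obtain ⟨C, hC⟩ := hbd χ' hχ' K hKc hKt
    refine ⟨_, mem_nhdsWithin_of_mem_nhds hKn, C, fun χ hχ x hx hs => ?_⟩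
    obtain ⟨h1, h2⟩ := isXY_eq hτ hχ hχ' (χ.map_target hx) hs.1
    rw [χ.right_inv hx] at h1 h2
    have hxK : x ∈ K := by
      have := hs.2
      rw [mem_preimage, ← h1] at this
      exact this
    have h3 : (χ.symm : E2 → M) =ᶠ[𝓝 x] χ'.symm := by
      have := h2 (V := M) id
      simpa using this
    exact hloc C χ χ' x hχ hχ' hx (hKt hxK) h3 (hC x hxK)

/-- bounds on `KO` in `(x, y)`-charts for a smooth function of `(p, h)`, uniformly in `h` -/
theorem xy_bound {A B : M → ℝ} (hA : Sm A) (hB : Sm B) {τ : ℝ} (hτ : 0 < τ) {KO : Set M}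
    (hK : IsCompact KO) (hKO : ∀ p ∈ KO, detC (dP A p) (dP B p) ≠ 0) {V : Type}
    [NormedAddCommGroup V] [NormedSpace ℝ V] {h₁ : ℝ} (hh : 0 < h₁) {u : M → ℝ → V}
    (hu : SmP h₁ u) (r : ℕ) : ∃ C : ℝ, ∀ χ, IsXY A B τ χ → ∀ x ∈ χ.target, χ.symm x ∈ KO →
      ∀ h : ℝ, |h| ≤ h₁ / 2 → ‖iteratedFDeriv ℝ r (fun y => u (χ.symm y) h) x‖ ≤ C := by
  refine BF2_red hA hB hτ hK hKO (fun C χ x => ∀ h : ℝ, |h| ≤ h₁ / 2 →
    ‖iteratedFDeriv ℝ r (fun y => u (χ.symm y) h) x‖ ≤ C) ?_ ?_ ?_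
  · intro C C' χ x hC hP h hh'
    exact (hP h hh').trans hC
  · intro C χ χ' x _ _ _ _ he hP h hh'
    have h1 : (fun y => u (χ.symm y) h) =ᶠ[𝓝 x] fun y => u (χ'.symm y) h := by
      filter_upwards [he] with y hy
      rw [hy]
    rw [(h1.iteratedFDeriv ℝ r).eq_of_nhds]
    exact hP h hh'
  · intro χ hχ K hKc hKt
    exact BF2_param χ.open_target hh (U := fun y h => u (χ.symm y) h) (hu χ hχ.1) hKc hKt r

theorem BF2_locT {χ χ' : OpenPartialHomeomorph M E2} {x : E2}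
    (he : (χ.symm : E2 → M) =ᶠ[𝓝 x] χ'.symm) (H : M → Bil) :
    locT χ H =ᶠ[𝓝 x] locT χ' H := by
  filter_upwards [he.eventually_nhds] with y hy
  have hy' : χ.symm y = χ'.symm y := hy.self_of_nhds
  have h1 : TTi χ y = TTi χ' y := by
    unfold TTi
    rw [hy']
    refine Filter.EventuallyEq.fderiv_eq ?_
    filter_upwards [hy] with z hz
    simp only [Function.comp_apply]
    rw [hz]
  unfold locT
  rw [h1, hy']

theorem BF2_pd {w : E2 → ℝ} {x : E2} (k : Fin 2) : |pd k w x| ≤ ‖iteratedFDeriv ℝ 1 w x‖ := by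
  rw [norm_iteratedFDeriv_one]
  have h1 := (fderiv ℝ w x).le_opNorm (bv k)
  rw [MD3_bv, mul_one] at h1
  exact h1

theorem BF2_pd2 {w : E2 → ℝ} {x : E2} (hw : ContDiffAt ℝ 2 w x) (k l : Fin 2) :
    |pd l (pd k w) x| ≤ ‖iteratedFDeriv ℝ 2 w x‖ := by
  have h1 : ContDiffAt ℝ 1 (fderiv ℝ w) x := hw.fderiv_right (by norm_num)
  have h2 : HasFDerivAt (fderiv ℝ w) (fderiv ℝ (fderiv ℝ w) x) x :=
    (h1.differentiableAt (by norm_num)).hasFDerivAt
  have h3 := (h2.clm_apply (hasFDerivAt_const (bv k) x)).fderiv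
  have h4 : pd l (pd k w) x = iteratedFDeriv ℝ 2 w x ![bv l, bv k] := by
    rw [iteratedFDeriv_two_apply]
    unfold pd
    rw [h3]
    simp
  rw [h4, ← Real.norm_eq_abs]
  have h5 := (iteratedFDeriv ℝ 2 w x).le_opNorm ![bv l, bv k]
  refine h5.trans ?_
  simp [MD3_bv]

theorem xy_boundT {A B : M → ℝ} (hA : Sm A) (hB : Sm B) {τ : ℝ} (hτ : 0 < τ) {KO : Set M}
    (hK : IsCompact KO) (hKO : ∀ p ∈ KO, detC (dP A p) (dP B p) ≠ 0) {h₁ : ℝ} (hh : 0 < h₁)
    {H : M → ℝ → Bil} (hH : SmTP h₁ H) : ∃ C : ℝ, ∀ χ, IsXY A B τ χ → ∀ x ∈ χ.target,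
      χ.symm x ∈ KO → ∀ h : ℝ, |h| ≤ h₁ / 2 → ∀ i j k l : Fin 2,
        |pd k (fun y => locT χ (fun p => H p h) y (bv i) (bv j)) x| ≤ C ∧
        |pd l (pd k (fun y => locT χ (fun p => H p h) y (bv i) (bv j))) x| ≤ C := by
  refine BF2_red hA hB hτ hK hKO (fun C χ x => ∀ h : ℝ, |h| ≤ h₁ / 2 → ∀ i j k l : Fin 2,
        |pd k (fun y => locT χ (fun p => H p h) y (bv i) (bv j)) x| ≤ C ∧
        |pd l (pd k (fun y => locT χ (fun p => H p h) y (bv i) (bv j))) x| ≤ C) ?_ ?_ ?_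
  · intro C C' χ x hC hP h hh' i j k l
    exact ⟨((hP h hh' i j k l).1).trans hC, ((hP h hh' i j k l).2).trans hC⟩
  · intro C χ χ' x _ _ _ _ he hP h hh' i j k l
    have h1 : (fun y => locT χ (fun p => H p h) y (bv i) (bv j)) =ᶠ[𝓝 x]
        fun y => locT χ' (fun p => H p h) y (bv i) (bv j) := by
      filter_upwards [BF2_locT he (fun p => H p h)] with y hy
      rw [hy]
    have h2 : ∀ {w w' : E2 → ℝ}, w =ᶠ[𝓝 x] w' → ∀ k, pd k w =ᶠ[𝓝 x] pd k w' := by
      intro w w' hw k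
      filter_upwards [hw.eventually_nhds] with y hy
      unfold pd
      rw [Filter.EventuallyEq.fderiv_eq hy]
    have h3 := h2 h1 k
    have h4 := h2 h3 l
    rw [h3.eq_of_nhds, h4.eq_of_nhds]
    exact hP h hh' i j k l
  · intro χ hχ K hKc hKt
    have hs : ∀ i j : Fin 2, ContDiffOn ℝ ∞
        (fun q : E2 × ℝ => locT χ (fun p => H p q.2) q.1 (bv i) (bv j))
        (χ.target ×ˢ Ioo (-h₁) h₁) := fun i j =>
      ((hH χ hχ.1).clm_apply contDiffOn_const).clm_apply contDiffOn_const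
    choose C1 hC1 using fun i j : Fin 2 => BF2_param χ.open_target hh
      (U := fun y h => locT χ (fun p => H p h) y (bv i) (bv j)) (hs i j) hKc hKt 1
    choose C2 hC2 using fun i j : Fin 2 => BF2_param χ.open_target hh
      (U := fun y h => locT χ (fun p => H p h) y (bv i) (bv j)) (hs i j) hKc hKt 2
    have hle : ∀ (D : Fin 2 → Fin 2 → ℝ) (i j : Fin 2), D i j ≤ ∑ i, ∑ j, |D i j| := by
      intro D i j
      calc D i j ≤ |D i j| := le_abs_self _
        _ ≤ ∑ j, |D i j| := Finset.single_le_sum (f := fun j => |D i j|)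
            (fun _ _ => abs_nonneg _) (Finset.mem_univ j)
        _ ≤ ∑ i, ∑ j, |D i j| := Finset.single_le_sum (f := fun i => ∑ j, |D i j|)
            (fun _ _ => Finset.sum_nonneg fun _ _ => abs_nonneg _) (Finset.mem_univ i)
    refine ⟨max (∑ i, ∑ j, |C1 i j|) (∑ i, ∑ j, |C2 i j|), fun x hx h hh' i j k l => ⟨?_, ?_⟩⟩
    · refine (BF2_pd k).trans (((hC1 i j x hx h hh').trans (hle C1 i j)).trans (le_max_left _ _))
    · have hsm : ContDiffAt ℝ 2 (fun y => locT χ (fun p => H p h) y (bv i) (bv j)) x := by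
        have h1 : ContDiffAt ℝ ∞
            (fun q : E2 × ℝ => locT χ (fun p => H p q.2) q.1 (bv i) (bv j)) (x, h) := by
          refine (hs i j).contDiffAt ((χ.open_target.prod isOpen_Ioo).mem_nhds ⟨hKt hx, ?_⟩)
          have := abs_le.1 hh'
          constructor
          · change -h₁ < h
            linarith [this.1]
          · change h < h₁
            linarith [this.2]
        have h2 : ContDiffAt ℝ ∞ (fun y : E2 => ((y, h) : E2 × ℝ)) x := by fun_prop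
        have h3 := ContDiffAt.comp (f := fun y : E2 => ((y, h) : E2 × ℝ))
          (g := fun q : E2 × ℝ => locT χ (fun p => H p q.2) q.1 (bv i) (bv j)) x h1 h2
        exact h3.of_le (WithTop.coe_le_coe.2 le_top)
      exact (BF2_pd2 hsm k l).trans
        (((hC2 i j x hx h hh').trans (hle C2 i j)).trans (le_max_right _ _))

end P205F
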