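import Mathlib

/-!
# P205F BASE: Taylor in the parameter `h`

`u(x, h)` smooth on `U × (-h₁, h₁)` and `u(x, h) = O(h^N)` for every fixed `x` (no uniformity).  Then
every `x`-derivative is `O(h^N)`, uniformly on compact sets.
Proof: induction on `N`; if `N ≥ 1` then `u(x, 0) = 0`, `u = h w`, `w(x,h) = ∫₀¹ (∂_h u)(x, s h) ds`
smooth, `w = O(h^{N-1})`.  After `N` steps `u = h^N w_N` with `w_N` smooth.
-/

noncomputable section

namespace P205F

open scoped ContDiff Topology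
open Set

section BTayParam

variable {P V : Type*} [NormedAddCommGroup P] [NormedSpace ℝ P] [FiniteDimensional ℝ P]
  [NormedAddCommGroup V] [NormedSpace ℝ V] [CompleteSpace V] {D : Set (P × ℝ)} {O : Set P}

omit [FiniteDimensional ℝ P] [NormedSpace ℝ P] [NormedSpace ℝ V] [CompleteSpace V] in
private theorem BTay_slice (hDO : ∀ x ∈ O, ∀ s ∈ Icc (0 : ℝ) 1, (x, s) ∈ D) {G : P × ℝ → V}
    (hG : ContinuousOn G D) {x : P} (hx : x ∈ O) : ContinuousOn (fun s : ℝ => G (x, s)) (Icc 0 1) :=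
  hG.comp (by fun_prop) fun s hs => hDO x hx s hs

omit [FiniteDimensional ℝ P] [NormedSpace ℝ P] [NormedSpace ℝ V] [CompleteSpace V] in
private theorem BTay_int (hDO : ∀ x ∈ O, ∀ s ∈ Icc (0 : ℝ) 1, (x, s) ∈ D) {G : P × ℝ → V}
    (hG : ContinuousOn G D) {x : P} (hx : x ∈ O) :
    IntervalIntegrable (fun s : ℝ => G (x, s)) MeasureTheory.volume 0 1 :=
  (BTay_slice hDO hG hx).intervalIntegrable_of_Icc zero_le_one

omit [FiniteDimensional ℝ P] [NormedSpace ℝ P] [NormedSpace ℝ V] [CompleteSpace V] in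
private theorem BTay_meas (hDO : ∀ x ∈ O, ∀ s ∈ Icc (0 : ℝ) 1, (x, s) ∈ D) {G : P × ℝ → V}
    (hG : ContinuousOn G D) {x : P} (hx : x ∈ O) :
    MeasureTheory.AEStronglyMeasurable (fun s : ℝ => G (x, s))
      (MeasureTheory.volume.restrict (uIoc 0 1)) := by
  rw [uIoc_of_le zero_le_one]
  exact ((BTay_slice hDO hG hx).mono Ioc_subset_Icc_self).aestronglyMeasurable measurableSet_Ioc

omit [CompleteSpace V] in
/-- differentiation under the integral sign -/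
private theorem BTay_deriv (hD : IsOpen D) (hO : IsOpen O)
    (hDO : ∀ x ∈ O, ∀ s ∈ Icc (0 : ℝ) 1, (x, s) ∈ D) {G : P × ℝ → V} (hG : ContDiffOn ℝ ∞ G D)
    {x : P} (hx : x ∈ O) :
    HasFDerivAt (fun y => ∫ s in (0 : ℝ)..1, G (y, s))
      (∫ s in (0 : ℝ)..1, (fderiv ℝ G (x, s)).comp (ContinuousLinearMap.inl ℝ P ℝ)) x := by
  have hprop : ProperSpace P := FiniteDimensional.proper ℝ P
  have hGX : ContinuousOn (fun q => (fderiv ℝ G q).comp (ContinuousLinearMap.inl ℝ P ℝ)) D :=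
    ((hG.fderiv_of_isOpen hD (m := ∞) (by simp)).clm_comp contDiffOn_const).continuousOn
  obtain ⟨ρ, hρ, hρ'⟩ := Metric.nhds_basis_closedBall.mem_iff.1 (hO.mem_nhds hx)
  have hK : IsCompact (Metric.closedBall x ρ ×ˢ Icc (0 : ℝ) 1) :=
    (isCompact_closedBall x ρ).prod isCompact_Icc
  have hsub : Metric.closedBall x ρ ×ˢ Icc (0 : ℝ) 1 ⊆ D := fun q hq => hDO q.1 (hρ' hq.1) q.2 hq.2
  obtain ⟨C, hC⟩ := hK.exists_bound_of_continuousOn (hGX.mono hsub)
  refine intervalIntegral.hasFDerivAt_integral_of_dominated_of_fderiv_le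
    (F := fun y s => G (y, s))
    (F' := fun y s => (fderiv ℝ G (y, s)).comp (ContinuousLinearMap.inl ℝ P ℝ))
    (bound := fun _ => C) (Metric.closedBall_mem_nhds x hρ) ?_ ?_ ?_ ?_ ?_ ?_
  · filter_upwards [hO.mem_nhds hx] with y hy
    exact BTay_meas hDO hG.continuousOn hy
  · exact BTay_int hDO hG.continuousOn hx
  · exact BTay_meas hDO hGX hx
  · refine Filter.Eventually.of_forall fun t ht y hy => hC (y, t) ⟨hy, ?_⟩
    rw [uIoc_of_le zero_le_one] at ht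
    exact ⟨ht.1.le, ht.2⟩
  · exact intervalIntegrable_const
  · refine Filter.Eventually.of_forall fun t ht y hy => ?_
    rw [uIoc_of_le zero_le_one] at ht
    have h1 : HasFDerivAt G (fderiv ℝ G (y, t)) (y, t) :=
      ((hG.contDiffAt (hD.mem_nhds (hDO y (hρ' hy) t ⟨ht.1.le, ht.2⟩))).differentiableAt
        (by simp)).hasFDerivAt
    exact h1.comp y (hasFDerivAt_prodMk_left y t)

private theorem BTay_smooth (hD : IsOpen D) (hO : IsOpen O)
    (hDO : ∀ x ∈ O, ∀ s ∈ Icc (0 : ℝ) 1, (x, s) ∈ D) (n : ℕ) : ∀ {G : P × ℝ → V},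
    ContDiffOn ℝ ∞ G D → ContDiffOn ℝ n (fun y => ∫ s in (0 : ℝ)..1, G (y, s)) O := by
  induction n with
  | zero =>
    intro G hG
    rw [Nat.cast_zero, contDiffOn_zero]
    exact fun x hx => (BTay_deriv hD hO hDO hG hx).continuousAt.continuousWithinAt
  | succ n ih =>
    intro G hG
    have h3 : ((n + 1 : ℕ) : WithTop ℕ∞) = (n : WithTop ℕ∞) + 1 := by push_cast; rfl
    rw [h3, contDiffOn_succ_iff_fderiv_apply hO.uniqueDiffOn]
    refine ⟨fun y hy => (BTay_deriv hD hO hDO hG hy).differentiableAt.differentiableWithinAt,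
      fun h => absurd h (by simp), fun y => ?_⟩
    have h4 : ContDiffOn ℝ ∞ (fun q => fderiv ℝ G q (y, 0)) D :=
      (hG.fderiv_of_isOpen hD (m := ∞) (by simp)).clm_apply contDiffOn_const
    refine (ih h4).congr fun x hx => ?_
    rw [fderivWithin_of_isOpen hO hx, (BTay_deriv hD hO hDO hG hx).fderiv]
    have hGX : ContinuousOn (fun q => (fderiv ℝ G q).comp (ContinuousLinearMap.inl ℝ P ℝ)) D :=
      ((hG.fderiv_of_isOpen hD (m := ∞) (by simp)).clm_comp contDiffOn_const).continuousOn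
    rw [ContinuousLinearMap.intervalIntegral_apply (BTay_int hDO hGX hx)]
    rfl

end BTayParam

/-- Hadamard division by `h` -/
theorem hadamard_h {E V : Type*} [NormedAddCommGroup E] [NormedSpace ℝ E] [FiniteDimensional ℝ E]
    [NormedAddCommGroup V] [NormedSpace ℝ V] [FiniteDimensional ℝ V] {U : Set E} (hU : IsOpen U)
    {h₁ : ℝ} (hh : 0 < h₁) {u : E × ℝ → V} (hu : ContDiffOn ℝ ∞ u (U ×ˢ Ioo (-h₁) h₁))
    (h0 : ∀ x ∈ U, u (x, 0) = 0) :
    ∃ w : E × ℝ → V, ContDiffOn ℝ ∞ w (U ×ˢ Ioo (-h₁) h₁) ∧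
      ∀ x ∈ U, ∀ h ∈ Ioo (-h₁) h₁, u (x, h) = h • w (x, h) := by
  have hcomp : CompleteSpace V := FiniteDimensional.complete ℝ V
  have hO : IsOpen (U ×ˢ Ioo (-h₁) h₁) := hU.prod isOpen_Ioo
  set c : (E × ℝ) × ℝ → E × ℝ := fun q => (q.1.1, q.2 * q.1.2) with hc
  have hcs : ContDiff ℝ ∞ c := by
    rw [hc]
    fun_prop
  have hD : IsOpen (c ⁻¹' (U ×ˢ Ioo (-h₁) h₁)) := hO.preimage hcs.continuous
  have hDO : ∀ x ∈ U ×ˢ Ioo (-h₁) h₁, ∀ s ∈ Icc (0 : ℝ) 1,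
      (x, s) ∈ c ⁻¹' (U ×ˢ Ioo (-h₁) h₁) := by
    rintro ⟨x, h⟩ ⟨hx, hh1, hh2⟩ s ⟨hs0, hs1⟩
    refine ⟨hx, ?_, ?_⟩
    · show -h₁ < s * h
      nlinarith
    · show s * h < h₁
      nlinarith
  have hfd : ContDiffOn ℝ ∞ (fun p => fderiv ℝ u p (0, 1)) (U ×ˢ Ioo (-h₁) h₁) :=
    (hu.fderiv_of_isOpen hO (m := ∞) (by simp)).clm_apply contDiffOn_const
  have hG : ContDiffOn ℝ ∞ (fun q => fderiv ℝ u (c q) (0, 1)) (c ⁻¹' (U ×ˢ Ioo (-h₁) h₁)) :=
    hfd.comp hcs.contDiffOn fun q hq => hq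
  refine ⟨fun p => ∫ s in (0 : ℝ)..1, fderiv ℝ u (c (p, s)) (0, 1),
    contDiffOn_infty.2 fun n => BTay_smooth hD hO hDO n hG, fun x hx h hhm => ?_⟩
  have hmem : ((x, h) : E × ℝ) ∈ U ×ˢ Ioo (-h₁) h₁ := ⟨hx, hhm⟩
  have hint : IntervalIntegrable (fun s : ℝ => fderiv ℝ u (c ((x, h), s)) (0, 1))
      MeasureTheory.volume 0 1 := BTay_int hDO hG.continuousOn hmem
  have hder : ∀ s ∈ uIcc (0 : ℝ) 1, HasDerivAt (fun s : ℝ => u (x, s * h))
      (h • fderiv ℝ u (c ((x, h), s)) (0, 1)) s := by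
    intro s hs
    rw [uIcc_of_le zero_le_one] at hs
    have hq := hDO _ hmem s hs
    have h1 : HasFDerivAt u (fderiv ℝ u (x, s * h)) (x, s * h) :=
      ((hu.contDiffAt (hO.mem_nhds hq)).differentiableAt (by simp)).hasFDerivAt
    have h2 : HasDerivAt (fun s : ℝ => ((x, s * h) : E × ℝ)) (0, h) s := by
      have h3 : HasDerivAt (fun s : ℝ => s * h) h s := by
        simpa using (hasDerivAt_id s).mul_const h
      exact (hasDerivAt_const s x).prodMk h3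
    have h4 := h1.comp_hasDerivAt s h2
    have h5 : fderiv ℝ u (x, s * h) (0, h) = h • fderiv ℝ u (c ((x, h), s)) (0, 1) := by
      have h6 : ((0, h) : E × ℝ) = h • ((0, 1) : E × ℝ) := by
        rw [Prod.smul_mk, smul_zero, smul_eq_mul, mul_one]
      rw [h6, map_smul]
    rw [← h5]
    exact h4
  have hftc := intervalIntegral.integral_eq_sub_of_hasDerivAt hder (hint.smul h)
  rw [intervalIntegral.integral_smul] at hftc
  have e1 : u (x, (1 : ℝ) * h) - u (x, (0 : ℝ) * h) = u (x, h) := by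
    rw [one_mul, zero_mul, h0 x hx, sub_zero]
  exact (hftc.trans e1).symm

/-- iterated division -/
private theorem BTay_iter {E V : Type*} [NormedAddCommGroup E] [NormedSpace ℝ E]
    [FiniteDimensional ℝ E]
    [NormedAddCommGroup V] [NormedSpace ℝ V] [FiniteDimensional ℝ V] {U : Set E} (hU : IsOpen U)
    {h₁ : ℝ} (hh : 0 < h₁) (N : ℕ) : ∀ {u : E × ℝ → V},
    ContDiffOn ℝ ∞ u (U ×ˢ Ioo (-h₁) h₁) →
    (∀ x ∈ U, ∃ C : ℝ, ∀ᶠ h in 𝓝 (0 : ℝ), ‖u (x, h)‖ ≤ C * |h| ^ N) →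
    ∃ w : E × ℝ → V, ContDiffOn ℝ ∞ w (U ×ˢ Ioo (-h₁) h₁) ∧
      ∀ x ∈ U, ∀ h ∈ Ioo (-h₁) h₁, u (x, h) = h ^ N • w (x, h) := by
  induction N with
  | zero =>
    intro u hu _
    exact ⟨u, hu, fun x _ h _ => by rw [pow_zero, one_smul]⟩
  | succ N ih =>
    intro u hu hO
    have h0 : ∀ x ∈ U, u (x, 0) = 0 := by
      intro x hx
      obtain ⟨C, hC⟩ := hO x hx
      have h1 := hC.self_of_nhds
      rw [abs_zero, zero_pow (Nat.succ_ne_zero N), mul_zero] at h1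
      exact norm_le_zero_iff.mp h1
    obtain ⟨w, hw, hwu⟩ := hadamard_h hU hh hu h0
    have hmem0 : (0 : ℝ) ∈ Ioo (-h₁) h₁ := ⟨by linarith, hh⟩
    have hOw : ∀ x ∈ U, ∃ C : ℝ, ∀ᶠ h in 𝓝 (0 : ℝ), ‖w (x, h)‖ ≤ C * |h| ^ N := by
      intro x hx
      obtain ⟨C, hC⟩ := hO x hx
      have h1 : ∀ᶠ h in 𝓝[≠] (0 : ℝ), ‖w (x, h)‖ ≤ C * |h| ^ N := by
        filter_upwards [hC.filter_mono nhdsWithin_le_nhds, self_mem_nhdsWithin,
          nhdsWithin_le_nhds (isOpen_Ioo.mem_nhds hmem0)] with h h2 h3 h4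
        have h3' : (0 : ℝ) < |h| := abs_pos.mpr h3
        rw [hwu x hx h h4, norm_smul, Real.norm_eq_abs, pow_succ] at h2
        have h5 : |h| * ‖w (x, h)‖ ≤ |h| * (C * |h| ^ N) := by linarith
        exact le_of_mul_le_mul_left h5 h3'
      have hcont : Filter.Tendsto (fun h : ℝ => w (x, h)) (𝓝[≠] 0) (𝓝 (w (x, 0))) := by
        have h6 : ContinuousAt w (x, 0) :=
          (hw.contDiffAt ((hU.prod isOpen_Ioo).mem_nhds ⟨hx, hmem0⟩)).continuousAt
        have h7 : ContinuousAt (fun h : ℝ => w (x, h)) 0 :=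
          ContinuousAt.comp (f := fun h : ℝ => (x, h)) (g := w) h6 (by fun_prop)
        exact h7.tendsto.mono_left nhdsWithin_le_nhds
      have h2 : ‖w (x, 0)‖ ≤ C * |(0 : ℝ)| ^ N := by
        refine le_of_tendsto_of_tendsto hcont.norm ?_ h1
        have h8 : Continuous fun h : ℝ => C * |h| ^ N := by fun_prop
        exact (h8.tendsto 0).mono_left nhdsWithin_le_nhds
      refine ⟨C, ?_⟩
      have h9 := eventually_nhdsWithin_iff.mp h1
      filter_upwards [h9] with h h10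
      by_cases h11 : h = 0
      · rw [h11]; exact h2
      · exact h10 h11
    obtain ⟨w', hw', hww'⟩ := ih hw hOw
    exact ⟨w', hw', fun x hx h hhm => by rw [hwu x hx h hhm, hww' x hx h hhm, smul_smul, pow_succ']⟩

theorem taylor_h {E V : Type*} [NormedAddCommGroup E] [NormedSpace ℝ E] [FiniteDimensional ℝ E]
    [NormedAddCommGroup V] [NormedSpace ℝ V] [FiniteDimensional ℝ V] {U : Set E} (hU : IsOpen U)
    {h₁ : ℝ} (hh : 0 < h₁) {u : E × ℝ → V} (hu : ContDiffOn ℝ ∞ u (U ×ˢ Ioo (-h₁) h₁)) (N : ℕ)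
    (hO : ∀ x ∈ U, ∃ C : ℝ, ∀ᶠ h in 𝓝 (0 : ℝ), ‖u (x, h)‖ ≤ C * |h| ^ N)
    {K : Set E} (hK : IsCompact K) (hKU : K ⊆ U) (r : ℕ) :
    ∃ C : ℝ, ∀ x ∈ K, ∀ h : ℝ, |h| ≤ h₁ / 2 →
      ‖iteratedFDeriv ℝ r (fun y => u (y, h)) x‖ ≤ C * |h| ^ N := by
  obtain ⟨w, hw, hwu⟩ := BTay_iter hU hh N hu hO
  have hop : IsOpen (U ×ˢ Ioo (-h₁) h₁) := hU.prod isOpen_Ioo
  have hcomp : IsCompact (K ×ˢ Icc (-(h₁ / 2)) (h₁ / 2)) := hK.prod isCompact_Icc
  have hsub : K ×ˢ Icc (-(h₁ / 2)) (h₁ / 2) ⊆ U ×ˢ Ioo (-h₁) h₁ := by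
    rintro ⟨x, h⟩ ⟨hx, h2, h3⟩
    exact ⟨hKU hx, by show -h₁ < h; linarith [show -(h₁ / 2) ≤ h from h2],
      by show h < h₁; linarith [show h ≤ h₁ / 2 from h3]⟩
  have hcont : ContinuousOn (iteratedFDeriv ℝ r w) (U ×ˢ Ioo (-h₁) h₁) :=
    (hw.continuousOn_iteratedFDerivWithin (m := r) (by exact_mod_cast le_top)
      hop.uniqueDiffOn).congr fun p hp => (iteratedFDerivWithin_of_isOpen r hop hp).symm
  obtain ⟨C, hC⟩ := hcomp.exists_bound_of_continuousOn (hcont.mono hsub)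
  refine ⟨C, fun x hx h hhb => ?_⟩
  obtain ⟨hb1, hb2⟩ := abs_le.mp hhb
  have hmem : h ∈ Ioo (-h₁) h₁ := ⟨by linarith, by linarith⟩
  have hxU := hKU hx
  -- the slice of `w`
  have hslice : ‖iteratedFDeriv ℝ r (fun y => w (y, h)) x‖ ≤ C := by
    set f : E × ℝ → V := fun q => w (q + (0, h)) with hf
    set s : Set (E × ℝ) := (fun q => q + ((0, h) : E × ℝ)) ⁻¹' (U ×ˢ Ioo (-h₁) h₁) with hs
    have hso : IsOpen s := hop.preimage (by fun_prop)
    have hfs : ContDiffOn ℝ ∞ f s :=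
      hw.comp ((contDiff_id.add contDiff_const).contDiffOn) fun q hq => hq
    have hpre : ContinuousLinearMap.inl ℝ E ℝ ⁻¹' s = U := by
      ext y
      constructor
      · intro hy
        have h1 : (ContinuousLinearMap.inl ℝ E ℝ y + ((0, h) : E × ℝ)).1 ∈ U := hy.1
        simpa using h1
      · intro hy
        refine ⟨?_, ?_⟩
        · show (ContinuousLinearMap.inl ℝ E ℝ y + ((0, h) : E × ℝ)).1 ∈ U
          simpa using hy
        · show (ContinuousLinearMap.inl ℝ E ℝ y + ((0, h) : E × ℝ)).2 ∈ Ioo (-h₁) h₁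
          simpa using hmem
    have hxs : ContinuousLinearMap.inl ℝ E ℝ x ∈ s := by
      have : x ∈ ContinuousLinearMap.inl ℝ E ℝ ⁻¹' s := by rw [hpre]; exact hxU
      exact this
    have hfun : (fun y => w (y, h)) = f ∘ ContinuousLinearMap.inl ℝ E ℝ := by
      funext y
      rw [hf]
      simp
    have h1 := ContinuousLinearMap.iteratedFDerivWithin_comp_right (ContinuousLinearMap.inl ℝ E ℝ)
      hfs hso.uniqueDiffOn (by rw [hpre]; exact hU.uniqueDiffOn) hxs (i := r)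
      (by exact_mod_cast le_top)
    rw [hpre, iteratedFDerivWithin_of_isOpen r hU hxU, iteratedFDerivWithin_of_isOpen r hso hxs]
      at h1
    rw [hfun, h1]
    refine (ContinuousMultilinearMap.norm_compContinuousLinearMap_le _ _).trans ?_
    have h2 : iteratedFDeriv ℝ r f (ContinuousLinearMap.inl ℝ E ℝ x) =
        iteratedFDeriv ℝ r w (x, h) := by
      rw [hf, iteratedFDeriv_comp_add_right]
      congr 1
      simp
    rw [h2]
    have h3 : ‖iteratedFDeriv ℝ r w (x, h)‖ ≤ C := hC (x, h) ⟨hx, hb1, hb2⟩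
    have h4 : ∏ _i : Fin r, ‖ContinuousLinearMap.inl ℝ E ℝ‖ ≤ 1 :=
      Finset.prod_le_one (fun _ _ => norm_nonneg _)
        fun _ _ => ContinuousLinearMap.norm_inl_le_one ℝ E ℝ
    calc ‖iteratedFDeriv ℝ r w (x, h)‖ * ∏ _i : Fin r, ‖ContinuousLinearMap.inl ℝ E ℝ‖
        ≤ ‖iteratedFDeriv ℝ r w (x, h)‖ * 1 := mul_le_mul_of_nonneg_left h4 (norm_nonneg _)
      _ ≤ C := by rw [mul_one]; exact h3
  -- `u = h ^ N w` near `x`
  have heq : (fun y => u (y, h)) =ᶠ[𝓝 x] fun y => h ^ N • w (y, h) := by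
    filter_upwards [hU.mem_nhds hxU] with y hy
    exact hwu y hy h hmem
  have hws : ContDiffAt ℝ r (fun y => w (y, h)) x := by
    have h1 : ContDiffAt ℝ ∞ w (x, h) := hw.contDiffAt (hop.mem_nhds ⟨hxU, hmem⟩)
    have h2 : ContDiffAt ℝ ∞ (fun y => w (y, h)) x :=
      ContDiffAt.comp (f := fun y : E => ((y, h) : E × ℝ)) (g := w) x h1
        (contDiff_id.prodMk contDiff_const).contDiffAt
    exact h2.of_le (by exact_mod_cast le_top)
  have h5 : iteratedFDeriv ℝ r (fun y => u (y, h)) x =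
      h ^ N • iteratedFDeriv ℝ r (fun y => w (y, h)) x := by
    rw [(heq.iteratedFDeriv ℝ r).eq_of_nhds]
    exact iteratedFDeriv_const_smul_apply' hws
  rw [h5, norm_smul, norm_pow, Real.norm_eq_abs, mul_comm]
  exact mul_le_mul_of_nonneg_right hslice (pow_nonneg (abs_nonneg h) N)

end P205F
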