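import Vale.Agent.Lib.P205F.MD1
import Vale.Agent.Lib.P205B.BDefs

/-!
# P205F BASE: inner product of covectors
-/

noncomputable section

namespace P205F

open scoped Manifold ContDiff Topology RealInnerProductSpace
open Set

/-- determinant of a bilinear form (in the standard basis) -/
def dtB (G : Bil) : ℝ := G e1 e1 * G e2 e2 - G e1 e2 * G e2 e1

/-- inner product of two covectors with respect to the bilinear form `G` -/
def ip (G : Bil) (α β : E2 →L[ℝ] ℝ) : ℝ :=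
  (G e2 e2 * (α e1 * β e1) - G e1 e2 * (α e1 * β e2) - G e2 e1 * (α e2 * β e1)
    + G e1 e1 * (α e2 * β e2)) / dtB G

/-- the vector dual to the covector `α`: `β (sharp G α) = ip G β α` -/
def sharp (G : Bil) (α : E2 →L[ℝ] ℝ) : E2 :=
  ((G e2 e2 * α e1 - G e1 e2 * α e2) / dtB G, (G e1 e1 * α e2 - G e2 e1 * α e1) / dtB G)

/-- expansion of a covector -/
theorem bip_cov {V : Type*} [NormedAddCommGroup V] [NormedSpace ℝ V] (β : E2 →L[ℝ] V) (v : E2) :
    β v = v.1 • β e1 + v.2 • β e2 := by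
  have h : v = v.1 • e1 + v.2 • e2 := by
    ext <;> simp [e1, e2]
  conv_lhs => rw [h]
  rw [map_add, map_smul, map_smul]

theorem bip_bil (G : Bil) (v w : E2) : G v w = v.1 * w.1 * G e1 e1 + v.1 * w.2 * G e1 e2
    + v.2 * w.1 * G e2 e1 + v.2 * w.2 * G e2 e2 := by
  rw [bip_cov (G v) w, bip_cov G v]
  simp only [ContinuousLinearMap.add_apply, ContinuousLinearMap.smul_apply, smul_eq_mul]
  ring

theorem bip_e_ne (v : E2) (h : v ≠ 0) : v.1 ≠ 0 ∨ v.2 ≠ 0 := by
  by_contra hcon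
  push Not at hcon
  exact h (Prod.ext hcon.1 hcon.2)

theorem bip_e1_pos {G : Bil} (hG : PosDef G) : 0 < G e1 e1 :=
  hG.2 e1 (fun h => one_ne_zero (congrArg Prod.fst h))

theorem dtB_pos {G : Bil} (hG : PosDef G) : 0 < dtB G := by
  have ha := bip_e1_pos hG
  have hs := hG.1 e1 e2
  have h1 := hG.2 (-(G e1 e2), G e1 e1) (fun h => ha.ne' (congrArg Prod.snd h))
  rw [bip_bil] at h1
  simp only at h1
  unfold dtB
  rw [← hs] at h1 ⊢
  have h2 : 0 < G e1 e1 * (G e1 e1 * G e2 e2 - G e1 e2 * G e1 e2) := by linarith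
  exact (mul_pos_iff_of_pos_left ha).1 h2

theorem apply_sharp {G : Bil} (hG : PosDef G) (α β : E2 →L[ℝ] ℝ) :
    β (sharp G α) = ip G β α := by
  rw [bip_cov β (sharp G α)]
  unfold sharp ip
  simp only [smul_eq_mul]
  have := (dtB_pos hG).ne'
  field_simp
  ring

theorem ip_comm {G : Bil} (hG : PosDef G) (α β : E2 →L[ℝ] ℝ) : ip G α β = ip G β α := by
  unfold ip
  rw [hG.1 e2 e1]
  ring

theorem ip_add_left (G : Bil) (α α' β : E2 →L[ℝ] ℝ) :
    ip G (α + α') β = ip G α β + ip G α' β := by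
  unfold ip
  rw [← add_div]
  congr 1
  simp only [ContinuousLinearMap.add_apply]
  ring

theorem ip_smul_left (G : Bil) (c : ℝ) (α β : E2 →L[ℝ] ℝ) : ip G (c • α) β = c * ip G α β := by
  unfold ip
  rw [← mul_div_assoc]
  congr 1
  simp only [ContinuousLinearMap.smul_apply, smul_eq_mul]
  ring

theorem ip_self_pos {G : Bil} (hG : PosDef G) {α : E2 →L[ℝ] ℝ} (hα : α ≠ 0) : 0 < ip G α α := by
  have ha := bip_e1_pos hG
  have hd := dtB_pos hG
  have hs := hG.1 e1 e2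
  unfold ip
  refine div_pos ?_ hd
  unfold dtB at hd
  rw [← hs] at hd ⊢
  have h1 : 0 < G e1 e1 * (G e2 e2 * (α e1 * α e1) - G e1 e2 * (α e1 * α e2)
      - G e1 e2 * (α e2 * α e1) + G e1 e1 * (α e2 * α e2)) := by
    have h2 : G e1 e1 * (G e2 e2 * (α e1 * α e1) - G e1 e2 * (α e1 * α e2)
      - G e1 e2 * (α e2 * α e1) + G e1 e1 * (α e2 * α e2)) =
      (G e1 e1 * α e2 - G e1 e2 * α e1) ^ 2 +
        (G e1 e1 * G e2 e2 - G e1 e2 * G e1 e2) * α e1 ^ 2 := by ring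
    rw [h2]
    by_cases h3 : α e1 = 0
    · have h4 : α e2 ≠ 0 := by
        intro h4
        apply hα
        ext v
        · have := bip_cov α (1, 0)
          simp [h3, h4] at this
          simpa using this
        · have := bip_cov α (0, 1)
          simp [h3, h4] at this
          simpa using this
      rw [h3]
      have h5 : 0 < (G e1 e1 * α e2) ^ 2 := by positivity
      simpa using h5
    · have h5 : 0 < (G e1 e1 * G e2 e2 - G e1 e2 * G e1 e2) * α e1 ^ 2 :=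
        mul_pos hd (by positivity)
      have h6 : 0 ≤ (G e1 e1 * α e2 - G e1 e2 * α e1) ^ 2 := sq_nonneg _
      linarith
  exact (mul_pos_iff_of_pos_left ha).1 h1

/-- Gram determinant of two covectors -/
theorem ip_det {G : Bil} (hG : PosDef G) (α β : E2 →L[ℝ] ℝ) :
    ip G α α * ip G β β - ip G α β ^ 2 = detC α β ^ 2 / dtB G := by
  have hd := (dtB_pos hG).ne'
  have hs := hG.1 e1 e2
  unfold ip detC
  have h1 : ∀ x y z w D : ℝ, D ≠ 0 → x * y - z ^ 2 = D * w → x / D * (y / D) - (z / D) ^ 2 = w / D := by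
    intro x y z w D hD h
    have h2 : x / D * (y / D) - (z / D) ^ 2 = (x * y - z ^ 2) / (D * D) := by
      field_simp
    rw [h2, h]
    field_simp
  apply h1 _ _ _ _ _ hd
  unfold dtB
  rw [← hs]
  ring

/-- invariance under linear changes of variables -/
theorem ip_comp {G : Bil} (hG : PosDef G) (T S : E2 →L[ℝ] E2)
    (hTS : S.comp T = ContinuousLinearMap.id ℝ E2) (α β : E2 →L[ℝ] ℝ) :
    ip (G.bilinearComp T T) (α.comp T) (β.comp T) = ip G α β := by
  set p := (T e1).1 with hp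
  set r := (T e1).2 with hr
  set q := (T e2).1 with hq
  set s := (T e2).2 with hs
  have h1 : S (T e1) = e1 := by
    have := congrArg (fun L : E2 →L[ℝ] E2 => L e1) hTS
    simpa using this
  have h2 : S (T e2) = e2 := by
    have := congrArg (fun L : E2 →L[ℝ] E2 => L e2) hTS
    simpa using this
  have hdet : p * s - q * r ≠ 0 := by
    rw [bip_cov S (T e1)] at h1
    rw [bip_cov S (T e2)] at h2
    have h11 := congrArg Prod.fst h1
    have h12 := congrArg Prod.snd h1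
    have h21 := congrArg Prod.fst h2
    have h22 := congrArg Prod.snd h2
    simp only [Prod.fst_add, Prod.snd_add, Prod.smul_fst, Prod.smul_snd, smul_eq_mul] at h11 h12 h21 h22
    rw [← hp, ← hr] at h11 h12
    rw [← hq, ← hs] at h21 h22
    have e11 : (e1 : E2).1 = 1 := rfl
    have e12 : (e1 : E2).2 = 0 := rfl
    have e21 : (e2 : E2).1 = 0 := rfl
    have e22 : (e2 : E2).2 = 1 := rfl
    rw [e11] at h11
    rw [e12] at h12
    rw [e21] at h21
    rw [e22] at h22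
    intro h0
    have h3 : (p * s - q * r) * ((S e1).1 * (S e2).2 - (S e2).1 * (S e1).2) = 1 := by
      have h4 : (p * s - q * r) * ((S e1).1 * (S e2).2 - (S e2).1 * (S e1).2) =
        (p * (S e1).1 + r * (S e2).1) * (q * (S e1).2 + s * (S e2).2) -
        (p * (S e1).2 + r * (S e2).2) * (q * (S e1).1 + s * (S e2).1) := by ring
      rw [h4, h11, h12, h21, h22]
      ring
    rw [h0, zero_mul] at h3
    exact zero_ne_one h3
  have hα1 : α.comp T e1 = p * α e1 + r * α e2 := by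
    rw [ContinuousLinearMap.comp_apply, bip_cov α (T e1)]
    rfl
  have hα2 : α.comp T e2 = q * α e1 + s * α e2 := by
    rw [ContinuousLinearMap.comp_apply, bip_cov α (T e2)]
    rfl
  have hβ1 : β.comp T e1 = p * β e1 + r * β e2 := by
    rw [ContinuousLinearMap.comp_apply, bip_cov β (T e1)]
    rfl
  have hβ2 : β.comp T e2 = q * β e1 + s * β e2 := by
    rw [ContinuousLinearMap.comp_apply, bip_cov β (T e2)]
    rfl
  have hG11 : G.bilinearComp T T e1 e1 = p * p * G e1 e1 + p * r * G e1 e2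
      + r * p * G e2 e1 + r * r * G e2 e2 := by
    rw [ContinuousLinearMap.bilinearComp_apply, bip_bil G (T e1) (T e1)]
  have hG12 : G.bilinearComp T T e1 e2 = p * q * G e1 e1 + p * s * G e1 e2
      + r * q * G e2 e1 + r * s * G e2 e2 := by
    rw [ContinuousLinearMap.bilinearComp_apply, bip_bil G (T e1) (T e2)]
  have hG21 : G.bilinearComp T T e2 e1 = q * p * G e1 e1 + q * r * G e1 e2
      + s * p * G e2 e1 + s * r * G e2 e2 := by
    rw [ContinuousLinearMap.bilinearComp_apply, bip_bil G (T e2) (T e1)]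
  have hG22 : G.bilinearComp T T e2 e2 = q * q * G e1 e1 + q * s * G e1 e2
      + s * q * G e2 e1 + s * s * G e2 e2 := by
    rw [ContinuousLinearMap.bilinearComp_apply, bip_bil G (T e2) (T e2)]
  unfold ip dtB
  rw [hG11, hG12, hG21, hG22, hα1, hα2, hβ1, hβ2]
  have hd2 : (p * s - q * r) ^ 2 ≠ 0 := pow_ne_zero 2 hdet
  rw [← mul_div_mul_left _ (G e1 e1 * G e2 e2 - G e1 e2 * G e2 e1) hd2]
  congr 1
  · ring
  · ring

variable {M : Type} [TopologicalSpace M] [ChartedSpace E2 M] [IsManifold 𝓘(ℝ, E2) ∞ M]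

/-- `ip` of differentials in a chart -/
theorem ip_loc {G : M → Bil} {u w : M → ℝ} {φ : OpenPartialHomeomorph M E2} (hφ : φ ∈ ATL M)
    {x : E2} (hx : x ∈ φ.target) (hG : PosDef (G (φ.symm x)))
    (hu : DifferentiableAt ℝ (u ∘ φ.symm) x) (hw : DifferentiableAt ℝ (w ∘ φ.symm) x) :
    ip (G (φ.symm x)) (dP u (φ.symm x)) (dP w (φ.symm x)) =
      ip (locT φ G x) (fderiv ℝ (u ∘ φ.symm) x) (fderiv ℝ (w ∘ φ.symm) x) := by
  rw [← dP_comp_TTi hφ hx hu, ← dP_comp_TTi hφ hx hw]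
  unfold locT
  exact (ip_comp hG (TTi φ x) (TT φ (φ.symm x)) (TT_comp_TTi hφ hx) _ _).symm

/-- smoothness of `ip` -/
theorem bip_cd {X : Type*} [NormedAddCommGroup X] [NormedSpace ℝ X] {U : Set X} {G : X → Bil}
    {α β : X → E2 →L[ℝ] ℝ} (hG : ContDiffOn ℝ ∞ G U) (hα : ContDiffOn ℝ ∞ α U)
    (hβ : ContDiffOn ℝ ∞ β U) (h0 : ∀ x ∈ U, dtB (G x) ≠ 0) :
    ContDiffOn ℝ ∞ (fun x => ip (G x) (α x) (β x)) U := by
  have h1 : ∀ v w : E2, ContDiffOn ℝ ∞ (fun x => G x v w) U := fun v w =>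
    (hG.clm_apply contDiffOn_const).clm_apply contDiffOn_const
  have h2 : ∀ v : E2, ContDiffOn ℝ ∞ (fun x => α x v) U := fun v => hα.clm_apply contDiffOn_const
  have h3 : ∀ v : E2, ContDiffOn ℝ ∞ (fun x => β x v) U := fun v => hβ.clm_apply contDiffOn_const
  unfold ip
  refine ContDiffOn.div ?_ ?_ h0
  · exact ((((h1 e2 e2).mul ((h2 e1).mul (h3 e1))).sub ((h1 e1 e2).mul ((h2 e1).mul (h3 e2)))).sub
      ((h1 e2 e1).mul ((h2 e2).mul (h3 e1)))).add ((h1 e1 e1).mul ((h2 e2).mul (h3 e2)))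
  · unfold dtB
    exact ((h1 e1 e1).mul (h1 e2 e2)).sub ((h1 e1 e2).mul (h1 e2 e1))

/-- a function which is smooth in all charts is smooth -/
theorem bip_sm {V : Type*} [NormedAddCommGroup V] [NormedSpace ℝ V] {F : M → V}
    (h : ∀ φ ∈ ATL M, ContDiffOn ℝ ∞ (F ∘ φ.symm) φ.target) : Sm F := by
  refine sm_of_loc fun p => ⟨chartAt E2 p, chart_mem_ATL p, mem_chart_source E2 p, ?_⟩
  exact (h _ (chart_mem_ATL p)).contDiffAt
    ((chartAt E2 p).open_target.mem_nhds ((chartAt E2 p).map_source (mem_chart_source E2 p)))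

/-- smoothness of `⟨du, dw⟩` -/
theorem sm_ip {G : M → Bil} (hG : IsMetric G) {u w : M → ℝ} (hu : Sm u) (hw : Sm w) :
    Sm (fun p => ip (G p) (dP u p) (dP w p)) := by
  refine bip_sm fun φ hφ => ?_
  have h1 : ContDiffOn ℝ ∞ (fun x => ip (locT φ G x) (fderiv ℝ (u ∘ φ.symm) x)
      (fderiv ℝ (w ∘ φ.symm) x)) φ.target := by
    refine bip_cd (hG.1 φ hφ) ((hu.loc hφ).fderiv_of_isOpen φ.open_target (by simp))
      ((hw.loc hφ).fderiv_of_isOpen φ.open_target (by simp)) fun x hx => ?_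
    exact (dtB_pos ((posDef_locT hφ hx).2 (hG.2 _))).ne'
  refine h1.congr fun x hx => ?_
  exact ip_loc hφ hx (hG.2 _)
    (((hu.loc hφ).contDiffAt (φ.open_target.mem_nhds hx)).differentiableAt (by simp))
    (((hw.loc hφ).contDiffAt (φ.open_target.mem_nhds hx)).differentiableAt (by simp))

/-- parameter dependent version -/
theorem smP_ip {h₁ : ℝ} {G : M → ℝ → Bil} (hG : SmTP h₁ G)
    (hpos : ∀ p, ∀ h ∈ Ioo (-h₁) h₁, PosDef (G p h)) {u w : M → ℝ} (hu : Sm u) (hw : Sm w) :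
    SmP h₁ (fun p h => ip (G p h) (dP u p) (dP w p)) := by
  intro φ hφ
  have hopen : IsOpen (φ.target ×ˢ Ioo (-h₁) h₁) := φ.open_target.prod isOpen_Ioo
  have hfst : ∀ {f : E2 → E2 →L[ℝ] ℝ}, ContDiffOn ℝ ∞ f φ.target →
      ContDiffOn ℝ ∞ (fun q : E2 × ℝ => f q.1) (φ.target ×ˢ Ioo (-h₁) h₁) := by
    intro f hf
    exact hf.comp contDiffOn_fst (fun q hq => hq.1)
  have h1 : ContDiffOn ℝ ∞ (fun q : E2 × ℝ => ip (locT φ (fun p => G p q.2) q.1)
      (fderiv ℝ (u ∘ φ.symm) q.1) (fderiv ℝ (w ∘ φ.symm) q.1)) (φ.target ×ˢ Ioo (-h₁) h₁) := by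
    refine bip_cd (hG φ hφ) (hfst ((hu.loc hφ).fderiv_of_isOpen φ.open_target (by simp)))
      (hfst ((hw.loc hφ).fderiv_of_isOpen φ.open_target (by simp))) fun q hq => ?_
    exact (dtB_pos ((posDef_locT (H := fun p => G p q.2) hφ hq.1).2 (hpos _ _ hq.2))).ne'
  refine h1.congr fun q hq => ?_
  exact ip_loc (G := fun p => G p q.2) hφ hq.1 (hpos _ _ hq.2)
    (((hu.loc hφ).contDiffAt (φ.open_target.mem_nhds hq.1)).differentiableAt (by simp))
    (((hw.loc hφ).contDiffAt (φ.open_target.mem_nhds hq.1)).differentiableAt (by simp))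

theorem bip_slice {h₁ : ℝ} {V : Type*} [NormedAddCommGroup V] [NormedSpace ℝ V] {U : Set E2}
    {f : E2 × ℝ → V} (hf : ContDiffOn ℝ ∞ f (U ×ˢ Ioo (-h₁) h₁)) {h : ℝ}
    (hh : h ∈ Ioo (-h₁) h₁) : ContDiffOn ℝ ∞ (fun x => f (x, h)) U :=
  hf.comp (contDiffOn_id.prodMk contDiffOn_const) (fun _ hx => ⟨hx, hh⟩)

theorem bip_smP_sm {h₁ : ℝ} {V : Type*} [NormedAddCommGroup V] [NormedSpace ℝ V] {u : M → ℝ → V}
    (hu : SmP h₁ u) {h : ℝ} (hh : h ∈ Ioo (-h₁) h₁) : Sm (fun p => u p h) :=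
  bip_sm fun φ hφ => bip_slice (hu φ hφ) hh

/-- squares of differentials of parameter dependent functions are smooth -/
theorem smTP_sqT {h₁ : ℝ} {u : M → ℝ → ℝ} (hu : SmP h₁ u) :
    SmTP h₁ (fun p h => sqT (fun q => u q h) p) := by
  intro φ hφ
  have hopen : IsOpen (φ.target ×ˢ Ioo (-h₁) h₁) := φ.open_target.prod isOpen_Ioo
  set v : E2 × ℝ → ℝ := fun q => u (φ.symm q.1) q.2 with hv
  have h1 : ContDiffOn ℝ ∞ v (φ.target ×ˢ Ioo (-h₁) h₁) := hu φ hφ
  have h2 : ContDiffOn ℝ ∞ (fun q => (fderiv ℝ v q).comp (ContinuousLinearMap.inl ℝ E2 ℝ))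
      (φ.target ×ˢ Ioo (-h₁) h₁) :=
    (h1.fderiv_of_isOpen hopen (by simp)).clm_comp contDiffOn_const
  have h3 := ContDiffOn.smulRight h2 h2
  refine h3.congr fun q hq => ?_
  have h4 : locT φ (fun p => sqT (fun p' => u p' q.2) p) q.1 =
      sqC (fderiv ℝ ((fun p' => u p' q.2) ∘ φ.symm) q.1) :=
    locT_sqT (bip_smP_sm hu hq.2) hφ hq.1
  have h5 : fderiv ℝ ((fun p' => u p' q.2) ∘ φ.symm) q.1 =
      (fderiv ℝ v q).comp (ContinuousLinearMap.inl ℝ E2 ℝ) := by
    have h6 : HasFDerivAt v (fderiv ℝ v q) (q.1, q.2) :=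
      ((h1.contDiffAt (hopen.mem_nhds hq)).differentiableAt (by simp)).hasFDerivAt
    have h7 : HasFDerivAt (fun x : E2 => (x, q.2)) (ContinuousLinearMap.inl ℝ E2 ℝ) q.1 :=
      hasFDerivAt_prodMk_left q.1 q.2
    exact (h6.comp q.1 h7).fderiv
  rw [h5] at h4
  exact h4

theorem SmP.sm {h₁ : ℝ} {V : Type*} [NormedAddCommGroup V] [NormedSpace ℝ V] {u : M → ℝ → V}
    (hu : SmP h₁ u) {h : ℝ} (hh : h ∈ Ioo (-h₁) h₁) : Sm (fun p => u p h) := by
  exact bip_smP_sm hu hh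

theorem SmTP.smT {h₁ : ℝ} {H : M → ℝ → Bil} (hH : SmTP h₁ H) {h : ℝ} (hh : h ∈ Ioo (-h₁) h₁) :
    SmT (fun p => H p h) := by
  intro φ hφ
  exact bip_slice (hH φ hφ) hh

/-- a smooth function of `(p, h)` is continuous on `M × (-h₁, h₁)` -/
theorem SmP.continuousOn {h₁ : ℝ} {V : Type*} [NormedAddCommGroup V] [NormedSpace ℝ V]
    {u : M → ℝ → V} (hu : SmP h₁ u) :
    ContinuousOn (fun q : M × ℝ => u q.1 q.2) (univ ×ˢ Ioo (-h₁) h₁) := by
  rintro ⟨p, h⟩ ⟨-, hh⟩
  set φ := chartAt E2 p with hφd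
  have hφ : φ ∈ ATL M := chart_mem_ATL p
  have hp : p ∈ φ.source := mem_chart_source E2 p
  have hopen : IsOpen (φ.target ×ˢ Ioo (-h₁) h₁) := φ.open_target.prod isOpen_Ioo
  have h1 : ContinuousAt (fun q : E2 × ℝ => u (φ.symm q.1) q.2) (φ p, h) :=
    (hu φ hφ).continuousOn.continuousAt (hopen.mem_nhds ⟨φ.map_source hp, hh⟩)
  have h2 : ContinuousAt (fun q : M × ℝ => (φ q.1, q.2)) (p, h) := by
    have h3 : ContinuousAt (fun q : M × ℝ => φ q.1) (p, h) :=
      ContinuousAt.comp (f := fun q : M × ℝ => q.1) (φ.continuousAt hp) continuousAt_fst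
    exact h3.prodMk continuousAt_snd
  have h4 : ContinuousAt (fun q : M × ℝ => u (φ.symm (φ q.1)) q.2) (p, h) :=
    ContinuousAt.comp (f := fun q : M × ℝ => (φ q.1, q.2)) (x := (p, h)) h1 h2
  refine ContinuousAt.continuousWithinAt ?_
  refine h4.congr ?_
  have h5 : ∀ᶠ q : M × ℝ in 𝓝 (p, h), q.1 ∈ φ.source :=
    continuousAt_fst.eventually (φ.open_source.mem_nhds hp)
  filter_upwards [h5] with q hq
  rw [φ.left_inv hq]

end P205F
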