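import Mathlib
import Vale.Agent.Lib.P205F.MD1

/-!
# P205F BASE: good coordinates of `ℝ³` (Sard)

`ι : M → ℝ³` smooth immersion of a compact surface.  There are linear functionals `x, y, z` of `ι`
such that `(x, y, z)` is an immersion and at every critical point of `x` the Hessian of `x` is
nonzero on `ker dy`.

Proof.  In a chart (target `U ⊂ ℝ²`), on the open set `U₃ = {ν₃ ≠ 0}`, `ν = ι_1 × ι_2`, put
`G = (ν₁/ν₃, ν₂/ν₃) : U₃ → ℝ²`.  For `e = (a, b, 1)` the point `p` is critical for `ι·e` iff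
`e ∥ ν(p)` iff `G(p) = (a, b)` (in particular `ν₃(p) ≠ 0`).  There `Hess (ι·e)` is nondegenerate iff
`DG(p)` is invertible: `ι_j·ν = 0` gives `ι_jk·ν = - ι_j·ν_k`, and with `ν = ν₃ (G, 1)`,
`ι_jk·(G,1) = - ι_j·(∂_k G, 0)` at every point; the matrix `(ι_j^1, ι_j^2)_j` is invertible iff
`ν₃ ≠ 0`.  By the equidimensional Sard theorem
(`MeasureTheory.addHaar_image_eq_zero_of_det_fderiv_eq_zero`) the set of critical values of `G` is a
null set for each of countably (finitely) many charts, so some (almost every) `(a, b)` is a regular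
value for all charts.  Then `x := ι·e` has only nondegenerate critical points, which are isolated
(inverse function theorem for `G`), so finitely many by compactness.  At a critical point `p` the
tangent plane `dι(T_pM)` is `e^⊥`.  The Hessian at `p` is a nondegenerate quadratic form on
`e^⊥ ≅ T_pM`, it vanishes on at most two lines; choose a line `ℝ n ⊂ e^⊥`, `n ≠ 0`, different from
all these finitely many lines.  Let `y` be the functional `ι·y₀` with `y₀ ∈ e^⊥` orthogonal to `n`,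
and `z := ι·n`.  On `T_pM`, `dy = 0` exactly on `ℝ n`.
(In the proof below `y = s ι₀ - ι₁`, `z = ι₀`, with `s` outside a finite set.)
-/

noncomputable section

namespace P205F

open scoped Manifold ContDiff Topology RealInnerProductSpace
open Set

abbrev V3 := EuclideanSpace ℝ (Fin 3)

/-- components of a smooth map -/
theorem BXyz_comp {U : Set E2} {ι : E2 → V3} (hι : ContDiffOn ℝ ∞ ι U) (i : Fin 3) :
    ContDiffOn ℝ ∞ (fun y => ι y i) U :=
  (EuclideanSpace.proj (𝕜 := ℝ) i : V3 →L[ℝ] ℝ).contDiff.comp_contDiffOn hι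

theorem BXyz_fderiv_comp {ι : E2 → V3} {x : E2} (hι : DifferentiableAt ℝ ι x) (i : Fin 3)
    (v : E2) : fderiv ℝ (fun y => ι y i) x v = fderiv ℝ ι x v i := by
  have h : HasFDerivAt (fun y => ι y i)
      ((EuclideanSpace.proj (𝕜 := ℝ) i : V3 →L[ℝ] ℝ).comp (fderiv ℝ ι x)) x :=
    (EuclideanSpace.proj (𝕜 := ℝ) i : V3 →L[ℝ] ℝ).hasFDerivAt.comp x hι.hasFDerivAt
  rw [h.fderiv]
  rfl

theorem BXyz_vec (α : E2 →L[ℝ] ℝ) (w : E2) : α w = w.1 * α e1 + w.2 * α e2 := by
  have h : w = w.1 • e1 + w.2 • e2 := by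
    ext <;> simp [e1, e2]
  conv_lhs => rw [h]
  rw [map_add, map_smul, map_smul, smul_eq_mul, smul_eq_mul]

/-- two covectors with nonzero determinant are jointly injective -/
theorem BXyz_inj {α β : E2 →L[ℝ] ℝ} (h : α e1 * β e2 - β e1 * α e2 ≠ 0) {v : E2} (h1 : α v = 0)
    (h2 : β v = 0) : v = 0 := by
  rw [BXyz_vec] at h1 h2
  have e1' : v.1 = 0 := by
    apply (mul_eq_zero.1 (_ : v.1 * (α e1 * β e2 - β e1 * α e2) = 0)).resolve_right h
    linear_combination β e2 * h1 - α e2 * h2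
  have e2' : v.2 = 0 := by
    apply (mul_eq_zero.1 (_ : v.2 * (α e1 * β e2 - β e1 * α e2) = 0)).resolve_right h
    linear_combination -β e1 * h1 + α e1 * h2
  exact Prod.ext e1' e2'

/-- two covectors with zero determinant have a common zero -/
theorem BXyz_ker {α β : E2 →L[ℝ] ℝ} (h : α e1 * β e2 - β e1 * α e2 = 0) :
    ∃ v : E2, v ≠ 0 ∧ α v = 0 ∧ β v = 0 := by
  by_cases hα : α e1 = 0 ∧ α e2 = 0
  · by_cases hβ : β e1 = 0 ∧ β e2 = 0
    · refine ⟨e1, by simp [e1], hα.1, hβ.1⟩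
    · refine ⟨(-β e2, β e1), ?_, ?_, ?_⟩
      · intro h0
        apply hβ
        have h1 := congrArg Prod.fst h0
        have h2 := congrArg Prod.snd h0
        simp only [Prod.fst_zero, Prod.snd_zero, neg_eq_zero] at h1 h2
        exact ⟨h2, h1⟩
      · rw [BXyz_vec, hα.1, hα.2]
        ring
      · rw [BXyz_vec]
        ring
  · refine ⟨(-α e2, α e1), ?_, ?_, ?_⟩
    · intro h0
      apply hα
      have h1 := congrArg Prod.fst h0
      have h2 := congrArg Prod.snd h0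
      simp only [Prod.fst_zero, Prod.snd_zero, neg_eq_zero] at h1 h2
      exact ⟨h2, h1⟩
    · rw [BXyz_vec]
      ring
    · rw [BXyz_vec]
      linear_combination h

/-- (chart level) if `(a, b)` is a regular value of `G = (ν₁/ν₃, ν₂/ν₃)` then all critical points
of `ι·(a, b, 1)` are nondegenerate; hence for almost every `(a, b)` -/
theorem sard_chart {U : Set E2} (hU : IsOpen U) {ι : E2 → V3} (hι : ContDiffOn ℝ ∞ ι U)
    (him : ∀ x ∈ U, Function.Injective (fderiv ℝ ι x)) :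
    ∃ N : Set E2, MeasureTheory.volume N = 0 ∧ ∀ ab : E2, ab ∉ N → ∀ x ∈ U,
      fderiv ℝ (fun y => ab.1 * ι y 0 + ab.2 * ι y 1 + ι y 2) x = 0 →
      (∀ v : E2, v ≠ 0 → ∃ w : E2, fderiv ℝ (fun y => fderiv ℝ
        (fun y => ab.1 * ι y 0 + ab.2 * ι y 1 + ι y 2) y w) x v ≠ 0) ∧
      ∀ᶠ y in 𝓝 x, fderiv ℝ (fun y => ab.1 * ι y 0 + ab.2 * ι y 1 + ι y 2) y = 0 → y = x := by
  -- the covectors `α i y = dι^i(y)`
  set α : Fin 3 → E2 → E2 →L[ℝ] ℝ := fun i => fderiv ℝ (fun y => ι y i) with hα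
  have hcd : ∀ i, ContDiffOn ℝ ∞ (α i) U := fun i =>
    (BXyz_comp hι i).fderiv_of_isOpen hU (by simp)
  have hcw : ∀ i (w : E2), ContDiffOn ℝ ∞ (fun y => α i y w) U := fun i w =>
    (hcd i).clm_apply contDiffOn_const
  have hdw : ∀ i (w : E2), ∀ y ∈ U, DifferentiableAt ℝ (fun y => α i y w) y := fun i w y hy =>
    ((hcw i w).contDiffAt (hU.mem_nhds hy)).differentiableAt (by simp)
  have hιd : ∀ y ∈ U, DifferentiableAt ℝ ι y := fun y hy =>
    (hι.contDiffAt (hU.mem_nhds hy)).differentiableAt (by simp)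
  have hcomp : ∀ i, ∀ y ∈ U, DifferentiableAt ℝ (fun y => ι y i) y := fun i y hy =>
    ((BXyz_comp hι i).contDiffAt (hU.mem_nhds hy)).differentiableAt (by simp)
  -- the function and its derivative
  have hfd : ∀ ab : E2, ∀ y ∈ U, ∀ w : E2,
      fderiv ℝ (fun y => ab.1 * ι y 0 + ab.2 * ι y 1 + ι y 2) y w =
        ab.1 * α 0 y w + ab.2 * α 1 y w + α 2 y w := by
    intro ab y hy w
    have h : HasFDerivAt (fun y => ab.1 * ι y 0 + ab.2 * ι y 1 + ι y 2)
        (ab.1 • α 0 y + ab.2 • α 1 y + α 2 y) y :=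
      (((hcomp 0 y hy).hasFDerivAt.const_mul ab.1).add
        ((hcomp 1 y hy).hasFDerivAt.const_mul ab.2)).add (hcomp 2 y hy).hasFDerivAt
    rw [h.fderiv]
    rfl
  -- the determinant and `G`
  set D : E2 → ℝ := fun y => α 0 y e1 * α 1 y e2 - α 1 y e1 * α 0 y e2 with hD
  set G1 : E2 → ℝ := fun y => (α 1 y e1 * α 2 y e2 - α 2 y e1 * α 1 y e2) * (D y)⁻¹ with hG1
  set G2 : E2 → ℝ := fun y => (α 2 y e1 * α 0 y e2 - α 0 y e1 * α 2 y e2) * (D y)⁻¹ with hG2
  have hDd : ∀ y ∈ U, DifferentiableAt ℝ D y := fun y hy =>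
    ((hdw 0 e1 y hy).mul (hdw 1 e2 y hy)).sub ((hdw 1 e1 y hy).mul (hdw 0 e2 y hy))
  have hG1d : ∀ y ∈ U, D y ≠ 0 → DifferentiableAt ℝ G1 y := fun y hy h0 =>
    (((hdw 1 e1 y hy).mul (hdw 2 e2 y hy)).sub ((hdw 2 e1 y hy).mul (hdw 1 e2 y hy))).mul
      ((hDd y hy).inv h0)
  have hG2d : ∀ y ∈ U, D y ≠ 0 → DifferentiableAt ℝ G2 y := fun y hy h0 =>
    (((hdw 2 e1 y hy).mul (hdw 0 e2 y hy)).sub ((hdw 0 e1 y hy).mul (hdw 2 e2 y hy))).mul
      ((hDd y hy).inv h0)
  -- the identity `G1 α0 + G2 α1 + α2 = 0`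
  have hid : ∀ y, D y ≠ 0 → ∀ w : E2, G1 y * α 0 y w + G2 y * α 1 y w + α 2 y w = 0 := by
    intro y h0 w
    have h1 : G1 y * α 0 y e1 + G2 y * α 1 y e1 + α 2 y e1 = 0 := by
      simp only [hG1, hG2]
      field_simp
      simp only [hD]
      ring
    have h2 : G1 y * α 0 y e2 + G2 y * α 1 y e2 + α 2 y e2 = 0 := by
      simp only [hG1, hG2]
      field_simp
      simp only [hD]
      ring
    rw [BXyz_vec (α 0 y) w, BXyz_vec (α 1 y) w, BXyz_vec (α 2 y) w]
    linear_combination w.1 * h1 + w.2 * h2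
  -- critical points
  have hcrit : ∀ ab : E2, ∀ y ∈ U,
      fderiv ℝ (fun y => ab.1 * ι y 0 + ab.2 * ι y 1 + ι y 2) y = 0 →
      D y ≠ 0 ∧ (G1 y, G2 y) = ab := by
    intro ab y hy hc
    have hz : ∀ w : E2, ab.1 * α 0 y w + ab.2 * α 1 y w + α 2 y w = 0 := by
      intro w
      rw [← hfd ab y hy w, hc]
      rfl
    have h0 : D y ≠ 0 := by
      intro h0
      obtain ⟨v, hv, h1, h2⟩ := BXyz_ker (α := α 0 y) (β := α 1 y) h0
      have h3 : α 2 y v = 0 := by
        have := hz v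
        rw [h1, h2] at this
        linarith
      apply hv
      apply him y hy
      rw [map_zero]
      have hall : ∀ i : Fin 3, fderiv ℝ ι y v i = 0 := by
        intro i
        rw [← BXyz_fderiv_comp (hιd y hy) i v]
        fin_cases i
        · exact h1
        · exact h2
        · exact h3
      ext i
      exact hall i
    refine ⟨h0, ?_⟩
    have h1 := hid y h0
    have k1 : (G1 y - ab.1) * α 0 y e1 + (G2 y - ab.2) * α 1 y e1 = 0 := by
      linear_combination h1 e1 - hz e1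
    have k2 : (G1 y - ab.1) * α 0 y e2 + (G2 y - ab.2) * α 1 y e2 = 0 := by
      linear_combination h1 e2 - hz e2
    have m1 : (G1 y - ab.1) * D y = 0 := by
      simp only [hD]
      linear_combination α 1 y e2 * k1 - α 1 y e1 * k2
    have m2 : (G2 y - ab.2) * D y = 0 := by
      simp only [hD]
      linear_combination -α 0 y e2 * k1 + α 0 y e1 * k2
    have n1 := (mul_eq_zero.1 m1).resolve_right h0
    have n2 := (mul_eq_zero.1 m2).resolve_right h0
    exact Prod.ext (by linarith) (by linarith)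
  -- Sard
  set G : E2 → E2 := fun y => (G1 y, G2 y) with hG
  have hGd : ∀ y ∈ U, D y ≠ 0 → HasFDerivAt G ((fderiv ℝ G1 y).prod (fderiv ℝ G2 y)) y :=
    fun y hy h0 => (hG1d y hy h0).hasFDerivAt.prodMk (hG2d y hy h0).hasFDerivAt
  set s : Set E2 := {y | y ∈ U ∧ D y ≠ 0 ∧ ((fderiv ℝ G1 y).prod (fderiv ℝ G2 y)).det = 0} with hs
  refine ⟨G '' s, ?_, ?_⟩
  · exact MeasureTheory.addHaar_image_eq_zero_of_det_fderivWithin_eq_zero _
      (f' := fun y => (fderiv ℝ G1 y).prod (fderiv ℝ G2 y))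
      (fun y hy => (hGd y hy.1 hy.2.1).hasFDerivWithinAt) (fun y hy => hy.2.2)
  intro ab hab x hx hc
  obtain ⟨h0, hGx⟩ := hcrit ab x hx hc
  have hdet : ((fderiv ℝ G1 x).prod (fderiv ℝ G2 x)).det ≠ 0 := by
    intro h1
    exact hab ⟨x, ⟨hx, h0, h1⟩, hGx⟩
  have hker : (((fderiv ℝ G1 x).prod (fderiv ℝ G2 x) : E2 →L[ℝ] E2) : E2 →ₗ[ℝ] E2).ker = ⊥ := by
    by_contra hcon
    exact hdet (LinearMap.det_eq_zero_iff_ker_ne_bot.2 hcon)
  refine ⟨?_, ?_⟩
  · intro v hv
    by_contra hcon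
    push Not at hcon
    -- derivative of the identity
    have hnear : ∀ᶠ y in 𝓝 x, y ∈ U ∧ D y ≠ 0 :=
      (hU.eventually_mem hx).and ((hDd x hx).continuousAt.eventually_ne h0)
    have hkey : ∀ w : E2, fderiv ℝ G1 x v * α 0 x w + fderiv ℝ G2 x v * α 1 x w = 0 := by
      intro w
      have e1 : (fun y => G1 y * α 0 y w + G2 y * α 1 y w + α 2 y w) =ᶠ[𝓝 x] fun _ => (0 : ℝ) := by
        filter_upwards [hnear] with y hy
        exact hid y hy.2 w
      have e2 := e1.fderiv_eq (𝕜 := ℝ)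
      have e3 : HasFDerivAt (fun y => G1 y * α 0 y w + G2 y * α 1 y w + α 2 y w)
          ((G1 x • fderiv ℝ (fun y => α 0 y w) x + α 0 x w • fderiv ℝ G1 x) +
            (G2 x • fderiv ℝ (fun y => α 1 y w) x + α 1 x w • fderiv ℝ G2 x) +
            fderiv ℝ (fun y => α 2 y w) x) x :=
        (((hG1d x hx h0).hasFDerivAt.mul (hdw 0 w x hx).hasFDerivAt).add
          ((hG2d x hx h0).hasFDerivAt.mul (hdw 1 w x hx).hasFDerivAt)).add
          (hdw 2 w x hx).hasFDerivAt
      rw [e3.fderiv, fderiv_fun_const] at e2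
      have e4 := congrArg (fun T : E2 →L[ℝ] ℝ => T v) e2
      have e4' : (G1 x * fderiv ℝ (fun y => α 0 y w) x v + α 0 x w * fderiv ℝ G1 x v) +
            (G2 x * fderiv ℝ (fun y => α 1 y w) x v + α 1 x w * fderiv ℝ G2 x v) +
            fderiv ℝ (fun y => α 2 y w) x v = 0 := e4
      have e5 : (fun y => fderiv ℝ (fun y => ab.1 * ι y 0 + ab.2 * ι y 1 + ι y 2) y w) =ᶠ[𝓝 x]
          fun y => ab.1 * α 0 y w + ab.2 * α 1 y w + α 2 y w := by
        filter_upwards [hnear] with y hy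
        exact hfd ab y hy.1 w
      have e6 : HasFDerivAt (fun y => ab.1 * α 0 y w + ab.2 * α 1 y w + α 2 y w)
          (ab.1 • fderiv ℝ (fun y => α 0 y w) x + ab.2 • fderiv ℝ (fun y => α 1 y w) x +
            fderiv ℝ (fun y => α 2 y w) x) x :=
        (((hdw 0 w x hx).hasFDerivAt.const_mul ab.1).add
          ((hdw 1 w x hx).hasFDerivAt.const_mul ab.2)).add (hdw 2 w x hx).hasFDerivAt
      have e7 := hcon w
      rw [e5.fderiv_eq, e6.fderiv] at e7
      have e7' : ab.1 * fderiv ℝ (fun y => α 0 y w) x v + ab.2 * fderiv ℝ (fun y => α 1 y w) x v +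
            fderiv ℝ (fun y => α 2 y w) x v = 0 := e7
      have g1 : G1 x = ab.1 := congrArg Prod.fst hGx
      have g2 : G2 x = ab.2 := congrArg Prod.snd hGx
      rw [g1, g2] at e4'
      linear_combination e4' - e7'
    have k1 := hkey e1
    have k2 := hkey e2
    have m1 : fderiv ℝ G1 x v * D x = 0 := by
      simp only [hD]
      linear_combination α 1 x e2 * k1 - α 1 x e1 * k2
    have m2 : fderiv ℝ G2 x v * D x = 0 := by
      simp only [hD]
      linear_combination -α 0 x e2 * k1 + α 0 x e1 * k2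
    have n1 := (mul_eq_zero.1 m1).resolve_right h0
    have n2 := (mul_eq_zero.1 m2).resolve_right h0
    apply hv
    have hmem : v ∈ (((fderiv ℝ G1 x).prod (fderiv ℝ G2 x) : E2 →L[ℝ] E2) :
        E2 →ₗ[ℝ] E2).ker := by
      rw [LinearMap.mem_ker]
      exact Prod.ext n1 n2
    rw [hker] at hmem
    exact (Submodule.mem_bot ℝ).1 hmem
  · obtain ⟨K, -, hK⟩ := LinearMap.exists_antilipschitzWith
      (((fderiv ℝ G1 x).prod (fderiv ℝ G2 x) : E2 →L[ℝ] E2) : E2 →ₗ[ℝ] E2) hker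
    have h1 := (hGd x hx h0).eventually_ne (c := ab) ⟨K, hK⟩
    rw [eventually_nhdsWithin_iff] at h1
    filter_upwards [h1, hU.mem_nhds hx] with y hy hyU hyc
    by_contra hne
    exact hy hne (hcrit ab y hyU hyc).2

/-! ### Second derivatives at critical points -/

theorem BXyz_second {f : E2 → ℝ} {x : E2} (hf : ContDiffAt ℝ ∞ f x) (v w : E2) :
    fderiv ℝ (fun y => fderiv ℝ f y w) x v = fderiv ℝ (fderiv ℝ f) x v w := by
  have h1 : DifferentiableAt ℝ (fderiv ℝ f) x :=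
    (hf.fderiv_right (m := ∞) (by simp)).differentiableAt (by simp)
  have h2 : HasFDerivAt (fun y => fderiv ℝ f y w)
      ((fderiv ℝ f x) ∘SL (0 : E2 →L[ℝ] E2) + (fderiv ℝ (fderiv ℝ f) x).flip w) x :=
    h1.hasFDerivAt.clm_apply (hasFDerivAt_const w x)
  rw [h2.fderiv]
  simp

theorem BXyz_symm {f : E2 → ℝ} {x : E2} (hf : ContDiffAt ℝ ∞ f x) (v w : E2) :
    fderiv ℝ (fderiv ℝ f) x v w = fderiv ℝ (fderiv ℝ f) x w v :=
  (hf.isSymmSndFDerivAt (by
    simp only [minSmoothness_of_isRCLikeNormedField]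
    exact WithTop.coe_le_coe.2 (le_top : (2 : ℕ∞) ≤ ⊤))).eq v w

/-- the Hessian at a critical point in another chart -/
theorem BXyz_hess {f h : E2 → ℝ} {T : E2 → E2} {x : E2} (hf : ContDiffAt ℝ ∞ f (T x))
    (hT : ContDiffAt ℝ ∞ T x) (hh : h =ᶠ[𝓝 x] f ∘ T) (hc : fderiv ℝ f (T x) = 0) (v w : E2) :
    fderiv ℝ (fderiv ℝ h) x v w =
      fderiv ℝ (fderiv ℝ f) (T x) (fderiv ℝ T x v) (fderiv ℝ T x w) := by
  have hd1 : DifferentiableAt ℝ (fderiv ℝ f) (T x) :=
    (hf.fderiv_right (m := ∞) (by simp)).differentiableAt (by simp)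
  have hd2 : DifferentiableAt ℝ (fderiv ℝ T) x :=
    (hT.fderiv_right (m := ∞) (by simp)).differentiableAt (by simp)
  have hTd : DifferentiableAt ℝ T x := hT.differentiableAt (by simp)
  have hcomp : ContDiffAt ℝ ∞ (f ∘ T) x := hf.comp x hT
  have hhc : ContDiffAt ℝ ∞ h x := hcomp.congr_of_eventuallyEq hh
  -- the derivative near `x`
  have e1 : ∀ᶠ y in 𝓝 x, fderiv ℝ h y w = fderiv ℝ f (T y) (fderiv ℝ T y w) := by
    have n1 : ∀ᶠ y in 𝓝 x, DifferentiableAt ℝ T y := by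
      have h1 : ContDiffAt ℝ 1 T x := hT.of_le (by exact_mod_cast le_top)
      filter_upwards [h1.eventually (by simp)] with y hy using hy.differentiableAt (by simp)
    have n2 : ∀ᶠ y in 𝓝 x, DifferentiableAt ℝ f (T y) := by
      have h1 : ContDiffAt ℝ 1 f (T x) := hf.of_le (by exact_mod_cast le_top)
      have h3 : ∀ᶠ z in 𝓝 (T x), ContDiffAt ℝ 1 f z := h1.eventually (by simp)
      have h4 := hTd.continuousAt.eventually h3
      filter_upwards [h4] with y hy using hy.differentiableAt (by simp)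
    filter_upwards [hh.eventuallyEq_nhds, n1, n2] with y hy h1 h2
    rw [hy.fderiv_eq, fderiv_comp y h2 h1]
    rfl
  rw [← BXyz_second hhc v w, Filter.EventuallyEq.fderiv_eq e1]
  have e2 : HasFDerivAt (fun y => fderiv ℝ f (T y))
      ((fderiv ℝ (fderiv ℝ f) (T x)).comp (fderiv ℝ T x)) x :=
    HasFDerivAt.comp x hd1.hasFDerivAt hTd.hasFDerivAt
  have e3 : HasFDerivAt (fun y => fderiv ℝ T y w)
      ((fderiv ℝ T x) ∘SL (0 : E2 →L[ℝ] E2) + (fderiv ℝ (fderiv ℝ T) x).flip w) x :=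
    hd2.hasFDerivAt.clm_apply (hasFDerivAt_const w x)
  rw [(e2.clm_apply e3).fderiv, hc]
  simp

/-! ### Quadratic polynomials -/

theorem BXyz_poly {a b : ℝ} (c : ℝ) (h : a ≠ 0 ∨ b ≠ 0) :
    {s : ℝ | a + b * s + c * s ^ 2 = 0}.Finite := by
  have hne : (Polynomial.C a + Polynomial.C b * Polynomial.X +
      Polynomial.C c * Polynomial.X ^ 2 : Polynomial ℝ) ≠ 0 := by
    intro h0
    have h1 := congrArg (fun p => Polynomial.coeff p 0) h0
    have h2 := congrArg (fun p => Polynomial.coeff p 1) h0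
    simp [Polynomial.coeff_X, Polynomial.coeff_C] at h1 h2
    rcases h with h | h
    · exact h h1
    · exact h h2
  refine (Polynomial.finite_setOfPred_isRoot hne).subset ?_
  intro s hs
  have hs' : a + b * s + c * s ^ 2 = 0 := hs
  show Polynomial.IsRoot _ s
  simp only [Polynomial.IsRoot, Polynomial.eval_add, Polynomial.eval_mul, Polynomial.eval_C,
    Polynomial.eval_X, Polynomial.eval_pow]
  exact hs'

/-- only finitely many lines are isotropic -/
theorem BXyz_lines (B : E2 →L[ℝ] E2 →L[ℝ] ℝ) (hs : ∀ v w, B v w = B w v)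
    (hn : ∀ v, v ≠ 0 → ∃ w, B v w ≠ 0) (α β : E2 →L[ℝ] ℝ)
    (hd : α e1 * β e2 - β e1 * α e2 ≠ 0) :
    {s : ℝ | ∃ v : E2, v ≠ 0 ∧ s * α v - β v = 0 ∧ B v v = 0}.Finite := by
  set D := α e1 * β e2 - β e1 * α e2 with hD
  -- the dual basis
  set v1 : E2 := (β e2 / D, -β e1 / D) with hv1
  set v2 : E2 := (-α e2 / D, α e1 / D) with hv2
  have a1 : α v1 = 1 := by
    rw [BXyz_vec, hv1]
    simp only
    field_simp
    rw [hD]
    ring
  have b1 : β v1 = 0 := by
    rw [BXyz_vec, hv1]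
    simp only
    field_simp
    ring
  have a2 : α v2 = 0 := by
    rw [BXyz_vec, hv2]
    simp only
    field_simp
    ring
  have b2 : β v2 = 1 := by
    rw [BXyz_vec, hv2]
    simp only
    field_simp
    rw [hD]
    ring
  have hdec : ∀ v : E2, v = α v • v1 + β v • v2 := by
    intro v
    have h1 : v - (α v • v1 + β v • v2) = 0 := by
      apply BXyz_inj hd
      · rw [map_sub, map_add, map_smul, map_smul, a1, a2]
        simp
      · rw [map_sub, map_add, map_smul, map_smul, b1, b2]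
        simp
    exact sub_eq_zero.1 h1
  have hne : B v1 v1 ≠ 0 ∨ 2 * B v1 v2 ≠ 0 := by
    by_contra hcon
    push Not at hcon
    obtain ⟨h1, h2⟩ := hcon
    have h3 : v1 ≠ 0 := by
      intro h0
      rw [h0, map_zero] at a1
      exact zero_ne_one a1
    obtain ⟨w, hw⟩ := hn v1 h3
    apply hw
    rw [hdec w, map_add, map_smul, map_smul, h1]
    have h4 : B v1 v2 = 0 := by linarith
    rw [h4]
    simp
  refine (BXyz_poly (B v2 v2) hne).subset ?_
  rintro s ⟨v, hv, h1, h2⟩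
  have h3 : β v = s * α v := by linarith
  have h4 : α v ≠ 0 := by
    intro h0
    apply hv
    rw [hdec v, h3, h0]
    simp
  have h5 : v = α v • (v1 + s • v2) := by
    rw [smul_add, smul_smul, mul_comm (α v) s, ← h3]
    exact hdec v
  have h6 : B v v = α v ^ 2 * (B v1 v1 + 2 * B v1 v2 * s + B v2 v2 * s ^ 2) := by
    have h7 : B v v = B (α v • (v1 + s • v2)) (α v • (v1 + s • v2)) := by rw [← h5]
    rw [h7]
    simp only [map_smul, map_add, add_apply, smul_apply,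
      smul_eq_mul]
    rw [hs v2 v1]
    ring
  rw [h6] at h2
  exact (mul_eq_zero.1 h2).resolve_left (pow_ne_zero 2 h4)

variable {M : Type} [TopologicalSpace M] [ChartedSpace E2 M] [IsManifold 𝓘(ℝ, E2) ∞ M]

/-- good coordinates -/
def GoodXYZ (x y z : M → ℝ) : Prop :=
  Sm x ∧ Sm y ∧ Sm z ∧
  (∀ p v, dP x p v = 0 → dP y p v = 0 → dP z p v = 0 → v = 0) ∧
  ∀ p, dP x p = 0 → ∀ v : E2, v ≠ 0 → dP y p v = 0 →
    ddv v (x ∘ (chartAt E2 p).symm) (chartAt E2 p p) ≠ 0

theorem BXyz_sm {ι : M → V3} (hι : Sm ι) (L : V3 →L[ℝ] ℝ) : Sm (fun p => L (ι p)) :=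
  L.contMDiff.comp hι

theorem BXyz_loc {ι : M → V3} (hι : Sm ι) (L : V3 →L[ℝ] ℝ) {φ : OpenPartialHomeomorph M E2}
    (hφ : φ ∈ ATL M) {x : E2} (hx : x ∈ φ.target) (v : E2) :
    fderiv ℝ ((fun p => L (ι p)) ∘ φ.symm) x v = L (fderiv ℝ (ι ∘ φ.symm) x v) := by
  have h1 : DifferentiableAt ℝ (ι ∘ φ.symm) x :=
    ((hι.loc hφ).contDiffAt (φ.open_target.mem_nhds hx)).differentiableAt (by simp)
  have h2 : HasFDerivAt ((fun p => L (ι p)) ∘ φ.symm) (L.comp (fderiv ℝ (ι ∘ φ.symm) x)) x :=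
    L.hasFDerivAt.comp x h1.hasFDerivAt
  rw [h2.fderiv]
  rfl

theorem BXyz_dP {ι : M → V3} (hι : Sm ι) (L : V3 →L[ℝ] ℝ) (p : M) (v : E2) :
    dP (fun p => L (ι p)) p v = L (dP ι p v) :=
  BXyz_loc hι L (chart_mem_ATL p) (mem_chart_target E2 p) v

theorem BXyz_imm {ι : M → V3} (hι : Sm ι) (him : ∀ p, Function.Injective (dP ι p))
    {φ : OpenPartialHomeomorph M E2} (hφ : φ ∈ ATL M) {x : E2} (hx : x ∈ φ.target) :
    Function.Injective (fderiv ℝ (ι ∘ φ.symm) x) := by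
  have h1 : DifferentiableAt ℝ (ι ∘ φ.symm) x :=
    ((hι.loc hφ).contDiffAt (φ.open_target.mem_nhds hx)).differentiableAt (by simp)
  rw [← dP_comp_TTi hφ hx h1]
  have h2 : Function.Injective (TTi φ x) := by
    intro v w hvw
    have h3 := TT_comp_TTi hφ hx
    have h4 : ∀ u : E2, TT φ (φ.symm x) (TTi φ x u) = u := fun u =>
      congrArg (fun T : E2 →L[ℝ] E2 => T u) h3
    rw [← h4 v, ← h4 w, hvw]
  exact (him (φ.symm x)).comp h2

/-- a function with zero differential has zero differential in all charts, and conversely -/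
theorem BXyz_dP_zero {X : M → ℝ} (hX : Sm X) {φ : OpenPartialHomeomorph M E2} (hφ : φ ∈ ATL M)
    {p : M} (hp : p ∈ φ.source) : dP X p = 0 ↔ fderiv ℝ (X ∘ φ.symm) (φ p) = 0 := by
  have hx : φ p ∈ φ.target := φ.map_source hp
  have h1 : DifferentiableAt ℝ (X ∘ φ.symm) (φ p) :=
    ((hX.loc hφ).contDiffAt (φ.open_target.mem_nhds hx)).differentiableAt (by simp)
  constructor
  · intro h
    rw [← dP_comp_TTi hφ hx h1, φ.left_inv hp, h]
    exact ContinuousLinearMap.zero_comp _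
  · intro h
    rw [dP_eq hφ hp h1, h]
    exact ContinuousLinearMap.zero_comp _

theorem exists_goodXYZ [CompactSpace M] [T2Space M] (ι : M → V3) (hι : Sm ι)
    (him : ∀ p, Function.Injective (dP ι p)) : ∃ x y z : M → ℝ, GoodXYZ x y z := by
  -- Sard in the preferred charts
  have hsard := fun q : M => sard_chart (chartAt E2 q).open_target (hι.loc (chart_mem_ATL q))
    (fun x hx => BXyz_imm hι him (chart_mem_ATL q) hx)
  choose N hN0 hN using hsard
  obtain ⟨t, ht⟩ := CompactSpace.elim_nhds_subcover (fun q : M => (chartAt E2 q).source)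
    (fun q => (chartAt E2 q).open_source.mem_nhds (mem_chart_source E2 q))
  have hcov : ∀ p : M, ∃ q ∈ t, p ∈ (chartAt E2 q).source := by
    intro p
    have h1 : p ∈ ⋃ q ∈ t, (chartAt E2 q).source := by
      rw [ht]
      exact mem_univ p
    simpa using h1
  have hnull : MeasureTheory.volume (⋃ q ∈ t, N q) = 0 :=
    (MeasureTheory.measure_biUnion_null_iff t.countable_toSet).2 fun q _ => hN0 q
  obtain ⟨ab, hab⟩ := (MeasureTheory.measure_eq_zero_iff_ae_notMem.1 hnull).exists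
  have hab' : ∀ q ∈ t, ab ∉ N q := by
    intro q hq h
    exact hab (mem_biUnion hq h)
  -- the functionals
  set L0 : V3 →L[ℝ] ℝ := EuclideanSpace.proj (𝕜 := ℝ) 0 with hL0
  set L1 : V3 →L[ℝ] ℝ := EuclideanSpace.proj (𝕜 := ℝ) 1 with hL1
  set L2 : V3 →L[ℝ] ℝ := EuclideanSpace.proj (𝕜 := ℝ) 2 with hL2
  set X : M → ℝ := fun p => (ab.1 • L0 + ab.2 • L1 + L2) (ι p) with hX
  have hXs : Sm X := BXyz_sm hι _
  have hXe : ∀ φ : OpenPartialHomeomorph M E2, X ∘ φ.symm =
      fun y => ab.1 * (ι ∘ φ.symm) y 0 + ab.2 * (ι ∘ φ.symm) y 1 + (ι ∘ φ.symm) y 2 :=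
    fun φ => rfl
  -- the conclusion of Sard at a critical point
  have hcr : ∀ p : M, dP X p = 0 → ∃ q ∈ t, p ∈ (chartAt E2 q).source ∧
      (∀ v : E2, v ≠ 0 → ∃ w : E2, fderiv ℝ (fderiv ℝ (X ∘ (chartAt E2 q).symm))
        (chartAt E2 q p) v w ≠ 0) ∧
      ∀ᶠ y in 𝓝 (chartAt E2 q p), fderiv ℝ (X ∘ (chartAt E2 q).symm) y = 0 →
        y = chartAt E2 q p := by
    intro p hp
    obtain ⟨q, hq, hpq⟩ := hcov p
    have hx : chartAt E2 q p ∈ (chartAt E2 q).target := (chartAt E2 q).map_source hpq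
    have h1 := (BXyz_dP_zero hXs (chart_mem_ATL q) hpq).1 hp
    obtain ⟨h2, h3⟩ := hN q ab (hab' q hq) _ hx h1
    refine ⟨q, hq, hpq, ?_, h3⟩
    intro v hv
    obtain ⟨w, hw⟩ := h2 v hv
    refine ⟨w, ?_⟩
    have h4 : ContDiffAt ℝ ∞ (X ∘ (chartAt E2 q).symm) (chartAt E2 q p) :=
      (hXs.loc (chart_mem_ATL q)).contDiffAt ((chartAt E2 q).open_target.mem_nhds hx)
    rw [← BXyz_second h4 v w]
    exact hw
  -- critical points are isolated
  have hiso : ∀ p : M, {q' : M | dP X q' = 0 → q' = p} ∈ 𝓝 p := by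
    intro p
    by_cases hp : dP X p = 0
    · obtain ⟨q, hq, hpq, -, h3⟩ := hcr p hp
      have h4 := ((chartAt E2 q).continuousAt hpq).eventually h3
      filter_upwards [h4, (chartAt E2 q).open_source.mem_nhds hpq] with q' hq' hs hc
      exact (chartAt E2 q).injOn hs hpq
        (hq' ((BXyz_dP_zero hXs (chart_mem_ATL q) hs).1 hc))
    · have hpq := mem_chart_source E2 p
      have hx : chartAt E2 p p ∈ (chartAt E2 p).target := (chartAt E2 p).map_source hpq
      have h1 : fderiv ℝ (X ∘ (chartAt E2 p).symm) (chartAt E2 p p) ≠ 0 := hp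
      have h2 : ContinuousAt (fderiv ℝ (X ∘ (chartAt E2 p).symm)) (chartAt E2 p p) := by
        have h4 : ContDiffAt ℝ ∞ (X ∘ (chartAt E2 p).symm) (chartAt E2 p p) :=
          (hXs.loc (chart_mem_ATL p)).contDiffAt ((chartAt E2 p).open_target.mem_nhds hx)
        exact (h4.fderiv_right (m := ∞) (by simp)).continuousAt
      have h3 := ((chartAt E2 p).continuousAt hpq).eventually (h2.eventually_ne h1)
      filter_upwards [h3, (chartAt E2 p).open_source.mem_nhds hpq] with q' hq' hs hc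
      exact absurd ((BXyz_dP_zero hXs (chart_mem_ATL p) hs).1 hc) hq'
  have hfin : {p : M | dP X p = 0}.Finite := by
    obtain ⟨t', ht'⟩ := CompactSpace.elim_nhds_subcover _ hiso
    refine t'.finite_toSet.subset ?_
    intro q' hq'
    have h1 : q' ∈ ⋃ p ∈ t', {q' : M | dP X q' = 0 → q' = p} := by
      rw [ht']
      exact mem_univ q'
    simp only [mem_iUnion] at h1
    obtain ⟨p, hp, h2⟩ := h1
    have h3 : q' = p := h2 hq'
    rw [h3]
    exact hp
  -- the Hessian in the preferred chart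
  have hB : ∀ p : M, dP X p = 0 → ∀ v : E2, v ≠ 0 → ∃ w : E2,
      fderiv ℝ (fderiv ℝ (X ∘ (chartAt E2 p).symm)) (chartAt E2 p p) v w ≠ 0 := by
    intro p hp v hv
    obtain ⟨q, hq, hpq, h2, -⟩ := hcr p hp
    set φ := chartAt E2 q with hφ
    set χ := chartAt E2 p with hχ
    have hφA : φ ∈ ATL M := chart_mem_ATL q
    have hχA : χ ∈ ATL M := chart_mem_ATL p
    have hps : p ∈ χ.source := mem_chart_source E2 p
    have hx : χ p ∈ χ.target := χ.map_source hps
    have hxm : χ p ∈ χ.target ∩ χ.symm ⁻¹' φ.source := by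
      refine ⟨hx, ?_⟩
      show χ.symm (χ p) ∈ φ.source
      rw [χ.left_inv hps]
      exact hpq
    have hopen : IsOpen (χ.target ∩ χ.symm ⁻¹' φ.source) :=
      χ.isOpen_inter_preimage_symm φ.open_source
    have hT : ContDiffAt ℝ ∞ (φ ∘ χ.symm) (χ p) :=
      (ATL_trans hχA hφA).contDiffAt (hopen.mem_nhds hxm)
    have hTp : (φ ∘ χ.symm) (χ p) = φ p := by
      show φ (χ.symm (χ p)) = φ p
      rw [χ.left_inv hps]
    have hf : ContDiffAt ℝ ∞ (X ∘ φ.symm) ((φ ∘ χ.symm) (χ p)) := by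
      rw [hTp]
      exact (hXs.loc hφA).contDiffAt (φ.open_target.mem_nhds (φ.map_source hpq))
    have hh : X ∘ χ.symm =ᶠ[𝓝 (χ p)] (X ∘ φ.symm) ∘ (φ ∘ χ.symm) := by
      filter_upwards [hopen.mem_nhds hxm] with y hy
      show X (χ.symm y) = X (φ.symm (φ (χ.symm y)))
      rw [φ.left_inv hy.2]
    have hc : fderiv ℝ (X ∘ φ.symm) ((φ ∘ χ.symm) (χ p)) = 0 := by
      rw [hTp]
      exact (BXyz_dP_zero hXs hφA hpq).1 hp
    have hinv : (TTi φ (φ p)).comp (TT φ p) = ContinuousLinearMap.id ℝ E2 :=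
      TTi_comp_TT hφA hpq
    have hinv' : (TT φ (φ.symm (φ p))).comp (TTi φ (φ p)) = ContinuousLinearMap.id ℝ E2 :=
      TT_comp_TTi hφA (φ.map_source hpq)
    rw [φ.left_inv hpq] at hinv'
    have k1 : ∀ u : E2, TTi φ (φ p) (TT φ p u) = u := fun u =>
      congrArg (fun T : E2 →L[ℝ] E2 => T u) hinv
    have k2 : ∀ u : E2, TT φ p (TTi φ (φ p) u) = u := fun u =>
      congrArg (fun T : E2 →L[ℝ] E2 => T u) hinv'
    have hv' : TT φ p v ≠ 0 := by
      intro h0
      apply hv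
      rw [← k1 v, h0, map_zero]
    obtain ⟨w, hw⟩ := h2 (TT φ p v) hv'
    refine ⟨TTi φ (φ p) w, ?_⟩
    rw [BXyz_hess hf hT hh hc, hTp]
    have k3 : fderiv ℝ (φ ∘ χ.symm) (χ p) = TT φ p := rfl
    rw [k3, k2]
    exact hw
  -- the finite set of bad parameters
  have hbad : (⋃ p ∈ {p : M | dP X p = 0}, {s : ℝ | ∃ v : E2, v ≠ 0 ∧
      s * dP (fun p => L0 (ι p)) p v - dP (fun p => L1 (ι p)) p v = 0 ∧
      fderiv ℝ (fderiv ℝ (X ∘ (chartAt E2 p).symm)) (chartAt E2 p p) v v = 0}).Finite := by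
    refine hfin.biUnion fun p hp => ?_
    have hp' : dP X p = 0 := hp
    have hx : chartAt E2 p p ∈ (chartAt E2 p).target := mem_chart_target E2 p
    have h4 : ContDiffAt ℝ ∞ (X ∘ (chartAt E2 p).symm) (chartAt E2 p p) :=
      (hXs.loc (chart_mem_ATL p)).contDiffAt ((chartAt E2 p).open_target.mem_nhds hx)
    refine BXyz_lines _ (fun v w => BXyz_symm h4 v w) (hB p hp') _ _ ?_
    intro h0
    obtain ⟨v, hv, h1, h2⟩ := BXyz_ker h0
    apply hv
    apply him p
    rw [map_zero]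
    rw [BXyz_dP hι] at h1 h2
    have h3 : (ab.1 • L0 + ab.2 • L1 + L2) (dP ι p v) = 0 := by
      rw [← BXyz_dP hι]
      have : dP X p v = 0 := by rw [hp']; rfl
      exact this
    have h5 : ab.1 * L0 (dP ι p v) + ab.2 * L1 (dP ι p v) + L2 (dP ι p v) = 0 := h3
    have h6 : L2 (dP ι p v) = 0 := by
      rw [h1, h2] at h5
      linarith
    have hall : ∀ i : Fin 3, dP ι p v i = 0 := by
      intro i
      fin_cases i
      · exact h1
      · exact h2
      · exact h6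
    ext i
    exact hall i
  obtain ⟨s, hs⟩ := hbad.exists_notMem
  have hs' : ∀ p : M, dP X p = 0 → ∀ v : E2, v ≠ 0 →
      s * dP (fun p => L0 (ι p)) p v - dP (fun p => L1 (ι p)) p v = 0 →
      fderiv ℝ (fderiv ℝ (X ∘ (chartAt E2 p).symm)) (chartAt E2 p p) v v ≠ 0 := by
    intro p hp v hv h1 h2
    exact hs (mem_biUnion (show p ∈ {p : M | dP X p = 0} from hp) ⟨v, hv, h1, h2⟩)
  refine ⟨X, fun p => (s • L0 - L1) (ι p), fun p => L0 (ι p), hXs, BXyz_sm hι _, BXyz_sm hι _,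
    ?_, ?_⟩
  · intro p v h1 h2 h3
    apply him p
    rw [map_zero]
    have g1 : (ab.1 • L0 + ab.2 • L1 + L2) (dP ι p v) = 0 := by
      rw [← BXyz_dP hι]
      exact h1
    rw [BXyz_dP hι] at h2 h3
    have g1' : ab.1 * L0 (dP ι p v) + ab.2 * L1 (dP ι p v) + L2 (dP ι p v) = 0 := g1
    have g2' : s * L0 (dP ι p v) - L1 (dP ι p v) = 0 := h2
    rw [h3] at g1' g2'
    have g3 : L1 (dP ι p v) = 0 := by linarith
    rw [g3] at g1'
    have g4 : L2 (dP ι p v) = 0 := by linarith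
    have hall : ∀ i : Fin 3, dP ι p v i = 0 := by
      intro i
      fin_cases i
      · exact h3
      · exact g3
      · exact g4
    ext i
    exact hall i
  · intro p hp v hv h1
    have hx : chartAt E2 p p ∈ (chartAt E2 p).target := mem_chart_target E2 p
    have h4 : ContDiffAt ℝ ∞ (X ∘ (chartAt E2 p).symm) (chartAt E2 p p) :=
      (hXs.loc (chart_mem_ATL p)).contDiffAt ((chartAt E2 p).open_target.mem_nhds hx)
    have h5 : ddv v (X ∘ (chartAt E2 p).symm) (chartAt E2 p p) =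
        fderiv ℝ (fderiv ℝ (X ∘ (chartAt E2 p).symm)) (chartAt E2 p p) v v :=
      BXyz_second h4 v v
    rw [h5]
    apply hs' p hp v hv
    rw [BXyz_dP hι] at h1
    rw [BXyz_dP hι, BXyz_dP hι]
    exact h1

end P205F
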