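import Mathlib
import Vale.Agent.Lib.P205B.BIp
import Vale.Agent.Lib.P205B.BXyz

/-!
# P205F BASE: the weight

`A = x + τ y`, `B = x - τ y`, `e = dx² + dy² + dz²`, `N u := ip e du dz` (derivative of `u` along the
`e`-gradient `N = sharp e dz` of `z`), `j2 := |dx|²_g |dy|²_g - ⟨dx, dy⟩²_g ≥ 0`
(zero set `Σ = {dx ∧ dy = 0}`), `m := κ z + δ sin (N j2 / (2 δ τ'))`.

Facts on `Σ`: `n := N(p)` satisfies `dx n = dy n = 0`, `dz n = 1`; `d(j2) = 0` and
`N (N j2) = D² j2 (n, n) =: 2 K2 ≥ 0` in a chart; so `dm(n) = κ + K2 / τ'` there.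
If moreover `dx_p = 0` then `K2 > 0`: in a chart `j2 = J²/det g`, `J = x_1 y_2 - x_2 y_1`,
`D² j2 (n,n) = 2 (DJ n)²/det g` and `DJ n = D²x(n, w)`, `w = (y_2, -y_1) ∈ ker dy = ℝ n`, `w ≠ 0`.

`Ξ(p, n) := 2 dm(n) (e^{2m} P² + e^{-2m} Q²) + ½ (P - Q) (e^{2m} dP(n) + e^{-2m} dQ(n))`,
`P = |dA|²_g`, `Q = |dB|²_g` (functions on `M`), `P - Q = 4 τ ⟨dx, dy⟩_g`,
`P + Q = 2 |dx|² + 2 τ² |dy|²`.

CLAIM: `Ξ(p, N(p)) > 0` on `Σ` for suitable `κ, δ > 0` (`κ |z| ≤ 1/2`, `δ ≤ 1/2`, so `|m| ≤ 1`), then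
`τ` small, then `τ'` small (depending on `τ`).  Proof: for `τ ≤ 1` the derivatives `|dP(n)|, |dQ(n)|`
are `≤ C`.  The compact set `Z = Σ ∩ {K2 = 0}` is disjoint from `{dx = 0}`; so there are `c > 0` and an
open `W ⊇ Z` in `Σ` with `|dx|² ≥ c` on `W`: there `P² + Q² ≥ (P+Q)²/2 ≥ 2 c²`, first term
`≥ 2 κ e^{-2} 2 c²`, second `≥ - C' τ`.  So `Ξ > 0` on `W` for `τ ≤ τ₀`.  On `Σ \ W`: `K2 ≥ c'' > 0`, so
`dm(n) ≥ c''/τ'`, and `P + Q ≥ c(τ) > 0` (`(dx, dy) ≠ 0` everywhere), so `Ξ > 0` for `τ' ≤ τ'₀(τ)`.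
(`sin` has `sin 0 = 0`, `sin' 0 = 1`; on `Σ` its argument is `0` because `d(j2) = 0` there.)
-/

noncomputable section

namespace P205F

open scoped Manifold ContDiff Topology RealInnerProductSpace
open Set

variable {M : Type} [TopologicalSpace M] [ChartedSpace E2 M]

/-- `|du|²_g` -/
def nrmD (g : M → Bil) (u : M → ℝ) (p : M) : ℝ := ip (g p) (dP u p) (dP u p)

/-- the quantity `Ξ` -/
def Xi (g : M → Bil) (A B m : M → ℝ) (p : M) (n : E2) : ℝ :=
  2 * dP m p n * (Real.exp (2 * m p) * nrmD g A p ^ 2 + Real.exp (-(2 * m p)) * nrmD g B p ^ 2)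
    + (nrmD g A p - nrmD g B p) / 2 *
      (Real.exp (2 * m p) * dP (nrmD g A) p n + Real.exp (-(2 * m p)) * dP (nrmD g B) p n)

/-- output of this part -/
def Weights (g : M → Bil) (A B m : M → ℝ) (τ : ℝ) : Prop :=
  Sm A ∧ Sm B ∧ Sm m ∧ 0 < τ ∧ (∀ p, |m p| ≤ 1) ∧
  (∀ p, dP A p ≠ 0 ∨ dP B p ≠ 0) ∧
  ∀ p, detC (dP A p) (dP B p) = 0 → ∃ n : E2, dP A p n = 0 ∧ dP B p n = 0 ∧ 0 < Xi g A B m p n

variable [IsManifold 𝓘(ℝ, E2) ∞ M]

/-- `j2` -/
def jtwo (g : M → Bil) (x y : M → ℝ) (p : M) : ℝ :=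
  nrmD g x p * nrmD g y p - ip (g p) (dP x p) (dP y p) ^ 2

/-- the metric `dx² + dy² + dz²` -/
def eM (x y z : M → ℝ) (p : M) : Bil := sqT x p + sqT y p + sqT z p

omit [IsManifold 𝓘(ℝ, E2) ∞ M] in
private theorem BWt_sqC (α : E2 →L[ℝ] ℝ) (v w : E2) : sqC α v w = α v * α w := by
  simp [sqC]

omit [IsManifold 𝓘(ℝ, E2) ∞ M] in
private theorem BWt_eM (x y z : M → ℝ) (p : M) (v w : E2) :
    eM x y z p v w = dP x p v * dP x p w + dP y p v * dP y p w + dP z p v * dP z p w := by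
  simp [eM, sqT, BWt_sqC]

private theorem BWt_vec (v : E2) : v = v.1 • e1 + v.2 • e2 := by
  ext <;> simp [e1, e2]

private theorem BWt_app (α : E2 →L[ℝ] ℝ) (v : E2) : α v = v.1 * α e1 + v.2 * α e2 := by
  conv_lhs => rw [BWt_vec v]
  simp

private theorem BWt_cd {V : Type*} [NormedAddCommGroup V] [NormedSpace ℝ V] {F : M → V}
    (hF : Sm F) (p : M) :
    ContDiffAt ℝ ∞ (F ∘ (chartAt E2 p).symm) (chartAt E2 p p) :=
  (hF.loc (chart_mem_ATL p)).contDiffAt
    ((chartAt E2 p).open_target.mem_nhds (mem_chart_target E2 p))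

private theorem BWt_hasF {V : Type*} [NormedAddCommGroup V] [NormedSpace ℝ V] {F : M → V}
    (hF : Sm F) (p : M) :
    HasFDerivAt (F ∘ (chartAt E2 p).symm) (dP F p) (chartAt E2 p p) :=
  ((BWt_cd hF p).differentiableAt (by simp)).hasFDerivAt

theorem isMetric_eM {x y z : M → ℝ} (h : GoodXYZ x y z) : IsMetric (eM x y z) := by
  obtain ⟨hx, hy, hz, hi, -⟩ := h
  refine ⟨((smT_sqT hx).add (smT_sqT hy)).add (smT_sqT hz), fun p => ⟨fun v w => ?_,
    fun v hv => ?_⟩⟩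
  · rw [BWt_eM, BWt_eM]
    ring
  · rw [BWt_eM]
    by_contra hc
    have h1 : dP x p v * dP x p v + dP y p v * dP y p v + dP z p v * dP z p v = 0 := by
      refine le_antisymm (not_lt.1 hc) ?_
      have h2 := mul_self_nonneg (dP x p v)
      have h3 := mul_self_nonneg (dP y p v)
      have h4 := mul_self_nonneg (dP z p v)
      linarith
    have h2 := mul_self_nonneg (dP x p v)
    have h3 := mul_self_nonneg (dP y p v)
    have h4 := mul_self_nonneg (dP z p v)
    exact hv (hi p v (mul_self_eq_zero.1 (by linarith)) (mul_self_eq_zero.1 (by linarith))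
      (mul_self_eq_zero.1 (by linarith)))

/-- on `Σ` the vector `n = sharp e dz` is in `ker dx ∩ ker dy` and `dz n = 1` -/
theorem sharp_eM {x y z : M → ℝ} (h : GoodXYZ x y z) {p : M}
    (hp : detC (dP x p) (dP y p) = 0) :
    dP x p (sharp (eM x y z p) (dP z p)) = 0 ∧ dP y p (sharp (eM x y z p) (dP z p)) = 0 ∧
      dP z p (sharp (eM x y z p) (dP z p)) = 1 := by
  have hG := (isMetric_eM h).2 p
  have hD := (dtB_pos hG).ne'
  rw [apply_sharp hG, apply_sharp hG, apply_sharp hG]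
  unfold ip
  rw [div_eq_zero_iff, div_eq_zero_iff, div_eq_one_iff_eq hD]
  unfold dtB
  simp only [BWt_eM]
  unfold detC at hp
  generalize dP x p e1 = a1 at *
  generalize dP x p e2 = a2 at *
  generalize dP y p e1 = b1 at *
  generalize dP y p e2 = b2 at *
  generalize dP z p e1 = c1 at *
  generalize dP z p e2 = c2 at *
  refine ⟨Or.inl ?_, Or.inl ?_, ?_⟩
  · linear_combination (-(b1 * c2 - b2 * c1)) * hp
  · linear_combination (a1 * c2 - a2 * c1) * hp
  · linear_combination (-(a1 * b2 - a2 * b1)) * hp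

private theorem BWt_dtB_cd {U : Set E2} {E : E2 → Bil} (hE : ContDiffOn ℝ ∞ E U) :
    ContDiffOn ℝ ∞ (fun t => dtB (E t)) U := by
  have hc : ∀ v w : E2, ContDiffOn ℝ ∞ (fun t => E t v w) U := fun v w =>
    (hE.clm_apply contDiffOn_const).clm_apply contDiffOn_const
  exact ((hc e1 e1).mul (hc e2 e2)).sub ((hc e1 e2).mul (hc e2 e1))

private theorem BWt_ip_cd {U : Set E2} {E : E2 → Bil} {α β : E2 → (E2 →L[ℝ] ℝ)}
    (hE : ContDiffOn ℝ ∞ E U) (hα : ContDiffOn ℝ ∞ α U) (hβ : ContDiffOn ℝ ∞ β U)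
    (hD : ∀ t ∈ U, dtB (E t) ≠ 0) : ContDiffOn ℝ ∞ (fun t => ip (E t) (α t) (β t)) U := by
  have hc : ∀ v w : E2, ContDiffOn ℝ ∞ (fun t => E t v w) U := fun v w =>
    (hE.clm_apply contDiffOn_const).clm_apply contDiffOn_const
  have ha : ∀ v : E2, ContDiffOn ℝ ∞ (fun t => α t v) U := fun v => hα.clm_apply contDiffOn_const
  have hb : ∀ v : E2, ContDiffOn ℝ ∞ (fun t => β t v) U := fun v => hβ.clm_apply contDiffOn_const
  exact ContDiffOn.div (((((hc e2 e2).mul ((ha e1).mul (hb e1))).sub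
    ((hc e1 e2).mul ((ha e1).mul (hb e2)))).sub ((hc e2 e1).mul ((ha e2).mul (hb e1)))).add
    ((hc e1 e1).mul ((ha e2).mul (hb e2)))) (BWt_dtB_cd hE) hD

/-- the derivative along `N` of `N j2`, on `Σ`: nonnegative, positive at critical points of `x` -/
theorem K2_pos {g : M → Bil} (hg : IsMetric g) {x y z : M → ℝ} (h : GoodXYZ x y z) {p : M}
    (hp : detC (dP x p) (dP y p) = 0) :
    dP (jtwo g x y) p = 0 ∧
    0 ≤ dP (fun q => ip (eM x y z q) (dP (jtwo g x y) q) (dP z q)) p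
      (sharp (eM x y z p) (dP z p)) ∧
    (dP x p = 0 → 0 < dP (fun q => ip (eM x y z q) (dP (jtwo g x y) q) (dP z q)) p
      (sharp (eM x y z p) (dP z p))) := by
  have hn := sharp_eM h hp
  have he := isMetric_eM h
  obtain ⟨hx, hy, hz, hi, hH⟩ := h
  -- the chart
  set φ := chartAt E2 p with hφdef
  have hφ : φ ∈ ATL M := chart_mem_ATL p
  set x₀ : E2 := φ p with hx₀
  have hU : IsOpen φ.target := φ.open_target
  have h0 : x₀ ∈ φ.target := mem_chart_target E2 p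
  have hp0 : φ.symm x₀ = p := φ.left_inv (mem_chart_source E2 p)
  set X := x ∘ φ.symm with hX
  set Y := y ∘ φ.symm with hY
  set Z := z ∘ φ.symm with hZ
  have cX : ContDiffOn ℝ ∞ X φ.target := hx.loc hφ
  have cY : ContDiffOn ℝ ∞ Y φ.target := hy.loc hφ
  have cZ : ContDiffOn ℝ ∞ Z φ.target := hz.loc hφ
  have cX' : ContDiffOn ℝ ∞ (fderiv ℝ X) φ.target := cX.fderiv_of_isOpen hU (by simp)
  have cY' : ContDiffOn ℝ ∞ (fderiv ℝ Y) φ.target := cY.fderiv_of_isOpen hU (by simp)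
  have cZ' : ContDiffOn ℝ ∞ (fderiv ℝ Z) φ.target := cZ.fderiv_of_isOpen hU (by simp)
  have cG : ContDiffOn ℝ ∞ (locT φ g) φ.target := hg.1 φ hφ
  have cE : ContDiffOn ℝ ∞ (locT φ (eM x y z)) φ.target := he.1 φ hφ
  have pG : ∀ t ∈ φ.target, PosDef (locT φ g t) := fun t ht =>
    (posDef_locT hφ ht).2 (hg.2 _)
  have pE : ∀ t ∈ φ.target, PosDef (locT φ (eM x y z) t) := fun t ht =>
    (posDef_locT hφ ht).2 (he.2 _)
  have dX : ∀ t ∈ φ.target, DifferentiableAt ℝ X t := fun t ht =>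
    (cX.contDiffAt (hU.mem_nhds ht)).differentiableAt (by simp)
  have dY : ∀ t ∈ φ.target, DifferentiableAt ℝ Y t := fun t ht =>
    (cY.contDiffAt (hU.mem_nhds ht)).differentiableAt (by simp)
  have dZ : ∀ t ∈ φ.target, DifferentiableAt ℝ Z t := fun t ht =>
    (cZ.contDiffAt (hU.mem_nhds ht)).differentiableAt (by simp)
  -- the determinants
  set J : E2 → ℝ := fun t => detC (fderiv ℝ X t) (fderiv ℝ Y t) with hJ
  set Di : E2 → ℝ := fun t => (dtB (locT φ g t))⁻¹ with hDi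
  set K : E2 → ℝ := fun t => J t * Di t with hK
  have cJ : ContDiffOn ℝ ∞ J φ.target :=
    ((cX'.clm_apply contDiffOn_const).mul (cY'.clm_apply contDiffOn_const)).sub
      ((cX'.clm_apply contDiffOn_const).mul (cY'.clm_apply contDiffOn_const))
  have cDi : ContDiffOn ℝ ∞ Di φ.target :=
    (BWt_dtB_cd cG).inv fun t ht => (dtB_pos (pG t ht)).ne'
  have cK : ContDiffOn ℝ ∞ K φ.target := cJ.mul cDi
  have cJ' : ContDiffOn ℝ ∞ (fderiv ℝ J) φ.target := cJ.fderiv_of_isOpen hU (by simp)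
  have cK' : ContDiffOn ℝ ∞ (fderiv ℝ K) φ.target := cK.fderiv_of_isOpen hU (by simp)
  have dJ : ∀ t ∈ φ.target, DifferentiableAt ℝ J t := fun t ht =>
    (cJ.contDiffAt (hU.mem_nhds ht)).differentiableAt (by simp)
  have dDi : ∀ t ∈ φ.target, DifferentiableAt ℝ Di t := fun t ht =>
    (cDi.contDiffAt (hU.mem_nhds ht)).differentiableAt (by simp)
  have dK : ∀ t ∈ φ.target, DifferentiableAt ℝ K t := fun t ht =>
    (cK.contDiffAt (hU.mem_nhds ht)).differentiableAt (by simp)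
  -- `j2` in the chart
  have hj : ∀ t ∈ φ.target, (jtwo g x y ∘ φ.symm) t = J t * K t := by
    intro t ht
    have h1 := ip_loc (G := g) hφ ht (hg.2 _) (dX t ht) (dX t ht)
    have h2 := ip_loc (G := g) hφ ht (hg.2 _) (dY t ht) (dY t ht)
    have h3 := ip_loc (G := g) hφ ht (hg.2 _) (dX t ht) (dY t ht)
    show nrmD g x (φ.symm t) * nrmD g y (φ.symm t) -
      ip (g (φ.symm t)) (dP x (φ.symm t)) (dP y (φ.symm t)) ^ 2 = _
    unfold nrmD
    rw [h1, h2, h3, ip_det (pG t ht)]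
    show detC (fderiv ℝ X t) (fderiv ℝ Y t) ^ 2 / dtB (locT φ g t) =
      detC (fderiv ℝ X t) (fderiv ℝ Y t) *
        (detC (fderiv ℝ X t) (fderiv ℝ Y t) * (dtB (locT φ g t))⁻¹)
    rw [div_eq_mul_inv]
    ring
  have hj' : ∀ t ∈ φ.target, HasFDerivAt (jtwo g x y ∘ φ.symm)
      (J t • fderiv ℝ K t + K t • fderiv ℝ J t) t := by
    intro t ht
    have h1 := (dJ t ht).hasFDerivAt.mul (dK t ht).hasFDerivAt
    refine h1.congr_of_eventuallyEq ?_
    filter_upwards [hU.mem_nhds ht] with s hs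
    exact hj s hs
  -- `N j2` in the chart
  set R : E2 → ℝ := fun t => ip (locT φ (eM x y z) t) (fderiv ℝ K t) (fderiv ℝ Z t) +
    Di t * ip (locT φ (eM x y z) t) (fderiv ℝ J t) (fderiv ℝ Z t) with hR
  have cR : ContDiffOn ℝ ∞ R φ.target :=
    (BWt_ip_cd cE cK' cZ' fun t ht => (dtB_pos (pE t ht)).ne').add
      (cDi.mul (BWt_ip_cd cE cJ' cZ' fun t ht => (dtB_pos (pE t ht)).ne'))
  have hN : ∀ t ∈ φ.target, ((fun q => ip (eM x y z q) (dP (jtwo g x y) q) (dP z q)) ∘ φ.symm) t =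
      J t * R t := by
    intro t ht
    have h1 := ip_loc (G := eM x y z) hφ ht (he.2 _) (hj' t ht).differentiableAt (dZ t ht)
    show ip (eM x y z (φ.symm t)) (dP (jtwo g x y) (φ.symm t)) (dP z (φ.symm t)) = _
    rw [h1, (hj' t ht).fderiv, ip_add_left, ip_smul_left, ip_smul_left]
    show J t * ip (locT φ (eM x y z) t) (fderiv ℝ K t) (fderiv ℝ Z t) +
      J t * Di t * ip (locT φ (eM x y z) t) (fderiv ℝ J t) (fderiv ℝ Z t) = J t *
        (ip (locT φ (eM x y z) t) (fderiv ℝ K t) (fderiv ℝ Z t) +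
          Di t * ip (locT φ (eM x y z) t) (fderiv ℝ J t) (fderiv ℝ Z t))
    ring
  have hJ0 : J x₀ = 0 := hp
  have hK0 : K x₀ = 0 := by rw [hK]; simp only []; rw [hJ0, zero_mul]
  have hE0 : locT φ (eM x y z) x₀ = eM x y z p := by
    have h1 : TTi φ x₀ = ContinuousLinearMap.id ℝ E2 := TTi_chartAt p
    unfold locT
    rw [hp0, h1]
    rfl
  set n := sharp (eM x y z p) (dP z p) with hndef
  have hN' : dP (fun q => ip (eM x y z q) (dP (jtwo g x y) q) (dP z q)) p =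
      R x₀ • fderiv ℝ J x₀ := by
    have h1 := (dJ x₀ h0).hasFDerivAt.mul
      ((cR.contDiffAt (hU.mem_nhds h0)).differentiableAt (by simp)).hasFDerivAt
    rw [hJ0, zero_smul, zero_add] at h1
    have h2 : HasFDerivAt ((fun q => ip (eM x y z q) (dP (jtwo g x y) q) (dP z q)) ∘ φ.symm)
        (R x₀ • fderiv ℝ J x₀) x₀ := by
      refine h1.congr_of_eventuallyEq ?_
      filter_upwards [hU.mem_nhds h0] with s hs
      exact hN s hs
    exact h2.fderiv
  have hK' : fderiv ℝ K x₀ = Di x₀ • fderiv ℝ J x₀ := by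
    have h1 := (dJ x₀ h0).hasFDerivAt.mul (dDi x₀ h0).hasFDerivAt
    rw [hJ0, zero_smul, zero_add] at h1
    exact h1.fderiv
  have hR0 : R x₀ = 2 * Di x₀ * fderiv ℝ J x₀ n := by
    have h1 : ip (eM x y z p) (fderiv ℝ J x₀) (dP z p) = fderiv ℝ J x₀ n :=
      (apply_sharp (he.2 p) (dP z p) (fderiv ℝ J x₀)).symm
    have h2 : fderiv ℝ Z x₀ = dP z p := rfl
    show ip (locT φ (eM x y z) x₀) (fderiv ℝ K x₀) (fderiv ℝ Z x₀) +
      Di x₀ * ip (locT φ (eM x y z) x₀) (fderiv ℝ J x₀) (fderiv ℝ Z x₀) = _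
    rw [hE0, h2, hK', ip_smul_left, h1]
    ring
  have hDp : 0 < Di x₀ := inv_pos.2 (dtB_pos (pG x₀ h0))
  have hval : dP (fun q => ip (eM x y z q) (dP (jtwo g x y) q) (dP z q)) p n =
      2 * Di x₀ * (fderiv ℝ J x₀ n) ^ 2 := by
    rw [hN', hR0]
    rw [smul_apply, smul_eq_mul]
    ring
  refine ⟨?_, ?_, fun hx0 => ?_⟩
  · have h1 := (hj' x₀ h0).fderiv
    rw [hJ0, hK0, zero_smul, zero_smul, add_zero] at h1
    exact h1
  · rw [hval]
    positivity
  · rw [hval]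
    have hJn : fderiv ℝ J x₀ n ≠ 0 := by
      intro hc
      have hn0 : n ≠ 0 := by
        intro h1
        have h2 := hn.2.2
        rw [h1, map_zero] at h2
        exact zero_ne_one h2
      have hdd := hH p hx0 n hn0 hn.2.1
      have hX0 : fderiv ℝ X x₀ = 0 := hx0
      have hY0 : fderiv ℝ Y x₀ = dP y p := rfl
      have dX' : DifferentiableAt ℝ (fderiv ℝ X) x₀ :=
        (cX'.contDiffAt (hU.mem_nhds h0)).differentiableAt (by simp)
      have dY' : DifferentiableAt ℝ (fderiv ℝ Y) x₀ :=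
        (cY'.contDiffAt (hU.mem_nhds h0)).differentiableAt (by simp)
      have a1 : ∀ v : E2, HasFDerivAt (fun t => fderiv ℝ X t v)
          ((ContinuousLinearMap.apply ℝ ℝ v).comp (fderiv ℝ (fderiv ℝ X) x₀)) x₀ := fun v =>
        (ContinuousLinearMap.apply ℝ ℝ v).hasFDerivAt.comp x₀ dX'.hasFDerivAt
      have a2 : ∀ v : E2, HasFDerivAt (fun t => fderiv ℝ Y t v)
          ((ContinuousLinearMap.apply ℝ ℝ v).comp (fderiv ℝ (fderiv ℝ Y) x₀)) x₀ := fun v =>
        (ContinuousLinearMap.apply ℝ ℝ v).hasFDerivAt.comp x₀ dY'.hasFDerivAt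
      have a3 := ((a1 e1).mul (a2 e2)).sub ((a1 e2).mul (a2 e1))
      have a4 : HasFDerivAt J _ x₀ := a3
      have a5 : fderiv ℝ J x₀ n = dP y p e2 * fderiv ℝ (fderiv ℝ X) x₀ n e1 -
          dP y p e1 * fderiv ℝ (fderiv ℝ X) x₀ n e2 := by
        rw [a4.fderiv]
        simp [hX0, hY0]
      have a6 : ddv n X x₀ = fderiv ℝ (fderiv ℝ X) x₀ n n := by
        show fderiv ℝ (fun t => fderiv ℝ X t n) x₀ n = _
        rw [(a1 n).fderiv]
        rfl
      rw [hc] at a5
      have a7 : dP y p n = 0 := hn.2.1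
      rw [BWt_app] at a7
      rw [BWt_app] at a6
      apply hdd
      show ddv n X x₀ = 0
      by_cases hy1 : dP y p e1 = 0
      · by_cases hy2 : dP y p e2 = 0
        · exfalso
          have b0 : ∀ v : E2, dP y p v = 0 := fun v => by rw [BWt_app, hy1, hy2]; ring
          have b1 : ∀ v : E2, dP x p v = 0 := fun v => by rw [hx0]; rfl
          have b2 := hi p ((dP z p e2, -dP z p e1) : E2) (b1 _) (b0 _) (by
            rw [BWt_app]; ring)
          have b3 : dP z p e1 = 0 := by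
            have := congrArg Prod.snd b2
            simpa using this
          have b4 := hi p e1 (b1 _) (b0 _) b3
          have b5 := congrArg Prod.fst b4
          simp [e1] at b5
        · have b1 : dP y p e2 * ddv n X x₀ = 0 := by
            rw [a6]
            linear_combination (-n.1) * a5 + (fderiv ℝ (fderiv ℝ X) x₀ n e2) * a7
          exact (mul_eq_zero.1 b1).resolve_left hy2
      · have b1 : dP y p e1 * ddv n X x₀ = 0 := by
          rw [a6]
          linear_combination n.2 * a5 + (fderiv ℝ (fderiv ℝ X) x₀ n e1) * a7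
        exact (mul_eq_zero.1 b1).resolve_left hy1
    positivity

private theorem BWt_lower {M : Type} [TopologicalSpace M] [CompactSpace M] {S : Set M}
    (hS : IsClosed S) {f : M → ℝ}
    (hf : Continuous f) (hpos : ∀ x ∈ S, 0 < f x) : ∃ c : ℝ, 0 < c ∧ ∀ x ∈ S, c ≤ f x := by
  rcases S.eq_empty_or_nonempty with h | h
  · exact ⟨1, one_pos, by simp [h]⟩
  · obtain ⟨x, hx, hm⟩ := hS.isCompact.exists_isMinOn h hf.continuousOn
    exact ⟨f x, hpos x hx, fun y hy => hm hy⟩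

private theorem BWt_upper {M : Type} [TopologicalSpace M] [CompactSpace M] {f : M → ℝ}
    (hf : Continuous f) :
    ∃ C : ℝ, 1 ≤ C ∧ ∀ x, |f x| ≤ C := by
  obtain ⟨C, hC⟩ := isCompact_univ.exists_bound_of_continuousOn (hf.continuousOn (s := univ))
  exact ⟨max 1 C, le_max_left _ _, fun x => (hC x (mem_univ x)).trans (le_max_right _ _)⟩

omit [IsManifold 𝓘(ℝ, E2) ∞ M] in
private theorem BWt_sm2 {G : ℝ × ℝ → ℝ} (hG : ContDiff ℝ ∞ G) {u w : M → ℝ} (hu : Sm u)
    (hw : Sm w) : Sm (fun p => G (u p, w p)) :=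
  hG.contMDiff.comp (ContMDiff.prodMk_space hu hw)

private theorem BWt_imm {α β γ : E2 →L[ℝ] ℝ}
    (h : ∀ v, α v = 0 → β v = 0 → γ v = 0 → v = 0) : ¬ (α = 0 ∧ β = 0) := by
  rintro ⟨h1, h2⟩
  have b0 : ∀ v : E2, α v = 0 := fun v => by rw [h1]; rfl
  have b1 : ∀ v : E2, β v = 0 := fun v => by rw [h2]; rfl
  have b2 := h ((γ e2, -γ e1) : E2) (b0 _) (b1 _) (by rw [BWt_app]; ring)
  have b3 : γ e1 = 0 := by
    have := congrArg Prod.snd b2
    simpa using this
  have b4 := h e1 (b0 _) (b1 _) b3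
  have b5 := congrArg Prod.fst b4
  simp [e1] at b5

private theorem BWt_ip_nonneg {G : Bil} (hG : PosDef G) (α : E2 →L[ℝ] ℝ) : 0 ≤ ip G α α := by
  by_cases h : α = 0
  · rw [h]
    simp [ip]
  · exact (ip_self_pos hG h).le

private theorem BWt_quad {G : Bil} (hG : PosDef G) (α β : E2 →L[ℝ] ℝ) (t : ℝ) :
    ip G (α + t • β) (α + t • β) = ip G α α + 2 * t * ip G α β + t ^ 2 * ip G β β := by
  rw [ip_add_left, ip_smul_left, ip_comm hG α (α + t • β), ip_comm hG β (α + t • β),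
    ip_add_left, ip_smul_left, ip_add_left, ip_smul_left, ip_comm hG β α]
  ring

/-- the numerical estimate -/
private theorem BWt_num {a b c a' b' c' τ C μ m w0 w1 : ℝ} (hC : 1 ≤ C)
    (hb : |b| ≤ C) (ha' : |a'| ≤ C) (hb' : |b'| ≤ C) (hc' : |c'| ≤ C) (hτ : 0 < τ) (hτ1 : τ ≤ 1)
    (hμ : 0 ≤ μ) (hm : |m| ≤ 1) (hw0 : w0 = Real.exp (-2)) (hw1 : w1 = Real.exp 2)
    (hL : 16 * w1 * C ^ 2 * τ < 4 * w0 * μ * (a + τ ^ 2 * c) ^ 2) :
    0 < 2 * μ * (Real.exp (2 * m) * (a + 2 * τ * b + τ ^ 2 * c) ^ 2 +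
        Real.exp (-(2 * m)) * (a + 2 * (-τ) * b + (-τ) ^ 2 * c) ^ 2) +
      ((a + 2 * τ * b + τ ^ 2 * c) - (a + 2 * (-τ) * b + (-τ) ^ 2 * c)) / 2 *
        (Real.exp (2 * m) * (a' + 2 * τ * b' + τ ^ 2 * c') +
          Real.exp (-(2 * m)) * (a' + 2 * (-τ) * b' + (-τ) ^ 2 * c')) := by
  have hm' := abs_le.1 hm
  have hE0 : w0 ≤ Real.exp (2 * m) := by rw [hw0]; exact Real.exp_le_exp.2 (by linarith)
  have hF0 : w0 ≤ Real.exp (-(2 * m)) := by rw [hw0]; exact Real.exp_le_exp.2 (by linarith)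
  have hE1 : Real.exp (2 * m) ≤ w1 := by rw [hw1]; exact Real.exp_le_exp.2 (by linarith)
  have hF1 : Real.exp (-(2 * m)) ≤ w1 := by rw [hw1]; exact Real.exp_le_exp.2 (by linarith)
  have hEp : 0 < Real.exp (2 * m) := Real.exp_pos _
  have hFp : 0 < Real.exp (-(2 * m)) := Real.exp_pos _
  have hw0p : 0 < w0 := by rw [hw0]; exact Real.exp_pos _
  generalize Real.exp (2 * m) = E at *
  generalize Real.exp (-(2 * m)) = F at *
  set P := a + 2 * τ * b + τ ^ 2 * c with hP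
  set Q := a + 2 * (-τ) * b + (-τ) ^ 2 * c with hQ
  set P' := a' + 2 * τ * b' + τ ^ 2 * c' with hP'
  set Q' := a' + 2 * (-τ) * b' + (-τ) ^ 2 * c' with hQ'
  have hτ2 : τ ^ 2 ≤ 1 := by nlinarith
  have hτ20 : 0 ≤ τ ^ 2 := sq_nonneg τ
  have e1 : |τ * b'| ≤ C := by
    rw [abs_mul, abs_of_pos hτ]
    nlinarith [abs_nonneg b']
  have e2 : |τ ^ 2 * c'| ≤ C := by
    rw [abs_mul, abs_of_nonneg hτ20]
    nlinarith [abs_nonneg c']
  have e1' := abs_le.1 e1
  have e2' := abs_le.1 e2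
  have e3' := abs_le.1 ha'
  have hPb : |P'| ≤ 4 * C := by
    rw [abs_le]
    constructor <;> · rw [hP']; linarith
  have hQb : |Q'| ≤ 4 * C := by
    rw [abs_le]
    have : (-τ) ^ 2 * c' = τ ^ 2 * c' := by ring
    constructor <;> · rw [hQ', this]; linarith
  have k1 : |E * P' + F * Q'| ≤ 8 * w1 * C := by
    calc |E * P' + F * Q'| ≤ |E * P'| + |F * Q'| := abs_add_le _ _
      _ = E * |P'| + F * |Q'| := by rw [abs_mul, abs_mul, abs_of_pos hEp, abs_of_pos hFp]
      _ ≤ w1 * (4 * C) + w1 * (4 * C) := by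
          apply add_le_add
          · exact mul_le_mul hE1 hPb (abs_nonneg _) (by linarith)
          · exact mul_le_mul hF1 hQb (abs_nonneg _) (by linarith)
      _ = 8 * w1 * C := by ring
  have k2 : |(P - Q) / 2| ≤ 2 * τ * C := by
    have : (P - Q) / 2 = 2 * τ * b := by rw [hP, hQ]; ring
    rw [this, abs_mul, abs_of_pos (by positivity)]
    exact mul_le_mul_of_nonneg_left hb (by positivity)
  have k3 : |(P - Q) / 2 * (E * P' + F * Q')| ≤ 16 * w1 * C ^ 2 * τ := by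
    rw [abs_mul]
    calc |(P - Q) / 2| * |E * P' + F * Q'| ≤ (2 * τ * C) * (8 * w1 * C) :=
          mul_le_mul k2 k1 (abs_nonneg _) (by positivity)
      _ = 16 * w1 * C ^ 2 * τ := by ring
  have k4 : 2 * w0 * (a + τ ^ 2 * c) ^ 2 ≤ E * P ^ 2 + F * Q ^ 2 := by
    have h1 : w0 * P ^ 2 ≤ E * P ^ 2 := mul_le_mul_of_nonneg_right hE0 (sq_nonneg _)
    have h2 : w0 * Q ^ 2 ≤ F * Q ^ 2 := mul_le_mul_of_nonneg_right hF0 (sq_nonneg _)
    have h3 : 2 * w0 * (a + τ ^ 2 * c) ^ 2 ≤ w0 * P ^ 2 + w0 * Q ^ 2 := by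
      have h4 : w0 * P ^ 2 + w0 * Q ^ 2 - 2 * w0 * (a + τ ^ 2 * c) ^ 2 =
          w0 * (8 * τ ^ 2 * b ^ 2) := by rw [hP, hQ]; ring
      have h5 : 0 ≤ w0 * (8 * τ ^ 2 * b ^ 2) := by positivity
      linarith
    linarith
  have k5 : 4 * w0 * μ * (a + τ ^ 2 * c) ^ 2 ≤ 2 * μ * (E * P ^ 2 + F * Q ^ 2) := by
    have h1 := mul_le_mul_of_nonneg_left k4 (by positivity : 0 ≤ 2 * μ)
    linarith
  have k6 := (abs_le.1 k3).1
  linarith

theorem exists_weights [CompactSpace M] [T2Space M] {g : M → Bil} (hg : IsMetric g)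
    {x y z : M → ℝ} (h : GoodXYZ x y z) : ∃ (A B m : M → ℝ) (τ : ℝ), Weights g A B m τ := by
  have hh := h
  obtain ⟨hx, hy, hz, hi, -⟩ := hh
  have he := isMetric_eM h
  -- the smooth functions
  have sa : Sm (nrmD g x) := sm_ip hg hx hx
  have sb : Sm (fun p => ip (g p) (dP x p) (dP y p)) := sm_ip hg hx hy
  have sc : Sm (nrmD g y) := sm_ip hg hy hy
  set bb : M → ℝ := fun p => ip (g p) (dP x p) (dP y p) with hbb
  have sj : Sm (jtwo g x y) := by
    have h1 : Sm (fun p => nrmD g x p * nrmD g y p) :=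
      BWt_sm2 (G := fun s => s.1 * s.2) (contDiff_fst.mul contDiff_snd) sa sc
    exact BWt_sm2 (G := fun s => s.1 - s.2 ^ 2) (contDiff_fst.sub (contDiff_snd.pow 2)) h1 sb
  set Nf : M → ℝ := fun q => ip (eM x y z q) (dP (jtwo g x y) q) (dP z q) with hNf
  have sN : Sm Nf := sm_ip he sj hz
  have der : ∀ {u : M → ℝ}, Sm u → Continuous
      (fun p => dP u p (sharp (eM x y z p) (dP z p))) := by
    intro u hu
    have h1 : (fun p => dP u p (sharp (eM x y z p) (dP z p))) =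
        fun p => ip (eM x y z p) (dP u p) (dP z p) := by
      funext p
      exact apply_sharp (he.2 p) _ _
    rw [h1]
    exact (sm_ip he hu hz).continuous
  set k2 : M → ℝ := fun p => dP Nf p (sharp (eM x y z p) (dP z p)) with hk2
  have ck2 : Continuous k2 := der sN
  obtain ⟨C1, hC1, hb1⟩ := BWt_upper sb.continuous
  obtain ⟨C2, hC2, hb2⟩ := BWt_upper (der sa)
  obtain ⟨C3, hC3, hb3⟩ := BWt_upper (der sb)
  obtain ⟨C4, hC4, hb4⟩ := BWt_upper (der sc)
  obtain ⟨C5, hC5, hb5⟩ := BWt_upper hz.continuous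
  set C := max (max C1 C2) (max C3 C4) with hCdef
  have hC : 1 ≤ C := hC1.trans ((le_max_left _ _).trans (le_max_left _ _))
  have g1 : C1 ≤ C := (le_max_left _ _).trans (le_max_left _ _)
  have g2 : C2 ≤ C := (le_max_right _ _).trans (le_max_left _ _)
  have g3 : C3 ≤ C := (le_max_left _ _).trans (le_max_right _ _)
  have g4 : C4 ≤ C := (le_max_right _ _).trans (le_max_right _ _)
  -- the set `Σ`
  have hSg : ∀ p, jtwo g x y p = 0 ↔ detC (dP x p) (dP y p) = 0 := by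
    intro p
    have h1 : jtwo g x y p = detC (dP x p) (dP y p) ^ 2 / dtB (g p) := ip_det (hg.2 p) _ _
    rw [h1, div_eq_zero_iff]
    have h2 := (dtB_pos (hg.2 p)).ne'
    simp [h2]
  have hSc : IsClosed {p | jtwo g x y p = 0} := isClosed_eq sj.continuous continuous_const
  obtain ⟨c, hc, hcb⟩ := BWt_lower (f := fun p => nrmD g x p + k2 p) hSc
    (sa.continuous.add ck2) (by
      intro p hp
      have hK := K2_pos hg h ((hSg p).1 hp)
      have h1 : 0 ≤ k2 p := hK.2.1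
      by_cases hx0 : dP x p = 0
      · have h2 : 0 < k2 p := hK.2.2 hx0
        have h3 : 0 ≤ nrmD g x p := BWt_ip_nonneg (hg.2 p) _
        show 0 < nrmD g x p + k2 p
        linarith
      · have h3 : 0 < nrmD g x p := ip_self_pos (hg.2 p) hx0
        show 0 < nrmD g x p + k2 p
        linarith)
  -- the constants
  obtain ⟨w0, hw0⟩ : ∃ w0 : ℝ, w0 = Real.exp (-2) := ⟨_, rfl⟩
  obtain ⟨w1, hw1⟩ : ∃ w1 : ℝ, w1 = Real.exp 2 := ⟨_, rfl⟩
  have hw0p : 0 < w0 := by rw [hw0]; exact Real.exp_pos _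
  have hw1p : 0 < w1 := by rw [hw1]; exact Real.exp_pos _
  obtain ⟨κ, hκ⟩ : ∃ κ : ℝ, κ = 1 / (2 * C5) := ⟨_, rfl⟩
  have hκp : 0 < κ := by rw [hκ]; positivity
  obtain ⟨D, hD⟩ : ∃ D : ℝ, D = 16 * w1 * C ^ 2 := ⟨_, rfl⟩
  have hDp : 0 < D := by rw [hD]; positivity
  obtain ⟨τ, hτd⟩ : ∃ τ : ℝ, τ = min 1 (2 * w0 * κ * (c / 2) ^ 2 / D) := ⟨_, rfl⟩
  have hτ : 0 < τ := by rw [hτd]; exact lt_min one_pos (by positivity)
  have hτ1 : τ ≤ 1 := by rw [hτd]; exact min_le_left _ _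
  have hτ2 : D * τ ≤ 2 * w0 * κ * (c / 2) ^ 2 := by
    have h1 : τ ≤ 2 * w0 * κ * (c / 2) ^ 2 / D := by rw [hτd]; exact min_le_right _ _
    rw [le_div_iff₀ hDp] at h1
    linarith
  obtain ⟨c2, hc2, hc2b⟩ := BWt_lower (f := fun p => nrmD g x p + τ ^ 2 * nrmD g y p)
    (isClosed_univ (X := M)) (sa.continuous.add (continuous_const.mul sc.continuous)) (by
      intro p _
      have h1 := BWt_imm (hi p)
      have h2 : 0 ≤ nrmD g x p := BWt_ip_nonneg (hg.2 p) _
      have h3 : 0 ≤ nrmD g y p := BWt_ip_nonneg (hg.2 p) _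
      by_cases hx0 : dP x p = 0
      · have hy0 : dP y p ≠ 0 := fun hy0 => h1 ⟨hx0, hy0⟩
        have h4 : 0 < nrmD g y p := ip_self_pos (hg.2 p) hy0
        show 0 < nrmD g x p + τ ^ 2 * nrmD g y p
        positivity
      · have h4 : 0 < nrmD g x p := ip_self_pos (hg.2 p) hx0
        show 0 < nrmD g x p + τ ^ 2 * nrmD g y p
        positivity)
  obtain ⟨τ', hτ'⟩ : ∃ τ' : ℝ, τ' = w0 * (c / 2) * c2 ^ 2 / (D * τ) := ⟨_, rfl⟩
  have hτ'p : 0 < τ' := by rw [hτ']; positivity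
  -- the functions
  set A : M → ℝ := fun q => x q + τ * y q with hA
  set B : M → ℝ := fun q => x q + (-τ) * y q with hB
  set m : M → ℝ := fun q => κ * z q + 1 / 2 * Real.sin (Nf q / τ') with hm
  have sA : Sm A := BWt_sm2 (G := fun s => s.1 + τ * s.2)
    (contDiff_fst.add (contDiff_const.mul contDiff_snd)) hx hy
  have sB : Sm B := BWt_sm2 (G := fun s => s.1 + (-τ) * s.2)
    (contDiff_fst.add (contDiff_const.mul contDiff_snd)) hx hy
  have sm : Sm m := BWt_sm2 (G := fun s => κ * s.1 + 1 / 2 * Real.sin (s.2 / τ'))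
    ((contDiff_const.mul contDiff_fst).add (contDiff_const.mul
      (Real.contDiff_sin.comp (contDiff_snd.div_const _)))) hz sN
  have dlin : ∀ (t : ℝ) (p : M), dP (fun q => x q + t * y q) p = dP x p + t • dP y p := by
    intro t p
    exact ((BWt_hasF hx p).add ((BWt_hasF hy p).const_mul t)).fderiv
  have nrm : ∀ t : ℝ, nrmD g (fun q => x q + t * y q) =
      fun q => nrmD g x q + 2 * t * bb q + t ^ 2 * nrmD g y q := by
    intro t
    funext q
    unfold nrmD
    rw [dlin, BWt_quad (hg.2 q)]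
  have dnrm : ∀ (t : ℝ) (p : M), dP (fun q => nrmD g x q + 2 * t * bb q + t ^ 2 * nrmD g y q) p =
      dP (nrmD g x) p + (2 * t) • dP bb p + (t ^ 2) • dP (nrmD g y) p := by
    intro t p
    exact (((BWt_hasF sa p).add ((BWt_hasF sb p).const_mul (2 * t))).add
      ((BWt_hasF sc p).const_mul (t ^ 2))).fderiv
  have hmb : ∀ p, |m p| ≤ 1 := by
    intro p
    have h1 : |κ * z p| ≤ 1 / 2 := by
      rw [abs_mul, abs_of_pos hκp, hκ]
      have h2 := hb5 p
      rw [div_mul_eq_mul_div, one_mul, div_le_iff₀ (by positivity)]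
      linarith
    have h2 : |1 / 2 * Real.sin (Nf p / τ')| ≤ 1 / 2 := by
      rw [abs_mul, abs_of_pos (by norm_num : (0 : ℝ) < 1 / 2)]
      have := Real.abs_sin_le_one (Nf p / τ')
      linarith
    calc |m p| ≤ |κ * z p| + |1 / 2 * Real.sin (Nf p / τ')| := abs_add_le _ _
      _ ≤ 1 := by linarith
  refine ⟨A, B, m, τ, sA, sB, sm, hτ, hmb, fun p => ?_, fun p hp => ?_⟩
  · by_contra hc
    push Not at hc
    obtain ⟨h1, h2⟩ := hc
    rw [hA, dlin] at h1
    rw [hB, dlin] at h2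
    refine BWt_imm (hi p) ⟨?_, ?_⟩
    · have h3 : (2 : ℝ) • dP x p = (dP x p + τ • dP y p) + (dP x p + (-τ) • dP y p) := by module
      rw [h1, h2, add_zero] at h3
      exact (smul_eq_zero.1 h3).resolve_left two_ne_zero
    · have h3 : (2 * τ) • dP y p = (dP x p + τ • dP y p) - (dP x p + (-τ) • dP y p) := by module
      rw [h1, h2, sub_zero] at h3
      exact (smul_eq_zero.1 h3).resolve_left (by positivity)
  · have hp' : detC (dP x p) (dP y p) = 0 := by
      rw [hA, hB, dlin, dlin] at hp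
      have h1 : detC (dP x p + τ • dP y p) (dP x p + (-τ) • dP y p) =
          (-(2 * τ)) * detC (dP x p) (dP y p) := by
        unfold detC
        simp only [add_apply, smul_apply, smul_eq_mul]
        ring
      rw [h1] at hp
      exact (mul_eq_zero.1 hp).resolve_left (by
        have : 0 < 2 * τ := by positivity
        linarith)
    have hn := sharp_eM h hp'
    have hK := K2_pos hg h hp'
    set n := sharp (eM x y z p) (dP z p) with hndef
    refine ⟨n, ?_, ?_, ?_⟩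
    · rw [hA, dlin]
      simp only [add_apply, smul_apply, smul_eq_mul]
      rw [hn.1, hn.2.1]
      ring
    · rw [hB, dlin]
      simp only [add_apply, smul_apply, smul_eq_mul]
      rw [hn.1, hn.2.1]
      ring
    · have hN0 : Nf p = 0 := by
        show ip (eM x y z p) (dP (jtwo g x y) p) (dP z p) = 0
        rw [hK.1]
        simp [ip]
      have hdm : dP m p n = κ + k2 p / (2 * τ') := by
        have h1 : HasFDerivAt (m ∘ (chartAt E2 p).symm)
            (κ • dP z p + (1 / 2 : ℝ) • (Real.cos (Nf p / τ') • (τ'⁻¹ • dP Nf p)))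
            (chartAt E2 p p) := by
          have hpp : (chartAt E2 p).symm (chartAt E2 p p) = p :=
            (chartAt E2 p).left_inv (mem_chart_source E2 p)
          have h2 : HasFDerivAt (fun t => (Nf ∘ (chartAt E2 p).symm) t / τ') (τ'⁻¹ • dP Nf p)
              (chartAt E2 p p) := by
            have := (BWt_hasF sN p).mul_const τ'⁻¹
            simpa [div_eq_mul_inv] using this
          have h3 := h2.sin
          have h4 : (Nf ∘ (chartAt E2 p).symm) (chartAt E2 p p) = Nf p := by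
            show Nf ((chartAt E2 p).symm (chartAt E2 p p)) = Nf p
            rw [hpp]
          rw [h4] at h3
          exact ((BWt_hasF hz p).const_mul κ).add (h3.const_mul (1 / 2))
        have h2 : dP m p = κ • dP z p + (1 / 2 : ℝ) • (Real.cos (Nf p / τ') •
          (τ'⁻¹ • dP Nf p)) := h1.fderiv
        rw [h2, hN0, zero_div, Real.cos_zero]
        simp only [add_apply, smul_apply, smul_eq_mul]
        rw [hn.2.2]
        show κ * 1 + 1 / 2 * (1 * (τ'⁻¹ * k2 p)) = κ + k2 p / (2 * τ')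
        field_simp
      have hk0 : 0 ≤ k2 p := hK.2.1
      unfold Xi
      rw [hdm, hA, hB, nrm τ, nrm (-τ), dnrm, dnrm]
      simp only [add_apply, smul_apply, smul_eq_mul]
      refine BWt_num hC ((hb1 p).trans g1) ((hb2 p).trans g2) ((hb3 p).trans g3) ((hb4 p).trans g4) hτ hτ1
        (by positivity) (hmb p) hw0 hw1 ?_
      rw [← hD]
      have hs1 := hcb p ((hSg p).2 hp')
      have hs2 := hc2b p (mem_univ p)
      have hs3 : 0 ≤ nrmD g y p := BWt_ip_nonneg (hg.2 p) _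
      have hs4 : 0 ≤ nrmD g x p := BWt_ip_nonneg (hg.2 p) _
      by_cases hcase : c / 2 ≤ nrmD g x p
      · have h1 : (c / 2) ^ 2 ≤ (nrmD g x p + τ ^ 2 * nrmD g y p) ^ 2 := by
          apply pow_le_pow_left₀ (by positivity)
          have : 0 ≤ τ ^ 2 * nrmD g y p := by positivity
          linarith
        have h2 : 4 * w0 * κ * (c / 2) ^ 2 ≤ 4 * w0 * (κ + k2 p / (2 * τ')) *
            (nrmD g x p + τ ^ 2 * nrmD g y p) ^ 2 := by
          apply mul_le_mul _ h1 (by positivity) (by positivity)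
          apply mul_le_mul_of_nonneg_left _ (by positivity)
          have : 0 ≤ k2 p / (2 * τ') := by positivity
          linarith
        have h3 : 0 < w0 * κ * (c / 2) ^ 2 := by positivity
        linarith
      · have hk : c / 2 ≤ k2 p := by linarith
        have h1 : c2 ^ 2 ≤ (nrmD g x p + τ ^ 2 * nrmD g y p) ^ 2 :=
          pow_le_pow_left₀ hc2.le hs2 2
        have h2 : 4 * w0 * (c / 2 / (2 * τ')) * c2 ^ 2 ≤ 4 * w0 * (κ + k2 p / (2 * τ')) *
            (nrmD g x p + τ ^ 2 * nrmD g y p) ^ 2 := by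
          apply mul_le_mul _ h1 (by positivity) (by positivity)
          apply mul_le_mul_of_nonneg_left _ (by positivity)
          have : c / 2 / (2 * τ') ≤ k2 p / (2 * τ') :=
            div_le_div_of_nonneg_right hk (by positivity)
          linarith
        have h3 : 4 * w0 * (c / 2 / (2 * τ')) * c2 ^ 2 = 2 * (D * τ) := by
          rw [hτ']
          field_simp
          ring
        have h4 : 0 < D * τ := by positivity
        linarith

end P205F
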