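import Mathlib
import Vale.Agent.Lib.P205B.BDec1
import Vale.Agent.Lib.P205B.BDec2
import Vale.Agent.Lib.P205B.BDec4
import Vale.Agent.Lib.P205B.BTay
import Vale.Agent.Lib.P205B.BWt

/-!
# P205F BASE: the iteration `G_0 = g`, `G_{j+1} = g - h² (dλ₁[G_j]² + dλ₂[G_j]²)`

Everything is smooth in `(p, h)` near `h = 0`.  `G_{j+1} - G_j = O(h^{2j+2})` at every point, by
induction: `λ_i[G]` is a smooth (locally Lipschitz) function of the components of `G(p, h)` in a
chart, so `λ_i[G_j] - λ_i[G_{j-1}] = O(h^{2j})` pointwise; by `taylor_h` the same for its differential.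
-/

set_option maxSynthPendingDepth 3

noncomputable section

namespace P205F

open scoped Manifold ContDiff Topology RealInnerProductSpace
open Set

variable {M : Type} [TopologicalSpace M] [ChartedSpace E2 M]

/-- the covectors `α = e^m dA`, `β = e^{-m} dB` -/
def alf (A m : M → ℝ) (p : M) : E2 →L[ℝ] ℝ := Real.exp (m p) • dP A p
def bet (B m : M → ℝ) (p : M) : E2 →L[ℝ] ℝ := Real.exp (-(m p)) • dP B p

/-- the invariants of `(G p, α, β)` -/
def wM (A B m : M → ℝ) (G : M → Bil) (p : M) : W3 := wOf (G p) (alf A m p) (bet B m p)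

/-- the amplitudes -/
def lam1 (r0 : ℝ) (A B m : M → ℝ) (G : M → Bil) (p : M) : ℝ :=
  Real.exp (m p) * Real.sqrt (SW r0 (wM A B m G p) (m p))
def lam2 (r0 : ℝ) (A B m : M → ℝ) (G : M → Bil) (p : M) : ℝ :=
  Real.exp (-(m p)) * Real.sqrt (TW r0 (wM A B m G p) (m p))

/-- the flat functions `β`, `η` and the form `Q̃` -/
def beM (r0 : ℝ) (A B m : M → ℝ) (G : M → Bil) (p : M) : ℝ := bW r0 (wM A B m G p)
def etM (r0 : ℝ) (A B m : M → ℝ) (G : M → Bil) (p : M) : ℝ := etW r0 (wM A B m G p)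
def QtM (r0 : ℝ) (A B m : M → ℝ) (G : M → Bil) (p : M) : Bil :=
  QtW r0 (wM A B m G p) (G p) (alf A m p) (bet B m p)

variable [IsManifold 𝓘(ℝ, E2) ∞ M]

/-- the region where the decomposition functions are used -/
def InReg (r0 : ℝ) (A B m : M → ℝ) (G : M → Bil) : Prop :=
  ∀ p, PosDef (G p) ∧ 10 * r0 * ((wM A B m G p).1 + nW (wM A B m G p)) ≤ 1

/-- output of the iteration -/
def IterPack (g : M → Bil) (A B m : M → ℝ) (r0 : ℝ) (k : ℕ) (h₁ : ℝ) (G : M → ℝ → Bil) : Prop :=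
  0 < h₁ ∧ SmTP h₁ G ∧ (∀ p, G p 0 = g p) ∧
  (∀ h ∈ Ioo (-h₁) h₁, InReg r0 A B m (fun p => G p h)) ∧
  ∀ φ ∈ ATL M, ∀ K : Set E2, IsCompact K → K ⊆ φ.target → ∀ r : ℕ, ∃ C : ℝ,
    ∀ h ∈ Ioc 0 (h₁ / 2), ∀ x ∈ K, ‖iteratedFDeriv ℝ r (fun y => locT φ (fun p => g p
      - h ^ 2 • (sqT (lam1 r0 A B m (fun q => G q h)) p + sqT (lam2 r0 A B m (fun q => G q h)) p)
      - G p h) y) x‖ ≤ C * h ^ (2 * k + 2)

omit [IsManifold 𝓘(ℝ, E2) ∞ M] in
private theorem BIter_alf_bet {A B m : M → ℝ} {τ : ℝ} {g : M → Bil} (hw : Weights g A B m τ)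
    (p : M) : alf A m p ≠ 0 ∨ bet B m p ≠ 0 := by
  rcases hw.2.2.2.2.2.1 p with h | h
  · exact Or.inl (smul_ne_zero (Real.exp_pos _).ne' h)
  · exact Or.inr (smul_ne_zero (Real.exp_pos _).ne' h)

private theorem BIter_sqC_smul (c : ℝ) (α : E2 →L[ℝ] ℝ) : sqC (c • α) = c ^ 2 • sqC α := by
  ext <;> simp [sqC] <;> ring

omit [IsManifold 𝓘(ℝ, E2) ∞ M] in
private theorem BIter_wpos {A B m : M → ℝ} {τ : ℝ} {g : M → Bil} (hw : Weights g A B m τ)
    {G : M → Bil} {p : M} (hG : PosDef (G p)) :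
    0 < (wM A B m G p).1 ∧ 0 ≤ dW (wM A B m G p) := by
  have h := wOf_pos hG (BIter_alf_bet hw p)
  exact ⟨h.1, h.2.1⟩

/-- decomposition of a metric in the region -/
theorem dec_M {A B m : M → ℝ} {r0 τ : ℝ} {g : M → Bil} (hr : 0 < r0) (hw : Weights g A B m τ)
    {G : M → Bil} (hG : InReg r0 A B m G) (p : M) :
    G p = lam1 r0 A B m G p ^ 2 • sqT A p + lam2 r0 A B m G p ^ 2 • sqT B p
      + (4 * beM r0 A B m G p ^ 2) • sqT (fun q => (A q + B q) / 2) p
      + etM r0 A B m G p ^ 2 • QtM r0 A B m G p := by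
  obtain ⟨hA, hB, hm, hτ, hmb, -, -⟩ := id hw
  obtain ⟨hp, hreg⟩ := hG p
  have hwp := BIter_wpos hw hp
  have hS := SW_pos hr hwp.1 hwp.2 hreg (hmb p)
  have hT := TW_pos hr hwp.1 hwp.2 hreg (hmb p)
  have hdec := dec_identity hr hp (BIter_alf_bet hw p) (m p)
  have h1 : lam1 r0 A B m G p ^ 2 • sqT A p =
      SW r0 (wOf (G p) (alf A m p) (bet B m p)) (m p) • sqC (alf A m p) := by
    unfold lam1 sqT alf
    rw [BIter_sqC_smul, mul_pow, Real.sq_sqrt hS.le, smul_smul, mul_comm]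
    rfl
  have h2 : lam2 r0 A B m G p ^ 2 • sqT B p =
      TW r0 (wOf (G p) (alf A m p) (bet B m p)) (m p) • sqC (bet B m p) := by
    unfold lam2 sqT bet
    rw [BIter_sqC_smul, mul_pow, Real.sq_sqrt hT.le, smul_smul, mul_comm]
    rfl
  have h3 : (4 * beM r0 A B m G p ^ 2) • sqT (fun q => (A q + B q) / 2) p =
      bW r0 (wOf (G p) (alf A m p) (bet B m p)) ^ 2 •
        sqC (Real.exp (-(m p)) • alf A m p + Real.exp (m p) • bet B m p) := by
    have e1 : Real.exp (-(m p)) • alf A m p + Real.exp (m p) • bet B m p = dP A p + dP B p := by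
      unfold alf bet
      rw [smul_smul, smul_smul, ← Real.exp_add, ← Real.exp_add, neg_add_cancel, add_neg_cancel,
        Real.exp_zero, one_smul, one_smul]
    have e2 : dP (fun q => (A q + B q) / 2) p = (1 / 2 : ℝ) • (dP A p + dP B p) := by
      have a1 : HasFDerivAt (A ∘ (chartAt E2 p).symm) (dP A p) (chartAt E2 p p) :=
        (((hA.loc (chart_mem_ATL p)).contDiffAt ((chartAt E2 p).open_target.mem_nhds
          (mem_chart_target E2 p))).differentiableAt (by simp)).hasFDerivAt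
      have a2 : HasFDerivAt (B ∘ (chartAt E2 p).symm) (dP B p) (chartAt E2 p p) :=
        (((hB.loc (chart_mem_ATL p)).contDiffAt ((chartAt E2 p).open_target.mem_nhds
          (mem_chart_target E2 p))).differentiableAt (by simp)).hasFDerivAt
      have a3 := ((a1.add a2).const_mul (1 / 2)).fderiv
      rw [← a3]
      unfold dP
      congr 1
      funext t
      simp only [Function.comp, Pi.add_apply]
      ring
    unfold sqT beM
    rw [e1, e2, BIter_sqC_smul, smul_smul]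
    congr 1
    unfold wM
    ring
  rw [h1, h2, h3]
  exact hdec

theorem lam_pos {A B m : M → ℝ} {r0 τ : ℝ} {g : M → Bil} (hr : 0 < r0) (hw : Weights g A B m τ)
    {G : M → Bil} (hG : InReg r0 A B m G) (p : M) :
    0 < lam1 r0 A B m G p ∧ 0 < lam2 r0 A B m G p := by
  obtain ⟨hA, hB, hm, hτ, hmb, -, -⟩ := id hw
  obtain ⟨hp, hreg⟩ := hG p
  have hwp := BIter_wpos hw hp
  have hS := SW_pos hr hwp.1 hwp.2 hreg (hmb p)
  have hT := TW_pos hr hwp.1 hwp.2 hreg (hmb p)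
  exact ⟨mul_pos (Real.exp_pos _) (Real.sqrt_pos.2 hS),
    mul_pos (Real.exp_pos _) (Real.sqrt_pos.2 hT)⟩

private theorem BIter_ip_smul (G : Bil) (c d : ℝ) (α β : E2 →L[ℝ] ℝ) :
    ip G (c • α) (d • β) = c * d * ip G α β := by
  unfold ip
  simp only [smul_apply, smul_eq_mul]
  ring

section SmPlemmas

variable {h₁ : ℝ} {V W : Type*} [NormedAddCommGroup V] [NormedSpace ℝ V] [NormedAddCommGroup W]
  [NormedSpace ℝ W]

private theorem BIter_const {u : M → V} (hu : Sm u) : SmP h₁ (fun p _ => u p) :=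
  fun _ hφ => (hu.loc hφ).comp contDiffOn_fst (fun _ hq => hq.1)

omit [IsManifold 𝓘(ℝ, E2) ∞ M] in
private theorem BIter_comp {Φ : V → W} {O : Set V} (hΦ : ContDiffOn ℝ ∞ Φ O) {u : M → ℝ → V}
    (hu : SmP h₁ u) (hm : ∀ p, ∀ h ∈ Ioo (-h₁) h₁, u p h ∈ O) : SmP h₁ (fun p h => Φ (u p h)) :=
  fun φ hφ => hΦ.comp (hu φ hφ) (fun _ hq => hm _ _ hq.2)

omit [IsManifold 𝓘(ℝ, E2) ∞ M] in
private theorem BIter_pair {u : M → ℝ → V} {w : M → ℝ → W} (hu : SmP h₁ u) (hw : SmP h₁ w) :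
    SmP h₁ (fun p h => (u p h, w p h)) :=
  fun φ hφ => (hu φ hφ).prodMk (hw φ hφ)

omit [IsManifold 𝓘(ℝ, E2) ∞ M] in
private theorem BIter_mul {u w : M → ℝ → ℝ} (hu : SmP h₁ u) (hw : SmP h₁ w) :
    SmP h₁ (fun p h => u p h * w p h) :=
  fun φ hφ => (hu φ hφ).mul (hw φ hφ)

private theorem BIter_wM {A B m : M → ℝ} {τ : ℝ} {g : M → Bil}
    (hw : Weights g A B m τ) {G : M → ℝ → Bil} (hG : SmTP h₁ G)
    (hpos : ∀ p, ∀ h ∈ Ioo (-h₁) h₁, PosDef (G p h)) :
    SmP h₁ (fun p h => wM A B m (fun q => G q h) p) := by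
  obtain ⟨hA, hB, hm, -⟩ := id hw
  have h1 := smP_ip hG hpos hA hA
  have h2 := smP_ip hG hpos hB hB
  have h3 := smP_ip hG hpos hA hB
  have h4 : SmP h₁ (fun p _ => m p) := BIter_const hm
  have h5 := BIter_pair h4 (BIter_pair h1 (BIter_pair h2 h3))
  have h6 : ContDiff ℝ ∞ (fun s : ℝ × ℝ × ℝ × ℝ =>
      ((Real.exp s.1 * Real.exp s.1 * s.2.1 + Real.exp (-s.1) * Real.exp (-s.1) * s.2.2.1) / 2,
        (Real.exp s.1 * Real.exp s.1 * s.2.1 - Real.exp (-s.1) * Real.exp (-s.1) * s.2.2.1) / 2,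
        Real.exp s.1 * Real.exp (-s.1) * s.2.2.2)) := by fun_prop
  have h7 := BIter_comp (h6.contDiffOn (s := univ)) h5 (fun _ _ _ => mem_univ _)
  refine fun φ hφ => (h7 φ hφ).congr fun q hq => ?_
  unfold wM wOf alf bet
  dsimp only
  rw [BIter_ip_smul, BIter_ip_smul, BIter_ip_smul]

end SmPlemmas

/-- smoothness in `(p, h)` -/
theorem smP_lam {A B m : M → ℝ} {r0 τ h₁ : ℝ} {g : M → Bil} (hr : 0 < r0)
    (hw : Weights g A B m τ) {G : M → ℝ → Bil} (hG : SmTP h₁ G)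
    (hR : ∀ h ∈ Ioo (-h₁) h₁, InReg r0 A B m (fun p => G p h)) :
    SmP h₁ (fun p h => lam1 r0 A B m (fun q => G q h) p) ∧
    SmP h₁ (fun p h => lam2 r0 A B m (fun q => G q h) p) ∧
    SmP h₁ (fun p h => beM r0 A B m (fun q => G q h) p) ∧
    SmP h₁ (fun p h => etM r0 A B m (fun q => G q h) p) := by
  obtain ⟨hA, hB, hm, hτ, hmb, -, -⟩ := id hw
  have hpos : ∀ p, ∀ h ∈ Ioo (-h₁) h₁, PosDef (G p h) := fun p h hh => (hR h hh p).1
  have h1 := BIter_wM hw hG hpos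
  have h2 : ∀ p, ∀ h ∈ Ioo (-h₁) h₁, 0 < (wM A B m (fun q => G q h) p).1 := fun p h hh =>
    (BIter_wpos hw (G := fun q => G q h) (hpos p h hh)).1
  have h3 : SmP h₁ (fun p _ => m p) := BIter_const hm
  have e1 : SmP h₁ (fun p _ => Real.exp (m p)) :=
    BIter_comp (Real.contDiff_exp.contDiffOn (s := univ)) h3 (fun _ _ _ => mem_univ _)
  have e2 : SmP h₁ (fun p _ => Real.exp (-(m p))) :=
    BIter_comp ((Real.contDiff_exp.comp contDiff_neg).contDiffOn (s := univ)) h3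
      (fun _ _ _ => mem_univ _)
  have s1 := BIter_comp (contDiffOn_SW hr) (BIter_pair h1 h3) (fun p h hh => h2 p h hh)
  have s2 := BIter_comp (contDiffOn_TW hr) (BIter_pair h1 h3) (fun p h hh => h2 p h hh)
  have hsq : ContDiffOn ℝ ∞ Real.sqrt (Ioi 0) := fun x hx =>
    (Real.contDiffAt_sqrt (ne_of_gt hx)).contDiffWithinAt
  have r1 := BIter_comp hsq s1 (fun p h hh =>
    SW_pos hr (h2 p h hh) (BIter_wpos hw (G := fun q => G q h) (hpos p h hh)).2 (hR h hh p).2 (hmb p))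
  have r2 := BIter_comp hsq s2 (fun p h hh =>
    TW_pos hr (h2 p h hh) (BIter_wpos hw (G := fun q => G q h) (hpos p h hh)).2 (hR h hh p).2 (hmb p))
  exact ⟨BIter_mul e1 r1, BIter_mul e2 r2, BIter_comp (contDiffOn_bW hr) h1 h2,
    BIter_comp (contDiffOn_etW hr) h1 h2⟩

omit [IsManifold 𝓘(ℝ, E2) ∞ M] in
private theorem BIter_smT_const {h₁ : ℝ} {G : M → Bil} (hG : SmT G) : SmTP h₁ (fun p _ => G p) :=
  fun φ hφ => (hG φ hφ).comp contDiffOn_fst (fun _ hq => hq.1)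

private theorem BIter_wM_sm {A B m : M → ℝ} {τ : ℝ} {g : M → Bil}
    (hw : Weights g A B m τ) {G : M → Bil} (hG : IsMetric G) : Sm (wM A B m G) := by
  have h1 := BIter_wM (h₁ := 1) hw (BIter_smT_const hG.1) (fun p _ _ => hG.2 p)
  exact SmP.sm h1 (h := 0) (by simp)

theorem flat_be_et {A B m : M → ℝ} {r0 τ : ℝ} {g : M → Bil} (hr : 0 < r0)
    (hw : Weights g A B m τ) {G : M → Bil} (hG : IsMetric G) :
    Flat (beM r0 A B m G) ∧ Flat (etM r0 A B m G) := by
  have h1 := BIter_wM (h₁ := 1) hw (BIter_smT_const hG.1) (fun p _ _ => hG.2 p)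
  have h2 : ∀ p, 0 < (wM A B m G p).1 := fun p => (BIter_wpos hw (hG.2 p)).1
  have key : ∀ f : W3 → ℝ, FlatOn f {w | 0 < w.1} → Flat (fun p => f (wM A B m G p)) := by
    intro f hf n hn
    obtain ⟨θ, hθ, hθ'⟩ := hf n hn
    have h3 := BIter_comp hθ h1 (fun p _ _ => h2 p)
    exact ⟨fun p => θ (wM A B m G p), SmP.sm h3 (h := 0) (by simp), fun p => hθ' _ (h2 p)⟩
  exact ⟨key _ (flatOn_bW hr), key _ (flatOn_etW hr)⟩

private theorem BIter_cond {r0 : ℝ} (hr : 0 < r0) {w : W3} (ht : 0 < w.1) :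
    (nW w ≤ r0 * dW w ∧ zr w = 0 ∧ zi w = r0 / 4) ↔
      (w.2.1 = 0 ∧ w.2.2 = -(r0 / 4) * dW w ∧ 0 ≤ dW w) := by
  constructor
  · rintro ⟨h1, h2, h3⟩
    have h4 : 0 ≤ nW w := Real.sqrt_nonneg _
    have h5 : 0 ≤ dW w := by
      by_contra h
      push Not at h
      nlinarith
    have h6 : dW w ≠ 0 := by
      intro h
      unfold zi at h3
      rw [h, div_zero] at h3
      linarith
    unfold zr at h2
    unfold zi at h3
    rw [div_eq_zero_iff] at h2
    have h7 : w.2.1 = 0 := by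
      rcases h2 with h | h
      · linarith
      · exact absurd h h6
    rw [div_eq_iff h6] at h3
    exact ⟨h7, by linarith, h5⟩
  · rintro ⟨h1, h2, h3⟩
    have h6 : dW w ≠ 0 := by
      intro h
      rw [h, mul_zero] at h2
      unfold dW at h
      rw [h1, h2] at h
      have : 0 < w.1 ^ 2 := by positivity
      linarith
    have h7 : 0 < dW w := lt_of_le_of_ne h3 (Ne.symm h6)
    refine ⟨?_, ?_, ?_⟩
    · unfold nW
      rw [h1, h2]
      have h8 : (0 : ℝ) ^ 2 + (-(r0 / 4) * dW w) ^ 2 = (r0 / 4 * dW w) ^ 2 := by ring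
      rw [h8, Real.sqrt_sq (by positivity)]
      nlinarith
    · unfold zr
      rw [h1]
      simp
    · unfold zi
      rw [h2, div_eq_iff h6]
      ring

private theorem BIter_wOf_comp {G : Bil} (hG : PosDef G) (T S : E2 →L[ℝ] E2)
    (hTS : S.comp T = ContinuousLinearMap.id ℝ E2) (α β : E2 →L[ℝ] ℝ) :
    wOf (G.bilinearComp T T) (α.comp T) (β.comp T) = wOf G α β := by
  unfold wOf
  rw [ip_comp hG T S hTS, ip_comp hG T S hTS, ip_comp hG T S hTS]

private theorem BIter_comp_ne {α : E2 →L[ℝ] ℝ} {T S : E2 →L[ℝ] E2}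
    (h : T.comp S = ContinuousLinearMap.id ℝ E2) (hα : α ≠ 0) : α.comp T ≠ 0 := by
  intro h0
  apply hα
  have h1 : (α.comp T).comp S = 0 := by rw [h0, ContinuousLinearMap.zero_comp]
  rw [ContinuousLinearMap.comp_assoc, h, ContinuousLinearMap.comp_id] at h1
  exact h1

private theorem BIter_sqC_comp (α : E2 →L[ℝ] ℝ) (T : E2 →L[ℝ] E2) :
    (sqC α).bilinearComp T T = sqC (α.comp T) := by
  ext <;> simp [sqC]

private theorem BIter_symC_comp (α β : E2 →L[ℝ] ℝ) (T : E2 →L[ℝ] E2) :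
    (symC α β).bilinearComp T T = symC (α.comp T) (β.comp T) := by
  ext <;> simp [symC]

private theorem BIter_bc_add (G G' : Bil) (T : E2 →L[ℝ] E2) :
    (G + G').bilinearComp T T = G.bilinearComp T T + G'.bilinearComp T T := by
  ext <;> simp

private theorem BIter_bc_sub (G G' : Bil) (T : E2 →L[ℝ] E2) :
    (G - G').bilinearComp T T = G.bilinearComp T T - G'.bilinearComp T T := by
  ext <;> simp

private theorem BIter_bc_smul (c : ℝ) (G : Bil) (T : E2 →L[ℝ] E2) :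
    (c • G).bilinearComp T T = c • G.bilinearComp T T := by
  ext <;> simp

private theorem BIter_QtW_comp (r0 : ℝ) (w : W3) (G : Bil) (α β : E2 →L[ℝ] ℝ)
    (T : E2 →L[ℝ] E2) : (QtW r0 w G α β).bilinearComp T T =
      QtW r0 w (G.bilinearComp T T) (α.comp T) (β.comp T) := by
  unfold QtW
  split_ifs
  · rw [BIter_bc_add, BIter_bc_add, BIter_bc_smul, BIter_bc_smul, BIter_bc_smul,
      BIter_sqC_comp, BIter_sqC_comp, BIter_symC_comp]
  · rw [BIter_bc_sub, BIter_bc_smul, BIter_bc_add, BIter_sqC_comp, BIter_sqC_comp]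

/-- `Q̃` is smooth of rank one near the support of `η` -/
theorem QtM_rank {A B m : M → ℝ} {r0 τ : ℝ} {g : M → Bil} (hr : 0 < r0)
    (hw : Weights g A B m τ) {G : M → Bil} (hG : IsMetric G) {p : M}
    (hp : p ∈ tsupport (etM r0 A B m G)) : RankOneNear (QtM r0 A B m G) p := by
  obtain ⟨hA, hB, hm, hτ, hmb, -, -⟩ := id hw
  have hwc : Continuous (wM A B m G) := (BIter_wM_sm hw hG).continuous
  have hwpos : ∀ q, 0 < (wM A B m G q).1 := fun q => (BIter_wpos hw (hG.2 q)).1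
  set U : Set M := {q | ¬ (nW (wM A B m G q) ≤ r0 * dW (wM A B m G q) ∧
    zr (wM A B m G q) = 0 ∧ zi (wM A B m G q) = r0 / 4)} with hU
  have hdc : Continuous dW := by unfold dW; fun_prop
  have hUo : IsOpen U := by
    have h1 : U = {q | (wM A B m G q).2.1 = 0 ∧
        (wM A B m G q).2.2 = -(r0 / 4) * dW (wM A B m G q) ∧ 0 ≤ dW (wM A B m G q)}ᶜ := by
      rw [hU]
      ext q
      exact not_congr (BIter_cond hr (hwpos q))
    rw [h1, isOpen_compl_iff]
    refine IsClosed.inter ?_ (IsClosed.inter ?_ ?_)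
    · exact isClosed_eq (continuous_fst.comp (continuous_snd.comp hwc)) continuous_const
    · exact isClosed_eq (continuous_snd.comp (continuous_snd.comp hwc))
        (continuous_const.mul (hdc.comp hwc))
    · exact isClosed_le continuous_const (hdc.comp hwc)
  refine ⟨U, hUo, ?_, ?_, ?_⟩
  · have h1 : wM A B m G p ∈ closure {w | etW r0 w ≠ 0} := by
      refine map_mem_closure hwc hp ?_
      intro q hq
      exact hq
    exact etW_closure hr h1 (hwpos p)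
  · intro χ hχ x hx
    have hxt : x ∈ χ.target := hx.1
    have hxU : χ.symm x ∈ U := hx.2
    have hnh : χ.target ∈ 𝓝 x := χ.open_target.mem_nhds hxt
    set α : E2 → E2 →L[ℝ] ℝ := fun y => Real.exp (m (χ.symm y)) • fderiv ℝ (A ∘ χ.symm) y with hα
    set β : E2 → E2 →L[ℝ] ℝ := fun y => Real.exp (-(m (χ.symm y))) • fderiv ℝ (B ∘ χ.symm) y
      with hβ
    have cm : ContDiffAt ℝ ∞ (fun y => m (χ.symm y)) x := (hm.loc hχ).contDiffAt hnh
    have cA : ContDiffAt ℝ ∞ (fderiv ℝ (A ∘ χ.symm)) x :=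
      ((hA.loc hχ).fderiv_of_isOpen χ.open_target (by simp)).contDiffAt hnh
    have cB : ContDiffAt ℝ ∞ (fderiv ℝ (B ∘ χ.symm)) x :=
      ((hB.loc hχ).fderiv_of_isOpen χ.open_target (by simp)).contDiffAt hnh
    have cα : ContDiffAt ℝ ∞ α x := (Real.contDiff_exp.contDiffAt.comp x cm).smul cA
    have cβ : ContDiffAt ℝ ∞ β x := (Real.contDiff_exp.contDiffAt.comp x cm.neg).smul cB
    have cG : ContDiffAt ℝ ∞ (locT χ G) x := (hG.1 χ hχ).contDiffAt hnh
    have hal : ∀ y ∈ χ.target, (alf A m (χ.symm y)).comp (TTi χ y) = α y := by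
      intro y hy
      have hd : DifferentiableAt ℝ (A ∘ χ.symm) y :=
        ((hA.loc hχ).contDiffAt (χ.open_target.mem_nhds hy)).differentiableAt (by simp)
      show (Real.exp (m (χ.symm y)) • dP A (χ.symm y)).comp (TTi χ y) = _
      rw [ContinuousLinearMap.smul_comp, dP_comp_TTi hχ hy hd]
    have hbe : ∀ y ∈ χ.target, (bet B m (χ.symm y)).comp (TTi χ y) = β y := by
      intro y hy
      have hd : DifferentiableAt ℝ (B ∘ χ.symm) y :=
        ((hB.loc hχ).contDiffAt (χ.open_target.mem_nhds hy)).differentiableAt (by simp)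
      show (Real.exp (-(m (χ.symm y))) • dP B (χ.symm y)).comp (TTi χ y) = _
      rw [ContinuousLinearMap.smul_comp, dP_comp_TTi hχ hy hd]
    have hww : ∀ y ∈ χ.target, wOf (locT χ G y) (α y) (β y) = wM A B m G (χ.symm y) := by
      intro y hy
      rw [← hal y hy, ← hbe y hy]
      exact BIter_wOf_comp (hG.2 _) _ _ (TT_comp_TTi hχ hy) _ _
    have hQ : ∀ y ∈ χ.target, locT χ (QtM r0 A B m G) y =
        QtW r0 (wOf (locT χ G y) (α y) (β y)) (locT χ G y) (α y) (β y) := by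
      intro y hy
      rw [hww y hy, ← hal y hy, ← hbe y hy]
      exact BIter_QtW_comp _ _ _ _ _ _
    have hpd : ∀ y ∈ χ.target, PosDef (locT χ G y) := fun y hy => (posDef_locT hχ hy).2 (hG.2 _)
    have hne : α x ≠ 0 ∨ β x ≠ 0 := by
      have hTT := TTi_comp_TT hχ (χ.map_target hxt)
      rw [χ.right_inv hxt] at hTT
      rw [← hal x hxt, ← hbe x hxt]
      rcases BIter_alf_bet hw (χ.symm x) with h | h
      · exact Or.inl (BIter_comp_ne hTT h)
      · exact Or.inr (BIter_comp_ne hTT h)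
    have hmain := contDiffAt_QtW hr cG cα cβ (hpd x hxt)
      (Filter.eventually_of_mem hnh hpd) hne (by rw [hww x hxt]; exact hxU)
    refine (hmain.congr_of_eventuallyEq ?_).contDiffWithinAt
    exact Filter.eventually_of_mem hnh hQ
  · intro q hq
    exact QtW_rank hr (hG.2 q) (BIter_alf_bet hw q) hq

/-- choice of `r₀` -/
theorem exists_r0 [CompactSpace M] {A B m : M → ℝ} {τ : ℝ} {g : M → Bil} (hg : IsMetric g)
    (hw : Weights g A B m τ) : ∃ r0 : ℝ, 0 < r0 ∧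
      ∀ p, 20 * r0 * ((wM A B m g p).1 + nW (wM A B m g p)) ≤ 1 := by
  have hwc : Continuous (wM A B m g) := (BIter_wM_sm hw hg).continuous
  have hn : Continuous nW := by unfold nW; fun_prop
  have hc : Continuous (fun p => (wM A B m g p).1 + nW (wM A B m g p)) :=
    (continuous_fst.comp hwc).add (hn.comp hwc)
  obtain ⟨C, hC⟩ := isCompact_univ.exists_bound_of_continuousOn (hc.continuousOn (s := univ))
  have hC1 : 0 < max 1 C := lt_of_lt_of_le one_pos (le_max_left _ _)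
  refine ⟨1 / (20 * max 1 C), by positivity, fun p => ?_⟩
  have h1 := (le_abs_self _).trans ((hC p (mem_univ p)).trans (le_max_right 1 C))
  have h2 : 20 * (1 / (20 * max 1 C)) * ((wM A B m g p).1 + nW (wM A B m g p)) =
      ((wM A B m g p).1 + nW (wM A B m g p)) / max 1 C := by
    field_simp
  rw [h2, div_le_one hC1]
  exact h1

private theorem BIter_posDef_of {b : Bil} (hs : ∀ v w, b v w = b w v) (h1 : 0 < b e1 e1)
    (h2 : 0 < dtB b) : PosDef b := by
  refine ⟨hs, fun v hv => ?_⟩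
  have hv1 : v = v.1 • e1 + v.2 • e2 := by ext <;> simp [e1, e2]
  have e : b v v = v.1 ^ 2 * b e1 e1 + 2 * v.1 * v.2 * b e1 e2 + v.2 ^ 2 * b e2 e2 := by
    conv_lhs => rw [hv1]
    simp only [map_add, map_smul, add_apply, smul_apply, smul_eq_mul]
    rw [hs e2 e1]
    ring
  unfold dtB at h2
  rw [hs e2 e1] at h2
  have k : b e1 e1 * b v v = (v.1 * b e1 e1 + v.2 * b e1 e2) ^ 2 +
      v.2 ^ 2 * (b e1 e1 * b e2 e2 - b e1 e2 * b e1 e2) := by
    rw [e]
    ring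
  have hpos : 0 < b e1 e1 * b v v := by
    rw [k]
    by_cases h : v.2 = 0
    · have h3 : v.1 ≠ 0 := by
        intro h4
        apply hv
        ext
        · exact h4
        · exact h
      rw [h]
      have : 0 < (v.1 * b e1 e1) ^ 2 := by positivity
      simpa using this
    · have : 0 < v.2 ^ 2 * (b e1 e1 * b e2 e2 - b e1 e2 * b e1 e2) := by positivity
      positivity
  exact pos_of_mul_pos_right hpos h1.le

omit [IsManifold 𝓘(ℝ, E2) ∞ M] in
private theorem BIter_smTP_mono {h₁ h₂ : ℝ} (h : h₂ ≤ h₁) {G : M → ℝ → Bil} (hG : SmTP h₁ G) :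
    SmTP h₂ G := fun φ hφ => (hG φ hφ).mono (by
  rintro q ⟨hq1, hq2⟩
  exact ⟨hq1, Ioo_subset_Ioo (by linarith) h hq2⟩)

private theorem BIter_symm_locT {G : Bil} (hs : ∀ v w, G v w = G w v) (T : E2 →L[ℝ] E2)
    (v w : E2) : G.bilinearComp T T v w = G.bilinearComp T T w v := by
  simp only [ContinuousLinearMap.bilinearComp_apply]
  exact hs _ _

/-- perturbation of the region: a smooth family `G` with `G p 0 = g p` is in the region for small `h` -/
theorem inReg_small [CompactSpace M] {A B m : M → ℝ} {r0 τ h₁ : ℝ} {g : M → Bil} (hg : IsMetric g)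
    (hw : Weights g A B m τ) (hr : 0 < r0) (hh : 0 < h₁)
    (hr2 : ∀ p, 20 * r0 * ((wM A B m g p).1 + nW (wM A B m g p)) ≤ 1)
    {G : M → ℝ → Bil} (hG : SmTP h₁ G) (h0 : ∀ p, G p 0 = g p)
    (hs : ∀ p, ∀ h ∈ Ioo (-h₁) h₁, ∀ v w, G p h v w = G p h w v) :
    ∃ h₂ ∈ Ioc 0 h₁, ∀ h ∈ Ioo (-h₂) h₂, InReg r0 A B m (fun p => G p h) := by
  -- positivity
  have h1 : ∀ᶠ h in 𝓝 (0 : ℝ), ∀ p ∈ (univ : Set M), PosDef (G p h) := by
    refine isCompact_univ.eventually_forall_of_forall_eventually fun p₀ _ => ?_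
    set φ := chartAt E2 p₀ with hφd
    have hφ : φ ∈ ATL M := chart_mem_ATL p₀
    have hsrc : p₀ ∈ φ.source := mem_chart_source E2 p₀
    have htgt : φ p₀ ∈ φ.target := mem_chart_target E2 p₀
    have hFc : ContinuousAt (fun q : E2 × ℝ => locT φ (fun p => G p q.2) q.1) (φ p₀, 0) := by
      refine (hG φ hφ).continuousOn.continuousAt ((φ.open_target.prod isOpen_Ioo).mem_nhds ?_)
      exact ⟨htgt, by constructor <;> linarith⟩
    have hinn : ContinuousAt (fun z : ℝ × M => (φ z.2, z.1)) (0, p₀) := by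
      refine ContinuousAt.prodMk ?_ continuousAt_fst
      exact (φ.continuousAt hsrc).comp (f := Prod.snd) continuousAt_snd
    have hcomp : ContinuousAt (fun z : ℝ × M => locT φ (fun p => G p z.1) (φ z.2)) (0, p₀) :=
      ContinuousAt.comp (g := fun q : E2 × ℝ => locT φ (fun p => G p q.2) q.1)
        (f := fun z : ℝ × M => (φ z.2, z.1)) (x := ((0 : ℝ), p₀)) hFc hinn
    have hval : PosDef (locT φ (fun p => G p 0) (φ p₀)) := by
      have : (fun p => G p 0) = g := funext h0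
      rw [this]
      exact (posDef_locT hφ htgt).2 (hg.2 _)
    have hev : ∀ v w : E2, ContinuousAt
        (fun z : ℝ × M => locT φ (fun p => G p z.1) (φ z.2) v w) (0, p₀) := fun v w =>
      (hcomp.clm_apply continuousAt_const).clm_apply continuousAt_const
    have k1 := (hev e1 e1).eventually (lt_mem_nhds (hval.2 e1 (by simp [e1])))
    have k2 : ∀ᶠ z : ℝ × M in 𝓝 (0, p₀), 0 < dtB (locT φ (fun p => G p z.1) (φ z.2)) :=
      (((hev e1 e1).mul (hev e2 e2)).sub ((hev e1 e2).mul (hev e2 e1))).eventually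
        (lt_mem_nhds (dtB_pos hval))
    have k3 : ∀ᶠ z : ℝ × M in 𝓝 (0, p₀), z.2 ∈ φ.source :=
      continuousAt_snd.eventually (φ.open_source.mem_nhds hsrc)
    have k4 : ∀ᶠ z : ℝ × M in 𝓝 (0, p₀), z.1 ∈ Ioo (-h₁) h₁ :=
      continuousAt_fst.eventually (isOpen_Ioo.mem_nhds (by constructor <;> simpa using hh))
    filter_upwards [k1, k2, k3, k4] with z z1 z2 z3 z4
    have h5 : PosDef (locT φ (fun p => G p z.1) (φ z.2)) :=
      BIter_posDef_of (BIter_symm_locT (fun v w => hs _ _ z4 v w) _) z1 z2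
    have h6 := (posDef_locT hφ (φ.map_source z3)).1 h5
    rw [φ.left_inv z3] at h6
    exact h6
  obtain ⟨ε, hε, h2⟩ := Metric.eventually_nhds_iff.1 h1
  set h₃ := min ε h₁ with hh3
  have h₃p : 0 < h₃ := lt_min hε hh
  have hposd : ∀ p, ∀ h ∈ Ioo (-h₃) h₃, PosDef (G p h) := by
    intro p h hh'
    refine h2 ?_ p (mem_univ p)
    rw [Real.dist_eq, sub_zero, abs_lt]
    have : h₃ ≤ ε := min_le_left _ _
    constructor <;> linarith [hh'.1, hh'.2]
  have hw3 := BIter_wM hw (BIter_smTP_mono (min_le_right _ _) hG) hposd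
  have hn : Continuous nW := by unfold nW; fun_prop
  have hw4 := SmP.continuousOn hw3
  have h5 : ∀ᶠ h in 𝓝 (0 : ℝ), ∀ p ∈ (univ : Set M),
      10 * r0 * ((wM A B m (fun q => G q h) p).1 + nW (wM A B m (fun q => G q h) p)) < 1 := by
    refine isCompact_univ.eventually_forall_of_forall_eventually fun p₀ _ => ?_
    have a1 : ContinuousAt (fun q : M × ℝ => wM A B m (fun p => G p q.2) q.1) (p₀, 0) :=
      hw4.continuousAt ((isOpen_univ.prod isOpen_Ioo).mem_nhds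
        ⟨mem_univ _, by constructor <;> linarith⟩)
    have a2 : ContinuousAt (fun z : ℝ × M => wM A B m (fun p => G p z.1) z.2) (0, p₀) :=
      ContinuousAt.comp (g := fun q : M × ℝ => wM A B m (fun p => G p q.2) q.1)
        (f := fun z : ℝ × M => (z.2, z.1)) (x := ((0 : ℝ), p₀)) a1
        (continuousAt_snd.prodMk continuousAt_fst)
    have a3 : ContinuousAt (fun z : ℝ × M => 10 * r0 * ((wM A B m (fun p => G p z.1) z.2).1 +
        nW (wM A B m (fun p => G p z.1) z.2))) (0, p₀) :=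
      continuousAt_const.mul ((continuousAt_fst.comp a2).add
        (hn.continuousAt.comp a2))
    refine a3.eventually (gt_mem_nhds ?_)
    have a4 := hr2 p₀
    have a5 : (fun p => G p 0) = g := funext h0
    show 10 * r0 * ((wM A B m (fun p => G p 0) p₀).1 + nW (wM A B m (fun p => G p 0) p₀)) < 1
    rw [a5]
    linarith
  obtain ⟨ε', hε', h6⟩ := Metric.eventually_nhds_iff.1 h5
  refine ⟨min ε' h₃, ⟨lt_min hε' h₃p, (min_le_right _ _).trans (min_le_right _ _)⟩,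
    fun h hh' p => ⟨hposd p h ⟨?_, ?_⟩, (h6 ?_ p (mem_univ p)).le⟩⟩
  · have : min ε' h₃ ≤ h₃ := min_le_right _ _
    linarith [hh'.1]
  · have : min ε' h₃ ≤ h₃ := min_le_right _ _
    linarith [hh'.2]
  · rw [Real.dist_eq, sub_zero, abs_lt]
    have : min ε' h₃ ≤ ε' := min_le_left _ _
    constructor <;> linarith [hh'.1, hh'.2]

private theorem BIter_ip_cda {E : Type*} [NormedAddCommGroup E] [NormedSpace ℝ E] {G : E → Bil}
    {α β : E2 →L[ℝ] ℝ} {x : E} (hG : ContDiffAt ℝ ∞ G x) (hD : dtB (G x) ≠ 0) :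
    ContDiffAt ℝ ∞ (fun y => ip (G y) α β) x := by
  have hc : ∀ v w : E2, ContDiffAt ℝ ∞ (fun t => G t v w) x := fun v w =>
    (hG.clm_apply contDiffAt_const).clm_apply contDiffAt_const
  have hd : ContDiffAt ℝ ∞ (fun t => dtB (G t)) x :=
    ((hc e1 e1).mul (hc e2 e2)).sub ((hc e1 e2).mul (hc e2 e1))
  exact ContDiffAt.div (((((hc e2 e2).mul contDiffAt_const)).sub
    ((hc e1 e2).mul contDiffAt_const) |>.sub ((hc e2 e1).mul contDiffAt_const)).add
    ((hc e1 e1).mul contDiffAt_const)) hd hD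

/-- local Lipschitz property of the amplitudes as functions of the form -/
private theorem BIter_lip {S : W3 × ℝ → ℝ} (hS : ContDiffOn ℝ ∞ S {q | 0 < q.1.1}) (c μ : ℝ)
    {b₀ : Bil} (hb : PosDef b₀) {α β : E2 →L[ℝ] ℝ} (hne : α ≠ 0 ∨ β ≠ 0)
    (hpos : 0 < S (wOf b₀ α β, μ)) :
    ∃ K : NNReal, ∃ t ∈ 𝓝 b₀, LipschitzOnWith K (fun b => c * Real.sqrt (S (wOf b α β, μ))) t := by
  have hD := (dtB_pos hb).ne'
  have h1 : ContDiffAt ℝ ∞ (fun b : Bil => wOf b α β) b₀ := by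
    have a1 := BIter_ip_cda (α := α) (β := α) (G := fun b : Bil => b) contDiffAt_id hD
    have a2 := BIter_ip_cda (α := β) (β := β) (G := fun b : Bil => b) contDiffAt_id hD
    have a3 := BIter_ip_cda (α := α) (β := β) (G := fun b : Bil => b) contDiffAt_id hD
    exact ((a1.add a2).div_const 2).prodMk (((a1.sub a2).div_const 2).prodMk a3)
  have h2 : ContDiffAt ℝ ∞ (fun b : Bil => (wOf b α β, μ)) b₀ := h1.prodMk contDiffAt_const
  have hO : IsOpen {q : W3 × ℝ | 0 < q.1.1} :=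
    isOpen_lt continuous_const (continuous_fst.comp continuous_fst)
  have hmem : (wOf b₀ α β, μ) ∈ {q : W3 × ℝ | 0 < q.1.1} := (wOf_pos hb hne).1
  have h3 : ContDiffAt ℝ ∞ (fun b : Bil => S (wOf b α β, μ)) b₀ :=
    (hS.contDiffAt (hO.mem_nhds hmem)).comp b₀ h2
  have h4 : ContDiffAt ℝ ∞ (fun b : Bil => Real.sqrt (S (wOf b α β, μ))) b₀ :=
    h3.sqrt hpos.ne'
  have h5 : ContDiffAt ℝ 1 (fun b : Bil => c * Real.sqrt (S (wOf b α β, μ))) b₀ :=
    (contDiffAt_const.mul h4).of_le (by simp)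
  exact h5.exists_lipschitzOnWith

private theorem BIter_locT_self (H : M → Bil) (p : M) :
    locT (chartAt E2 p) H (chartAt E2 p p) = H p := by
  unfold locT
  rw [(chartAt E2 p).left_inv (mem_chart_source E2 p)]
  have h1 : TTi (chartAt E2 p) (chartAt E2 p p) = ContinuousLinearMap.id ℝ E2 := TTi_chartAt p
  rw [h1]
  rfl

private theorem BIter_cont0 {h₁ : ℝ} (hh : 0 < h₁) {G : M → ℝ → Bil} (hG : SmTP h₁ G) (p : M) :
    ContinuousAt (fun h => G p h) 0 := by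
  have h1 := (hG (chartAt E2 p) (chart_mem_ATL p)).continuousOn.continuousAt
    (x := (chartAt E2 p p, (0 : ℝ))) (((chartAt E2 p).open_target.prod isOpen_Ioo).mem_nhds
      ⟨mem_chart_target E2 p, by constructor <;> linarith⟩)
  have h2 : ContinuousAt (fun h : ℝ => locT (chartAt E2 p) (fun q => G q h) (chartAt E2 p p)) 0 :=
    ContinuousAt.comp (g := fun q : E2 × ℝ => locT (chartAt E2 p) (fun p => G p q.2) q.1)
      (f := fun h : ℝ => (chartAt E2 p p, h)) (x := (0 : ℝ)) h1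
      (continuousAt_const.prodMk continuousAt_id)
  simpa only [BIter_locT_self] using h2

/-- a pointwise bound in `h` carries over to the differential -/
private theorem BIter_dO {h₁ : ℝ} (hh : 0 < h₁) {u : M → ℝ → ℝ} (hu : SmP h₁ u) (N : ℕ)
    (hO : ∀ p, ∃ C : ℝ, ∀ᶠ h in 𝓝 (0 : ℝ), |u p h| ≤ C * |h| ^ N) (p : M) :
    ∃ C : ℝ, ∀ h : ℝ, |h| ≤ h₁ / 2 → ‖dP (fun q => u q h) p‖ ≤ C * |h| ^ N := by
  set φ := chartAt E2 p with hφ
  obtain ⟨C, hC⟩ := taylor_h φ.open_target hh (u := fun q : E2 × ℝ => u (φ.symm q.1) q.2)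
    (hu φ (chart_mem_ATL p)) N (fun x _ => hO (φ.symm x)) (K := {φ p}) isCompact_singleton
    (by rw [singleton_subset_iff]; exact mem_chart_target E2 p) 1
  refine ⟨C, fun h hhb => ?_⟩
  have h1 := hC (φ p) (mem_singleton _) h hhb
  rw [norm_iteratedFDeriv_one] at h1
  exact h1

private theorem BIter_sqC_sub (α β : E2 →L[ℝ] ℝ) :
    ‖sqC α - sqC β‖ ≤ ‖α - β‖ * (‖α‖ + ‖β‖) := by
  refine ContinuousLinearMap.opNorm_le_bound₂ _ (by positivity) fun v w => ?_
  have h1 : (sqC α - sqC β) v w = (α - β) v * α w + β v * (α - β) w := by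
    simp [sqC]
    ring
  rw [h1, Real.norm_eq_abs]
  have a1 := (α - β).le_opNorm v
  have a2 := (α - β).le_opNorm w
  have a3 := α.le_opNorm w
  have a4 := β.le_opNorm v
  rw [Real.norm_eq_abs] at a1 a2 a3 a4
  calc |(α - β) v * α w + β v * (α - β) w| ≤ |(α - β) v| * |α w| + |β v| * |(α - β) w| := by
        rw [← abs_mul, ← abs_mul]
        exact abs_add_le _ _
    _ ≤ (‖α - β‖ * ‖v‖) * (‖α‖ * ‖w‖) + (‖β‖ * ‖v‖) * (‖α - β‖ * ‖w‖) := by
        apply add_le_add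
        · exact mul_le_mul a1 a3 (abs_nonneg _) (by positivity)
        · exact mul_le_mul a4 a2 (abs_nonneg _) (by positivity)
    _ = ‖α - β‖ * (‖α‖ + ‖β‖) * ‖v‖ * ‖w‖ := by ring

private theorem BIter_diff {h₁ : ℝ} {u : M → ℝ → ℝ} (hu : SmP h₁ u) {h : ℝ}
    (hh : h ∈ Ioo (-h₁) h₁) (p : M) :
    DifferentiableAt ℝ ((fun q => u q h) ∘ (chartAt E2 p).symm) (chartAt E2 p p) :=
  (((SmP.sm hu hh).loc (chart_mem_ATL p)).contDiffAt ((chartAt E2 p).open_target.mem_nhds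
    (mem_chart_target E2 p))).differentiableAt (by simp)

/-- the key step of the induction -/
private theorem BIter_step {h₁ : ℝ} (hh : 0 < h₁) {g : M → Bil} {Λ : (M → Bil) → M → ℝ}
    {G G' : M → ℝ → Bil} (hΛ : SmP h₁ (fun p h => Λ (fun q => G q h) p))
    (hΛ' : SmP h₁ (fun p h => Λ (fun q => G' q h) p))
    (hlip : ∀ p, ∃ K : NNReal, ∃ t ∈ 𝓝 (g p), ∃ l : Bil → ℝ, LipschitzOnWith K l t ∧
      ∀ H : M → Bil, Λ H p = l (H p))
    (hG : SmTP h₁ G) (hG' : SmTP h₁ G') (h0 : ∀ p, G p 0 = g p) (h0' : ∀ p, G' p 0 = g p)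
    (N : ℕ) (hO : ∀ p, ∃ C : ℝ, ∀ᶠ h in 𝓝 (0 : ℝ), ‖G' p h - G p h‖ ≤ C * |h| ^ N) (p : M) :
    ∃ C : ℝ, ∀ᶠ h in 𝓝 (0 : ℝ), ‖sqT (Λ (fun q => G' q h)) p - sqT (Λ (fun q => G q h)) p‖ ≤
      C * |h| ^ N := by
  -- the difference
  have hD : SmP h₁ (fun p h => Λ (fun q => G' q h) p - Λ (fun q => G q h) p) :=
    fun φ hφ => (hΛ' φ hφ).sub (hΛ φ hφ)
  have hDO : ∀ p, ∃ C : ℝ, ∀ᶠ h in 𝓝 (0 : ℝ),
      |Λ (fun q => G' q h) p - Λ (fun q => G q h) p| ≤ C * |h| ^ N := by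
    intro p
    obtain ⟨K, t, ht, l, hl, hl'⟩ := hlip p
    obtain ⟨C, hC⟩ := hO p
    have c1 := BIter_cont0 hh hG p
    have c2 := BIter_cont0 hh hG' p
    have e1 : ∀ᶠ h in 𝓝 (0 : ℝ), G p h ∈ t := c1 (by
      show t ∈ 𝓝 (G p 0)
      rw [h0]
      exact ht)
    have e2 : ∀ᶠ h in 𝓝 (0 : ℝ), G' p h ∈ t := c2 (by
      show t ∈ 𝓝 (G' p 0)
      rw [h0']
      exact ht)
    refine ⟨K * C, ?_⟩
    filter_upwards [e1, e2, hC] with h a1 a2 a3
    rw [hl' (fun q => G' q h), hl' (fun q => G q h)]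
    have b1 := hl.dist_le_mul _ a2 _ a1
    rw [Real.dist_eq, dist_eq_norm] at b1
    refine b1.trans ?_
    rw [mul_assoc]
    exact mul_le_mul_of_nonneg_left a3 K.2
  obtain ⟨C1, hC1⟩ := BIter_dO hh hD N hDO p
  have hb : ∀ {v : M → ℝ → ℝ}, SmP h₁ v → ∃ C : ℝ, ∀ h : ℝ, |h| ≤ h₁ / 2 →
      ‖dP (fun q => v q h) p‖ ≤ C := by
    intro v hv
    obtain ⟨C, hC⟩ := BIter_dO hh hv 0 (by
      intro q
      have h1 := (SmP.continuousOn hv).continuousAt (x := (q, (0 : ℝ)))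
        ((isOpen_univ.prod isOpen_Ioo).mem_nhds ⟨mem_univ _, by constructor <;> linarith⟩)
      have h2 : ContinuousAt (fun h : ℝ => v q h) 0 :=
        ContinuousAt.comp (g := fun z : M × ℝ => v z.1 z.2) (f := fun h : ℝ => (q, h))
          (x := (0 : ℝ)) h1 (continuousAt_const.prodMk continuousAt_id)
      refine ⟨|v q 0| + 1, ?_⟩
      have h3 := h2.abs.eventually (gt_mem_nhds (lt_add_one |v q 0|))
      filter_upwards [h3] with h hh'
      rw [pow_zero, mul_one]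
      exact le_of_lt hh') p
    exact ⟨C, fun h hh' => by simpa using hC h hh'⟩
  obtain ⟨C2, hC2⟩ := hb hΛ
  obtain ⟨C3, hC3⟩ := hb hΛ'
  refine ⟨C1 * (C3 + C2), ?_⟩
  have hev : ∀ᶠ h in 𝓝 (0 : ℝ), |h| < h₁ / 2 := by
    have : ContinuousAt (fun h : ℝ => |h|) 0 := continuous_abs.continuousAt
    refine this.eventually (gt_mem_nhds ?_)
    show |(0 : ℝ)| < h₁ / 2
    rw [abs_zero]
    linarith
  filter_upwards [hev] with h hhb
  have hI : h ∈ Ioo (-h₁) h₁ := by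
    have := abs_lt.1 hhb
    constructor <;> linarith
  have k1 := hC1 h hhb.le
  have k2 := hC2 h hhb.le
  have k3 := hC3 h hhb.le
  have k4 : dP (fun q => Λ (fun q => G' q h) q - Λ (fun q => G q h) q) p =
      dP (Λ (fun q => G' q h)) p - dP (Λ (fun q => G q h)) p :=
    ((BIter_diff hΛ' hI p).hasFDerivAt.sub (BIter_diff hΛ hI p).hasFDerivAt).fderiv
  rw [k4] at k1
  have k5 := BIter_sqC_sub (dP (Λ (fun q => G' q h)) p) (dP (Λ (fun q => G q h)) p)
  unfold sqT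
  have k6 : 0 ≤ C1 * |h| ^ N := (norm_nonneg _).trans k1
  calc _ ≤ _ := k5
    _ ≤ (C1 * |h| ^ N) * (C3 + C2) := by
        apply mul_le_mul k1 (add_le_add k3 k2) (by positivity) k6
    _ = C1 * (C3 + C2) * |h| ^ N := by ring

section SmTPlemmas

variable {h₁ : ℝ}

omit [IsManifold 𝓘(ℝ, E2) ∞ M]

private theorem BIter_tadd {H H' : M → ℝ → Bil} (h : SmTP h₁ H) (h' : SmTP h₁ H') :
    SmTP h₁ (fun p h => H p h + H' p h) := fun φ hφ =>
  ((h φ hφ).add (h' φ hφ)).congr fun _ _ => BIter_bc_add _ _ _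

private theorem BIter_tsub {H H' : M → ℝ → Bil} (h : SmTP h₁ H) (h' : SmTP h₁ H') :
    SmTP h₁ (fun p h => H p h - H' p h) := fun φ hφ =>
  ((h φ hφ).sub (h' φ hφ)).congr fun _ _ => BIter_bc_sub _ _ _

private theorem BIter_tsmul {H : M → ℝ → Bil} (h : SmTP h₁ H) {c : ℝ → ℝ}
    (hc : ContDiff ℝ ∞ c) : SmTP h₁ (fun p h => c h • H p h) := fun φ hφ =>
  ((hc.comp contDiff_snd).contDiffOn.smul (h φ hφ)).congr fun _ _ => BIter_bc_smul _ _ _

private theorem BIter_pmono {h₂ : ℝ} (h : h₂ ≤ h₁) {V : Type*} [NormedAddCommGroup V]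
    [NormedSpace ℝ V] {u : M → ℝ → V} (hu : SmP h₁ u) :
    SmP h₂ u := fun φ hφ => (hu φ hφ).mono (by
  rintro q ⟨hq1, hq2⟩
  exact ⟨hq1, Ioo_subset_Ioo (by linarith) h hq2⟩)

end SmTPlemmas

private theorem BIter_bc_norm (G : Bil) (T : E2 →L[ℝ] E2) :
    ‖G.bilinearComp T T‖ ≤ ‖G‖ * ‖T‖ ^ 2 := by
  refine ContinuousLinearMap.opNorm_le_bound₂ _ (by positivity) fun v w => ?_
  rw [ContinuousLinearMap.bilinearComp_apply]
  calc ‖G (T v) (T w)‖ ≤ ‖G‖ * ‖T v‖ * ‖T w‖ := G.le_opNorm₂ _ _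
    _ ≤ ‖G‖ * (‖T‖ * ‖v‖) * (‖T‖ * ‖w‖) := by
        have h1 := T.le_opNorm v
        have h2 := T.le_opNorm w
        gcongr
    _ = ‖G‖ * ‖T‖ ^ 2 * ‖v‖ * ‖w‖ := by ring

/-- the next metric -/
private def BIter_nx (g : M → Bil) (A B m : M → ℝ) (r0 : ℝ) (G : M → ℝ → Bil) (p : M) (h : ℝ) :
    Bil :=
  g p - h ^ 2 • (sqT (lam1 r0 A B m (fun q => G q h)) p + sqT (lam2 r0 A B m (fun q => G q h)) p)

private theorem BIter_nx_sm {A B m : M → ℝ} {r0 τ h₁ : ℝ} {g : M → Bil} (hg : IsMetric g)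
    (hr : 0 < r0) (hw : Weights g A B m τ) {G : M → ℝ → Bil} (hG : SmTP h₁ G)
    (hR : ∀ h ∈ Ioo (-h₁) h₁, InReg r0 A B m (fun p => G p h)) :
    SmTP h₁ (BIter_nx g A B m r0 G) := by
  obtain ⟨h1, h2, -⟩ := smP_lam hr hw hG hR
  exact BIter_tsub (BIter_smT_const hg.1)
    (BIter_tsmul (BIter_tadd (smTP_sqT h1) (smTP_sqT h2)) (c := fun h => h ^ 2) (by fun_prop))

private theorem BIter_main [CompactSpace M] {A B m : M → ℝ} {r0 τ : ℝ} {g : M → Bil}
    (hg : IsMetric g) (hw : Weights g A B m τ) (hr : 0 < r0)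
    (hr2 : ∀ p, 20 * r0 * ((wM A B m g p).1 + nW (wM A B m g p)) ≤ 1) (k : ℕ) :
    ∃ (h₁ : ℝ) (G : M → ℝ → Bil), 0 < h₁ ∧ SmTP h₁ G ∧ (∀ p, G p 0 = g p) ∧
      (∀ h ∈ Ioo (-h₁) h₁, InReg r0 A B m (fun p => G p h)) ∧
      ∀ p, ∃ C : ℝ, ∀ᶠ h in 𝓝 (0 : ℝ), ‖BIter_nx g A B m r0 G p h - G p h‖ ≤
        C * |h| ^ (2 * k + 2) := by
  have hmb := hw.2.2.2.2.1
  induction k with
  | zero =>
    refine ⟨1, fun p _ => g p, one_pos, BIter_smT_const hg.1, fun _ => rfl, fun h _ p =>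
      ⟨hg.2 p, ?_⟩, fun p => ?_⟩
    · have h1 := hr2 p
      have h2 := (BIter_wpos hw (hg.2 p)).1
      have h3 : 0 ≤ nW (wM A B m g p) := Real.sqrt_nonneg _
      show 10 * r0 * ((wM A B m g p).1 + nW (wM A B m g p)) ≤ 1
      have h4 : 0 < r0 * ((wM A B m g p).1 + nW (wM A B m g p)) := by positivity
      linarith
    · refine ⟨‖sqT (lam1 r0 A B m g) p + sqT (lam2 r0 A B m g) p‖,
        Filter.Eventually.of_forall fun h => ?_⟩
      have h1 : BIter_nx g A B m r0 (fun p _ => g p) p h - g p =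
          -(h ^ 2 • (sqT (lam1 r0 A B m g) p + sqT (lam2 r0 A B m g) p)) := by
        unfold BIter_nx
        abel
      show ‖BIter_nx g A B m r0 (fun p _ => g p) p h - g p‖ ≤ _
      rw [h1, norm_neg, norm_smul, norm_pow, Real.norm_eq_abs, mul_comm]
  | succ k ih =>
    obtain ⟨h₁, G, hh, hG, h0, hR, hO⟩ := ih
    have hG' := BIter_nx_sm hg hr hw hG hR
    have h0' : ∀ p, BIter_nx g A B m r0 G p 0 = g p := by
      intro p
      unfold BIter_nx
      simp
    have hsym : ∀ p, ∀ h ∈ Ioo (-h₁) h₁, ∀ v w, BIter_nx g A B m r0 G p h v w =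
        BIter_nx g A B m r0 G p h w v := by
      intro p h _ v w
      unfold BIter_nx sqT sqC
      simp only [sub_apply, smul_apply, add_apply, ContinuousLinearMap.smulRight_apply,
        smul_eq_mul]
      rw [(hg.2 p).1 v w]
      ring
    obtain ⟨h₂, ⟨hh2, hh21⟩, hR'⟩ := inReg_small hg hw hr hh hr2 hG' h0' hsym
    have hGm := BIter_smTP_mono hh21 hG
    have hGm' := BIter_smTP_mono hh21 hG'
    have hRm : ∀ h ∈ Ioo (-h₂) h₂, InReg r0 A B m (fun p => G p h) := fun h hh' =>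
      hR h (Ioo_subset_Ioo (by linarith) hh21 hh')
    refine ⟨h₂, BIter_nx g A B m r0 G, hh2, hGm', h0', hR', fun p => ?_⟩
    obtain ⟨l1, l2, -⟩ := smP_lam hr hw hGm hRm
    obtain ⟨l1', l2', -⟩ := smP_lam hr hw hGm' hR'
    have hreg : ∀ p, 10 * r0 * ((wM A B m g p).1 + nW (wM A B m g p)) ≤ 1 := by
      intro p
      have h1 := hr2 p
      have h2 := (BIter_wpos hw (hg.2 p)).1
      have h3 : 0 ≤ nW (wM A B m g p) := Real.sqrt_nonneg _
      have h4 : 0 < r0 * ((wM A B m g p).1 + nW (wM A B m g p)) := by positivity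
      linarith
    have lip1 : ∀ p, ∃ K : NNReal, ∃ t ∈ 𝓝 (g p), ∃ l : Bil → ℝ, LipschitzOnWith K l t ∧
        ∀ H : M → Bil, lam1 r0 A B m H p = l (H p) := by
      intro p
      have hwp := BIter_wpos hw (hg.2 p)
      obtain ⟨K, t, ht, hl⟩ := BIter_lip (contDiffOn_SW hr) (Real.exp (m p)) (m p) (hg.2 p)
        (BIter_alf_bet hw p) (SW_pos hr hwp.1 hwp.2 (hreg p) (hmb p))
      exact ⟨K, t, ht, _, hl, fun H => rfl⟩
    have lip2 : ∀ p, ∃ K : NNReal, ∃ t ∈ 𝓝 (g p), ∃ l : Bil → ℝ, LipschitzOnWith K l t ∧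
        ∀ H : M → Bil, lam2 r0 A B m H p = l (H p) := by
      intro p
      have hwp := BIter_wpos hw (hg.2 p)
      obtain ⟨K, t, ht, hl⟩ := BIter_lip (contDiffOn_TW hr) (Real.exp (-(m p))) (m p) (hg.2 p)
        (BIter_alf_bet hw p) (TW_pos hr hwp.1 hwp.2 (hreg p) (hmb p))
      exact ⟨K, t, ht, _, hl, fun H => rfl⟩
    obtain ⟨C1, hC1⟩ := BIter_step hh2 l1 l1' lip1 hGm hGm' h0 h0' (2 * k + 2) hO p
    obtain ⟨C2, hC2⟩ := BIter_step hh2 l2 l2' lip2 hGm hGm' h0 h0' (2 * k + 2) hO p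
    refine ⟨C1 + C2, ?_⟩
    filter_upwards [hC1, hC2] with h b1 b2
    have e1 : BIter_nx g A B m r0 (BIter_nx g A B m r0 G) p h - BIter_nx g A B m r0 G p h =
        -(h ^ 2 • ((sqT (lam1 r0 A B m (fun q => BIter_nx g A B m r0 G q h)) p -
            sqT (lam1 r0 A B m (fun q => G q h)) p) +
          (sqT (lam2 r0 A B m (fun q => BIter_nx g A B m r0 G q h)) p -
            sqT (lam2 r0 A B m (fun q => G q h)) p))) := by
      have e2 : BIter_nx g A B m r0 (BIter_nx g A B m r0 G) p h =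
        g p - h ^ 2 • (sqT (lam1 r0 A B m (fun q => BIter_nx g A B m r0 G q h)) p +
          sqT (lam2 r0 A B m (fun q => BIter_nx g A B m r0 G q h)) p) := rfl
      have e3 : BIter_nx g A B m r0 G p h =
        g p - h ^ 2 • (sqT (lam1 r0 A B m (fun q => G q h)) p +
          sqT (lam2 r0 A B m (fun q => G q h)) p) := rfl
      rw [e2, e3]
      module
    rw [e1, norm_neg, norm_smul, norm_pow, Real.norm_eq_abs]
    calc |h| ^ 2 * ‖(sqT (lam1 r0 A B m (fun q => BIter_nx g A B m r0 G q h)) p -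
            sqT (lam1 r0 A B m (fun q => G q h)) p) +
          (sqT (lam2 r0 A B m (fun q => BIter_nx g A B m r0 G q h)) p -
            sqT (lam2 r0 A B m (fun q => G q h)) p)‖
        ≤ |h| ^ 2 * (C1 * |h| ^ (2 * k + 2) + C2 * |h| ^ (2 * k + 2)) :=
          mul_le_mul_of_nonneg_left ((norm_add_le _ _).trans (add_le_add b1 b2)) (by positivity)
      _ = (C1 + C2) * |h| ^ (2 * (k + 1) + 2) := by ring

theorem exists_iter [CompactSpace M] {A B m : M → ℝ} {r0 τ : ℝ} {g : M → Bil} (hg : IsMetric g)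
    (hw : Weights g A B m τ) (hr : 0 < r0)
    (hr2 : ∀ p, 20 * r0 * ((wM A B m g p).1 + nW (wM A B m g p)) ≤ 1) (k : ℕ) :
    ∃ (h₁ : ℝ) (G : M → ℝ → Bil), IterPack g A B m r0 k h₁ G := by
  obtain ⟨h₁, G, hh, hG, h0, hR, hO⟩ := BIter_main hg hw hr hr2 k
  refine ⟨h₁, G, hh, hG, h0, hR, fun φ hφ K hK hKt r => ?_⟩
  have hS : SmTP h₁ (fun p h => BIter_nx g A B m r0 G p h - G p h) :=
    BIter_tsub (BIter_nx_sm hg hr hw hG hR) hG
  obtain ⟨C, hC⟩ := taylor_h φ.open_target hh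
    (u := fun q : E2 × ℝ => locT φ (fun p => BIter_nx g A B m r0 G p q.2 - G p q.2) q.1)
    (hS φ hφ) (2 * k + 2) (by
      intro x hx
      obtain ⟨C, hC⟩ := hO (φ.symm x)
      refine ⟨C * ‖TTi φ x‖ ^ 2, ?_⟩
      filter_upwards [hC] with h hb
      have h1 := BIter_bc_norm (BIter_nx g A B m r0 G (φ.symm x) h - G (φ.symm x) h) (TTi φ x)
      refine h1.trans ?_
      calc _ ≤ (C * |h| ^ (2 * k + 2)) * ‖TTi φ x‖ ^ 2 :=
            mul_le_mul_of_nonneg_right hb (by positivity)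
        _ = C * ‖TTi φ x‖ ^ 2 * |h| ^ (2 * k + 2) := by ring) hK hKt r
  refine ⟨C, fun h hh' x hx => ?_⟩
  have h1 := hC x hx h (by rw [abs_of_pos hh'.1]; exact hh'.2)
  rw [abs_of_pos hh'.1] at h1
  exact h1

end P205F
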