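import Mathlib
import Vale.Agent.Lib.P205B.BIter

/-!
# P205F BASE: the compact set `KO`, the invariant for the base map, and the base package

`KO := {p | ε ≤ dW (wM g p)}`, `KT := {p | 2 ε ≤ dW (wM g p)}` with `ε` small:
`tsupport β(h) ⊆ {|w| ≤ r₀ d}` (for `G(·,h)`), and for `h`
small this closed set is contained in `KT` (compactness: at `h = 0` a point with
`|w| ≤ r₀ d`, `d ≤ ε` has `t² = |w|² + d ≤ r₀² ε² + ε`, impossible when `t ≥ t_min > 0` and `ε` small).
-/

noncomputable section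

namespace P205F

open scoped Manifold ContDiff Topology RealInnerProductSpace
open Set

set_option maxSynthPendingDepth 3

variable {M : Type} [TopologicalSpace M] [ChartedSpace E2 M] [IsManifold 𝓘(ℝ, E2) ∞ M]

/-- joint continuity of parameter dependent smooth functions -/
theorem BF3_cont {V : Type} [NormedAddCommGroup V] [NormedSpace ℝ V] {h₁ : ℝ} {u : M → ℝ → V}
    (hu : SmP h₁ u) {h : ℝ} (hh : h ∈ Ioo (-h₁) h₁) (p : M) :
    ContinuousAt (fun z : ℝ × M => u z.2 z.1) (h, p) := by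
  set φ := chartAt E2 p with hφ
  have hp : p ∈ φ.source := mem_chart_source E2 p
  have h1 := hu φ (chart_mem_ATL p)
  have hopen : IsOpen (φ.target ×ˢ Ioo (-h₁) h₁) := φ.open_target.prod isOpen_Ioo
  have h2 : ContinuousAt (fun q : E2 × ℝ => u (φ.symm q.1) q.2) (φ p, h) :=
    h1.continuousOn.continuousAt (hopen.mem_nhds ⟨φ.map_source hp, hh⟩)
  have h3 : ContinuousAt (fun z : ℝ × M => ((φ z.2, z.1) : E2 × ℝ)) (h, p) := by
    refine ContinuousAt.prodMk ?_ continuousAt_fst
    exact (φ.continuousAt hp).comp continuousAt_snd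
  have h4 : ContinuousAt (fun z : ℝ × M => u (φ.symm (φ z.2)) z.1) (h, p) :=
    ContinuousAt.comp (f := fun z : ℝ × M => ((φ z.2, z.1) : E2 × ℝ)) (x := (h, p)) h2 h3
  refine h4.congr ?_
  have h5 : ∀ᶠ z : ℝ × M in 𝓝 (h, p), z.2 ∈ φ.source :=
    continuousAt_snd.eventually (φ.open_source.mem_nhds hp)
  filter_upwards [h5] with z hz
  rw [φ.left_inv hz]

private theorem BF3_w (A B m : M → ℝ) (G : M → Bil) (p : M) :
    wM A B m G p =
      ((Real.exp (m p) * Real.exp (m p) * ip (G p) (dP A p) (dP A p) +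
          Real.exp (-(m p)) * Real.exp (-(m p)) * ip (G p) (dP B p) (dP B p)) / 2,
        (Real.exp (m p) * Real.exp (m p) * ip (G p) (dP A p) (dP A p) -
          Real.exp (-(m p)) * Real.exp (-(m p)) * ip (G p) (dP B p) (dP B p)) / 2,
        ip (G p) (dP A p) (dP B p)) := by
  have hs : ∀ (c d : ℝ) (α β : E2 →L[ℝ] ℝ), ip (G p) (c • α) (d • β) = c * d * ip (G p) α β := by
    intro c d α β
    unfold ip
    rw [← mul_div_assoc]
    congr 1
    simp only [ContinuousLinearMap.smul_apply, smul_eq_mul]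
    ring
  unfold wM wOf alf bet
  rw [hs, hs, hs]
  refine Prod.ext rfl (Prod.ext rfl ?_)
  change Real.exp (m p) * Real.exp (-(m p)) * ip (G p) (dP A p) (dP B p) = _
  rw [← Real.exp_add, add_neg_cancel, Real.exp_zero, one_mul]

private theorem BF3_wcont {A B m : M → ℝ} {h₁ : ℝ} {G : M → ℝ → Bil} (hA : Sm A) (hB : Sm B)
    (hm : Sm m) (hG : SmTP h₁ G) (hpos : ∀ p, ∀ h ∈ Ioo (-h₁) h₁, PosDef (G p h)) {h : ℝ}
    (hh : h ∈ Ioo (-h₁) h₁) (p : M) :
    ContinuousAt (fun z : ℝ × M => wM A B m (fun q => G q z.1) z.2) (h, p) := by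
  have ca := BF3_cont (smP_ip hG hpos hA hA) hh p
  have cb := BF3_cont (smP_ip hG hpos hB hB) hh p
  have cc := BF3_cont (smP_ip hG hpos hA hB) hh p
  have cm : ContinuousAt (fun z : ℝ × M => m z.2) (h, p) := by
    have h1 : Continuous m := ContMDiff.continuous hm
    exact h1.continuousAt.comp continuousAt_snd
  have ce : ContinuousAt (fun z : ℝ × M => Real.exp (m z.2)) (h, p) := cm.rexp
  have ce' : ContinuousAt (fun z : ℝ × M => Real.exp (-(m z.2))) (h, p) := cm.neg.rexp
  have h2 : (fun z : ℝ × M => wM A B m (fun q => G q z.1) z.2) = fun z : ℝ × M =>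
      ((Real.exp (m z.2) * Real.exp (m z.2) * ip (G z.2 z.1) (dP A z.2) (dP A z.2) +
          Real.exp (-(m z.2)) * Real.exp (-(m z.2)) * ip (G z.2 z.1) (dP B z.2) (dP B z.2)) / 2,
        (Real.exp (m z.2) * Real.exp (m z.2) * ip (G z.2 z.1) (dP A z.2) (dP A z.2) -
          Real.exp (-(m z.2)) * Real.exp (-(m z.2)) * ip (G z.2 z.1) (dP B z.2) (dP B z.2)) / 2,
        ip (G z.2 z.1) (dP A z.2) (dP B z.2)) := by
    funext z
    exact BF3_w A B m (fun q => G q z.1) z.2
  rw [h2]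
  exact ((((ce.mul ce).mul ca).add ((ce'.mul ce').mul cb)).div_const 2).prodMk
    (((((ce.mul ce).mul ca).sub ((ce'.mul ce').mul cb)).div_const 2).prodMk cc)

private theorem BF3_dW : Continuous dW := by
  unfold dW
  fun_prop

private theorem BF3_nW : Continuous nW := by
  unfold nW
  fun_prop

private theorem BF3_lower [CompactSpace M] {f : M → ℝ} (hf : Continuous f) (h : ∀ p, 0 < f p) :
    ∃ c : ℝ, 0 < c ∧ ∀ p, c ≤ f p := by
  rcases isEmpty_or_nonempty M with hM | hM
  · exact ⟨1, one_pos, fun p => (hM.false p).elim⟩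
  · obtain ⟨p0, -, hp0⟩ := isCompact_univ.exists_isMinOn (univ_nonempty (α := M)) hf.continuousOn
    exact ⟨f p0, h p0, fun p => hp0 (mem_univ p)⟩

theorem exists_KO [CompactSpace M] {A B m : M → ℝ} {r0 τ h₁ : ℝ} {g : M → Bil}
    {k : ℕ} {G : M → ℝ → Bil} (hg : IsMetric g) (hr : 0 < r0) (hw : Weights g A B m τ)
    (hI : IterPack g A B m r0 k h₁ G) :
    ∃ KT KO : Set M, IsCompact KT ∧ IsCompact KO ∧ KT ⊆ interior KO ∧
      (∀ p ∈ KO, detC (dP A p) (dP B p) ≠ 0) ∧
      ∃ h₂ ∈ Ioc 0 (h₁ / 2), ∀ h ∈ Ioo 0 h₂,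
        tsupport (beM r0 A B m (fun q => G q h)) ⊆ KT := by
  obtain ⟨hA, hB, hm, -, -, hne, -⟩ := hw
  obtain ⟨hh₁, hG, hG0, hR, -⟩ := hI
  have hpos : ∀ p, ∀ h ∈ Ioo (-h₁) h₁, PosDef (G p h) := fun p h hh => (hR h hh p).1
  have h0mem : (0 : ℝ) ∈ Ioo (-h₁) h₁ := ⟨by linarith, hh₁⟩
  -- facts at `h = 0`
  have hG0' : (fun q => G q 0) = g := funext hG0
  have hne' : ∀ p, alf A m p ≠ 0 ∨ bet B m p ≠ 0 := by
    intro p
    rcases hne p with h | h
    · left
      unfold alf
      exact smul_ne_zero (Real.exp_pos _).ne' h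
    · right
      unfold bet
      exact smul_ne_zero (Real.exp_pos _).ne' h
  have hwp : ∀ p, 0 < (wM A B m g p).1 ∧ 0 ≤ dW (wM A B m g p) ∧
      dW (wM A B m g p) = detC (alf A m p) (bet B m p) ^ 2 / dtB (g p) := fun p =>
    wOf_pos (hg.2 p) (hne' p)
  have hwc : ∀ h ∈ Ioo (-h₁) h₁, Continuous fun p => wM A B m (fun q => G q h) p := by
    intro h hh
    rw [continuous_iff_continuousAt]
    intro p
    have h1 := BF3_wcont hA hB hm hG hpos hh p
    have h2 : ContinuousAt (fun p' : M => ((h, p') : ℝ × M)) p :=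
      continuousAt_const.prodMk continuousAt_id
    exact ContinuousAt.comp (f := fun p' : M => ((h, p') : ℝ × M)) (x := p) h1 h2
  have hwc0 : Continuous fun p => wM A B m g p := by
    have := hwc 0 h0mem
    rwa [hG0'] at this
  have hDc : Continuous fun p => dW (wM A B m g p) := BF3_dW.comp hwc0
  obtain ⟨t0, ht0, ht⟩ := BF3_lower (f := fun p => (wM A B m g p).1)
    (continuous_fst.comp hwc0) fun p => (hwp p).1
  -- the constant
  obtain ⟨ε, hε, hε1, hε2⟩ : ∃ ε : ℝ, 0 < ε ∧ ε ≤ 1 ∧ (4 * r0 ^ 2 + 2) * ε < t0 ^ 2 := by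
    refine ⟨min 1 (t0 ^ 2 / (2 * (4 * r0 ^ 2 + 2))), lt_min one_pos (by positivity),
      min_le_left _ _, ?_⟩
    have h1 : (4 * r0 ^ 2 + 2) * min 1 (t0 ^ 2 / (2 * (4 * r0 ^ 2 + 2))) ≤
        (4 * r0 ^ 2 + 2) * (t0 ^ 2 / (2 * (4 * r0 ^ 2 + 2))) :=
      mul_le_mul_of_nonneg_left (min_le_right _ _) (by positivity)
    have h2 : (4 * r0 ^ 2 + 2) * (t0 ^ 2 / (2 * (4 * r0 ^ 2 + 2))) = t0 ^ 2 / 2 := by
      have : (4 * r0 ^ 2 + 2) ≠ 0 := by positivity
      field_simp
    have h3 : 0 < t0 ^ 2 := by positivity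
    linarith
  refine ⟨{p | 2 * ε ≤ dW (wM A B m g p)}, {p | ε ≤ dW (wM A B m g p)}, ?_, ?_, ?_, ?_, ?_⟩
  · exact (isClosed_le continuous_const hDc).isCompact
  · exact (isClosed_le continuous_const hDc).isCompact
  · have hopen : IsOpen {p | ε < dW (wM A B m g p)} := isOpen_lt continuous_const hDc
    have hsub : {p | ε < dW (wM A B m g p)} ⊆ {p | ε ≤ dW (wM A B m g p)} :=
      fun p (hp : ε < dW (wM A B m g p)) => hp.le
    refine Subset.trans ?_ (interior_maximal hsub hopen)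
    intro p hp
    have h1 : 2 * ε ≤ dW (wM A B m g p) := hp
    show ε < dW (wM A B m g p)
    linarith
  · intro p hp hdet
    have h1 : ε ≤ dW (wM A B m g p) := hp
    have h2 : detC (alf A m p) (bet B m p) = 0 := by
      have h3 : detC (alf A m p) (bet B m p) =
          (Real.exp (m p) * Real.exp (-(m p))) * detC (dP A p) (dP B p) := by
        unfold detC alf bet
        simp only [ContinuousLinearMap.smul_apply, smul_eq_mul]
        ring
      rw [h3, hdet, mul_zero]
    rw [(hwp p).2.2, h2] at h1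
    norm_num at h1
    linarith
  · -- the small parameter
    have hZ : IsCompact {p : M | dW (wM A B m g p) ≤ 2 * ε} :=
      (isClosed_le hDc continuous_const).isCompact
    have hP : ∀ p ∈ {p : M | dW (wM A B m g p) ≤ 2 * ε}, ∀ᶠ z : ℝ × M in 𝓝 ((0 : ℝ), p),
        r0 * dW (wM A B m (fun q => G q z.1) z.2) < nW (wM A B m (fun q => G q z.1) z.2) := by
      intro p hp
      have h1 := BF3_wcont hA hB hm hG hpos h0mem p
      have c1 : ContinuousAt (fun z : ℝ × M => r0 * dW (wM A B m (fun q => G q z.1) z.2))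
          ((0 : ℝ), p) := (BF3_dW.continuousAt.comp h1).const_mul r0
      have c2 : ContinuousAt (fun z : ℝ × M => nW (wM A B m (fun q => G q z.1) z.2))
          ((0 : ℝ), p) := BF3_nW.continuousAt.comp h1
      refine c1.eventually_lt c2 ?_
      show r0 * dW (wM A B m (fun q => G q 0) p) < nW (wM A B m (fun q => G q 0) p)
      rw [hG0']
      by_contra hcon
      have h2 : nW (wM A B m g p) ≤ r0 * dW (wM A B m g p) := not_lt.1 hcon
      have h3 : dW (wM A B m g p) ≤ 2 * ε := hp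
      have h4 := (hwp p).2.1
      have h5 : 0 ≤ nW (wM A B m g p) := Real.sqrt_nonneg _
      have h6 : nW (wM A B m g p) ^ 2 = (wM A B m g p).2.1 ^ 2 + (wM A B m g p).2.2 ^ 2 := by
        unfold nW
        exact Real.sq_sqrt (by positivity)
      have h7 : (wM A B m g p).1 ^ 2 = dW (wM A B m g p) + nW (wM A B m g p) ^ 2 := by
        rw [h6]
        unfold dW
        ring
      have h8 : nW (wM A B m g p) ≤ r0 * (2 * ε) :=
        h2.trans (mul_le_mul_of_nonneg_left h3 hr.le)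
      have h9 : nW (wM A B m g p) ^ 2 ≤ (r0 * (2 * ε)) ^ 2 := pow_le_pow_left₀ h5 h8 2
      have h10 : (r0 * (2 * ε)) ^ 2 ≤ 4 * r0 ^ 2 * ε := by
        have h11 : ε ^ 2 ≤ ε := by nlinarith
        have h12 : (r0 * (2 * ε)) ^ 2 = 4 * r0 ^ 2 * ε ^ 2 := by ring
        rw [h12]
        exact mul_le_mul_of_nonneg_left h11 (by positivity)
      have h13 : t0 ^ 2 ≤ (wM A B m g p).1 ^ 2 := pow_le_pow_left₀ ht0.le (ht p) 2
      nlinarith
    have hev := hZ.eventually_forall_of_forall_eventually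
      (P := fun (h : ℝ) (p : M) => r0 * dW (wM A B m (fun q => G q h) p) <
        nW (wM A B m (fun q => G q h) p)) hP
    obtain ⟨δ, hδ, hδ'⟩ := Metric.eventually_nhds_iff.1 hev
    refine ⟨min δ (h₁ / 2), ⟨lt_min hδ (by linarith), min_le_right _ _⟩, fun h hh => ?_⟩
    have hhδ : h < δ := lt_of_lt_of_le hh.2 (min_le_left _ _)
    have hh₁' : h < h₁ / 2 := lt_of_lt_of_le hh.2 (min_le_right _ _)
    have hmem : h ∈ Ioo (-h₁) h₁ := ⟨by linarith [hh.1], by linarith⟩
    have hcl : IsClosed {p : M | nW (wM A B m (fun q => G q h) p) ≤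
        r0 * dW (wM A B m (fun q => G q h) p)} :=
      isClosed_le (BF3_nW.comp (hwc h hmem)) ((BF3_dW.comp (hwc h hmem)).const_mul r0)
    have hsupp : tsupport (beM r0 A B m (fun q => G q h)) ⊆
        {p : M | nW (wM A B m (fun q => G q h) p) ≤ r0 * dW (wM A B m (fun q => G q h) p)} := by
      refine closure_minimal ?_ hcl
      intro p hp
      by_contra hcon
      apply hp
      have h1 : ¬ nW (wM A B m (fun q => G q h) p) ≤ r0 * dW (wM A B m (fun q => G q h) p) := hcon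
      unfold beM bW
      rw [if_neg h1]
    refine hsupp.trans ?_
    intro p hp
    by_contra hcon
    have h1 : dW (wM A B m g p) ≤ 2 * ε := (not_le.1 hcon).le
    have h2 := hδ' (y := h) (by rw [Real.dist_eq, sub_zero, abs_of_pos hh.1]; exact hhδ) p h1
    exact absurd hp (not_le.2 h2)

end P205F
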