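import Mathlib
import Vale.Agent.Lib.P205B.BIter

/-!
# P205F BASE: the compact set `KO`, the invariant for the base map, and the base package

`KO := {p | ε ≤ dW (wM g p)}`, `KT := {p | 2 ε ≤ dW (wM g p)}` with `ε` small:
`tsupport β(h) ⊆ {|w| ≤ r₀ d}` (for `G(·,h)`), and for `h`
small this closed set is contained in `KT` (compactness: at `h = 0` a point with
`|w| ≤ r₀ d`, `d ≤ ε` has `t² = |w|² + d ≤ r₀² ε² + ε`, impossible when `t ≥ t_min > 0` and `ε` small).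
-/

noncomputable section

namespace P205F

open scoped Manifold ContDiff Topology RealInnerProductSpace
open Set

set_option maxSynthPendingDepth 3

variable {M : Type} [TopologicalSpace M] [ChartedSpace E2 M] [IsManifold 𝓘(ℝ, E2) ∞ M]

private theorem BF4_norm_e1 : ‖(e1 : E2)‖ = 1 := by
  simp [e1, Prod.norm_def]

private theorem BF4_norm_e2 : ‖(e2 : E2)‖ = 1 := by
  simp [e2, Prod.norm_def]

/-- Cramer's rule with norms -/
private theorem BF4_cramer (a b : E2 →L[ℝ] ℝ) (w : E2) :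
    detC a b ^ 2 * ‖w‖ ^ 2 ≤ 2 * (‖a‖ + ‖b‖) ^ 2 * (a w ^ 2 + b w ^ 2) := by
  have ha := bip_cov a w
  have hb := bip_cov b w
  simp only [smul_eq_mul] at ha hb
  have a1 : |a e1| ≤ ‖a‖ := by
    have := a.le_opNorm e1
    rwa [BF4_norm_e1, mul_one, Real.norm_eq_abs] at this
  have a2 : |a e2| ≤ ‖a‖ := by
    have := a.le_opNorm e2
    rwa [BF4_norm_e2, mul_one, Real.norm_eq_abs] at this
  have b1 : |b e1| ≤ ‖b‖ := by
    have := b.le_opNorm e1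
    rwa [BF4_norm_e1, mul_one, Real.norm_eq_abs] at this
  have b2 : |b e2| ≤ ‖b‖ := by
    have := b.le_opNorm e2
    rwa [BF4_norm_e2, mul_one, Real.norm_eq_abs] at this
  have h1 : detC a b * w.1 = b e2 * a w - a e2 * b w := by
    rw [ha, hb]; unfold detC; ring
  have h2 : detC a b * w.2 = a e1 * b w - b e1 * a w := by
    rw [ha, hb]; unfold detC; ring
  have hN : 0 ≤ ‖a‖ := norm_nonneg a
  have hM : 0 ≤ ‖b‖ := norm_nonneg b
  have k1 : |detC a b| * |w.1| ≤ (‖a‖ + ‖b‖) * (|a w| + |b w|) := by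
    rw [← abs_mul, h1]
    calc |b e2 * a w - a e2 * b w| ≤ |b e2 * a w| + |a e2 * b w| := abs_sub _ _
      _ = |b e2| * |a w| + |a e2| * |b w| := by rw [abs_mul, abs_mul]
      _ ≤ ‖b‖ * |a w| + ‖a‖ * |b w| := by gcongr
      _ ≤ (‖a‖ + ‖b‖) * (|a w| + |b w|) := by
        have := mul_nonneg hN (abs_nonneg (a w))
        have := mul_nonneg hM (abs_nonneg (b w))
        nlinarith
  have k2 : |detC a b| * |w.2| ≤ (‖a‖ + ‖b‖) * (|a w| + |b w|) := by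
    rw [← abs_mul, h2]
    calc |a e1 * b w - b e1 * a w| ≤ |a e1 * b w| + |b e1 * a w| := abs_sub _ _
      _ = |a e1| * |b w| + |b e1| * |a w| := by rw [abs_mul, abs_mul]
      _ ≤ ‖a‖ * |b w| + ‖b‖ * |a w| := by gcongr
      _ ≤ (‖a‖ + ‖b‖) * (|a w| + |b w|) := by
        have := mul_nonneg hN (abs_nonneg (a w))
        have := mul_nonneg hM (abs_nonneg (b w))
        nlinarith
  have k3 : |detC a b| * ‖w‖ ≤ (‖a‖ + ‖b‖) * (|a w| + |b w|) := by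
    rw [Prod.norm_def, Real.norm_eq_abs, Real.norm_eq_abs]
    rcases max_choice |w.1| |w.2| with h | h <;> rw [h] <;> assumption
  have k4 : (|detC a b| * ‖w‖) ^ 2 ≤ ((‖a‖ + ‖b‖) * (|a w| + |b w|)) ^ 2 :=
    pow_le_pow_left₀ (by positivity) k3 2
  have k5 : (|a w| + |b w|) ^ 2 ≤ 2 * (a w ^ 2 + b w ^ 2) := by
    have h5 := sq_nonneg (|a w| - |b w|)
    have h6 := sq_abs (a w)
    have h7 := sq_abs (b w)
    nlinarith
  calc detC a b ^ 2 * ‖w‖ ^ 2 = (|detC a b| * ‖w‖) ^ 2 := by rw [mul_pow, sq_abs]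
    _ ≤ ((‖a‖ + ‖b‖) * (|a w| + |b w|)) ^ 2 := k4
    _ = (‖a‖ + ‖b‖) ^ 2 * (|a w| + |b w|) ^ 2 := mul_pow _ _ _
    _ ≤ (‖a‖ + ‖b‖) ^ 2 * (2 * (a w ^ 2 + b w ^ 2)) :=
      mul_le_mul_of_nonneg_left k5 (sq_nonneg _)
    _ = _ := by ring

/-- `G(·, h) - g` is small relative to `dA² + dB²` near a point with `dA ∧ dB ≠ 0` -/
private theorem BF4_near {A B : M → ℝ} (hA : Sm A) (hB : Sm B) {g : M → Bil} {h₁ : ℝ}
    (hh : 0 < h₁) {G : M → ℝ → Bil} (hG : SmTP h₁ G) (h0 : ∀ p, G p 0 = g p) {δ : ℝ}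
    (hδ : 0 < δ) {p0 : M} (hp0 : detC (dP A p0) (dP B p0) ≠ 0) :
    ∀ᶠ z : ℝ × M in 𝓝 ((0 : ℝ), p0), ∀ w : E2,
      |G z.2 z.1 w w - g z.2 w w| ≤ δ * (dP A z.2 w ^ 2 + dP B z.2 w ^ 2) := by
  set φ := chartAt E2 p0 with hφd
  have hφ : φ ∈ ATL M := chart_mem_ATL p0
  have hps : p0 ∈ φ.source := mem_chart_source E2 p0
  set x0 := φ p0 with hx0
  have hx0t : x0 ∈ φ.target := φ.map_source hps
  set a : E2 → E2 →L[ℝ] ℝ := fun x => fderiv ℝ (A ∘ φ.symm) x with ha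
  set b : E2 → E2 →L[ℝ] ℝ := fun x => fderiv ℝ (B ∘ φ.symm) x with hb
  have ca : ContinuousAt a x0 :=
    ((hA.loc hφ).fderiv_of_isOpen φ.open_target (m := ∞) (by simp)).continuousOn.continuousAt
      (φ.open_target.mem_nhds hx0t)
  have cb : ContinuousAt b x0 :=
    ((hB.loc hφ).fderiv_of_isOpen φ.open_target (m := ∞) (by simp)).continuousOn.continuousAt
      (φ.open_target.mem_nhds hx0t)
  have hopen : IsOpen (φ.target ×ˢ Ioo (-h₁) h₁) := φ.open_target.prod isOpen_Ioo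
  set f : E2 × ℝ → Bil := fun q => locT φ (fun p => G p q.2) q.1 with hf
  have cf : ∀ h ∈ Ioo (-h₁) h₁, ContinuousAt f (x0, h) := fun h hh' =>
    (hG φ hφ).continuousOn.continuousAt (hopen.mem_nhds ⟨hx0t, hh'⟩)
  have h0m : (0 : ℝ) ∈ Ioo (-h₁) h₁ := ⟨by linarith, hh⟩
  have c1 : ContinuousAt (fun q : E2 × ℝ => f q) (x0, 0) := cf 0 h0m
  have c2 : ContinuousAt (fun q : E2 × ℝ => f (q.1, 0)) (x0, 0) :=
    ContinuousAt.comp (f := fun q : E2 × ℝ => (q.1, (0 : ℝ))) (x := (x0, (0 : ℝ)))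
      (cf 0 h0m) (continuousAt_fst.prodMk continuousAt_const)
  have ca' : ContinuousAt (fun q : E2 × ℝ => a q.1) (x0, 0) :=
    ContinuousAt.comp (f := fun q : E2 × ℝ => q.1) (x := (x0, (0 : ℝ))) ca continuousAt_fst
  have cb' : ContinuousAt (fun q : E2 × ℝ => b q.1) (x0, 0) :=
    ContinuousAt.comp (f := fun q : E2 × ℝ => q.1) (x := (x0, (0 : ℝ))) cb continuousAt_fst
  have cap : ∀ v : E2, ContinuousAt (fun q : E2 × ℝ => a q.1 v) (x0, 0) := fun v =>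
    ca'.clm_apply continuousAt_const
  have cbp : ∀ v : E2, ContinuousAt (fun q : E2 × ℝ => b q.1 v) (x0, 0) := fun v =>
    cb'.clm_apply continuousAt_const
  have cD : ContinuousAt (fun q : E2 × ℝ => detC (a q.1) (b q.1)) (x0, 0) :=
    ((cap e1).mul (cbp e2)).sub ((cap e2).mul (cbp e1))
  have cL : ContinuousAt (fun q : E2 × ℝ => ‖f q - f (q.1, 0)‖ *
      (2 * (‖a q.1‖ + ‖b q.1‖) ^ 2)) (x0, 0) :=
    (c1.sub c2).norm.mul (continuousAt_const.mul ((ca'.norm.add cb'.norm).pow 2))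
  have cR : ContinuousAt (fun q : E2 × ℝ => δ * detC (a q.1) (b q.1) ^ 2) (x0, 0) :=
    continuousAt_const.mul (cD.pow 2)
  have hlt : ‖f (x0, 0) - f ((x0, (0 : ℝ)).1, 0)‖ * (2 * (‖a (x0, (0 : ℝ)).1‖ +
      ‖b (x0, (0 : ℝ)).1‖) ^ 2) < δ * detC (a (x0, (0 : ℝ)).1) (b (x0, (0 : ℝ)).1) ^ 2 := by
    have e1 : f (x0, 0) - f ((x0, (0 : ℝ)).1, 0) = 0 := sub_self _
    rw [e1, norm_zero, zero_mul]
    have e2 : detC (a (x0, (0 : ℝ)).1) (b (x0, (0 : ℝ)).1) ≠ 0 := hp0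
    exact mul_pos hδ (pow_pos (abs_pos.2 e2) 2 |>.trans_eq (sq_abs _))
  have hev : ∀ᶠ q : E2 × ℝ in 𝓝 (x0, 0), ‖f q - f (q.1, 0)‖ *
      (2 * (‖a q.1‖ + ‖b q.1‖) ^ 2) < δ * detC (a q.1) (b q.1) ^ 2 :=
    cL.eventually_lt cR hlt
  have ct : ContinuousAt (fun z : ℝ × M => (φ z.2, z.1)) ((0 : ℝ), p0) :=
    (ContinuousAt.comp (f := fun z : ℝ × M => z.2) (x := ((0 : ℝ), p0))
      (φ.continuousAt hps) continuousAt_snd).prodMk continuousAt_fst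
  have hev2 := ct.eventually hev
  have hev3 : ∀ᶠ z : ℝ × M in 𝓝 ((0 : ℝ), p0), z.2 ∈ φ.source :=
    continuousAt_snd.eventually (φ.open_source.mem_nhds hps)
  filter_upwards [hev2, hev3] with z hz1 hz2 w
  obtain ⟨h, p⟩ := z
  simp only at hz1 hz2 ⊢
  set x := φ p with hx
  have hxt : x ∈ φ.target := φ.map_source hz2
  have hxp : φ.symm x = p := φ.left_inv hz2
  set u : E2 := TT φ p w with hu
  have hw : TTi φ x u = w := by
    have h1 := TTi_comp_TT hφ hz2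
    have h2 := congrArg (fun L : E2 →L[ℝ] E2 => L w) h1
    exact h2
  have hdA : dP A p w = a x u := by
    rw [dP_eq hφ hz2 (((hA.loc hφ).contDiffAt
      (φ.open_target.mem_nhds hxt)).differentiableAt (by simp))]
    rfl
  have hdB : dP B p w = b x u := by
    rw [dP_eq hφ hz2 (((hB.loc hφ).contDiffAt
      (φ.open_target.mem_nhds hxt)).differentiableAt (by simp))]
    rfl
  have hGf : ∀ s : ℝ, G p s w w = f (x, s) u u := by
    intro s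
    show G p s w w = G (φ.symm x) s (TTi φ x u) (TTi φ x u)
    rw [hw, hxp]
  rw [← h0 p, hGf h, hGf 0, hdA, hdB]
  have hN : |f (x, h) u u - f (x, 0) u u| ≤ ‖f (x, h) - f (x, 0)‖ * ‖u‖ ^ 2 := by
    have h1 := (f (x, h) - f (x, 0)).le_opNorm₂ u u
    rw [Real.norm_eq_abs] at h1
    calc |f (x, h) u u - f (x, 0) u u| = |(f (x, h) - f (x, 0)) u u| := rfl
      _ ≤ ‖f (x, h) - f (x, 0)‖ * ‖u‖ * ‖u‖ := h1
      _ = _ := by ring
  have hC := BF4_cramer (a x) (b x) u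
  have hD : 0 < detC (a x) (b x) ^ 2 := by
    have h1 : 0 ≤ ‖f (x, h) - f (x, 0)‖ * (2 * (‖a x‖ + ‖b x‖) ^ 2) := by positivity
    have h2 : 0 < δ * detC (a x) (b x) ^ 2 := lt_of_le_of_lt h1 hz1
    exact (mul_pos_iff_of_pos_left hδ).1 h2
  have hS : 0 ≤ a x u ^ 2 + b x u ^ 2 := by positivity
  refine le_of_mul_le_mul_right ?_ hD
  calc |f (x, h) u u - f (x, 0) u u| * detC (a x) (b x) ^ 2
      ≤ ‖f (x, h) - f (x, 0)‖ * ‖u‖ ^ 2 * detC (a x) (b x) ^ 2 :=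
        mul_le_mul_of_nonneg_right hN hD.le
    _ = ‖f (x, h) - f (x, 0)‖ * (detC (a x) (b x) ^ 2 * ‖u‖ ^ 2) := by ring
    _ ≤ ‖f (x, h) - f (x, 0)‖ * (2 * (‖a x‖ + ‖b x‖) ^ 2 * (a x u ^ 2 + b x u ^ 2)) :=
        mul_le_mul_of_nonneg_left hC (norm_nonneg _)
    _ = ‖f (x, h) - f (x, 0)‖ * (2 * (‖a x‖ + ‖b x‖) ^ 2) * (a x u ^ 2 + b x u ^ 2) := by ring
    _ ≤ δ * detC (a x) (b x) ^ 2 * (a x u ^ 2 + b x u ^ 2) :=
        mul_le_mul_of_nonneg_right hz1.le hS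
    _ = _ := by ring

/-- positive lower bound of a positive function of `(p, h)` on a compact set -/
private theorem BF4_lower {h₁ : ℝ} (hh : 0 < h₁) {u : M → ℝ → ℝ} (hu : SmP h₁ u) {KO : Set M}
    (hK : IsCompact KO) (hpos : ∀ p, ∀ h ∈ Ioo (-h₁) h₁, 0 < u p h) :
    ∃ c : ℝ, 0 < c ∧ ∀ p ∈ KO, ∀ h ∈ Icc (0 : ℝ) (h₁ / 2), c ≤ u p h := by
  rcases KO.eq_empty_or_nonempty with rfl | hne
  · exact ⟨1, one_pos, fun p hp => absurd hp (notMem_empty _)⟩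
  have hsub : KO ×ˢ Icc (0 : ℝ) (h₁ / 2) ⊆ univ ×ˢ Ioo (-h₁) h₁ := fun q hq =>
    ⟨mem_univ _, by linarith [hq.2.1], by linarith [hq.2.2]⟩
  have hne2 : (KO ×ˢ Icc (0 : ℝ) (h₁ / 2)).Nonempty :=
    hne.prod ⟨0, le_rfl, by linarith⟩
  obtain ⟨q, hq, hmin⟩ := (hK.prod isCompact_Icc).exists_isMinOn hne2
    ((SmP.continuousOn hu).mono hsub)
  exact ⟨u q.1 q.2, hpos _ _ (hsub hq).2, fun p hp h hh' =>
    isMinOn_iff.1 hmin (p, h) ⟨hp, hh'⟩⟩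

private theorem BF4_num {τ v1 v2 : ℝ} :
    min 1 (τ ^ 2) * (v1 ^ 2 + v2 ^ 2) ≤
      ((v1 + τ * v2) ^ 2 + (v1 - τ * v2) ^ 2) / 2 := by
  have h1 : min 1 (τ ^ 2) * v1 ^ 2 ≤ 1 * v1 ^ 2 :=
    mul_le_mul_of_nonneg_right (min_le_left _ _) (sq_nonneg _)
  have h2 : min 1 (τ ^ 2) * v2 ^ 2 ≤ τ ^ 2 * v2 ^ 2 :=
    mul_le_mul_of_nonneg_right (min_le_right _ _) (sq_nonneg _)
  nlinarith

/-- lower bound for `g - η² Q̃ = λ₁² dA² + λ₂² dB² + 4 β² dx² + O(h²)` on `KO` -/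
theorem lower_KO {A B m : M → ℝ} {r0 τ h₁ : ℝ} {g : M → Bil}
    {k : ℕ} {G : M → ℝ → Bil} (hg : IsMetric g) (hr : 0 < r0) (hw : Weights g A B m τ)
    (hI : IterPack g A B m r0 k h₁ G) {KO : Set M} (hK : IsCompact KO)
    (hKO : ∀ p ∈ KO, detC (dP A p) (dP B p) ≠ 0) :
    ∃ K : ℝ, ∃ h₂ : ℝ, 0 < h₂ ∧ ∀ h ∈ Ioo 0 h₂, ∀ χ, IsXY A B τ χ → ∀ x ∈ χ.target,
      χ.symm x ∈ KO → ∀ v : E2, ‖v‖ ^ 2 ≤ K * locT χ (fun p => g p
        - etM r0 A B m (fun q => G q h) p ^ 2 • QtM r0 A B m (fun q => G q h) p) x v v := by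
  obtain ⟨hh, hG, h0, hR, -⟩ := hI
  have hA : Sm A := hw.1
  have hB : Sm B := hw.2.1
  have hτ : 0 < τ := hw.2.2.2.1
  have hlam := smP_lam hr hw hG hR
  obtain ⟨c1, hc1, hl1⟩ := BF4_lower hh hlam.1 hK
    (fun p h hh' => (lam_pos hr hw (hR h hh') p).1)
  obtain ⟨c2, hc2, hl2⟩ := BF4_lower hh hlam.2.1 hK
    (fun p h hh' => (lam_pos hr hw (hR h hh') p).2)
  set c := min c1 c2 with hc
  have hc0 : 0 < c := lt_min hc1 hc2
  have hδ : 0 < c ^ 2 / 2 := by positivity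
  have hev : ∀ᶠ h : ℝ in 𝓝 0, ∀ p ∈ KO, ∀ w : E2,
      |G p h w w - g p w w| ≤ c ^ 2 / 2 * (dP A p w ^ 2 + dP B p w ^ 2) :=
    hK.eventually_forall_of_forall_eventually
      (P := fun h p => ∀ w : E2,
        |G p h w w - g p w w| ≤ c ^ 2 / 2 * (dP A p w ^ 2 + dP B p w ^ 2))
      fun p hp => BF4_near hA hB hh hG h0 hδ (hKO p hp)
  obtain ⟨ε, hε, hball⟩ := Metric.eventually_nhds_iff.1 hev
  set μ := min 1 (τ ^ 2) with hμ
  have hμ0 : 0 < μ := lt_min one_pos (pow_pos hτ 2)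
  refine ⟨(μ * c ^ 2)⁻¹, min ε (h₁ / 2), lt_min hε (by linarith), ?_⟩
  intro h hh' χ hχ x hx hxK v
  have hhε : h < ε := lt_of_lt_of_le hh'.2 (min_le_left _ _)
  have hh2 : h < h₁ / 2 := lt_of_lt_of_le hh'.2 (min_le_right _ _)
  have hhI : h ∈ Ioo (-h₁) h₁ := ⟨by linarith [hh'.1], by linarith⟩
  have hhc : h ∈ Icc (0 : ℝ) (h₁ / 2) := ⟨hh'.1.le, hh2.le⟩
  set p := χ.symm x with hp
  set w : E2 := TTi χ x v with hwv
  have hχA : χ ∈ ATL M := hχ.1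
  -- the differentials in the chart
  have hdA : dP A p w = v.1 + τ * v.2 := by
    have h1 : (A ∘ χ.symm) =ᶠ[𝓝 x] fun y : E2 => y.1 + τ * y.2 := by
      filter_upwards [χ.open_target.mem_nhds hx] with y hy
      have h2 := (hχ.2 (χ.symm y) (χ.map_target hy)).1
      rw [χ.right_inv hy] at h2
      exact h2
    have h3 : HasFDerivAt (fun y : E2 => y.1 + τ * y.2)
        (ContinuousLinearMap.fst ℝ ℝ ℝ + τ • ContinuousLinearMap.snd ℝ ℝ ℝ) x :=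
      hasFDerivAt_fst.add (hasFDerivAt_snd.const_mul τ)
    have h4 := (h3.congr_of_eventuallyEq h1)
    have h5 := dP_comp_TTi hχA hx h4.differentiableAt
    rw [h4.fderiv] at h5
    have h6 := congrArg (fun L : E2 →L[ℝ] ℝ => L v) h5
    exact h6
  have hdB : dP B p w = v.1 - τ * v.2 := by
    have h1 : (B ∘ χ.symm) =ᶠ[𝓝 x] fun y : E2 => y.1 - τ * y.2 := by
      filter_upwards [χ.open_target.mem_nhds hx] with y hy
      have h2 := (hχ.2 (χ.symm y) (χ.map_target hy)).2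
      rw [χ.right_inv hy] at h2
      exact h2
    have h3 : HasFDerivAt (fun y : E2 => y.1 - τ * y.2)
        (ContinuousLinearMap.fst ℝ ℝ ℝ - τ • ContinuousLinearMap.snd ℝ ℝ ℝ) x :=
      hasFDerivAt_fst.sub (hasFDerivAt_snd.const_mul τ)
    have h4 := (h3.congr_of_eventuallyEq h1)
    have h5 := dP_comp_TTi hχA hx h4.differentiableAt
    rw [h4.fderiv] at h5
    have h6 := congrArg (fun L : E2 →L[ℝ] ℝ => L v) h5
    exact h6
  set Gh : M → Bil := fun q => G q h with hGh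
  have hdec := dec_M hr hw (hR h hhI) p
  have hsq : ∀ u : M → ℝ, sqT u p w w = dP u p w ^ 2 := by
    intro u
    show (sqC (dP u p)) w w = _
    simp [sqC, sq]
  have hGw : G p h w w = lam1 r0 A B m Gh p ^ 2 * dP A p w ^ 2
      + lam2 r0 A B m Gh p ^ 2 * dP B p w ^ 2
      + (4 * beM r0 A B m Gh p ^ 2) * dP (fun q => (A q + B q) / 2) p w ^ 2
      + etM r0 A B m Gh p ^ 2 * QtM r0 A B m Gh p w w := by
    have h1 := congrArg (fun L : Bil => L w w) hdec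
    simp only [add_apply, smul_apply, smul_eq_mul, hsq] at h1
    exact h1
  have hloc : locT χ (fun p => g p - etM r0 A B m Gh p ^ 2 • QtM r0 A B m Gh p) x v v =
      g p w w - etM r0 A B m Gh p ^ 2 * QtM r0 A B m Gh p w w := rfl
  rw [hloc]
  have hsm := hball (y := h) (by rw [Real.dist_eq, sub_zero, abs_of_pos hh'.1]; exact hhε) p hxK w
  have hsm' := (abs_le.1 hsm).2
  have e1 : c ^ 2 ≤ lam1 r0 A B m Gh p ^ 2 :=
    pow_le_pow_left₀ hc0.le ((min_le_left _ _).trans (hl1 p hxK h hhc)) 2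
  have e2 : c ^ 2 ≤ lam2 r0 A B m Gh p ^ 2 :=
    pow_le_pow_left₀ hc0.le ((min_le_right _ _).trans (hl2 p hxK h hhc)) 2
  have e3 : c ^ 2 * dP A p w ^ 2 ≤ lam1 r0 A B m Gh p ^ 2 * dP A p w ^ 2 :=
    mul_le_mul_of_nonneg_right e1 (sq_nonneg _)
  have e4 : c ^ 2 * dP B p w ^ 2 ≤ lam2 r0 A B m Gh p ^ 2 * dP B p w ^ 2 :=
    mul_le_mul_of_nonneg_right e2 (sq_nonneg _)
  have e5 : 0 ≤ (4 * beM r0 A B m Gh p ^ 2) * dP (fun q => (A q + B q) / 2) p w ^ 2 := by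
    positivity
  have e6 : c ^ 2 / 2 * (dP A p w ^ 2 + dP B p w ^ 2) ≤
      g p w w - etM r0 A B m Gh p ^ 2 * QtM r0 A B m Gh p w w := by
    linarith
  have e7 := BF4_num (τ := τ) (v1 := v.1) (v2 := v.2)
  rw [← hdA, ← hdB, ← hμ] at e7
  have e8 : ‖v‖ ^ 2 ≤ v.1 ^ 2 + v.2 ^ 2 := by
    rw [Prod.norm_def, Real.norm_eq_abs, Real.norm_eq_abs]
    rcases max_choice |v.1| |v.2| with h9 | h9 <;> rw [h9, sq_abs]
    · linarith [sq_nonneg v.2]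
    · linarith [sq_nonneg v.1]
  have hmc : 0 < μ * c ^ 2 := by positivity
  rw [inv_mul_eq_div, le_div_iff₀ hmc]
  calc ‖v‖ ^ 2 * (μ * c ^ 2) = μ * ‖v‖ ^ 2 * c ^ 2 := by ring
    _ ≤ μ * (v.1 ^ 2 + v.2 ^ 2) * c ^ 2 := by gcongr
    _ ≤ (dP A p w ^ 2 + dP B p w ^ 2) / 2 * c ^ 2 := by gcongr
    _ = c ^ 2 / 2 * (dP A p w ^ 2 + dP B p w ^ 2) := by ring
    _ ≤ _ := e6

end P205F
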