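import Vale.Agent.Lib.P205B.BDefs
import Vale.Agent.Lib.P205F.MD2

/-!
# P205F BASE: the base map and its nondegeneracy

`f_h = h (λ₁ e^{iA/h}, λ₂ e^{iB/h}) ∈ ℂ² = ℝ⁴`.  In the slow frame `FF = (e^{iA/h}, e^{iB/h})`:
`FF⁻¹ f_v = (h λ₁_v + i A_v λ₁, h λ₂_v + i B_v λ₂)`,
`h FF⁻¹ f_vv = (-A_v² λ₁ + i h (2 A_v λ₁_v + A_vv λ₁) + h² λ₁_vv, same for λ₂, B)`.
`gram3` is invariant under the rotation `FF`.

`nv_local`, case 1 (`dA ∧ dB ≠ 0` at `x₀`): at `h = 0` the vectors are `i(A_1λ₁, B_1λ₂)`,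
`i(A_2λ₁, B_2λ₂)`, `-(A_v²λ₁, B_v²λ₂)`, independent, so `gram3 (f_1, f_2, h f_vv) ≥ c` near `(x₀, v₀, 0)`.
Case 2 (`dA n = dB n = 0` at `x₀`, `n` constant): the two minors `(Re₁, Re₂, Im₁)`, `(Re₁, Re₂, Im₂)`
of `(f_v, f_n/h, h f_vv)` (in the slow frame) are the components of
`det(R_n, R_vv) I_v - det(R_v, R_vv) I_n + det(R_v, R_n) I_vv` with `R_v = h λ_v`, `R_n = λ_n`,
`I_v = (A_vλ₁, B_vλ₂)`, `I_n = (A_nλ₁, B_nλ₂)/h`, `R_vv = -(A_v²λ₁, B_v²λ₂) + h²λ_vv`, `I_vv = h (…)`;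
the factor `1/h` cancels: the expression is continuous in `(x, v, h)` also at `h = 0` and its value at
`(x₀, v₀, 0)` is `- det(λ_n, (A_v²λ₁, B_v²λ₂)) (A_vλ₁, B_vλ₂) ≠ 0`.  Hence
`gram3 (f_v, f_n, f_vv) = gram3 (f_v, f_n/h, h f_vv) ≥ c`, and
`gram3 (f_v, f_n, f_vv) = det(v,n)² gram3 (f_1, f_2, f_vv)`, `det (v,n)` bounded.
-/

noncomputable section

namespace P205F

open scoped Manifold ContDiff Topology RealInnerProductSpace
open Set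

set_option maxSynthPendingDepth 3

/-- the base map in the plane -/
def bmU (A B l1 l2 : E2 → ℝ) (h : ℝ) (x : E2) : V4 :=
  !₂[h * l1 x * Real.cos (A x / h), h * l1 x * Real.sin (A x / h),
    h * l2 x * Real.cos (B x / h), h * l2 x * Real.sin (B x / h)]

private theorem BNv1_slice {h₁ : ℝ} {V : Type*} [NormedAddCommGroup V] [NormedSpace ℝ V] {U : Set E2}
    {f : E2 × ℝ → V} (hf : ContDiffOn ℝ ∞ f (U ×ˢ Ioo (-h₁) h₁)) {h : ℝ}
    (hh : h ∈ Ioo (-h₁) h₁) : ContDiffOn ℝ ∞ (fun x => f (x, h)) U :=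
  hf.comp (contDiffOn_id.prodMk contDiffOn_const) (fun _ hx => ⟨hx, hh⟩)

private theorem BNv1_inner_rotV (a b : ℝ) (u v : V4) :
    (inner ℝ (rotV a b u) (rotV a b v) : ℝ) = inner ℝ u v := by
  rw [MD2_inner, MD2_inner]
  simp only [rotV, PiLp.toLp_apply, Matrix.cons_val_zero, Matrix.cons_val_one, Matrix.cons_val]
  have h1 := Real.sin_sq_add_cos_sq a
  have h2 := Real.sin_sq_add_cos_sq b
  linear_combination (u 0 * v 0 + u 1 * v 1) * h1 + (u 2 * v 2 + u 3 * v 3) * h2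

theorem gram3_rotV (a b : ℝ) (u v w : V4) :
    gram3 (rotV a b u) (rotV a b v) (rotV a b w) = gram3 u v w := by
  unfold gram3
  simp only [BNv1_inner_rotV]

/-- derivative of the components -/
private theorem BNv1_fd {A l : E2 → ℝ} {x : E2} (hA : DifferentiableAt ℝ A x)
    (hl : DifferentiableAt ℝ l x) (h : ℝ) (hh : h ≠ 0) :
    HasFDerivAt (fun y => h * l y * Real.cos (A y / h))
      ((h * Real.cos (A x / h)) • fderiv ℝ l x - (l x * Real.sin (A x / h)) • fderiv ℝ A x) x ∧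
    HasFDerivAt (fun y => h * l y * Real.sin (A y / h))
      ((h * Real.sin (A x / h)) • fderiv ℝ l x + (l x * Real.cos (A x / h)) • fderiv ℝ A x) x := by
  have hA' := hA.hasFDerivAt
  have hl' := hl.hasFDerivAt
  have h1 : HasFDerivAt (fun y => A y / h) (h⁻¹ • fderiv ℝ A x) x := by
    simpa [div_eq_mul_inv, mul_comm] using hA'.const_mul h⁻¹
  have h2 : HasFDerivAt (fun y => h * l y) (h • fderiv ℝ l x) x := hl'.const_mul h
  constructor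
  · refine (h2.mul h1.cos).congr_fderiv ?_
    ext <;> simp <;> field_simp <;> ring
  · refine (h2.mul h1.sin).congr_fderiv ?_
    ext <;> simp <;> field_simp <;> ring

private theorem BNv1_comp {F : E2 → V4} {x : E2} (hF : DifferentiableAt ℝ F x) (v : E2)
    (i : Fin 4) : (fderiv ℝ F x v) i = fderiv ℝ (fun y => F y i) x v := by
  have h1 := ((EuclideanSpace.proj (𝕜 := ℝ) i : V4 →L[ℝ] ℝ).hasFDerivAt.comp x
    hF.hasFDerivAt).fderiv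
  have h2 : fderiv ℝ (fun y => F y i) x = (EuclideanSpace.proj (𝕜 := ℝ) i : V4 →L[ℝ] ℝ).comp
      (fderiv ℝ F x) := h1
  rw [h2]
  rfl

private theorem BNv1_ddv_comp {F : E2 → V4} {x : E2} (hF : ContDiffAt ℝ 2 F x) (v : E2)
    (i : Fin 4) : (ddv v F x) i = ddv v (fun y => F y i) x := by
  unfold ddv
  have h1 : DifferentiableAt ℝ (fun y => fderiv ℝ F y v) x :=
    ((hF.fderiv_right (m := 1) (by norm_num)).differentiableAt (by norm_num)).clm_apply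
      (differentiableAt_const _)
  rw [BNv1_comp h1]
  have h2 : (fun y => (fderiv ℝ F y v) i) =ᶠ[𝓝 x] fun y => fderiv ℝ (fun y => F y i) y v := by
    have h3 : ∀ᶠ y in 𝓝 x, ContDiffAt ℝ 2 F y := hF.eventually (by simp)
    filter_upwards [h3] with y hy
    exact BNv1_comp (hy.differentiableAt (by norm_num)) v i
  rw [h2.fderiv_eq]

private theorem BNv1_at {V : Type*} [NormedAddCommGroup V] [NormedSpace ℝ V] {f : E2 → V}
    {U : Set E2} (hU : IsOpen U) (hf : ContDiffOn ℝ ∞ f U) {x : E2} (hx : x ∈ U) :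
    ContDiffAt ℝ ∞ f x := hf.contDiffAt (hU.mem_nhds hx)

private theorem BNv1_smooth {A B l1 l2 : E2 → ℝ} {x : E2} (hA : ContDiffAt ℝ ∞ A x)
    (hB : ContDiffAt ℝ ∞ B x) (h1 : ContDiffAt ℝ ∞ l1 x) (h2 : ContDiffAt ℝ ∞ l2 x) (h : ℝ) :
    ContDiffAt ℝ ∞ (bmU A B l1 l2 h) x := by
  rw [contDiffAt_euclidean]
  intro i
  fin_cases i
  · exact (contDiffAt_const.mul h1).mul (hA.div_const h).cos
  · exact (contDiffAt_const.mul h1).mul (hA.div_const h).sin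
  · exact (contDiffAt_const.mul h2).mul (hB.div_const h).cos
  · exact (contDiffAt_const.mul h2).mul (hB.div_const h).sin

/-- first derivatives in the slow frame -/
theorem bmU_d1 {U : Set E2} (hU : IsOpen U) {A B l1 l2 : E2 → ℝ} (hA : ContDiffOn ℝ ∞ A U)
    (hB : ContDiffOn ℝ ∞ B U) (h1 : ContDiffOn ℝ ∞ l1 U) (h2 : ContDiffOn ℝ ∞ l2 U) {h : ℝ}
    (hh : h ≠ 0) {x : E2} (hx : x ∈ U) (v : E2) :
    rotV (A x / h) (B x / h) (fderiv ℝ (bmU A B l1 l2 h) x v) =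
      !₂[h * fderiv ℝ l1 x v, fderiv ℝ A x v * l1 x, h * fderiv ℝ l2 x v,
        fderiv ℝ B x v * l2 x] := by
  have gA := BNv1_at hU hA hx
  have gB := BNv1_at hU hB hx
  have g1 := BNv1_at hU h1 hx
  have g2 := BNv1_at hU h2 hx
  have hne : (∞ : WithTop ℕ∞) ≠ 0 := by simp
  have hF : DifferentiableAt ℝ (bmU A B l1 l2 h) x :=
    (BNv1_smooth gA gB g1 g2 h).differentiableAt hne
  have k1 := BNv1_fd (gA.differentiableAt hne) (g1.differentiableAt hne) h hh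
  have k2 := BNv1_fd (gB.differentiableAt hne) (g2.differentiableAt hne) h hh
  have c0 : (fderiv ℝ (bmU A B l1 l2 h) x v) 0 = h * Real.cos (A x / h) * fderiv ℝ l1 x v -
      l1 x * Real.sin (A x / h) * fderiv ℝ A x v := by
    rw [BNv1_comp hF]
    exact congrArg (fun L : E2 →L[ℝ] ℝ => L v) k1.1.fderiv
  have c1 : (fderiv ℝ (bmU A B l1 l2 h) x v) 1 = h * Real.sin (A x / h) * fderiv ℝ l1 x v +
      l1 x * Real.cos (A x / h) * fderiv ℝ A x v := by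
    rw [BNv1_comp hF]
    exact congrArg (fun L : E2 →L[ℝ] ℝ => L v) k1.2.fderiv
  have c2 : (fderiv ℝ (bmU A B l1 l2 h) x v) 2 = h * Real.cos (B x / h) * fderiv ℝ l2 x v -
      l2 x * Real.sin (B x / h) * fderiv ℝ B x v := by
    rw [BNv1_comp hF]
    exact congrArg (fun L : E2 →L[ℝ] ℝ => L v) k2.1.fderiv
  have c3 : (fderiv ℝ (bmU A B l1 l2 h) x v) 3 = h * Real.sin (B x / h) * fderiv ℝ l2 x v +
      l2 x * Real.cos (B x / h) * fderiv ℝ B x v := by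
    rw [BNv1_comp hF]
    exact congrArg (fun L : E2 →L[ℝ] ℝ => L v) k2.2.fderiv
  have s1 := Real.sin_sq_add_cos_sq (A x / h)
  have s2 := Real.sin_sq_add_cos_sq (B x / h)
  unfold rotV
  rw [c0, c1, c2, c3]
  ext i
  fin_cases i
  · change Real.cos (A x / h) * _ + Real.sin (A x / h) * _ = h * fderiv ℝ l1 x v
    linear_combination (h * fderiv ℝ l1 x v) * s1
  · change -Real.sin (A x / h) * _ + Real.cos (A x / h) * _ = fderiv ℝ A x v * l1 x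
    linear_combination (fderiv ℝ A x v * l1 x) * s1
  · change Real.cos (B x / h) * _ + Real.sin (B x / h) * _ = h * fderiv ℝ l2 x v
    linear_combination (h * fderiv ℝ l2 x v) * s2
  · change -Real.sin (B x / h) * _ + Real.cos (B x / h) * _ = fderiv ℝ B x v * l2 x
    linear_combination (fderiv ℝ B x v * l2 x) * s2

private theorem BNv1_dd {A l : E2 → ℝ} {x : E2} (hA : ContDiffAt ℝ ∞ A x)
    (hl : ContDiffAt ℝ ∞ l x) (h : ℝ) (hh : h ≠ 0) (v : E2) :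
    ddv v (fun y => h * l y * Real.cos (A y / h)) x =
      h * Real.cos (A x / h) * ddv v l x - 2 * Real.sin (A x / h) * (fderiv ℝ A x v * fderiv ℝ l x v)
        - l x * Real.cos (A x / h) * (fderiv ℝ A x v) ^ 2 / h - l x * Real.sin (A x / h) * ddv v A x ∧
    ddv v (fun y => h * l y * Real.sin (A y / h)) x =
      h * Real.sin (A x / h) * ddv v l x + 2 * Real.cos (A x / h) * (fderiv ℝ A x v * fderiv ℝ l x v)
        - l x * Real.sin (A x / h) * (fderiv ℝ A x v) ^ 2 / h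
        + l x * Real.cos (A x / h) * ddv v A x := by
  have hne : (∞ : WithTop ℕ∞) ≠ 0 := by simp
  have eA : ∀ᶠ y in 𝓝 x, DifferentiableAt ℝ A y := by
    have : ContDiffAt ℝ 1 A x := hA.of_le (by exact_mod_cast le_top)
    filter_upwards [this.eventually (by simp)] with y hy
    exact hy.differentiableAt (by norm_num)
  have el : ∀ᶠ y in 𝓝 x, DifferentiableAt ℝ l y := by
    have : ContDiffAt ℝ 1 l x := hl.of_le (by exact_mod_cast le_top)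
    filter_upwards [this.eventually (by simp)] with y hy
    exact hy.differentiableAt (by norm_num)
  have dA : DifferentiableAt ℝ (fun y => fderiv ℝ A y v) x :=
    ((hA.fderiv_right (m := ∞) (by simp)).differentiableAt
      hne).clm_apply (differentiableAt_const _)
  have dl : DifferentiableAt ℝ (fun y => fderiv ℝ l y v) x :=
    ((hl.fderiv_right (m := ∞) (by simp)).differentiableAt
      hne).clm_apply (differentiableAt_const _)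
  have hA' := (hA.differentiableAt hne).hasFDerivAt
  have hl' := (hl.differentiableAt hne).hasFDerivAt
  have hq : HasFDerivAt (fun y => A y / h) (h⁻¹ • fderiv ℝ A x) x := by
    simpa [div_eq_mul_inv, mul_comm] using hA'.const_mul h⁻¹
  constructor
  · unfold ddv
    have e1 : (fun y => fderiv ℝ (fun y => h * l y * Real.cos (A y / h)) y v) =ᶠ[𝓝 x]
        fun y => h * Real.cos (A y / h) * fderiv ℝ l y v -
          l y * Real.sin (A y / h) * fderiv ℝ A y v := by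
      filter_upwards [eA, el] with y hy1 hy2
      exact congrArg (fun L : E2 →L[ℝ] ℝ => L v) (BNv1_fd hy1 hy2 h hh).1.fderiv
    rw [e1.fderiv_eq]
    have e2 := (((hq.cos.const_mul h).fun_mul dl.hasFDerivAt).fun_sub
      ((hl'.fun_mul hq.sin).fun_mul dA.hasFDerivAt)).fderiv
    rw [congrArg (fun L : E2 →L[ℝ] ℝ => L v) e2]
    simp
    field_simp
    ring
  · unfold ddv
    have e1 : (fun y => fderiv ℝ (fun y => h * l y * Real.sin (A y / h)) y v) =ᶠ[𝓝 x]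
        fun y => h * Real.sin (A y / h) * fderiv ℝ l y v +
          l y * Real.cos (A y / h) * fderiv ℝ A y v := by
      filter_upwards [eA, el] with y hy1 hy2
      exact congrArg (fun L : E2 →L[ℝ] ℝ => L v) (BNv1_fd hy1 hy2 h hh).2.fderiv
    rw [e1.fderiv_eq]
    have e2 := (((hq.sin.const_mul h).fun_mul dl.hasFDerivAt).fun_add
      ((hl'.fun_mul hq.cos).fun_mul dA.hasFDerivAt)).fderiv
    rw [congrArg (fun L : E2 →L[ℝ] ℝ => L v) e2]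
    simp
    field_simp
    ring

/-- second derivatives in the slow frame -/
theorem bmU_d2 {U : Set E2} (hU : IsOpen U) {A B l1 l2 : E2 → ℝ} (hA : ContDiffOn ℝ ∞ A U)
    (hB : ContDiffOn ℝ ∞ B U) (h1 : ContDiffOn ℝ ∞ l1 U) (h2 : ContDiffOn ℝ ∞ l2 U) {h : ℝ}
    (hh : h ≠ 0) {x : E2} (hx : x ∈ U) (v : E2) :
    rotV (A x / h) (B x / h) (h • ddv v (bmU A B l1 l2 h) x) =
      !₂[-(fderiv ℝ A x v) ^ 2 * l1 x + h ^ 2 * ddv v l1 x,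
        h * (2 * fderiv ℝ A x v * fderiv ℝ l1 x v + ddv v A x * l1 x),
        -(fderiv ℝ B x v) ^ 2 * l2 x + h ^ 2 * ddv v l2 x,
        h * (2 * fderiv ℝ B x v * fderiv ℝ l2 x v + ddv v B x * l2 x)] := by
  have gA := BNv1_at hU hA hx
  have gB := BNv1_at hU hB hx
  have g1 := BNv1_at hU h1 hx
  have g2 := BNv1_at hU h2 hx
  have hF : ContDiffAt ℝ 2 (bmU A B l1 l2 h) x :=
    (BNv1_smooth gA gB g1 g2 h).of_le (WithTop.coe_le_coe.2 le_top)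
  have k1 := BNv1_dd gA g1 h hh v
  have k2 := BNv1_dd gB g2 h hh v
  have c0 : (h • ddv v (bmU A B l1 l2 h) x) 0 = h * (h * Real.cos (A x / h) * ddv v l1 x
      - 2 * Real.sin (A x / h) * (fderiv ℝ A x v * fderiv ℝ l1 x v)
      - l1 x * Real.cos (A x / h) * (fderiv ℝ A x v) ^ 2 / h
      - l1 x * Real.sin (A x / h) * ddv v A x) := by
    rw [← k1.1]
    change h * (ddv v (bmU A B l1 l2 h) x) 0 = _
    rw [BNv1_ddv_comp hF]
    rfl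
  have c1 : (h • ddv v (bmU A B l1 l2 h) x) 1 = h * (h * Real.sin (A x / h) * ddv v l1 x
      + 2 * Real.cos (A x / h) * (fderiv ℝ A x v * fderiv ℝ l1 x v)
      - l1 x * Real.sin (A x / h) * (fderiv ℝ A x v) ^ 2 / h
      + l1 x * Real.cos (A x / h) * ddv v A x) := by
    rw [← k1.2]
    change h * (ddv v (bmU A B l1 l2 h) x) 1 = _
    rw [BNv1_ddv_comp hF]
    rfl
  have c2 : (h • ddv v (bmU A B l1 l2 h) x) 2 = h * (h * Real.cos (B x / h) * ddv v l2 x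
      - 2 * Real.sin (B x / h) * (fderiv ℝ B x v * fderiv ℝ l2 x v)
      - l2 x * Real.cos (B x / h) * (fderiv ℝ B x v) ^ 2 / h
      - l2 x * Real.sin (B x / h) * ddv v B x) := by
    rw [← k2.1]
    change h * (ddv v (bmU A B l1 l2 h) x) 2 = _
    rw [BNv1_ddv_comp hF]
    rfl
  have c3 : (h • ddv v (bmU A B l1 l2 h) x) 3 = h * (h * Real.sin (B x / h) * ddv v l2 x
      + 2 * Real.cos (B x / h) * (fderiv ℝ B x v * fderiv ℝ l2 x v)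
      - l2 x * Real.sin (B x / h) * (fderiv ℝ B x v) ^ 2 / h
      + l2 x * Real.cos (B x / h) * ddv v B x) := by
    rw [← k2.2]
    change h * (ddv v (bmU A B l1 l2 h) x) 3 = _
    rw [BNv1_ddv_comp hF]
    rfl
  have s1 := Real.sin_sq_add_cos_sq (A x / h)
  have s2 := Real.sin_sq_add_cos_sq (B x / h)
  unfold rotV
  rw [c0, c1, c2, c3]
  have hq : ∀ z : ℝ, h * (z / h) = z := fun z => by field_simp
  ext i
  fin_cases i
  · change Real.cos (A x / h) * _ + Real.sin (A x / h) * _ = _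
    change _ = -(fderiv ℝ A x v) ^ 2 * l1 x + h ^ 2 * ddv v l1 x
    field_simp
    linear_combination (-(fderiv ℝ A x v) ^ 2 * l1 x + h ^ 2 * ddv v l1 x) * s1
  · change -Real.sin (A x / h) * _ + Real.cos (A x / h) * _ = _
    change _ = h * (2 * fderiv ℝ A x v * fderiv ℝ l1 x v + ddv v A x * l1 x)
    field_simp
    linear_combination (h * (2 * fderiv ℝ A x v * fderiv ℝ l1 x v + ddv v A x * l1 x)) * s1
  · change Real.cos (B x / h) * _ + Real.sin (B x / h) * _ = _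
    change _ = -(fderiv ℝ B x v) ^ 2 * l2 x + h ^ 2 * ddv v l2 x
    field_simp
    linear_combination (-(fderiv ℝ B x v) ^ 2 * l2 x + h ^ 2 * ddv v l2 x) * s2
  · change -Real.sin (B x / h) * _ + Real.cos (B x / h) * _ = _
    change _ = h * (2 * fderiv ℝ B x v * fderiv ℝ l2 x v + ddv v B x * l2 x)
    field_simp
    linear_combination (h * (2 * fderiv ℝ B x v * fderiv ℝ l2 x v + ddv v B x * l2 x)) * s2

/-! continuity of derivatives of parameter dependent functions -/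

private def BNv1_S (U : Set E2) (h₁ : ℝ) : Set ((E2 × E2) × ℝ) := {p | p.1.1 ∈ U ∧ p.2 ∈ Ioo (-h₁) h₁}

private theorem BNv1_S_open {U : Set E2} (hU : IsOpen U) (h₁ : ℝ) : IsOpen (BNv1_S U h₁) :=
  (hU.preimage (by fun_prop : Continuous fun p : (E2 × E2) × ℝ => p.1.1)).inter
    (isOpen_Ioo.preimage (by fun_prop : Continuous fun p : (E2 × E2) × ℝ => p.2))

private theorem BNv1_slice_fd {V : Type*} [NormedAddCommGroup V] [NormedSpace ℝ V]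
    {L : E2 × ℝ → V} {x : E2} {h : ℝ} (hL : DifferentiableAt ℝ L (x, h)) (v : E2) :
    fderiv ℝ (fun y => L (y, h)) x v = fderiv ℝ L (x, h) (v, 0) := by
  have h1 : HasFDerivAt (fun y : E2 => (y, h)) (ContinuousLinearMap.inl ℝ E2 ℝ) x :=
    hasFDerivAt_prodMk_left x h
  have h2 : HasFDerivAt (fun y => L (y, h)) ((fderiv ℝ L (x, h)).comp
    (ContinuousLinearMap.inl ℝ E2 ℝ)) x := by
    have h3 : HasFDerivAt L (fderiv ℝ L (x, h)) ((fun y : E2 => (y, h)) x) := hL.hasFDerivAt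
    exact h3.comp x h1
  rw [h2.fderiv]
  rfl

private theorem BNv1_c0 {U : Set E2} {h₁ : ℝ} {L : E2 × ℝ → ℝ}
    (hL : ContDiffOn ℝ ∞ L (U ×ˢ Ioo (-h₁) h₁)) :
    ContinuousOn (fun p : (E2 × E2) × ℝ => L (p.1.1, p.2)) (BNv1_S U h₁) :=
  hL.continuousOn.comp (by fun_prop) (fun p hp => ⟨hp.1, hp.2⟩)

private theorem BNv1_c1 {U : Set E2} (hU : IsOpen U) {h₁ : ℝ} {L : E2 × ℝ → ℝ}
    (hL : ContDiffOn ℝ ∞ L (U ×ˢ Ioo (-h₁) h₁)) {g : (E2 × E2) × ℝ → E2} (hg : Continuous g) :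
    ContinuousOn (fun p : (E2 × E2) × ℝ => fderiv ℝ (fun y => L (y, p.2)) p.1.1 (g p))
      (BNv1_S U h₁) := by
  have hO : IsOpen (U ×ˢ Ioo (-h₁) h₁) := hU.prod isOpen_Ioo
  have h1 : ContinuousOn (fderiv ℝ L) (U ×ˢ Ioo (-h₁) h₁) :=
    (hL.fderiv_of_isOpen (m := ∞) hO (by simp)).continuousOn
  have h2 : ContinuousOn (fun p : (E2 × E2) × ℝ => fderiv ℝ L (p.1.1, p.2)) (BNv1_S U h₁) :=
    h1.comp (by fun_prop) (fun p hp => ⟨hp.1, hp.2⟩)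
  have h3 : ContinuousOn (fun p : (E2 × E2) × ℝ => fderiv ℝ L (p.1.1, p.2) (g p, 0))
      (BNv1_S U h₁) := h2.clm_apply (by fun_prop)
  refine h3.congr fun p hp => ?_
  have h4 : (p.1.1, p.2) ∈ U ×ˢ Ioo (-h₁) h₁ := ⟨hp.1, hp.2⟩
  exact BNv1_slice_fd ((hL.contDiffAt (hO.mem_nhds h4)).differentiableAt (by simp)) (g p)

private theorem BNv1_c2 {U : Set E2} (hU : IsOpen U) {h₁ : ℝ} {L : E2 × ℝ → ℝ}
    (hL : ContDiffOn ℝ ∞ L (U ×ˢ Ioo (-h₁) h₁)) :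
    ContinuousOn (fun p : (E2 × E2) × ℝ => ddv p.1.2 (fun y => L (y, p.2)) p.1.1)
      (BNv1_S U h₁) := by
  have hO : IsOpen (U ×ˢ Ioo (-h₁) h₁) := hU.prod isOpen_Ioo
  have h1 : ContDiffOn ℝ ∞ (fderiv ℝ L) (U ×ˢ Ioo (-h₁) h₁) :=
    hL.fderiv_of_isOpen (m := ∞) hO (by simp)
  have h2 : ContinuousOn (fderiv ℝ (fderiv ℝ L)) (U ×ˢ Ioo (-h₁) h₁) :=
    (h1.fderiv_of_isOpen (m := ∞) hO (by simp)).continuousOn
  have h3 : ContinuousOn (fun p : (E2 × E2) × ℝ =>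
      fderiv ℝ (fderiv ℝ L) (p.1.1, p.2) (p.1.2, 0) (p.1.2, 0)) (BNv1_S U h₁) := by
    have h4 : ContinuousOn (fun p : (E2 × E2) × ℝ => fderiv ℝ (fderiv ℝ L) (p.1.1, p.2))
      (BNv1_S U h₁) := h2.comp (by fun_prop) (fun p hp => ⟨hp.1, hp.2⟩)
    exact (h4.clm_apply (by fun_prop)).clm_apply (by fun_prop)
  refine h3.congr fun p hp => ?_
  have hp4 : (p.1.1, p.2) ∈ U ×ˢ Ioo (-h₁) h₁ := ⟨hp.1, hp.2⟩
  have hnb := hO.mem_nhds hp4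
  unfold ddv
  have h5 : (fun y => fderiv ℝ (fun y => L (y, p.2)) y p.1.2) =ᶠ[𝓝 p.1.1]
      fun y => fderiv ℝ L (y, p.2) (p.1.2, 0) := by
    filter_upwards [hU.mem_nhds hp.1] with y hy
    have h6 : (y, p.2) ∈ U ×ˢ Ioo (-h₁) h₁ := ⟨hy, hp.2⟩
    exact BNv1_slice_fd ((hL.contDiffAt (hO.mem_nhds h6)).differentiableAt (by simp)) _
  rw [h5.fderiv_eq]
  have h7 : DifferentiableAt ℝ (fderiv ℝ L) (p.1.1, p.2) :=
    (h1.contDiffAt hnb).differentiableAt (by simp)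
  have h8 : DifferentiableAt ℝ (fun z => fderiv ℝ L z (p.1.2, 0)) (p.1.1, p.2) :=
    h7.clm_apply (differentiableAt_const _)
  have h9 := BNv1_slice_fd (L := fun z => fderiv ℝ L z (p.1.2, 0)) h8 p.1.2
  rw [h9]
  have h10 := (h7.hasFDerivAt.clm_apply (hasFDerivAt_const ((p.1.2, 0) : E2 × ℝ)
    (p.1.1, p.2))).fderiv
  rw [h10]
  simp

/-- from continuity to a uniform lower bound -/
private theorem BNv1_ev {Φ : (E2 × E2) × ℝ → ℝ} {q₀ : E2 × E2} {S : Set ((E2 × E2) × ℝ)}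
    (hS : IsOpen S) (hq : (q₀, (0 : ℝ)) ∈ S) (hΦ : ContinuousOn Φ S) (hpos : 0 < Φ (q₀, 0)) :
    ∃ c : ℝ, 0 < c ∧ ∃ h₂ : ℝ, 0 < h₂ ∧ ∀ᶠ q in 𝓝 q₀, ∀ h ∈ Ioo 0 h₂, (q, h) ∈ S ∧ c ≤ Φ (q, h) := by
  have h1 : ContinuousAt Φ (q₀, 0) := hΦ.continuousAt (hS.mem_nhds hq)
  have h2 : ∀ᶠ p in 𝓝 (q₀, (0 : ℝ)), p ∈ S ∧ Φ (q₀, 0) / 2 ≤ Φ p := by
    filter_upwards [hS.mem_nhds hq, h1.eventually (lt_mem_nhds (half_lt_self hpos))] with p hp hp'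
    exact ⟨hp, hp'.le⟩
  rw [nhds_prod_eq] at h2
  obtain ⟨pa, ha, pb, hb, hab⟩ := Filter.eventually_prod_iff.1 h2
  obtain ⟨ε, hε, hball⟩ := Metric.eventually_nhds_iff.1 hb
  refine ⟨Φ (q₀, 0) / 2, half_pos hpos, ε, hε, ?_⟩
  filter_upwards [ha] with q hq' h hh
  refine hab hq' (hball ?_)
  rw [Real.dist_eq, sub_zero, abs_of_pos hh.1]
  exact hh.2

private theorem BNv1_gram3_h {h : ℝ} (hh : 0 < h) (h1 : h < 1) (a b c : V4) :
    gram3 a b (h • c) ≤ gram3 a b c := by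
  have h2 : gram3 a b (h • c) = h ^ 2 * gram3 a b c := by
    unfold gram3
    simp only [real_inner_smul_left, real_inner_smul_right]
    ring
  have h3 : 0 ≤ gram3 a b c := by
    rw [gram3_eq_minors]
    positivity
  rw [h2]
  have h4 : h ^ 2 ≤ 1 := by nlinarith
  nlinarith

private def BNv1_m (a b c a' b' c' a'' b'' c'' : ℝ) : ℝ :=
  a * (b' * c'' - c' * b'') - b * (a' * c'' - c' * a'') + c * (a' * b'' - b' * a'')

private theorem BNv1_minor (a b c : V4) (i j k : Fin 4) :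
    minor3 a b c i j k = BNv1_m (a i) (a j) (a k) (b i) (b j) (b k) (c i) (c j) (c k) := rfl

private theorem BNv1_m_cont {X : Type*} [TopologicalSpace X] {S : Set X}
    {a b c a' b' c' a'' b'' c'' : X → ℝ} (h1 : ContinuousOn a S) (h2 : ContinuousOn b S)
    (h3 : ContinuousOn c S) (h4 : ContinuousOn a' S) (h5 : ContinuousOn b' S)
    (h6 : ContinuousOn c' S) (h7 : ContinuousOn a'' S) (h8 : ContinuousOn b'' S)
    (h9 : ContinuousOn c'' S) :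
    ContinuousOn (fun p => BNv1_m (a p) (b p) (c p) (a' p) (b' p) (c' p) (a'' p) (b'' p) (c'' p))
      S := by
  unfold BNv1_m
  fun_prop

private theorem BNv1_W0_cont {X : Type*} [TopologicalSpace X] {S : Set X}
    {e av l lvv : X → ℝ} (h0 : ContinuousOn e S) (h1 : ContinuousOn av S) (h2 : ContinuousOn l S)
    (h3 : ContinuousOn lvv S) :
    ContinuousOn (fun p => -(av p) ^ 2 * l p + e p ^ 2 * lvv p) S := by
  fun_prop

private theorem BNv1_W1_cont {X : Type*} [TopologicalSpace X] {S : Set X}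
    {e av avv l lv : X → ℝ} (h0 : ContinuousOn e S) (h1 : ContinuousOn av S)
    (h1' : ContinuousOn avv S) (h2 : ContinuousOn l S) (h3 : ContinuousOn lv S) :
    ContinuousOn (fun p => e p * (2 * av p * lv p + avv p * l p)) S := by
  fun_prop

/-- `M_j` -/
private def BNv1_M (e lv kv ln kn X Y w0 w2 wj : ℝ) : ℝ :=
  e * lv * kn * wj - lv * Y * w2 - e * kv * ln * wj + kv * Y * w0 + X * (ln * w2 - kn * w0)

private theorem BNv1_M_cont {X : Type*} [TopologicalSpace X] {S : Set X}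
    {e lv kv ln kn x y w0 w2 wj : X → ℝ} (h0 : ContinuousOn e S) (h1 : ContinuousOn lv S)
    (h2 : ContinuousOn kv S) (h3 : ContinuousOn ln S) (h4 : ContinuousOn kn S)
    (h5 : ContinuousOn x S) (h6 : ContinuousOn y S) (h7 : ContinuousOn w0 S)
    (h8 : ContinuousOn w2 S) (h9 : ContinuousOn wj S) :
    ContinuousOn (fun p => BNv1_M (e p) (lv p) (kv p) (ln p) (kn p) (x p) (y p) (w0 p) (w2 p)
      (wj p)) S := by
  unfold BNv1_M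
  fun_prop

private theorem BNv1_M_eq (e lv kv ln kn X Y w0 w2 wj : ℝ) :
    BNv1_m (e * lv) (e * kv) X (e * ln) (e * kn) Y w0 w2 wj =
      e * BNv1_M e lv kv ln kn X Y w0 w2 wj := by
  unfold BNv1_m BNv1_M
  ring

/-- local nondegeneracy, case 1 -/
private theorem BNv1_case1 {U : Set E2} (hU : IsOpen U) {h₁ : ℝ} (hh : 0 < h₁) {A B : E2 → ℝ}
    {l1 l2 : E2 → ℝ → ℝ} (hA : ContDiffOn ℝ ∞ A U) (hB : ContDiffOn ℝ ∞ B U)
    (hl1 : ContDiffOn ℝ ∞ (fun q : E2 × ℝ => l1 q.1 q.2) (U ×ˢ Ioo (-h₁) h₁))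
    (hl2 : ContDiffOn ℝ ∞ (fun q : E2 × ℝ => l2 q.1 q.2) (U ×ˢ Ioo (-h₁) h₁)) {x₀ v₀ : E2}
    (hx : x₀ ∈ U) (hv : v₀ ≠ 0) (p1 : 0 < l1 x₀ 0) (p2 : 0 < l2 x₀ 0)
    (hc : detC (fderiv ℝ A x₀) (fderiv ℝ B x₀) ≠ 0) :
    ∃ c : ℝ, 0 < c ∧ ∃ h₂ : ℝ, 0 < h₂ ∧ ∀ᶠ q in 𝓝 (x₀, v₀), ∀ h ∈ Ioo 0 h₂,
      c ≤ gramV (bmU A B (fun y => l1 y h) (fun y => l2 y h) h) q.2 q.1 := by
  have hAL : ContDiffOn ℝ ∞ (fun q : E2 × ℝ => A q.1) (U ×ˢ Ioo (-h₁) h₁) :=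
    hA.comp contDiffOn_fst (fun q hq => hq.1)
  have hBL : ContDiffOn ℝ ∞ (fun q : E2 × ℝ => B q.1) (U ×ˢ Ioo (-h₁) h₁) :=
    hB.comp contDiffOn_fst (fun q hq => hq.1)
  -- the functions
  let e : (E2 × E2) × ℝ → ℝ := fun p => p.2
  let X0 : (E2 × E2) × ℝ → ℝ := fun p => fderiv ℝ A p.1.1 (bv 0) * l1 p.1.1 p.2
  let X1 : (E2 × E2) × ℝ → ℝ := fun p => fderiv ℝ A p.1.1 (bv 1) * l1 p.1.1 p.2
  let Y0 : (E2 × E2) × ℝ → ℝ := fun p => fderiv ℝ B p.1.1 (bv 0) * l2 p.1.1 p.2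
  let Y1 : (E2 × E2) × ℝ → ℝ := fun p => fderiv ℝ B p.1.1 (bv 1) * l2 p.1.1 p.2
  let P0 : (E2 × E2) × ℝ → ℝ := fun p => p.2 * fderiv ℝ (fun y => l1 y p.2) p.1.1 (bv 0)
  let P1 : (E2 × E2) × ℝ → ℝ := fun p => p.2 * fderiv ℝ (fun y => l1 y p.2) p.1.1 (bv 1)
  let Q0 : (E2 × E2) × ℝ → ℝ := fun p => p.2 * fderiv ℝ (fun y => l2 y p.2) p.1.1 (bv 0)
  let Q1 : (E2 × E2) × ℝ → ℝ := fun p => p.2 * fderiv ℝ (fun y => l2 y p.2) p.1.1 (bv 1)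
  let W0 : (E2 × E2) × ℝ → ℝ := fun p => -(fderiv ℝ A p.1.1 p.1.2) ^ 2 * l1 p.1.1 p.2
    + p.2 ^ 2 * ddv p.1.2 (fun y => l1 y p.2) p.1.1
  let W1 : (E2 × E2) × ℝ → ℝ := fun p => p.2 * (2 * fderiv ℝ A p.1.1 p.1.2 *
    fderiv ℝ (fun y => l1 y p.2) p.1.1 p.1.2 + ddv p.1.2 A p.1.1 * l1 p.1.1 p.2)
  let W2 : (E2 × E2) × ℝ → ℝ := fun p => -(fderiv ℝ B p.1.1 p.1.2) ^ 2 * l2 p.1.1 p.2
    + p.2 ^ 2 * ddv p.1.2 (fun y => l2 y p.2) p.1.1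
  let W3 : (E2 × E2) × ℝ → ℝ := fun p => p.2 * (2 * fderiv ℝ B p.1.1 p.1.2 *
    fderiv ℝ (fun y => l2 y p.2) p.1.1 p.1.2 + ddv p.1.2 B p.1.1 * l2 p.1.1 p.2)
  have he : ContinuousOn e (BNv1_S U h₁) := by fun_prop
  have cA := fun (g : (E2 × E2) × ℝ → E2) (hg : Continuous g) => BNv1_c1 hU hAL hg
  have cB := fun (g : (E2 × E2) × ℝ → E2) (hg : Continuous g) => BNv1_c1 hU hBL hg
  have cl := fun (g : (E2 × E2) × ℝ → E2) (hg : Continuous g) => BNv1_c1 hU hl1 hg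
  have ck := fun (g : (E2 × E2) × ℝ → E2) (hg : Continuous g) => BNv1_c1 hU hl2 hg
  have cl0 := BNv1_c0 hl1
  have ck0 := BNv1_c0 hl2
  have hX0 : ContinuousOn X0 (BNv1_S U h₁) := (cA (fun _ => bv 0) continuous_const).mul cl0
  have hX1 : ContinuousOn X1 (BNv1_S U h₁) := (cA (fun _ => bv 1) continuous_const).mul cl0
  have hY0 : ContinuousOn Y0 (BNv1_S U h₁) := (cB (fun _ => bv 0) continuous_const).mul ck0
  have hY1 : ContinuousOn Y1 (BNv1_S U h₁) := (cB (fun _ => bv 1) continuous_const).mul ck0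
  have hP0 : ContinuousOn P0 (BNv1_S U h₁) := he.mul (cl (fun _ => bv 0) continuous_const)
  have hP1 : ContinuousOn P1 (BNv1_S U h₁) := he.mul (cl (fun _ => bv 1) continuous_const)
  have hQ0 : ContinuousOn Q0 (BNv1_S U h₁) := he.mul (ck (fun _ => bv 0) continuous_const)
  have hQ1 : ContinuousOn Q1 (BNv1_S U h₁) := he.mul (ck (fun _ => bv 1) continuous_const)
  have cAv := cA (fun p => p.1.2) (by fun_prop)
  have cBv := cB (fun p => p.1.2) (by fun_prop)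
  have clv := cl (fun p => p.1.2) (by fun_prop)
  have ckv := ck (fun p => p.1.2) (by fun_prop)
  have hW0 : ContinuousOn W0 (BNv1_S U h₁) := BNv1_W0_cont he cAv cl0 (BNv1_c2 hU hl1)
  have hW1 : ContinuousOn W1 (BNv1_S U h₁) := BNv1_W1_cont he cAv (BNv1_c2 hU hAL) cl0 clv
  have hW2 : ContinuousOn W2 (BNv1_S U h₁) := BNv1_W0_cont he cBv ck0 (BNv1_c2 hU hl2)
  have hW3 : ContinuousOn W3 (BNv1_S U h₁) := BNv1_W1_cont he cBv (BNv1_c2 hU hBL) ck0 ckv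
  have m1 := BNv1_m_cont hX0 hQ0 hY0 hX1 hQ1 hY1 hW1 hW2 hW3
  have m2 := BNv1_m_cont hP0 hX0 hY0 hP1 hX1 hY1 hW0 hW1 hW3
  have hΦ := (m1.pow 2).add (m2.pow 2)
  have hq : ((x₀, v₀), (0 : ℝ)) ∈ BNv1_S U h₁ := ⟨hx, by simpa using hh⟩
  have hdet : fderiv ℝ A x₀ (bv 0) * fderiv ℝ B x₀ (bv 1) -
      fderiv ℝ A x₀ (bv 1) * fderiv ℝ B x₀ (bv 0) ≠ 0 := by
    unfold detC at hc
    rw [MD2_e1, MD2_e2] at hc
    exact hc
  have hAB : (fderiv ℝ A x₀ v₀) ≠ 0 ∨ (fderiv ℝ B x₀ v₀) ≠ 0 := by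
    by_contra hcon
    push Not at hcon
    obtain ⟨g1, g2⟩ := hcon
    rw [MD2_app (fderiv ℝ A x₀) v₀, smul_eq_mul, smul_eq_mul] at g1
    rw [MD2_app (fderiv ℝ B x₀) v₀, smul_eq_mul, smul_eq_mul] at g2
    apply hv
    have k1 : v₀.1 * (fderiv ℝ A x₀ (bv 0) * fderiv ℝ B x₀ (bv 1) -
      fderiv ℝ A x₀ (bv 1) * fderiv ℝ B x₀ (bv 0)) = 0 := by
      linear_combination fderiv ℝ B x₀ (bv 1) * g1 - fderiv ℝ A x₀ (bv 1) * g2
    have k2 : v₀.2 * (fderiv ℝ A x₀ (bv 0) * fderiv ℝ B x₀ (bv 1) -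
      fderiv ℝ A x₀ (bv 1) * fderiv ℝ B x₀ (bv 0)) = 0 := by
      linear_combination fderiv ℝ A x₀ (bv 0) * g2 - fderiv ℝ B x₀ (bv 0) * g1
    have k3 := (mul_eq_zero.1 k1).resolve_right hdet
    have k4 := (mul_eq_zero.1 k2).resolve_right hdet
    exact Prod.ext k3 k4
  obtain ⟨c, hc0, h₂, hh₂, hev⟩ := BNv1_ev (BNv1_S_open hU h₁) hq hΦ (by
    have z1 : BNv1_m (X0 ((x₀, v₀), 0)) (Q0 ((x₀, v₀), 0)) (Y0 ((x₀, v₀), 0)) (X1 ((x₀, v₀), 0))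
        (Q1 ((x₀, v₀), 0)) (Y1 ((x₀, v₀), 0)) (W1 ((x₀, v₀), 0)) (W2 ((x₀, v₀), 0))
        (W3 ((x₀, v₀), 0)) = l1 x₀ 0 * l2 x₀ 0 ^ 2 * (fderiv ℝ B x₀ v₀) ^ 2 *
        (fderiv ℝ A x₀ (bv 0) * fderiv ℝ B x₀ (bv 1) -
          fderiv ℝ A x₀ (bv 1) * fderiv ℝ B x₀ (bv 0)) := by
      simp only [X0, Q0, Y0, X1, Q1, Y1, W1, W2, W3, BNv1_m]
      ring
    have z2 : BNv1_m (P0 ((x₀, v₀), 0)) (X0 ((x₀, v₀), 0)) (Y0 ((x₀, v₀), 0)) (P1 ((x₀, v₀), 0))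
        (X1 ((x₀, v₀), 0)) (Y1 ((x₀, v₀), 0)) (W0 ((x₀, v₀), 0)) (W1 ((x₀, v₀), 0))
        (W3 ((x₀, v₀), 0)) = -(l1 x₀ 0 ^ 2 * l2 x₀ 0 * (fderiv ℝ A x₀ v₀) ^ 2 *
        (fderiv ℝ A x₀ (bv 0) * fderiv ℝ B x₀ (bv 1) -
          fderiv ℝ A x₀ (bv 1) * fderiv ℝ B x₀ (bv 0))) := by
      simp only [P0, X0, Y0, P1, X1, Y1, W0, W1, W3, BNv1_m]
      ring
    change 0 < (BNv1_m _ _ _ _ _ _ _ _ _) ^ 2 + (BNv1_m _ _ _ _ _ _ _ _ _) ^ 2
    rw [z1, z2]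
    set D := fderiv ℝ A x₀ (bv 0) * fderiv ℝ B x₀ (bv 1) -
          fderiv ℝ A x₀ (bv 1) * fderiv ℝ B x₀ (bv 0) with hD
    rw [neg_sq]
    rcases hAB with g | g
    · positivity
    · positivity)
  refine ⟨c, hc0, min h₂ 1, lt_min hh₂ one_pos, ?_⟩
  filter_upwards [hev] with q hq' h hh'
  obtain ⟨hS, hcΦ⟩ := hq' h ⟨hh'.1, hh'.2.trans_le (min_le_left _ _)⟩
  have h1lt : h < 1 := hh'.2.trans_le (min_le_right _ _)
  refine hcΦ.trans ?_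
  have hxU : q.1 ∈ U := hS.1
  have hhI : h ∈ Ioo (-h₁) h₁ := hS.2
  have sl1 : ContDiffOn ℝ ∞ (fun y => l1 y h) U := BNv1_slice hl1 hhI
  have sl2 : ContDiffOn ℝ ∞ (fun y => l2 y h) U := BNv1_slice hl2 hhI
  have d0 := bmU_d1 hU hA hB sl1 sl2 hh'.1.ne' hxU (bv 0)
  have d1 := bmU_d1 hU hA hB sl1 sl2 hh'.1.ne' hxU (bv 1)
  have dd := bmU_d2 hU hA hB sl1 sl2 hh'.1.ne' hxU q.2
  unfold gramV pd
  refine le_trans ?_ (BNv1_gram3_h hh'.1 h1lt _ _ _)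
  rw [← gram3_rotV (A q.1 / h) (B q.1 / h), d0, d1, dd, gram3_eq_minors]
  have e1 : ∀ a b c d : ℝ, a ^ 2 + c ^ 2 ≤ a ^ 2 + b ^ 2 + c ^ 2 + d ^ 2 := fun a b c d => by
    nlinarith [sq_nonneg b, sq_nonneg d]
  exact e1 _ _ _ _

/-- local nondegeneracy, case 2 -/
private theorem BNv1_case2 {U : Set E2} (hU : IsOpen U) {h₁ : ℝ} (hh : 0 < h₁) {A B : E2 → ℝ}
    {l1 l2 : E2 → ℝ → ℝ} (hA : ContDiffOn ℝ ∞ A U) (hB : ContDiffOn ℝ ∞ B U)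
    (hl1 : ContDiffOn ℝ ∞ (fun q : E2 × ℝ => l1 q.1 q.2) (U ×ˢ Ioo (-h₁) h₁))
    (hl2 : ContDiffOn ℝ ∞ (fun q : E2 × ℝ => l2 q.1 q.2) (U ×ˢ Ioo (-h₁) h₁)) {x₀ v₀ : E2}
    (hx : x₀ ∈ U) (p1 : 0 < l1 x₀ 0) (p2 : 0 < l2 x₀ 0) (n : E2)
    (hn1 : fderiv ℝ A x₀ n = 0) (hn2 : fderiv ℝ B x₀ n = 0)
    (hc : (fderiv ℝ A x₀ v₀) ^ 2 * l1 x₀ 0 * fderiv ℝ (fun y => l2 y 0) x₀ n ≠
          (fderiv ℝ B x₀ v₀) ^ 2 * l2 x₀ 0 * fderiv ℝ (fun y => l1 y 0) x₀ n) :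
    ∃ c : ℝ, 0 < c ∧ ∃ h₂ : ℝ, 0 < h₂ ∧ ∀ᶠ q in 𝓝 (x₀, v₀), ∀ h ∈ Ioo 0 h₂,
      c ≤ gramV (bmU A B (fun y => l1 y h) (fun y => l2 y h) h) q.2 q.1 := by
  have hAL : ContDiffOn ℝ ∞ (fun q : E2 × ℝ => A q.1) (U ×ˢ Ioo (-h₁) h₁) :=
    hA.comp contDiffOn_fst (fun q hq => hq.1)
  have hBL : ContDiffOn ℝ ∞ (fun q : E2 × ℝ => B q.1) (U ×ˢ Ioo (-h₁) h₁) :=
    hB.comp contDiffOn_fst (fun q hq => hq.1)
  let e : (E2 × E2) × ℝ → ℝ := fun p => p.2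
  let lv : (E2 × E2) × ℝ → ℝ := fun p => fderiv ℝ (fun y => l1 y p.2) p.1.1 p.1.2
  let kv : (E2 × E2) × ℝ → ℝ := fun p => fderiv ℝ (fun y => l2 y p.2) p.1.1 p.1.2
  let ln : (E2 × E2) × ℝ → ℝ := fun p => fderiv ℝ (fun y => l1 y p.2) p.1.1 n
  let kn : (E2 × E2) × ℝ → ℝ := fun p => fderiv ℝ (fun y => l2 y p.2) p.1.1 n
  let Xv : (E2 × E2) × ℝ → ℝ := fun p => fderiv ℝ A p.1.1 p.1.2 * l1 p.1.1 p.2
  let Xn : (E2 × E2) × ℝ → ℝ := fun p => fderiv ℝ A p.1.1 n * l1 p.1.1 p.2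
  let Yv : (E2 × E2) × ℝ → ℝ := fun p => fderiv ℝ B p.1.1 p.1.2 * l2 p.1.1 p.2
  let Yn : (E2 × E2) × ℝ → ℝ := fun p => fderiv ℝ B p.1.1 n * l2 p.1.1 p.2
  let W0 : (E2 × E2) × ℝ → ℝ := fun p => -(fderiv ℝ A p.1.1 p.1.2) ^ 2 * l1 p.1.1 p.2
    + p.2 ^ 2 * ddv p.1.2 (fun y => l1 y p.2) p.1.1
  let W1 : (E2 × E2) × ℝ → ℝ := fun p => p.2 * (2 * fderiv ℝ A p.1.1 p.1.2 *
    fderiv ℝ (fun y => l1 y p.2) p.1.1 p.1.2 + ddv p.1.2 A p.1.1 * l1 p.1.1 p.2)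
  let W2 : (E2 × E2) × ℝ → ℝ := fun p => -(fderiv ℝ B p.1.1 p.1.2) ^ 2 * l2 p.1.1 p.2
    + p.2 ^ 2 * ddv p.1.2 (fun y => l2 y p.2) p.1.1
  let W3 : (E2 × E2) × ℝ → ℝ := fun p => p.2 * (2 * fderiv ℝ B p.1.1 p.1.2 *
    fderiv ℝ (fun y => l2 y p.2) p.1.1 p.1.2 + ddv p.1.2 B p.1.1 * l2 p.1.1 p.2)
  have he : ContinuousOn e (BNv1_S U h₁) := by fun_prop
  have cA := fun (g : (E2 × E2) × ℝ → E2) (hg : Continuous g) => BNv1_c1 hU hAL hg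
  have cB := fun (g : (E2 × E2) × ℝ → E2) (hg : Continuous g) => BNv1_c1 hU hBL hg
  have cl := fun (g : (E2 × E2) × ℝ → E2) (hg : Continuous g) => BNv1_c1 hU hl1 hg
  have ck := fun (g : (E2 × E2) × ℝ → E2) (hg : Continuous g) => BNv1_c1 hU hl2 hg
  have cl0 := BNv1_c0 hl1
  have ck0 := BNv1_c0 hl2
  have cAv := cA (fun p => p.1.2) (by fun_prop)
  have cBv := cB (fun p => p.1.2) (by fun_prop)
  have clv : ContinuousOn lv (BNv1_S U h₁) := cl (fun p => p.1.2) (by fun_prop)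
  have ckv : ContinuousOn kv (BNv1_S U h₁) := ck (fun p => p.1.2) (by fun_prop)
  have cln : ContinuousOn ln (BNv1_S U h₁) := cl (fun p => n) (by fun_prop)
  have ckn : ContinuousOn kn (BNv1_S U h₁) := ck (fun p => n) (by fun_prop)
  have hXv : ContinuousOn Xv (BNv1_S U h₁) := cAv.mul cl0
  have hYv : ContinuousOn Yv (BNv1_S U h₁) := cBv.mul ck0
  have hXn : ContinuousOn Xn (BNv1_S U h₁) := (cA (fun _ => n) continuous_const).mul cl0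
  have hYn : ContinuousOn Yn (BNv1_S U h₁) := (cB (fun _ => n) continuous_const).mul ck0
  have hW0 : ContinuousOn W0 (BNv1_S U h₁) := BNv1_W0_cont he cAv cl0 (BNv1_c2 hU hl1)
  have hW1 : ContinuousOn W1 (BNv1_S U h₁) := BNv1_W1_cont he cAv (BNv1_c2 hU hAL) cl0 clv
  have hW2 : ContinuousOn W2 (BNv1_S U h₁) := BNv1_W0_cont he cBv ck0 (BNv1_c2 hU hl2)
  have hW3 : ContinuousOn W3 (BNv1_S U h₁) := BNv1_W1_cont he cBv (BNv1_c2 hU hBL) ck0 ckv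
  have m1 := BNv1_M_cont he clv ckv cln ckn hXv hXn hW0 hW2 hW1
  have m3 := BNv1_M_cont he clv ckv cln ckn hYv hYn hW0 hW2 hW3
  have hΦ := (m1.pow 2).add (m3.pow 2)
  have hq : ((x₀, v₀), (0 : ℝ)) ∈ BNv1_S U h₁ := ⟨hx, by simpa using hh⟩
  set D := (fderiv ℝ A x₀ v₀) ^ 2 * l1 x₀ 0 * fderiv ℝ (fun y => l2 y 0) x₀ n -
          (fderiv ℝ B x₀ v₀) ^ 2 * l2 x₀ 0 * fderiv ℝ (fun y => l1 y 0) x₀ n with hD
  have hD0 : D ≠ 0 := sub_ne_zero.2 hc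
  have hAB : (fderiv ℝ A x₀ v₀) ≠ 0 ∨ (fderiv ℝ B x₀ v₀) ≠ 0 := by
    by_contra hcon
    push Not at hcon
    obtain ⟨g1, g2⟩ := hcon
    apply hD0
    rw [hD, g1, g2]
    ring
  obtain ⟨c, hc0, h₂, hh₂, hev⟩ := BNv1_ev (BNv1_S_open hU h₁) hq hΦ (by
    have z1 : BNv1_M (e ((x₀, v₀), 0)) (lv ((x₀, v₀), 0)) (kv ((x₀, v₀), 0)) (ln ((x₀, v₀), 0))
        (kn ((x₀, v₀), 0)) (Xv ((x₀, v₀), 0)) (Xn ((x₀, v₀), 0)) (W0 ((x₀, v₀), 0))
        (W2 ((x₀, v₀), 0)) (W1 ((x₀, v₀), 0)) = (fderiv ℝ A x₀ v₀) * l1 x₀ 0 * D := by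
      simp only [e, lv, kv, ln, kn, Xv, Xn, W0, W2, W1, BNv1_M, hD, hn1]
      ring
    have z2 : BNv1_M (e ((x₀, v₀), 0)) (lv ((x₀, v₀), 0)) (kv ((x₀, v₀), 0)) (ln ((x₀, v₀), 0))
        (kn ((x₀, v₀), 0)) (Yv ((x₀, v₀), 0)) (Yn ((x₀, v₀), 0)) (W0 ((x₀, v₀), 0))
        (W2 ((x₀, v₀), 0)) (W3 ((x₀, v₀), 0)) = (fderiv ℝ B x₀ v₀) * l2 x₀ 0 * D := by
      simp only [e, lv, kv, ln, kn, Yv, Yn, W0, W2, W3, BNv1_M, hD, hn2]
      ring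
    change 0 < (BNv1_M _ _ _ _ _ _ _ _ _ _) ^ 2 + (BNv1_M _ _ _ _ _ _ _ _ _ _) ^ 2
    rw [z1, z2]
    rcases hAB with g | g
    · positivity
    · positivity)
  -- the determinant of `v` and `n`
  set D2 : ℝ := (v₀.1 * n.2 - v₀.2 * n.1) ^ 2 + 1 with hD2
  have hD2pos : 0 < D2 := by positivity
  have hdet : ∀ᶠ q : E2 × E2 in 𝓝 (x₀, v₀), (q.2.1 * n.2 - q.2.2 * n.1) ^ 2 < D2 := by
    have hcont : Continuous (fun q : E2 × E2 => (q.2.1 * n.2 - q.2.2 * n.1) ^ 2) := by fun_prop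
    exact hcont.continuousAt.eventually (gt_mem_nhds (by simp [hD2]))
  refine ⟨c / D2, by positivity, h₂, hh₂, ?_⟩
  filter_upwards [hev, hdet] with q hq' hdq h hh'
  obtain ⟨hS, hcΦ⟩ := hq' h hh'
  have hxU : q.1 ∈ U := hS.1
  have hhI : h ∈ Ioo (-h₁) h₁ := hS.2
  have sl1 : ContDiffOn ℝ ∞ (fun y => l1 y h) U := BNv1_slice hl1 hhI
  have sl2 : ContDiffOn ℝ ∞ (fun y => l2 y h) U := BNv1_slice hl2 hhI
  have d0 := bmU_d1 hU hA hB sl1 sl2 hh'.1.ne' hxU q.2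
  have d1 := bmU_d1 hU hA hB sl1 sl2 hh'.1.ne' hxU n
  have dd := bmU_d2 hU hA hB sl1 sl2 hh'.1.ne' hxU q.2
  have hvn := gram3_vn (G := bmU A B (fun y => l1 y h) (fun y => l2 y h) h) (x := q.1) q.2 n
  have hg0 : 0 ≤ gramV (bmU A B (fun y => l1 y h) (fun y => l2 y h) h) q.2 q.1 := by
    unfold gramV
    rw [gram3_eq_minors]
    positivity
  have hsc : ∀ a b c : V4, gram3 a b (h • c) = h ^ 2 * gram3 a b c := by
    intro a b c
    unfold gram3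
    simp only [real_inner_smul_left, real_inner_smul_right]
    ring
  have key : h ^ 2 * c ≤ h ^ 2 * gram3 (fderiv ℝ (bmU A B (fun y => l1 y h) (fun y => l2 y h) h) q.1 q.2)
      (fderiv ℝ (bmU A B (fun y => l1 y h) (fun y => l2 y h) h) q.1 n)
      (ddv q.2 (bmU A B (fun y => l1 y h) (fun y => l2 y h) h) q.1) := by
    rw [← hsc, ← gram3_rotV (A q.1 / h) (B q.1 / h), d0, d1, dd, gram3_eq_minors]
    refine (mul_le_mul_of_nonneg_left hcΦ (sq_nonneg h)).trans ?_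
    have k1 := BNv1_M_eq h (lv (q, h)) (kv (q, h)) (ln (q, h)) (kn (q, h)) (Xv (q, h)) (Xn (q, h))
      (W0 (q, h)) (W2 (q, h)) (W1 (q, h))
    have k3 := BNv1_M_eq h (lv (q, h)) (kv (q, h)) (ln (q, h)) (kn (q, h)) (Yv (q, h)) (Yn (q, h))
      (W0 (q, h)) (W2 (q, h)) (W3 (q, h))
    have e1 : ∀ a b c d x y z w : ℝ, x = h * z → y = h * w → b = y → d = -x →
        h ^ 2 * (z ^ 2 + w ^ 2) ≤ a ^ 2 + b ^ 2 + c ^ 2 + d ^ 2 := by
      intro a b c d x y z w hx hy hb hd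
      rw [hb, hd, hx, hy]
      nlinarith [sq_nonneg a, sq_nonneg c]
    refine e1 _ _ _ _ _ _ _ _ k1 k3 ?_ ?_
    · rfl
    · rw [BNv1_minor]
      simp only [BNv1_m, Matrix.cons_val_zero, Matrix.cons_val_one,
        Matrix.cons_val, lv, kv, ln, kn, Xv, Xn, W0, W1, W2]
      ring
  have hh2 : 0 < h ^ 2 := pow_pos hh'.1 2
  have key2 := le_of_mul_le_mul_left key hh2
  rw [hvn] at key2
  rw [div_le_iff₀ hD2pos]
  have := mul_le_mul_of_nonneg_right hdq.le hg0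
  linarith

/-- local nondegeneracy, uniformly in `h` -/
theorem nv_local {U : Set E2} (hU : IsOpen U) {h₁ : ℝ} (hh : 0 < h₁) {A B : E2 → ℝ}
    {l1 l2 : E2 → ℝ → ℝ} (hA : ContDiffOn ℝ ∞ A U) (hB : ContDiffOn ℝ ∞ B U)
    (hl1 : ContDiffOn ℝ ∞ (fun q : E2 × ℝ => l1 q.1 q.2) (U ×ˢ Ioo (-h₁) h₁))
    (hl2 : ContDiffOn ℝ ∞ (fun q : E2 × ℝ => l2 q.1 q.2) (U ×ˢ Ioo (-h₁) h₁)) {x₀ v₀ : E2}
    (hx : x₀ ∈ U) (hv : v₀ ≠ 0) (p1 : 0 < l1 x₀ 0) (p2 : 0 < l2 x₀ 0)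
    (hc : detC (fderiv ℝ A x₀) (fderiv ℝ B x₀) ≠ 0 ∨
      ∃ n : E2, fderiv ℝ A x₀ n = 0 ∧ fderiv ℝ B x₀ n = 0 ∧
        (fderiv ℝ A x₀ v₀) ^ 2 * l1 x₀ 0 * fderiv ℝ (fun y => l2 y 0) x₀ n ≠
          (fderiv ℝ B x₀ v₀) ^ 2 * l2 x₀ 0 * fderiv ℝ (fun y => l1 y 0) x₀ n) :
    ∃ c : ℝ, 0 < c ∧ ∃ h₂ : ℝ, 0 < h₂ ∧ ∀ᶠ q in 𝓝 (x₀, v₀), ∀ h ∈ Ioo 0 h₂,
      c ≤ gramV (bmU A B (fun y => l1 y h) (fun y => l2 y h) h) q.2 q.1 := by
  rcases hc with hc | ⟨n, hn1, hn2, hc⟩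
  · exact BNv1_case1 hU hh hA hB hl1 hl2 hx hv p1 p2 hc
  · exact BNv1_case2 hU hh hA hB hl1 hl2 hx p1 p2 n hn1 hn2 hc

end P205F
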