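import Mathlib
import Vale.Agent.Lib.P205B.BIp
import Vale.Agent.Lib.P205B.BNv1

/-!
# P205F BASE: the base map and its nondegeneracy

`f_h = h (λ₁ e^{iA/h}, λ₂ e^{iB/h}) ∈ ℂ² = ℝ⁴`.  In the slow frame `FF = (e^{iA/h}, e^{iB/h})`:
`FF⁻¹ f_v = (h λ₁_v + i A_v λ₁, h λ₂_v + i B_v λ₂)`,
`h FF⁻¹ f_vv = (-A_v² λ₁ + i h (2 A_v λ₁_v + A_vv λ₁) + h² λ₁_vv, same for λ₂, B)`.
`gram3` is invariant under the rotation `FF`.

`nv_local`, case 1 (`dA ∧ dB ≠ 0` at `x₀`): at `h = 0` the vectors are `i(A_1λ₁, B_1λ₂)`,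
`i(A_2λ₁, B_2λ₂)`, `-(A_v²λ₁, B_v²λ₂)`, independent, so `gram3 (f_1, f_2, h f_vv) ≥ c` near `(x₀, v₀, 0)`.
Case 2 (`dA n = dB n = 0` at `x₀`, `n` constant): the two minors `(Re₁, Re₂, Im₁)`, `(Re₁, Re₂, Im₂)`
of `(f_v, f_n/h, h f_vv)` (in the slow frame) are the components of
`det(R_n, R_vv) I_v - det(R_v, R_vv) I_n + det(R_v, R_n) I_vv` with `R_v = h λ_v`, `R_n = λ_n`,
`I_v = (A_vλ₁, B_vλ₂)`, `I_n = (A_nλ₁, B_nλ₂)/h`, `R_vv = -(A_v²λ₁, B_v²λ₂) + h²λ_vv`, `I_vv = h (…)`;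
the factor `1/h` cancels: the expression is continuous in `(x, v, h)` also at `h = 0` and its value at
`(x₀, v₀, 0)` is `- det(λ_n, (A_v²λ₁, B_v²λ₂)) (A_vλ₁, B_vλ₂) ≠ 0`.  Hence
`gram3 (f_v, f_n, f_vv) = gram3 (f_v, f_n/h, h f_vv) ≥ c`, and
`gram3 (f_v, f_n, f_vv) = det(v,n)² gram3 (f_1, f_2, f_vv)`, `det (v,n)` bounded.
-/

noncomputable section

namespace P205F

open scoped Manifold ContDiff Topology RealInnerProductSpace
open Set

set_option maxSynthPendingDepth 3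

variable {M : Type} [TopologicalSpace M] [ChartedSpace E2 M] [IsManifold 𝓘(ℝ, E2) ∞ M]

/-- the base map on `M` -/
def bmM (A B l1 l2 : M → ℝ) (h : ℝ) (p : M) : V4 :=
  !₂[h * l1 p * Real.cos (A p / h), h * l1 p * Real.sin (A p / h),
    h * l2 p * Real.cos (B p / h), h * l2 p * Real.sin (B p / h)]

theorem bmM_loc (A B l1 l2 : M → ℝ) (h : ℝ) (φ : OpenPartialHomeomorph M E2) :
    bmM A B l1 l2 h ∘ φ.symm = bmU (A ∘ φ.symm) (B ∘ φ.symm) (l1 ∘ φ.symm) (l2 ∘ φ.symm) h :=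
  rfl

theorem BNv2_smU {U : Set E2} {A B l1 l2 : E2 → ℝ} (hA : ContDiffOn ℝ ∞ A U)
    (hB : ContDiffOn ℝ ∞ B U) (h1 : ContDiffOn ℝ ∞ l1 U) (h2 : ContDiffOn ℝ ∞ l2 U) (h : ℝ) :
    ContDiffOn ℝ ∞ (bmU A B l1 l2 h) U := by
  rw [contDiffOn_euclidean]
  intro i
  have hAh : ContDiffOn ℝ ∞ (fun x => A x / h) U := hA.div_const h
  have hBh : ContDiffOn ℝ ∞ (fun x => B x / h) U := hB.div_const h
  fin_cases i
  · exact (contDiffOn_const.mul h1).mul (Real.contDiff_cos.comp_contDiffOn hAh)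
  · exact (contDiffOn_const.mul h1).mul (Real.contDiff_sin.comp_contDiffOn hAh)
  · exact (contDiffOn_const.mul h2).mul (Real.contDiff_cos.comp_contDiffOn hBh)
  · exact (contDiffOn_const.mul h2).mul (Real.contDiff_sin.comp_contDiffOn hBh)

theorem sm_bmM {A B l1 l2 : M → ℝ} (hA : Sm A) (hB : Sm B) (h1 : Sm l1) (h2 : Sm l2) (h : ℝ) :
    Sm (bmM A B l1 l2 h) := by
  refine sm_of_loc fun p => ⟨chartAt E2 p, chart_mem_ATL p, mem_chart_source E2 p, ?_⟩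
  rw [bmM_loc]
  have hφ := chart_mem_ATL p
  exact (BNv2_smU (hA.loc hφ) (hB.loc hφ) (h1.loc hφ) (h2.loc hφ) h).contDiffAt
    ((chartAt E2 p).open_target.mem_nhds ((chartAt E2 p).map_source (mem_chart_source E2 p)))

theorem BNv2_inner (x y : V4) :
    inner ℝ x y = x 0 * y 0 + x 1 * y 1 + x 2 * y 2 + x 3 * y 3 := by
  rw [PiLp.inner_apply]
  simp only [Fin.sum_univ_four, RCLike.inner_apply, conj_trivial]
  ring

theorem BNv2_rot (a b : ℝ) (u v : V4) : inner ℝ (rotV a b u) (rotV a b v) = inner ℝ u v := by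
  rw [BNv2_inner, BNv2_inner]
  simp only [rotV, PiLp.toLp_apply, Matrix.cons_val_zero, Matrix.cons_val_one, Matrix.cons_val]
  have ha := Real.sin_sq_add_cos_sq a
  have hb := Real.sin_sq_add_cos_sq b
  linear_combination (u 0 * v 0 + u 1 * v 1) * ha + (u 2 * v 2 + u 3 * v 3) * hb

theorem metr_bmM {A B l1 l2 : M → ℝ} (hA : Sm A) (hB : Sm B) (h1 : Sm l1) (h2 : Sm l2) {h : ℝ}
    (hh : h ≠ 0) (p : M) : metr (bmM A B l1 l2 h) p =
      l1 p ^ 2 • sqT A p + l2 p ^ 2 • sqT B p + h ^ 2 • (sqT l1 p + sqT l2 p) := by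
  set φ := chartAt E2 p with hφd
  have hφ : φ ∈ ATL M := chart_mem_ATL p
  have hp : φ p ∈ φ.target := φ.map_source (mem_chart_source E2 p)
  have hl : φ.symm (φ p) = p := φ.left_inv (mem_chart_source E2 p)
  have hd := fun v => bmU_d1 φ.open_target (hA.loc hφ) (hB.loc hφ) (h1.loc hφ) (h2.loc hφ) hh hp v
  refine ContinuousLinearMap.ext fun v => ContinuousLinearMap.ext fun w => ?_
  have e1 : metr (bmM A B l1 l2 h) p v w = inner ℝ
      (fderiv ℝ (bmU (A ∘ φ.symm) (B ∘ φ.symm) (l1 ∘ φ.symm) (l2 ∘ φ.symm) h) (φ p) v)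
      (fderiv ℝ (bmU (A ∘ φ.symm) (B ∘ φ.symm) (l1 ∘ φ.symm) (l2 ∘ φ.symm) h) (φ p) w) := rfl
  have e2 : ∀ u : M → ℝ, sqT u p v w = fderiv ℝ (u ∘ φ.symm) (φ p) v *
      fderiv ℝ (u ∘ φ.symm) (φ p) w := fun u => rfl
  rw [e1, ← BNv2_rot ((A ∘ φ.symm) (φ p) / h) ((B ∘ φ.symm) (φ p) / h), hd, hd, BNv2_inner]
  simp only [add_apply, smul_apply, smul_eq_mul, e2,
    Matrix.cons_val_zero, Matrix.cons_val_one, Matrix.cons_val,
    Function.comp_apply, hl]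
  ring

/-! ### derivative bounds -/

/-- derivatives of `x ↦ (x, h)` -/
theorem BNv2_incl (h : ℝ) (i : ℕ) (hi : 1 ≤ i) (x : E2) :
    ‖iteratedFDeriv ℝ i (fun x : E2 => (x, h)) x‖ ≤ 1 := by
  obtain ⟨n, rfl⟩ : ∃ n, i = n + 1 := ⟨i - 1, by omega⟩
  rw [← norm_iteratedFDeriv_fderiv]
  have e : (fun x : E2 => fderiv ℝ (fun x : E2 => (x, h)) x) =
      fun _ => ContinuousLinearMap.inl ℝ E2 ℝ := by
    funext y
    exact (hasFDerivAt_prodMk_left y h).fderiv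
  have e' : fderiv ℝ (fun x : E2 => (x, h)) = fun _ => ContinuousLinearMap.inl ℝ E2 ℝ := e
  rw [e']
  rcases Nat.eq_zero_or_pos n with hn | hn
  · subst hn
    rw [norm_iteratedFDeriv_zero]
    exact ContinuousLinearMap.norm_inl_le_one ℝ E2 ℝ
  · rw [iteratedFDeriv_const_of_ne (Nat.pos_iff_ne_zero.mp hn), Pi.zero_apply, norm_zero]
    exact zero_le_one

/-- slices of a smooth function have uniformly bounded derivatives -/
theorem BNv2_slice {U K : Set E2} (hU : IsOpen U) (hK : IsCompact K) (hKU : K ⊆ U) {h₁ : ℝ}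
    (hh : 0 < h₁) {L : E2 × ℝ → ℝ} (hL : ContDiffOn ℝ ∞ L (U ×ˢ Ioo (-h₁) h₁)) (j : ℕ) :
    ∃ C : ℝ, 0 ≤ C ∧ ∀ h ∈ Icc 0 (h₁ / 2), ∀ x ∈ K,
      ‖iteratedFDerivWithin ℝ j (fun x => L (x, h)) U x‖ ≤ C := by
  set O : Set (E2 × ℝ) := U ×ˢ Ioo (-h₁) h₁ with hO
  have hOo : IsOpen O := hU.prod isOpen_Ioo
  have hKO : K ×ˢ Icc (0 : ℝ) (h₁ / 2) ⊆ O := by
    rintro ⟨x, h⟩ ⟨hx, hh1, hh2⟩
    exact ⟨hKU hx, by simp only at hh1; linarith, by simp only at hh2; linarith⟩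
  have hb : ∀ i : ℕ, ∃ D : ℝ, ∀ q ∈ K ×ˢ Icc (0 : ℝ) (h₁ / 2),
      ‖iteratedFDerivWithin ℝ i L O q‖ ≤ D := by
    intro i
    have h1 : ContinuousOn (iteratedFDerivWithin ℝ i L O) O :=
      hL.continuousOn_iteratedFDerivWithin (by exact_mod_cast le_top) hOo.uniqueDiffOn
    exact (hK.prod isCompact_Icc).exists_bound_of_continuousOn (h1.mono hKO)
  choose D hD using hb
  set C : ℝ := ∑ i ∈ Finset.range (j + 1), |D i| with hC
  have hC0 : 0 ≤ C := Finset.sum_nonneg fun i _ => abs_nonneg _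
  have hDC : ∀ i ≤ j, D i ≤ C := by
    intro i hi
    exact (le_abs_self _).trans (Finset.single_le_sum (f := fun i => |D i|)
      (fun i _ => abs_nonneg _) (Finset.mem_range.2 (by omega)))
  refine ⟨j.factorial * C * 1 ^ j, by positivity, fun h hh' x hx => ?_⟩
  have hmaps : MapsTo (fun x : E2 => (x, h)) U O := fun y hy =>
    ⟨hy, by have := hh'.1; simp only; linarith, by have := hh'.2; simp only; linarith⟩
  exact norm_iteratedFDerivWithin_comp_le (g := L) (f := fun x : E2 => (x, h)) (n := j) (N := ∞)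
    hL ((contDiff_id.prodMk contDiff_const).contDiffOn) (by exact_mod_cast le_top)
    hOo.uniqueDiffOn hU.uniqueDiffOn hmaps (hKU hx)
    (fun i hi => (hD i (x, h) ⟨hx, hh'⟩).trans (hDC i hi))
    (fun i hi _ => by
      rw [iteratedFDerivWithin_of_isOpen i hU (hKU hx), one_pow]
      exact BNv2_incl h i hi x)

/-- derivatives of `g (A / h)` -/
theorem BNv2_osc {U K : Set E2} (hU : IsOpen U) (hK : IsCompact K) (hKU : K ⊆ U) {A : E2 → ℝ}
    (hA : ContDiffOn ℝ ∞ A U) {g : ℝ → ℝ} (hg : ContDiff ℝ ∞ g)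
    (hg1 : ∀ i t, ‖iteratedFDeriv ℝ i g t‖ ≤ 1) (j : ℕ) :
    ∃ C : ℝ, 0 ≤ C ∧ ∀ h ∈ Ioc (0 : ℝ) 1, ∀ x ∈ K,
      ‖iteratedFDerivWithin ℝ j (fun x => g (A x / h)) U x‖ ≤ C / h ^ j := by
  have hb : ∀ i : ℕ, ∃ D : ℝ, ∀ q ∈ K, ‖iteratedFDerivWithin ℝ i A U q‖ ≤ D := by
    intro i
    have h1 : ContinuousOn (iteratedFDerivWithin ℝ i A U) U :=
      hA.continuousOn_iteratedFDerivWithin (by exact_mod_cast le_top) hU.uniqueDiffOn
    exact hK.exists_bound_of_continuousOn (h1.mono hKU)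
  choose D hD using hb
  set C : ℝ := 1 + ∑ i ∈ Finset.range (j + 1), |D i| with hC
  have hC1 : 1 ≤ C := by
    have : 0 ≤ ∑ i ∈ Finset.range (j + 1), |D i| := Finset.sum_nonneg fun i _ => abs_nonneg _
    linarith
  have hDC : ∀ i ≤ j, D i ≤ C := by
    intro i hi
    have h1 : |D i| ≤ ∑ i ∈ Finset.range (j + 1), |D i| :=
      Finset.single_le_sum (f := fun i => |D i|)
        (fun i _ => abs_nonneg _) (Finset.mem_range.2 (by omega))
    have := le_abs_self (D i)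
    linarith
  refine ⟨j.factorial * C ^ j, by positivity, fun h hh x hx => ?_⟩
  have hh0 : 0 < h := hh.1
  have hhi : 1 ≤ h⁻¹ := (one_le_inv₀ hh0).2 hh.2
  have hD2 : ∀ i, 1 ≤ i → i ≤ j →
      ‖iteratedFDerivWithin ℝ i (fun x => A x / h) U x‖ ≤ (C * h⁻¹) ^ i := by
    intro i hi1 hij
    have e : (fun x => A x / h) = (h⁻¹ • ContinuousLinearMap.id ℝ ℝ) ∘ A := by
      funext y
      simp [div_eq_inv_mul]
    rw [e]
    have h2 : ‖h⁻¹ • ContinuousLinearMap.id ℝ ℝ‖ ≤ h⁻¹ := by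
      rw [norm_smul, Real.norm_eq_abs, abs_of_pos (inv_pos.2 hh0)]
      exact mul_le_of_le_one_right (inv_pos.2 hh0).le ContinuousLinearMap.norm_id_le
    have h3 := (h⁻¹ • ContinuousLinearMap.id ℝ ℝ).norm_iteratedFDerivWithin_comp_left
      (hA.contDiffWithinAt (hKU hx)) hU.uniqueDiffOn (hKU hx) (n := i)
      (by exact_mod_cast le_top)
    refine h3.trans ?_
    have h4 : 1 ≤ C * h⁻¹ := one_le_mul_of_one_le_of_one_le hC1 hhi
    calc ‖h⁻¹ • ContinuousLinearMap.id ℝ ℝ‖ * ‖iteratedFDerivWithin ℝ i A U x‖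
        ≤ h⁻¹ * C := mul_le_mul h2 ((hD i x hx).trans (hDC i hij)) (norm_nonneg _)
          (inv_pos.2 hh0).le
      _ = C * h⁻¹ := mul_comm _ _
      _ ≤ (C * h⁻¹) ^ i := le_self_pow₀ h4 (by omega)
  have h5 := norm_iteratedFDerivWithin_comp_le (g := g) (f := fun x => A x / h) (n := j)
    (N := ∞) (s := U) (t := univ) (C := 1)
    hg.contDiffOn (hA.div_const h) (by exact_mod_cast le_top)
    uniqueDiffOn_univ hU.uniqueDiffOn (mapsTo_univ _ _) (hKU hx)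
    (fun i _ => by rw [iteratedFDerivWithin_univ]; exact hg1 i _) hD2
  refine h5.trans (le_of_eq ?_)
  rw [mul_one, mul_pow, inv_pow, div_eq_mul_inv, mul_assoc]

/-- derivatives of the products -/
theorem BNv2_prod {U K : Set E2} (hU : IsOpen U) (hK : IsCompact K) (hKU : K ⊆ U) {h₁ : ℝ}
    (hh : 0 < h₁) {A : E2 → ℝ} (hA : ContDiffOn ℝ ∞ A U) {L : E2 × ℝ → ℝ}
    (hL : ContDiffOn ℝ ∞ L (U ×ˢ Ioo (-h₁) h₁)) {g : ℝ → ℝ} (hg : ContDiff ℝ ∞ g)
    (hg1 : ∀ i t, ‖iteratedFDeriv ℝ i g t‖ ≤ 1) (j : ℕ) :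
    ∃ C : ℝ, 0 ≤ C ∧ ∀ h ∈ Ioc 0 (min (h₁ / 2) 1), ∀ x ∈ K,
      ‖iteratedFDerivWithin ℝ j (fun x => h * L (x, h) * g (A x / h)) U x‖ ≤ C / h ^ j := by
  have hs := fun i => BNv2_slice hU hK hKU hh hL i
  choose C1 hC10 hC1 using hs
  have ho := fun i => BNv2_osc hU hK hKU hA hg hg1 i
  choose C2 hC20 hC2 using ho
  refine ⟨∑ i ∈ Finset.range (j + 1), (j.choose i : ℝ) * C1 i * C2 (j - i),
    Finset.sum_nonneg fun i _ => mul_nonneg (mul_nonneg (Nat.cast_nonneg _) (hC10 i)) (hC20 _),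
    fun h hh' x hx => ?_⟩
  have hh0 : 0 < h := hh'.1
  have hh1 : h ≤ 1 := hh'.2.trans (min_le_right _ _)
  have hh2 : h ≤ h₁ / 2 := hh'.2.trans (min_le_left _ _)
  have hsl : ContDiffOn ℝ ∞ (fun x => L (x, h)) U :=
    hL.comp (contDiffOn_id.prodMk contDiffOn_const) (fun y hy =>
      ⟨hy, by simp only; linarith, by simp only; linarith⟩)
  have hos : ContDiffOn ℝ ∞ (fun x => g (A x / h)) U := hg.comp_contDiffOn (hA.div_const h)
  have hl2 : ∀ i ≤ j, ‖iteratedFDerivWithin ℝ i (fun x => h * L (x, h)) U x‖ ≤ C1 i := by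
    intro i _
    have e : (fun x => h * L (x, h)) = (h • ContinuousLinearMap.id ℝ ℝ) ∘ (fun x => L (x, h)) := by
      funext y
      simp
    rw [e]
    have h2 : ‖h • ContinuousLinearMap.id ℝ ℝ‖ ≤ 1 := by
      rw [norm_smul, Real.norm_eq_abs, abs_of_pos hh0]
      exact (mul_le_of_le_one_right hh0.le ContinuousLinearMap.norm_id_le).trans hh1
    have h3 := (h • ContinuousLinearMap.id ℝ ℝ).norm_iteratedFDerivWithin_comp_left
      (hsl.contDiffWithinAt (hKU hx)) hU.uniqueDiffOn (hKU hx) (n := i)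
      (by exact_mod_cast le_top)
    refine h3.trans ?_
    calc ‖h • ContinuousLinearMap.id ℝ ℝ‖ * ‖iteratedFDerivWithin ℝ i (fun x => L (x, h)) U x‖
        ≤ 1 * C1 i := mul_le_mul h2 (hC1 i h ⟨hh0.le, hh2⟩ x hx) (norm_nonneg _) zero_le_one
      _ = C1 i := one_mul _
  have hhl : ContDiffOn ℝ ∞ (fun x => h * L (x, h)) U := contDiffOn_const.mul hsl
  have h5 := norm_iteratedFDerivWithin_mul_le (N := ∞) hhl hos
    hU.uniqueDiffOn (hKU hx) (n := j) (by exact_mod_cast le_top)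
  refine h5.trans ?_
  rw [Finset.sum_div]
  refine Finset.sum_le_sum fun i hi => ?_
  have hij : i ≤ j := Nat.lt_succ_iff.mp (Finset.mem_range.mp hi)
  have h6 := hC2 (j - i) h ⟨hh0, hh1⟩ x hx
  have h7 : C2 (j - i) / h ^ (j - i) ≤ C2 (j - i) / h ^ j :=
    div_le_div_of_nonneg_left (hC20 _) (pow_pos hh0 j)
      (pow_le_pow_of_le_one hh0.le hh1 (Nat.sub_le j i))
  calc (j.choose i : ℝ) * ‖iteratedFDerivWithin ℝ i (fun x => h * L (x, h)) U x‖ *
        ‖iteratedFDerivWithin ℝ (j - i) (fun x => g (A x / h)) U x‖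
      ≤ (j.choose i : ℝ) * C1 i * (C2 (j - i) / h ^ j) := by
        refine mul_le_mul (mul_le_mul_of_nonneg_left (hl2 i hij) (Nat.cast_nonneg _))
          (h6.trans h7) (norm_nonneg _) (mul_nonneg (Nat.cast_nonneg _) (hC10 i))
    _ = (j.choose i : ℝ) * C1 i * C2 (j - i) / h ^ j := by rw [mul_div_assoc]

theorem BNv2_cos (i : ℕ) (t : ℝ) : ‖iteratedFDeriv ℝ i Real.cos t‖ ≤ 1 := by
  rw [norm_iteratedFDeriv_eq_norm_iteratedDeriv, Real.norm_eq_abs]
  exact Real.abs_iteratedDeriv_cos_le_one i t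

theorem BNv2_sin (i : ℕ) (t : ℝ) : ‖iteratedFDeriv ℝ i Real.sin t‖ ≤ 1 := by
  rw [norm_iteratedFDeriv_eq_norm_iteratedDeriv, Real.norm_eq_abs]
  exact Real.abs_iteratedDeriv_sin_le_one i t

/-- the vector-valued map is the sum of its components -/
theorem BNv2_vec {U : Set E2} (hU : IsOpen U) {u : Fin 4 → E2 → ℝ}
    (hu : ∀ k, ContDiffOn ℝ ∞ (u k) U) (j : ℕ) {x : E2} (hx : x ∈ U) :
    ‖iteratedFDerivWithin ℝ j (fun y => (WithLp.toLp 2 (fun k => u k y) : V4)) U x‖ ≤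
      ∑ k, ‖iteratedFDerivWithin ℝ j (u k) U x‖ := by
  have e : (fun y => (WithLp.toLp 2 (fun k => u k y) : V4)) =
      fun y => ∑ k, ((ContinuousLinearMap.toSpanSingleton ℝ
        (EuclideanSpace.single k (1 : ℝ) : V4)) ∘ u k) y := by
    funext y
    ext l
    simp only [Function.comp_apply, ContinuousLinearMap.toSpanSingleton_apply]
    rw [WithLp.ofLp_sum, Finset.sum_apply, Finset.sum_eq_single l]
    · simp
    · intro k _ hk
      simp [hk.symm]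
    · intro h
      exact absurd (Finset.mem_univ l) h
  have hc : ∀ k, ContDiffOn ℝ ∞ ((ContinuousLinearMap.toSpanSingleton ℝ
      (EuclideanSpace.single k (1 : ℝ) : V4)) ∘ u k) U := fun k =>
    (ContinuousLinearMap.contDiff _).comp_contDiffOn (hu k)
  have h1 : iteratedFDerivWithin ℝ j (fun y => ∑ k, ((ContinuousLinearMap.toSpanSingleton ℝ
        (EuclideanSpace.single k (1 : ℝ) : V4)) ∘ u k) y) U x =
      ∑ k, iteratedFDerivWithin ℝ j ((ContinuousLinearMap.toSpanSingleton ℝ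
        (EuclideanSpace.single k (1 : ℝ) : V4)) ∘ u k) U x := by
    refine iteratedFDerivWithin_fun_sum_apply hU.uniqueDiffOn hx fun k _ => ?_
    exact ((hc k).contDiffWithinAt hx).of_le (by exact_mod_cast le_top)
  rw [e, h1]
  refine (norm_sum_le _ _).trans (Finset.sum_le_sum fun k _ => ?_)
  have h2 := (ContinuousLinearMap.toSpanSingleton ℝ
    (EuclideanSpace.single k (1 : ℝ) : V4)).norm_iteratedFDerivWithin_comp_left
      ((hu k).contDiffWithinAt hx) hU.uniqueDiffOn hx (n := j) (by exact_mod_cast le_top)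
  refine h2.trans ?_
  rw [ContinuousLinearMap.norm_toSpanSingleton, EuclideanSpace.norm_single, norm_one, one_mul]

/-- derivative bounds: order `s` costs `h^{-s}` -/
theorem bmM_bound [CompactSpace M] (𝒜 : FinAtlas M) {A B : M → ℝ} {l1 l2 : M → ℝ → ℝ} {h₁ : ℝ}
    (hh : 0 < h₁) (hA : Sm A) (hB : Sm B) (hl1 : SmP h₁ l1) (hl2 : SmP h₁ l2) (s : ℕ) :
    ∃ C : ℝ, ∀ h ∈ Ioc 0 (min (h₁ / 2) 1), ∀ p,
      ClAt 𝒜 s (bmM A B (fun q => l1 q h) (fun q => l2 q h) h) (C / h ^ s) p := by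
  have hKU : ∀ k, Metric.closedBall (0 : E2) 3 ⊆ (𝒜.φ k).target := fun k =>
    (Metric.closedBall_subset_closedBall (by norm_num)).trans (𝒜.target k)
  have hK : IsCompact (Metric.closedBall (0 : E2) 3) := isCompact_closedBall 0 3
  have key : ∀ (k : Fin 𝒜.n) (j : ℕ), ∃ C : ℝ, 0 ≤ C ∧ ∀ h ∈ Ioc 0 (min (h₁ / 2) 1),
      ∀ x ∈ Metric.closedBall (0 : E2) 3,
      ‖iteratedFDeriv ℝ j (bmM A B (fun q => l1 q h) (fun q => l2 q h) h ∘ (𝒜.φ k).symm) x‖ ≤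
        C / h ^ j := by
    intro k j
    have hφ := 𝒜.mem k
    set U := (𝒜.φ k).target with hU
    have hUo : IsOpen U := (𝒜.φ k).open_target
    obtain ⟨C0, hC00, hC0⟩ := BNv2_prod hUo hK (hKU k) hh (hA.loc hφ) (hl1 _ hφ)
      Real.contDiff_cos BNv2_cos j
    obtain ⟨C1, hC10, hC1⟩ := BNv2_prod hUo hK (hKU k) hh (hA.loc hφ) (hl1 _ hφ)
      Real.contDiff_sin BNv2_sin j
    obtain ⟨C2, hC20, hC2⟩ := BNv2_prod hUo hK (hKU k) hh (hB.loc hφ) (hl2 _ hφ)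
      Real.contDiff_cos BNv2_cos j
    obtain ⟨C3, hC30, hC3⟩ := BNv2_prod hUo hK (hKU k) hh (hB.loc hφ) (hl2 _ hφ)
      Real.contDiff_sin BNv2_sin j
    refine ⟨C0 + C1 + C2 + C3, by positivity, fun h hh' x hx => ?_⟩
    have hxU : x ∈ U := hKU k hx
    have hh1 : h ∈ Ioo (-h₁) h₁ := by
      have h2 := hh'.2.trans (min_le_left _ _)
      have h3 := hh'.1
      exact ⟨by linarith, by linarith⟩
    rw [← iteratedFDerivWithin_of_isOpen j hUo hxU]
    let u : Fin 4 → E2 → ℝ := ![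
      fun x => h * l1 ((𝒜.φ k).symm x) h * Real.cos (A ((𝒜.φ k).symm x) / h),
      fun x => h * l1 ((𝒜.φ k).symm x) h * Real.sin (A ((𝒜.φ k).symm x) / h),
      fun x => h * l2 ((𝒜.φ k).symm x) h * Real.cos (B ((𝒜.φ k).symm x) / h),
      fun x => h * l2 ((𝒜.φ k).symm x) h * Real.sin (B ((𝒜.φ k).symm x) / h)]
    have hu : ∀ l, ContDiffOn ℝ ∞ (u l) U := by
      have hA' : ContDiffOn ℝ ∞ (fun x => A ((𝒜.φ k).symm x) / h) U := (hA.loc hφ).div_const h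
      have hB' : ContDiffOn ℝ ∞ (fun x => B ((𝒜.φ k).symm x) / h) U := (hB.loc hφ).div_const h
      have h1' : ContDiffOn ℝ ∞ (fun x => l1 ((𝒜.φ k).symm x) h) U := (hl1.sm hh1).loc hφ
      have h2' : ContDiffOn ℝ ∞ (fun x => l2 ((𝒜.φ k).symm x) h) U := (hl2.sm hh1).loc hφ
      intro l
      fin_cases l
      · exact (contDiffOn_const.mul h1').mul (Real.contDiff_cos.comp_contDiffOn hA')
      · exact (contDiffOn_const.mul h1').mul (Real.contDiff_sin.comp_contDiffOn hA')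
      · exact (contDiffOn_const.mul h2').mul (Real.contDiff_cos.comp_contDiffOn hB')
      · exact (contDiffOn_const.mul h2').mul (Real.contDiff_sin.comp_contDiffOn hB')
    have e : bmM A B (fun q => l1 q h) (fun q => l2 q h) h ∘ (𝒜.φ k).symm =
        fun y => (WithLp.toLp 2 (fun l => u l y) : V4) := by
      funext y
      ext l
      fin_cases l <;> rfl
    rw [e]
    refine (BNv2_vec hUo hu j hxU).trans ?_
    rw [Fin.sum_univ_four]
    have a0 : ‖iteratedFDerivWithin ℝ j (u 0) U x‖ ≤ C0 / h ^ j := hC0 h hh' x hx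
    have a1 : ‖iteratedFDerivWithin ℝ j (u 1) U x‖ ≤ C1 / h ^ j := hC1 h hh' x hx
    have a2 : ‖iteratedFDerivWithin ℝ j (u 2) U x‖ ≤ C2 / h ^ j := hC2 h hh' x hx
    have a3 : ‖iteratedFDerivWithin ℝ j (u 3) U x‖ ≤ C3 / h ^ j := hC3 h hh' x hx
    rw [add_div, add_div, add_div]
    linarith
  choose C hC0 hC using key
  refine ⟨∑ k, ∑ j ∈ Finset.range (s + 1), C k j, fun h hh' p k _ hpk j hj => ?_⟩
  refine (hC k j h hh' _ hpk).trans ?_
  have hh0 : 0 < h := hh'.1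
  have hh1 : h ≤ 1 := hh'.2.trans (min_le_right _ _)
  have h1 : C k j ≤ ∑ k, ∑ j ∈ Finset.range (s + 1), C k j := by
    have h2 : C k j ≤ ∑ j ∈ Finset.range (s + 1), C k j :=
      Finset.single_le_sum (f := fun j => C k j) (fun j _ => hC0 k j)
        (Finset.mem_range.2 (by omega))
    exact h2.trans (Finset.single_le_sum (f := fun k => ∑ j ∈ Finset.range (s + 1), C k j)
      (fun k _ => Finset.sum_nonneg fun j _ => hC0 k j) (Finset.mem_univ k))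
  calc C k j / h ^ j ≤ C k j / h ^ s :=
        div_le_div_of_nonneg_left (hC0 k j) (pow_pos hh0 s) (pow_le_pow_of_le_one hh0.le hh1 hj)
    _ ≤ (∑ k, ∑ j ∈ Finset.range (s + 1), C k j) / h ^ s :=
        div_le_div_of_nonneg_right h1 (pow_pos hh0 s).le

end P205F
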