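import Vale.Agent.Lib.P205B.BF2
import Vale.Agent.Lib.P205B.BNv2

/-!
# P205F BASE: the compact set `KO`, the invariant for the base map, and the base package

`KO := {p | ε ≤ dW (wM g p)}`, `KT := {p | 2 ε ≤ dW (wM g p)}` with `ε` small:
`tsupport β(h) ⊆ {|w| ≤ r₀ d}` (for `G(·,h)`), and for `h`
small this closed set is contained in `KT` (compactness: at `h = 0` a point with
`|w| ≤ r₀ d`, `d ≤ ε` has `t² = |w|² + d ≤ r₀² ε² + ε`, impossible when `t ≥ t_min > 0` and `ε` small).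
-/

noncomputable section

namespace P205F

open scoped Manifold ContDiff Topology RealInnerProductSpace
open Set

set_option maxSynthPendingDepth 3

/-! ### the computation in the plane -/

private theorem BF5_norm_rotV (a b : ℝ) (u : V4) : ‖rotV a b u‖ = ‖u‖ := by
  have h1 : ‖rotV a b u‖ ^ 2 = ‖u‖ ^ 2 := by
    rw [← real_inner_self_eq_norm_sq, ← real_inner_self_eq_norm_sq, MD2_inner, MD2_inner]
    have e0 : rotV a b u 0 = Real.cos a * u 0 + Real.sin a * u 1 := rfl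
    have e1' : rotV a b u 1 = -Real.sin a * u 0 + Real.cos a * u 1 := rfl
    have e2' : rotV a b u 2 = Real.cos b * u 2 + Real.sin b * u 3 := rfl
    have e3 : rotV a b u 3 = -Real.sin b * u 2 + Real.cos b * u 3 := rfl
    rw [e0, e1', e2', e3]
    have ha := Real.sin_sq_add_cos_sq a
    have hb := Real.sin_sq_add_cos_sq b
    linear_combination (u 0 * u 0 + u 1 * u 1) * ha + (u 2 * u 2 + u 3 * u 3) * hb
  exact (pow_left_inj₀ (norm_nonneg _) (norm_nonneg _) two_ne_zero).mp h1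

private theorem BF5_norm_le (u : V4) : ‖u‖ ≤ |u 0| + |u 1| + |u 2| + |u 3| := by
  have h1 : ‖u‖ ^ 2 ≤ (|u 0| + |u 1| + |u 2| + |u 3|) ^ 2 := by
    rw [← real_inner_self_eq_norm_sq, MD2_inner]
    have h0 := abs_nonneg (u 0)
    have h1 := abs_nonneg (u 1)
    have h2 := abs_nonneg (u 2)
    have h3 := abs_nonneg (u 3)
    have s0 := abs_mul_abs_self (u 0)
    have s1 := abs_mul_abs_self (u 1)
    have s2 := abs_mul_abs_self (u 2)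
    have s3 := abs_mul_abs_self (u 3)
    nlinarith [mul_nonneg h0 h1, mul_nonneg h0 h2, mul_nonneg h0 h3, mul_nonneg h1 h2,
      mul_nonneg h1 h3, mul_nonneg h2 h3]
  exact (pow_le_pow_iff_left₀ (norm_nonneg _) (by positivity) two_ne_zero).mp h1

private theorem BF5_norm_vec (a b c d : ℝ) : ‖(!₂[a, b, c, d] : V4)‖ ≤ |a| + |b| + |c| + |d| :=
  BF5_norm_le _

/-- directional derivatives are bounded by the iterated derivatives -/
private theorem BF5_d1 {L : E2 → ℝ} {x : E2} {C : ℝ} (h : ‖iteratedFDeriv ℝ 1 L x‖ ≤ C)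
    (k : Fin 2) : |fderiv ℝ L x (bv k)| ≤ C := by
  rw [norm_iteratedFDeriv_one] at h
  have h1 := (fderiv ℝ L x).le_opNorm (bv k)
  have h2 := norm_bv_le k
  have h3 := norm_nonneg (fderiv ℝ L x)
  rw [Real.norm_eq_abs] at h1
  nlinarith

private theorem BF5_dn {U : Set E2} (hU : IsOpen U) {L : E2 → ℝ} (hL : ContDiffOn ℝ ∞ L U)
    {x : E2} (hx : x ∈ U) {C : ℝ} (n : ℕ) (h : ‖iteratedFDeriv ℝ (n + 1) L x‖ ≤ C)
    (k : Fin 2) : ‖iteratedFDeriv ℝ n (pd k L) x‖ ≤ C := by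
  have h1 : ContDiffAt ℝ n (fderiv ℝ L) x :=
    ((hL.fderiv_of_isOpen hU (m := ∞) (by simp)).contDiffAt (hU.mem_nhds hx)).of_le
      (by exact_mod_cast le_top)
  have h2 := norm_iteratedFDeriv_clm_apply_const (c := bv k) h1 (le_refl (n : WithTop ℕ∞))
  rw [norm_iteratedFDeriv_fderiv] at h2
  have h3 := norm_bv_le k
  have h4 := norm_nonneg (iteratedFDeriv ℝ (n + 1) L x)
  have h5 : ‖iteratedFDeriv ℝ n (pd k L) x‖ ≤ ‖bv k‖ * ‖iteratedFDeriv ℝ (n + 1) L x‖ := h2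
  nlinarith

/-- derivative of a vector with given components -/
private theorem BF5_pd_vec {g : E2 → V4} {g0 g1 g2 g3 : E2 → ℝ} {x : E2}
    (hg : g =ᶠ[𝓝 x] fun y => !₂[g0 y, g1 y, g2 y, g3 y]) (h0 : DifferentiableAt ℝ g0 x)
    (h1 : DifferentiableAt ℝ g1 x) (h2 : DifferentiableAt ℝ g2 x) (h3 : DifferentiableAt ℝ g3 x)
    (k : Fin 2) : ‖pd k g x‖ ≤ |pd k g0 x| + |pd k g1 x| + |pd k g2 x| + |pd k g3 x| := by
  set G : E2 → V4 := fun y => !₂[g0 y, g1 y, g2 y, g3 y] with hG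
  have hd : DifferentiableAt ℝ G x := by
    rw [differentiableAt_euclidean]
    intro i
    fin_cases i
    · exact h0
    · exact h1
    · exact h2
    · exact h3
  have hc : ∀ i : Fin 4, (fderiv ℝ G x (bv k)) i = fderiv ℝ (fun y => G y i) x (bv k) := by
    intro i
    have h4 : HasFDerivAt (fun y => G y i)
        ((EuclideanSpace.proj (𝕜 := ℝ) i : V4 →L[ℝ] ℝ).comp (fderiv ℝ G x)) x :=
      (EuclideanSpace.proj (𝕜 := ℝ) i : V4 →L[ℝ] ℝ).hasFDerivAt.comp x hd.hasFDerivAt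
    rw [h4.fderiv]
    rfl
  have h5 : pd k g x = fderiv ℝ G x (bv k) := by
    unfold pd
    rw [hg.fderiv_eq]
  rw [h5]
  refine (BF5_norm_le _).trans (le_of_eq ?_)
  rw [hc 0, hc 1, hc 2, hc 3]
  rfl

private theorem BF5_tri {C : ℝ} (hC0 : 0 ≤ C) {u v w : ℝ} (hu : |u| ≤ C) (hv : |v| ≤ C)
    (hw : |w| ≤ C) : |u * v * w| ≤ C ^ 3 := by
  rw [abs_mul, abs_mul]
  have h1 : |u| * |v| ≤ C * C := mul_le_mul hu hv (abs_nonneg _) hC0
  calc |u| * |v| * |w| ≤ C * C * C := mul_le_mul h1 hw (abs_nonneg _) (by positivity)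
    _ = C ^ 3 := by ring

private theorem BF5_br {τ C a0 b0 b2 c0 l1 l2 : ℝ} (hτ : 0 < τ) (hC0 : 0 ≤ C) (p0 : |l1| ≤ C)
    (q0 : |l2| ≤ C) (pa : |a0| ≤ C) (pb : |b0| ≤ C) (qb : |b2| ≤ C) (pc : |c0| ≤ C) :
    -(C ^ 3 * (4 * τ ^ 2 + 6 * τ)) ≤ -2 * τ ^ 2 * (a0 * l1 * b2) + 2 * τ ^ 2 * (a0 * l2 * b0)
      + 2 * τ * (l1 * b0 * b2) + 2 * τ * (l2 * b0 * b0) - 2 * τ * (l1 * l2 * c0) := by
  have t1 := (abs_le.mp (BF5_tri hC0 pa p0 qb)).2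
  have t2 := (abs_le.mp (BF5_tri hC0 pa q0 pb)).1
  have t3 := (abs_le.mp (BF5_tri hC0 p0 pb qb)).1
  have t4 := (abs_le.mp (BF5_tri hC0 q0 pb pb)).1
  have t5 := (abs_le.mp (BF5_tri hC0 p0 q0 pc)).2
  have hτ2 : 0 < τ ^ 2 := pow_pos hτ 2
  have s1 := mul_le_mul_of_nonneg_left t1 hτ2.le
  have s2 := mul_le_mul_of_nonneg_left t2 hτ2.le
  have s3 := mul_le_mul_of_nonneg_left t3 hτ.le
  have s4 := mul_le_mul_of_nonneg_left t4 hτ.le
  have s5 := mul_le_mul_of_nonneg_left t5 hτ.le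
  linarith

private theorem BF5_gram {h τ C m a0 a2 b0 b2 c0 c2 l1 l2 : ℝ} (hτ : 0 < τ) (hC0 : 0 ≤ C)
    (hm : 0 < m) (p0 : |l1| ≤ C) (q0 : |l2| ≤ C) (pa : |a0| ≤ C) (pb : |b0| ≤ C) (qb : |b2| ≤ C)
    (pc : |c0| ≤ C) (m1 : m ≤ l1) (m2 : m ≤ l2)
    (hs : h ^ 2 * (C ^ 3 * (4 * τ ^ 2 + 6 * τ)) ≤ τ ^ 3 * m ^ 3) :
    (τ ^ 3 * m ^ 3) ^ 2 ≤ gram3 (!₂[h * a0, 1 * l1, h * a2, 1 * l2] : V4)
      !₂[h * b0, τ * l1, h * b2, -τ * l2]
      !₂[-τ ^ 2 * l1 + h ^ 2 * c0, h * (2 * τ * b0), -τ ^ 2 * l2 + h ^ 2 * c2,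
        h * (2 * -τ * b2)] := by
  rw [gram3_eq_minors]
  have hmn : minor3 (!₂[h * a0, 1 * l1, h * a2, 1 * l2] : V4) !₂[h * b0, τ * l1, h * b2, -τ * l2]
      !₂[-τ ^ 2 * l1 + h ^ 2 * c0, h * (2 * τ * b0), -τ ^ 2 * l2 + h ^ 2 * c2,
        h * (2 * -τ * b2)] 0 1 3 = 2 * (τ ^ 3 * (l1 ^ 2 * l2)) + h ^ 2 *
        (-2 * τ ^ 2 * (a0 * l1 * b2) + 2 * τ ^ 2 * (a0 * l2 * b0)
      + 2 * τ * (l1 * b0 * b2) + 2 * τ * (l2 * b0 * b0) - 2 * τ * (l1 * l2 * c0)) := by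
    show (h * a0) * ((τ * l1) * (h * (2 * -τ * b2)) - (-τ * l2) * (h * (2 * τ * b0)))
      - (1 * l1) * ((h * b0) * (h * (2 * -τ * b2)) - (-τ * l2) * (-τ ^ 2 * l1 + h ^ 2 * c0))
      + (1 * l2) * ((h * b0) * (h * (2 * τ * b0)) - (τ * l1) * (-τ ^ 2 * l1 + h ^ 2 * c0)) = _
    ring
  have hbr := mul_le_mul_of_nonneg_left (BF5_br hτ hC0 p0 q0 pa pb qb pc) (sq_nonneg h)
  have hl : m ^ 3 ≤ l1 ^ 2 * l2 := by
    have h1 : m ^ 2 ≤ l1 ^ 2 := pow_le_pow_left₀ hm.le m1 2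
    calc m ^ 3 = m ^ 2 * m := by ring
      _ ≤ l1 ^ 2 * l2 := mul_le_mul h1 m2 hm.le (by positivity)
  have h3 : τ ^ 3 * m ^ 3 ≤ τ ^ 3 * (l1 ^ 2 * l2) :=
    mul_le_mul_of_nonneg_left hl (pow_pos hτ 3).le
  have hmn2 : τ ^ 3 * m ^ 3 ≤ minor3 (!₂[h * a0, 1 * l1, h * a2, 1 * l2] : V4)
      !₂[h * b0, τ * l1, h * b2, -τ * l2]
      !₂[-τ ^ 2 * l1 + h ^ 2 * c0, h * (2 * τ * b0), -τ ^ 2 * l2 + h ^ 2 * c2,
        h * (2 * -τ * b2)] 0 1 3 := by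
    rw [hmn]
    linarith
  have hpos : 0 ≤ τ ^ 3 * m ^ 3 := by positivity
  have hmn3 := pow_le_pow_left₀ hpos hmn2 2
  refine hmn3.trans ?_
  have r1 := sq_nonneg (minor3 (!₂[h * a0, 1 * l1, h * a2, 1 * l2] : V4)
      !₂[h * b0, τ * l1, h * b2, -τ * l2]
      !₂[-τ ^ 2 * l1 + h ^ 2 * c0, h * (2 * τ * b0), -τ ^ 2 * l2 + h ^ 2 * c2,
        h * (2 * -τ * b2)] 1 2 3)
  have r2 := sq_nonneg (minor3 (!₂[h * a0, 1 * l1, h * a2, 1 * l2] : V4)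
      !₂[h * b0, τ * l1, h * b2, -τ * l2]
      !₂[-τ ^ 2 * l1 + h ^ 2 * c0, h * (2 * τ * b0), -τ ^ 2 * l2 + h ^ 2 * c2,
        h * (2 * -τ * b2)] 0 2 3)
  have r3 := sq_nonneg (minor3 (!₂[h * a0, 1 * l1, h * a2, 1 * l2] : V4)
      !₂[h * b0, τ * l1, h * b2, -τ * l2]
      !₂[-τ ^ 2 * l1 + h ^ 2 * c0, h * (2 * τ * b0), -τ ^ 2 * l2 + h ^ 2 * c2,
        h * (2 * -τ * b2)] 0 1 2)
  linarith

private def BFa (τ : ℝ) (y : E2) : ℝ := y.1 + τ * y.2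

private theorem BFa_sm (τ : ℝ) : ContDiff ℝ ∞ (BFa τ) := by
  unfold BFa
  fun_prop

private theorem BFa_fderiv (τ : ℝ) (x v : E2) : fderiv ℝ (BFa τ) x v = v.1 + τ * v.2 := by
  have h1 : HasFDerivAt (BFa τ)
      (ContinuousLinearMap.fst ℝ ℝ ℝ + τ • ContinuousLinearMap.snd ℝ ℝ ℝ) x :=
    (ContinuousLinearMap.fst ℝ ℝ ℝ + τ • ContinuousLinearMap.snd ℝ ℝ ℝ).hasFDerivAt
  rw [h1.fderiv]
  rfl

private theorem BFa_ddv (τ : ℝ) (x v : E2) : ddv v (BFa τ) x = 0 := by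
  unfold ddv
  have h1 : (fun y => fderiv ℝ (BFa τ) y v) = fun _ => v.1 + τ * v.2 := by
    funext y
    exact BFa_fderiv τ y v
  rw [h1]
  simp

private theorem BF5_bv0 : bv 0 = ((1, 0) : E2) := rfl
private theorem BF5_bv1 : bv 1 = ((0, 1) : E2) := rfl

private theorem BF5_local {U : Set E2} (hU : IsOpen U) {L1 L2 : E2 → ℝ}
    (s1 : ContDiffOn ℝ ∞ L1 U) (s2 : ContDiffOn ℝ ∞ L2 U) {h τ : ℝ} (hh : h ≠ 0) (hh1 : |h| ≤ 1)
    (hτ : 0 < τ) {C m : ℝ} (hC : 1 ≤ C) (hm : 0 < m) {x : E2} (hx : x ∈ U)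
    (b1 : ∀ r ≤ 3, ‖iteratedFDeriv ℝ r L1 x‖ ≤ C) (b2 : ∀ r ≤ 3, ‖iteratedFDeriv ℝ r L2 x‖ ≤ C)
    (m1 : m ≤ L1 x) (m2 : m ≤ L2 x)
    (hs : h ^ 2 * (C ^ 3 * (4 * τ ^ 2 + 6 * τ)) ≤ τ ^ 3 * m ^ 3) :
    INV τ h (1 + 4 * C * (1 + τ) ^ 2 + 1 / (τ ^ 3 * m ^ 3) ^ 2)
      (bmU (BFa τ) (BFa (-τ)) L1 L2 h) x := by
  set F := bmU (BFa τ) (BFa (-τ)) L1 L2 h with hF
  set K := 1 + 4 * C * (1 + τ) ^ 2 + 1 / (τ ^ 3 * m ^ 3) ^ 2 with hK
  have hpos : 0 < τ ^ 3 * m ^ 3 := by positivity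
  have hK1 : 4 * C * (1 + τ) ^ 2 ≤ K := by
    have : 0 ≤ 1 / (τ ^ 3 * m ^ 3) ^ 2 := by positivity
    rw [hK]; linarith
  have hK2 : 1 / (τ ^ 3 * m ^ 3) ^ 2 ≤ K := by
    have : 0 ≤ 4 * C * (1 + τ) ^ 2 := by positivity
    rw [hK]; linarith
  have hC0 : 0 ≤ C := by linarith
  -- the slow frame
  have hslo : ∀ y u, slo τ h y u = rotV (BFa τ y / h) (BFa (-τ) y / h) u := by
    intro y u
    unfold slo BFa
    rw [neg_mul, ← sub_eq_add_neg]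
  have hd1 : ∀ y ∈ U, ∀ k, slo τ h y (pd k F y) =
      !₂[h * pd k L1 y, ((bv k).1 + τ * (bv k).2) * L1 y, h * pd k L2 y,
        ((bv k).1 + (-τ) * (bv k).2) * L2 y] := by
    intro y hy k
    rw [hslo]
    have h1 := bmU_d1 hU (BFa_sm τ).contDiffOn (BFa_sm (-τ)).contDiffOn s1 s2 hh hy (bv k)
    rw [BFa_fderiv, BFa_fderiv] at h1
    exact h1
  have hd2 : ∀ y ∈ U, slo τ h y (h • pd 1 (pd 1 F) y) =
      !₂[-τ ^ 2 * L1 y + h ^ 2 * pd 1 (pd 1 L1) y, h * (2 * τ * pd 1 L1 y),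
        -τ ^ 2 * L2 y + h ^ 2 * pd 1 (pd 1 L2) y, h * (2 * (-τ) * pd 1 L2 y)] := by
    intro y hy
    rw [hslo]
    have h1 := bmU_d2 hU (BFa_sm τ).contDiffOn (BFa_sm (-τ)).contDiffOn s1 s2 hh hy (bv 1)
    rw [BFa_fderiv, BFa_fderiv, BFa_ddv, BFa_ddv] at h1
    have h2 : ((bv 1).1 + τ * (bv 1).2 : ℝ) = τ := by rw [BF5_bv1]; ring
    have h3 : ((bv 1).1 + (-τ) * (bv 1).2 : ℝ) = -τ := by rw [BF5_bv1]; ring
    rw [h2, h3, zero_mul, zero_mul, add_zero, add_zero, neg_sq τ] at h1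
    exact h1
  -- bounds for the derivatives of `L1`, `L2`
  have key : ∀ {L : E2 → ℝ}, ContDiffOn ℝ ∞ L U → (∀ r ≤ 3, ‖iteratedFDeriv ℝ r L x‖ ≤ C) →
      |L x| ≤ C ∧ (∀ k, |pd k L x| ≤ C) ∧ (∀ k l, |pd k (pd l L) x| ≤ C) ∧
        |pd 1 (pd 1 (pd 1 L)) x| ≤ C := by
    intro L sL bL
    have q0 := bL 0 (by norm_num)
    rw [norm_iteratedFDeriv_zero, Real.norm_eq_abs] at q0
    refine ⟨q0, fun k => BF5_d1 (bL 1 (by norm_num)) k, fun k l =>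
      BF5_d1 (BF5_dn hU sL hx 1 (bL 2 (by norm_num)) l) k, ?_⟩
    exact BF5_d1 (BF5_dn hU (pd_contDiffOn hU sL 1) hx 1
      (BF5_dn hU sL hx 2 (bL 3 le_rfl) 1) 1) 1
  obtain ⟨p0, p1, p2, p3⟩ := key s1 b1
  obtain ⟨q0, q1, q2, q3⟩ := key s2 b2
  have hmul : ∀ a b : ℝ, |a| ≤ 1 → |b| ≤ C → |a * b| ≤ C := by
    intro a b ha hb
    rw [abs_mul]
    have := abs_nonneg a
    have := abs_nonneg b
    nlinarith
  have hh2 : |h ^ 2| ≤ 1 := by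
    rw [abs_pow]
    exact pow_le_one₀ (abs_nonneg h) hh1
  have ht : ∀ b : ℝ, |b| ≤ C → |τ * b| ≤ τ * C := by
    intro b hb
    rw [abs_mul, abs_of_pos hτ]
    exact mul_le_mul_of_nonneg_left hb hτ.le
  have hmem := hU.mem_nhds hx
  have dL : ∀ {L : E2 → ℝ}, ContDiffOn ℝ ∞ L U → DifferentiableAt ℝ L x := fun sL =>
    (sL.contDiffAt hmem).differentiableAt (by simp)
  have dp : ∀ {L : E2 → ℝ} (k : Fin 2), ContDiffOn ℝ ∞ L U → DifferentiableAt ℝ (pd k L) x :=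
    fun k sL => dL (pd_contDiffOn hU sL k)
  have dpp : ∀ {L : E2 → ℝ} (k l : Fin 2), ContDiffOn ℝ ∞ L U →
      DifferentiableAt ℝ (pd k (pd l L)) x :=
    fun k l sL => dL (pd_contDiffOn hU (pd_contDiffOn hU sL l) k)
  have pdc : ∀ {L : E2 → ℝ} (c : ℝ), DifferentiableAt ℝ L x → pd 1 (fun y => c * L y) x =
      c * pd 1 L x := by
    intro L c hL
    unfold pd
    have h1 := hL.hasFDerivAt.const_mul c
    rw [h1.fderiv]
    rfl
  have hbig : 4 * C ≤ 4 * C * (1 + τ) ^ 2 := by nlinarith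
  have hbig2 : 2 * C + 2 * (τ * C) ≤ 4 * C * (1 + τ) ^ 2 := by nlinarith [mul_pos hτ hτ]
  have hbig3 : 2 * (τ ^ 2 * C + C) + 2 * (2 * (τ * C)) ≤ 4 * C * (1 + τ) ^ 2 := by
    nlinarith [mul_pos hτ hτ]
  have hnorm : ∀ u : V4, ‖u‖ = ‖slo τ h x u‖ := fun u => by rw [hslo, BF5_norm_rotV]
  have e00 : ((bv 0).1 + τ * (bv 0).2 : ℝ) = 1 := by rw [BF5_bv0]; ring
  have e01 : ((bv 0).1 + (-τ) * (bv 0).2 : ℝ) = 1 := by rw [BF5_bv0]; ring
  have e10 : ((bv 1).1 + τ * (bv 1).2 : ℝ) = τ := by rw [BF5_bv1]; ring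
  have e11 : ((bv 1).1 + (-τ) * (bv 1).2 : ℝ) = -τ := by rw [BF5_bv1]; ring
  have hq2 : ∀ b : ℝ, |b| ≤ C → |-τ ^ 2 * b| ≤ τ ^ 2 * C := by
    intro b hb
    rw [abs_mul, abs_neg, abs_of_pos (pow_pos hτ 2)]
    exact mul_le_mul_of_nonneg_left hb (pow_pos hτ 2).le
  have hq3 : ∀ b : ℝ, |b| ≤ C → |h * (2 * τ * b)| ≤ 2 * (τ * C) := by
    intro b hb
    have h1 : |2 * τ * b| ≤ 2 * (τ * C) := by
      rw [mul_assoc, abs_mul, abs_of_pos (by norm_num : (0 : ℝ) < 2)]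
      exact mul_le_mul_of_nonneg_left (ht b hb) (by norm_num)
    rw [abs_mul]
    calc |h| * |2 * τ * b| ≤ 1 * |2 * τ * b| := mul_le_mul_of_nonneg_right hh1 (abs_nonneg _)
      _ ≤ 2 * (τ * C) := by rw [one_mul]; exact h1
  have hq3' : ∀ b : ℝ, |b| ≤ C → |h * (2 * (-τ) * b)| ≤ 2 * (τ * C) := by
    intro b hb
    have h1 : h * (2 * (-τ) * b) = -(h * (2 * τ * b)) := by ring
    rw [h1, abs_neg]
    exact hq3 b hb
  refine ⟨?_, ?_, ?_, ?_, ?_, ?_, ?_⟩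
  · rw [hnorm, hd1 x hx 0]
    refine (BF5_norm_vec _ _ _ _).trans ?_
    rw [e00, e01, one_mul, one_mul]
    have h1 := hmul h _ hh1 (p1 0)
    have h2 := hmul h _ hh1 (q1 0)
    linarith
  · rw [hnorm, hd1 x hx 1]
    refine (BF5_norm_vec _ _ _ _).trans ?_
    rw [e10, e11, neg_mul, abs_neg]
    have h1 := hmul h _ hh1 (p1 1)
    have h2 := hmul h _ hh1 (q1 1)
    have h3 := ht _ p0
    have h4 := ht _ q0
    linarith
  · rw [hnorm, hd2 x hx]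
    refine (BF5_norm_vec _ _ _ _).trans ?_
    have h1 := abs_add_le (-τ ^ 2 * L1 x) (h ^ 2 * pd 1 (pd 1 L1) x)
    have h2 := abs_add_le (-τ ^ 2 * L2 x) (h ^ 2 * pd 1 (pd 1 L2) x)
    have h3 := hq2 _ p0
    have h4 := hq2 _ q0
    have h5 := hmul _ _ hh2 (p2 1 1)
    have h6 := hmul _ _ hh2 (q2 1 1)
    have h7 := hq3 _ (p1 1)
    have h8 := hq3' _ (q1 1)
    linarith
  · refine (BF5_pd_vec (g0 := fun y => h * pd 0 L1 y) (g1 := fun y => 1 * L1 y)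
      (g2 := fun y => h * pd 0 L2 y) (g3 := fun y => 1 * L2 y) ?_ ((dp 0 s1).const_mul h)
      ((dL s1).const_mul 1) ((dp 0 s2).const_mul h) ((dL s2).const_mul 1) 1).trans ?_
    · filter_upwards [hmem] with y hy
      rw [hd1 y hy 0, e00, e01]
    · rw [pdc h (dp 0 s1), pdc 1 (dL s1), pdc h (dp 0 s2), pdc 1 (dL s2), one_mul, one_mul]
      have h1 := hmul h _ hh1 (p2 1 0)
      have h2 := hmul h _ hh1 (q2 1 0)
      have h3 := p1 1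
      have h4 := q1 1
      linarith
  · refine (BF5_pd_vec (g0 := fun y => h * pd 1 L1 y) (g1 := fun y => τ * L1 y)
      (g2 := fun y => h * pd 1 L2 y) (g3 := fun y => (-τ) * L2 y) ?_ ((dp 1 s1).const_mul h)
      ((dL s1).const_mul τ) ((dp 1 s2).const_mul h) ((dL s2).const_mul (-τ)) 1).trans ?_
    · filter_upwards [hmem] with y hy
      rw [hd1 y hy 1, e10, e11]
    · rw [pdc h (dp 1 s1), pdc τ (dL s1), pdc h (dp 1 s2), pdc (-τ) (dL s2), neg_mul, abs_neg]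
      have h1 := hmul h _ hh1 (p2 1 1)
      have h2 := hmul h _ hh1 (q2 1 1)
      have h3 := ht _ (p1 1)
      have h4 := ht _ (q1 1)
      linarith
  · refine (BF5_pd_vec (g0 := fun y => -τ ^ 2 * L1 y + h ^ 2 * pd 1 (pd 1 L1) y)
      (g1 := fun y => (h * (2 * τ)) * pd 1 L1 y)
      (g2 := fun y => -τ ^ 2 * L2 y + h ^ 2 * pd 1 (pd 1 L2) y)
      (g3 := fun y => (h * (2 * (-τ))) * pd 1 L2 y) ?_
      (((dL s1).const_mul _).add ((dpp 1 1 s1).const_mul _)) ((dp 1 s1).const_mul _)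
      (((dL s2).const_mul _).add ((dpp 1 1 s2).const_mul _)) ((dp 1 s2).const_mul _) 1).trans ?_
    · filter_upwards [hmem] with y hy
      rw [hd2 y hy, mul_assoc h, mul_assoc h]
    · have pda : ∀ {L : E2 → ℝ}, ContDiffOn ℝ ∞ L U →
          pd 1 (fun y => -τ ^ 2 * L y + h ^ 2 * pd 1 (pd 1 L) y) x =
            -τ ^ 2 * pd 1 L x + h ^ 2 * pd 1 (pd 1 (pd 1 L)) x := by
        intro L sL
        unfold pd
        have h1 := ((dL sL).hasFDerivAt.const_mul (-τ ^ 2)).add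
          ((dpp 1 1 sL).hasFDerivAt.const_mul (h ^ 2))
        have h2 : (fun y => -τ ^ 2 * L y + h ^ 2 *
            fderiv ℝ (fun z => fderiv ℝ L z (bv 1)) y (bv 1)) =
            ((fun y => -τ ^ 2 * L y) + fun y => h ^ 2 * pd 1 (pd 1 L) y) := rfl
        rw [h2, h1.fderiv]
        rfl
      rw [pda s1, pda s2, pdc _ (dp 1 s1), pdc _ (dp 1 s2), mul_assoc h, mul_assoc h]
      have h1 := abs_add_le (-τ ^ 2 * pd 1 L1 x) (h ^ 2 * pd 1 (pd 1 (pd 1 L1)) x)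
      have h2 := abs_add_le (-τ ^ 2 * pd 1 L2 x) (h ^ 2 * pd 1 (pd 1 (pd 1 L2)) x)
      have h3 := hq2 _ (p1 1)
      have h4 := hq2 _ (q1 1)
      have h5 := hmul _ _ hh2 p3
      have h6 := hmul _ _ hh2 q3
      have h7 := hq3 _ (p2 1 1)
      have h8 := hq3' _ (q2 1 1)
      linarith
  · have hg : gram3 (pd 0 F x) (pd 1 F x) (h • pd 1 (pd 1 F) x) =
        gram3 (slo τ h x (pd 0 F x)) (slo τ h x (pd 1 F x)) (slo τ h x (h • pd 1 (pd 1 F) x)) := by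
      rw [hslo, hslo, hslo, gram3_rotV]
    rw [hg, hd1 x hx 0, hd1 x hx 1, hd2 x hx, e00, e01, e10, e11]
    have hgr := BF5_gram (a2 := pd 0 L2 x) (c2 := pd 1 (pd 1 L2) x) hτ hC0 hm p0 q0 (p1 0) (p1 1)
      (q1 1) (p2 1 1) m1 m2 hs
    have h6 : 1 = 1 / (τ ^ 3 * m ^ 3) ^ 2 * (τ ^ 3 * m ^ 3) ^ 2 := by
      field_simp
    have hK0 : 0 ≤ K := le_trans (by positivity) hK2
    calc (1 : ℝ) = 1 / (τ ^ 3 * m ^ 3) ^ 2 * (τ ^ 3 * m ^ 3) ^ 2 := h6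
      _ ≤ K * (τ ^ 3 * m ^ 3) ^ 2 := mul_le_mul_of_nonneg_right hK2 (by positivity)
      _ ≤ _ := mul_le_mul_of_nonneg_left hgr hK0

/-- `INV` depends on the germ only -/
private theorem BF5_congr {U : Set E2} (hU : IsOpen U) {F G : E2 → V4} (h : ∀ y ∈ U, F y = G y)
    {τ h' K : ℝ} {x : E2} (hx : x ∈ U) (hG : INV τ h' K G x) : INV τ h' K F x := by
  have h1 : ∀ k, ∀ y ∈ U, pd k F y = pd k G y := fun k y hy => pd_congr hU h k hy
  have h2 : ∀ y ∈ U, pd 1 (pd 1 F) y = pd 1 (pd 1 G) y := fun y hy => pd_congr hU (h1 1) 1 hy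
  obtain ⟨g1, g2, g3, g4, g5, g6, g7⟩ := hG
  refine ⟨?_, ?_, ?_, ?_, ?_, ?_, ?_⟩
  · rwa [h1 0 x hx]
  · rwa [h1 1 x hx]
  · rwa [h2 x hx]
  · rwa [pd_congr hU (u := fun y => slo τ h' y (pd 0 G y)) (fun y hy => by
      rw [h1 0 y hy]) 1 hx]
  · rwa [pd_congr hU (u := fun y => slo τ h' y (pd 1 G y)) (fun y hy => by
      rw [h1 1 y hy]) 1 hx]
  · rwa [pd_congr hU (u := fun y => slo τ h' y (h' • pd 1 (pd 1 G) y)) (fun y hy => by
      rw [h2 y hy]) 1 hx]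
  · rwa [h1 0 x hx, h1 1 x hx, h2 x hx]

variable {M : Type} [TopologicalSpace M] [ChartedSpace E2 M] [IsManifold 𝓘(ℝ, E2) ∞ M]

/-- a lower bound for small `h` -/
private theorem BF5_lower {KO : Set M} (hK : IsCompact KO) {h₁ : ℝ} (hh : 0 < h₁)
    {l : M → ℝ → ℝ} (hl : SmP h₁ l) (hp : ∀ p ∈ KO, 0 < l p 0) :
    ∃ m : ℝ, 0 < m ∧ ∃ h₂ : ℝ, 0 < h₂ ∧ ∀ p ∈ KO, ∀ h : ℝ, |h| < h₂ → m ≤ l p h := by
  refine hK.induction_on (p := fun s => ∃ m : ℝ, 0 < m ∧ ∃ h₂ : ℝ, 0 < h₂ ∧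
    ∀ p ∈ s, ∀ h : ℝ, |h| < h₂ → m ≤ l p h) ?_ ?_ ?_ ?_
  · exact ⟨1, one_pos, 1, one_pos, fun p hp => absurd hp (notMem_empty p)⟩
  · rintro s t hst ⟨m, hm, h₂, hh₂, h⟩
    exact ⟨m, hm, h₂, hh₂, fun p hp => h p (hst hp)⟩
  · rintro s t ⟨m, hm, h₂, hh₂, h⟩ ⟨m', hm', h₂', hh₂', h'⟩
    refine ⟨min m m', lt_min hm hm', min h₂ h₂', lt_min hh₂ hh₂', fun p hp y hy => ?_⟩
    rcases hp with hp | hp
    · exact (min_le_left _ _).trans (h p hp y (hy.trans_le (min_le_left _ _)))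
    · exact (min_le_right _ _).trans (h' p hp y (hy.trans_le (min_le_right _ _)))
  · intro p hpK
    have hpos := hp p hpK
    set φ := chartAt E2 p with hφ
    have hps : p ∈ φ.source := mem_chart_source E2 p
    have hc := (hl φ (chart_mem_ATL p)).continuousOn
    have hmem : ((φ p, (0 : ℝ)) : E2 × ℝ) ∈ φ.target ×ˢ Ioo (-h₁) h₁ :=
      ⟨φ.map_source hps, by show -h₁ < 0; linarith, hh⟩
    have hca : ContinuousAt (fun q : E2 × ℝ => l (φ.symm q.1) q.2) (φ p, 0) :=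
      hc.continuousAt ((φ.open_target.prod isOpen_Ioo).mem_nhds hmem)
    have hval : (fun q : E2 × ℝ => l (φ.symm q.1) q.2) (φ p, 0) = l p 0 := by
      show l (φ.symm (φ p)) 0 = l p 0
      rw [φ.left_inv hps]
    have hev : ∀ᶠ q in 𝓝 ((φ p, (0 : ℝ)) : E2 × ℝ), l p 0 / 2 ≤ l (φ.symm q.1) q.2 := by
      have h1 := hca.eventually (lt_mem_nhds (a := l p 0 / 2) (by rw [hval]; linarith))
      filter_upwards [h1] with q hq using hq.le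
    rw [nhds_prod_eq, Filter.eventually_prod_iff] at hev
    obtain ⟨P, hP, Q, hQ, hPQ⟩ := hev
    obtain ⟨ρ, hρ, hρQ⟩ := Metric.eventually_nhds_iff.mp hQ
    have hPφ : ∀ᶠ q in 𝓝 p, P (φ q) := (φ.continuousAt hps).eventually hP
    refine ⟨{q | P (φ q) ∧ q ∈ φ.source}, mem_nhdsWithin_of_mem_nhds
      (hPφ.and (φ.open_source.mem_nhds hps)), l p 0 / 2, by linarith, ρ, hρ, ?_⟩
    rintro q ⟨hq1, hq2⟩ h hh'
    have h1 := hPQ hq1 (hρQ (y := h) (by rwa [Real.dist_eq, sub_zero]))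
    rwa [φ.left_inv hq2] at h1

/-- the invariant for the base map, on `KO`, uniformly in `h` -/
theorem inv_base {A B : M → ℝ} (hA : Sm A) (hB : Sm B) {τ : ℝ} (hτ : 0 < τ) {KO : Set M}
    (hK : IsCompact KO) (hKO : ∀ p ∈ KO, detC (dP A p) (dP B p) ≠ 0) {h₁ : ℝ} (hh : 0 < h₁)
    {l1 l2 : M → ℝ → ℝ} (h1 : SmP h₁ l1) (h2 : SmP h₁ l2) (p1 : ∀ p ∈ KO, 0 < l1 p 0)
    (p2 : ∀ p ∈ KO, 0 < l2 p 0) :
    ∃ K : ℝ, 1 ≤ K ∧ ∃ h₂ : ℝ, 0 < h₂ ∧ ∀ h ∈ Ioo 0 h₂, ∀ χ, IsXY A B τ χ → ∀ x ∈ χ.target,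
      χ.symm x ∈ KO → INV τ h K (bmM A B (fun q => l1 q h) (fun q => l2 q h) h ∘ χ.symm) x := by
  obtain ⟨m, hm, hm', hmm, hm1⟩ := BF5_lower hK hh h1 p1
  obtain ⟨n, hn, hn', hnn, hn1⟩ := BF5_lower hK hh h2 p2
  choose C1 hC1 using fun r : ℕ => xy_bound hA hB hτ hK hKO hh h1 r
  choose C2 hC2 using fun r : ℕ => xy_bound hA hB hτ hK hKO hh h2 r
  set C : ℝ := 1 + (∑ r ∈ Finset.range 4, |C1 r| + ∑ r ∈ Finset.range 4, |C2 r|) with hC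
  have hCs1 : ∀ r ≤ 3, C1 r ≤ C := by
    intro r hr
    have e1' := Finset.single_le_sum (f := fun r => |C1 r|) (s := Finset.range 4)
      (fun _ _ => abs_nonneg _) (Finset.mem_range.mpr (by omega : r < 4))
    have e2' : 0 ≤ ∑ r ∈ Finset.range 4, |C2 r| := Finset.sum_nonneg fun _ _ => abs_nonneg _
    have e3 := le_abs_self (C1 r)
    rw [hC]
    linarith
  have hCs2 : ∀ r ≤ 3, C2 r ≤ C := by
    intro r hr
    have e1' := Finset.single_le_sum (f := fun r => |C2 r|) (s := Finset.range 4)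
      (fun _ _ => abs_nonneg _) (Finset.mem_range.mpr (by omega : r < 4))
    have e2' : 0 ≤ ∑ r ∈ Finset.range 4, |C1 r| := Finset.sum_nonneg fun _ _ => abs_nonneg _
    have e3 := le_abs_self (C2 r)
    rw [hC]
    linarith
  have hCone : 1 ≤ C := by
    have e1' : 0 ≤ ∑ r ∈ Finset.range 4, |C1 r| := Finset.sum_nonneg fun _ _ => abs_nonneg _
    have e2' : 0 ≤ ∑ r ∈ Finset.range 4, |C2 r| := Finset.sum_nonneg fun _ _ => abs_nonneg _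
    rw [hC]
    linarith
  set μ := min m n with hμ
  have hμ0 : 0 < μ := lt_min hm hn
  set D := C ^ 3 * (4 * τ ^ 2 + 6 * τ) with hD
  have hD0 : 0 < D := by positivity
  have hpos : 0 < τ ^ 3 * μ ^ 3 := by positivity
  set ρ := τ ^ 3 * μ ^ 3 / D with hρ
  have hρ0 : 0 < ρ := div_pos hpos hD0
  refine ⟨1 + 4 * C * (1 + τ) ^ 2 + 1 / (τ ^ 3 * μ ^ 3) ^ 2, ?_,
    min (min hm' hn') (min (h₁ / 2) (min 1 ρ)), ?_, ?_⟩
  · have e1' : 0 ≤ 4 * C * (1 + τ) ^ 2 := by positivity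
    have e2' : 0 ≤ 1 / (τ ^ 3 * μ ^ 3) ^ 2 := by positivity
    linarith
  · exact lt_min (lt_min hmm hnn) (lt_min (by linarith) (lt_min one_pos hρ0))
  · rintro h ⟨hh0, hhlt⟩ χ hχ x hx hxK
    have ha : |h| = h := abs_of_pos hh0
    have l1' : h < hm' := hhlt.trans_le ((min_le_left _ _).trans (min_le_left _ _))
    have l2' : h < hn' := hhlt.trans_le ((min_le_left _ _).trans (min_le_right _ _))
    have l3' : h < h₁ / 2 := hhlt.trans_le ((min_le_right _ _).trans (min_le_left _ _))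
    have l4' : h < 1 := hhlt.trans_le ((min_le_right _ _).trans
      ((min_le_right _ _).trans (min_le_left _ _)))
    have l5' : h < ρ := hhlt.trans_le ((min_le_right _ _).trans
      ((min_le_right _ _).trans (min_le_right _ _)))
    have hsl : ∀ {l : M → ℝ → ℝ}, SmP h₁ l → ContDiffOn ℝ ∞ (fun y => l (χ.symm y) h) χ.target := by
      intro l hl
      have e1' := hl χ hχ.1
      have e2' : ContDiffOn ℝ ∞ (fun y : E2 => ((y, h) : E2 × ℝ)) χ.target :=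
        (contDiff_id.prodMk contDiff_const).contDiffOn
      exact e1'.comp e2' fun y hy => ⟨hy, by show -h₁ < h; linarith, by show h < h₁; linarith⟩
    have hs : h ^ 2 * (C ^ 3 * (4 * τ ^ 2 + 6 * τ)) ≤ τ ^ 3 * μ ^ 3 := by
      have e1' : h ^ 2 ≤ ρ := by nlinarith
      calc h ^ 2 * D ≤ ρ * D := mul_le_mul_of_nonneg_right e1' hD0.le
        _ = τ ^ 3 * μ ^ 3 := by rw [hρ]; field_simp
    have hloc := BF5_local χ.open_target (hsl h1) (hsl h2) hh0.ne' (by rw [ha]; exact l4'.le) hτ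
      hCone hμ0 hx
      (fun r hr => (hC1 r χ hχ x hx hxK h (by rw [ha]; exact l3'.le)).trans (hCs1 r hr))
      (fun r hr => (hC2 r χ hχ x hx hxK h (by rw [ha]; exact l3'.le)).trans (hCs2 r hr))
      ((min_le_left _ _).trans (hm1 _ hxK h (by rw [ha]; exact l1')))
      ((min_le_right _ _).trans (hn1 _ hxK h (by rw [ha]; exact l2'))) hs
    refine BF5_congr χ.open_target (fun y hy => ?_) hx hloc
    obtain ⟨g1, g2⟩ := hχ.2 (χ.symm y) (χ.map_target hy)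
    rw [χ.right_inv hy] at g1 g2
    have g3 : A (χ.symm y) = BFa τ y := g1
    have g4 : B (χ.symm y) = BFa (-τ) y := by
      rw [g2]
      unfold BFa
      ring
    show bmM A B (fun q => l1 q h) (fun q => l2 q h) h (χ.symm y) = _
    unfold bmM bmU
    rw [g3, g4]

end P205F
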