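import Mathlib
import Vale.Agent.Lib.P205B.BF1
import Vale.Agent.Lib.P205F.MD3

/-!
# P205F BASE: the compact set `KO`, the invariant for the base map, and the base package

`KO := {p | ε ≤ dW (wM g p)}`, `KT := {p | 2 ε ≤ dW (wM g p)}` with `ε` small:
`tsupport β(h) ⊆ {|w| ≤ r₀ d}` (for `G(·,h)`), and for `h`
small this closed set is contained in `KT` (compactness: at `h = 0` a point with
`|w| ≤ r₀ d`, `d ≤ ε` has `t² = |w|² + d ≤ r₀² ε² + ε`, impossible when `t ≥ t_min > 0` and `ε` small).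
-/

noncomputable section

namespace P205F

open scoped Manifold ContDiff Topology RealInnerProductSpace
open Set

set_option maxSynthPendingDepth 3

section planar

private def BF6_P1 : V4 →L[ℝ] V4 := LinearMap.toContinuousLinearMap
  { toFun := fun u => !₂[u 0, u 1, 0, 0]
    map_add' := by intro u v; ext i; fin_cases i <;> simp
    map_smul' := by intro c u; ext i; fin_cases i <;> simp }

private def BF6_Q1 : V4 →L[ℝ] V4 := LinearMap.toContinuousLinearMap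
  { toFun := fun u => !₂[u 1, -u 0, 0, 0]
    map_add' := by intro u v; ext i; fin_cases i <;> simp [add_comm]
    map_smul' := by intro c u; ext i; fin_cases i <;> simp }

private def BF6_P2 : V4 →L[ℝ] V4 := LinearMap.toContinuousLinearMap
  { toFun := fun u => !₂[0, 0, u 2, u 3]
    map_add' := by intro u v; ext i; fin_cases i <;> simp
    map_smul' := by intro c u; ext i; fin_cases i <;> simp }

private def BF6_Q2 : V4 →L[ℝ] V4 := LinearMap.toContinuousLinearMap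
  { toFun := fun u => !₂[0, 0, u 3, -u 2]
    map_add' := by intro u v; ext i; fin_cases i <;> simp [add_comm]
    map_smul' := by intro c u; ext i; fin_cases i <;> simp }

private theorem BF6_slo (τ h : ℝ) (x : E2) (u : V4) : slo τ h x u =
    Real.cos ((x.1 + τ * x.2) / h) • BF6_P1 u + Real.sin ((x.1 + τ * x.2) / h) • BF6_Q1 u +
      (Real.cos ((x.1 - τ * x.2) / h) • BF6_P2 u +
        Real.sin ((x.1 - τ * x.2) / h) • BF6_Q2 u) := by
  have h1 : BF6_P1 u = !₂[u 0, u 1, 0, 0] := rfl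
  have h2 : BF6_Q1 u = !₂[u 1, -u 0, 0, 0] := rfl
  have h3 : BF6_P2 u = !₂[0, 0, u 2, u 3] := rfl
  have h4 : BF6_Q2 u = !₂[0, 0, u 3, -u 2] := rfl
  rw [h1, h2, h3, h4, slo, rotV]
  ext i
  fin_cases i <;> simp <;> ring

/-- one term of the slow frame -/
private theorem BF6_term (P : V4 →L[ℝ] V4) {c : E2 → ℝ} {c' : E2 →L[ℝ] ℝ} {w : E2 → V4} {x : E2}
    (hc : HasFDerivAt c c' x) (hw : DifferentiableAt ℝ w x) {T : ℝ} (h1 : |c x| ≤ 1)
    (h2 : |c' (bv 1)| ≤ T) :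
    DifferentiableAt ℝ (fun y => c y • P (w y)) x ∧
      ‖pd 1 (fun y => c y • P (w y)) x‖ ≤ ‖P‖ * (‖pd 1 w x‖ + T * ‖w x‖) := by
  have h3 : HasFDerivAt (fun y => P (w y)) (P.comp (fderiv ℝ w x)) x :=
    P.hasFDerivAt.comp x hw.hasFDerivAt
  have h4 := hc.smul h3
  refine ⟨h4.differentiableAt, ?_⟩
  have h5 : pd 1 (fun y => c y • P (w y)) x = c x • P (pd 1 w x) + c' (bv 1) • P (w x) := by
    unfold pd
    have h6 : (fun y => c y • P (w y)) = c • fun y => P (w y) := rfl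
    rw [h6, h4.fderiv]
    simp
  rw [h5]
  have hT : 0 ≤ T := (abs_nonneg _).trans h2
  calc ‖c x • P (pd 1 w x) + c' (bv 1) • P (w x)‖
      ≤ |c x| * ‖P (pd 1 w x)‖ + |c' (bv 1)| * ‖P (w x)‖ := by
        refine (norm_add_le _ _).trans ?_
        rw [norm_smul, norm_smul, Real.norm_eq_abs, Real.norm_eq_abs]
    _ ≤ 1 * (‖P‖ * ‖pd 1 w x‖) + T * (‖P‖ * ‖w x‖) := by
        refine add_le_add ?_ ?_
        · exact mul_le_mul h1 (P.le_opNorm _) (norm_nonneg _) zero_le_one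
        · exact mul_le_mul h2 (P.le_opNorm _) (norm_nonneg _) hT
    _ = ‖P‖ * (‖pd 1 w x‖ + T * ‖w x‖) := by ring

private theorem BF6_theta (σ h : ℝ) (x : E2) :
    HasFDerivAt (fun y : E2 => (y.1 + σ * y.2) / h)
      (h⁻¹ • (ContinuousLinearMap.fst ℝ ℝ ℝ + σ • ContinuousLinearMap.snd ℝ ℝ ℝ)) x := by
  have h1 : HasFDerivAt (fun y : E2 => y.1 + σ * y.2)
      (ContinuousLinearMap.fst ℝ ℝ ℝ + σ • ContinuousLinearMap.snd ℝ ℝ ℝ) x :=
    hasFDerivAt_fst.add (hasFDerivAt_snd.const_mul σ)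
  have h2 := h1.const_mul h⁻¹
  have h3 : (fun y : E2 => (y.1 + σ * y.2) / h) = fun y => h⁻¹ * (y.1 + σ * y.2) := by
    funext y
    rw [div_eq_inv_mul]
  rw [h3]
  exact h2

private theorem BF6_dir (σ h : ℝ) :
    (h⁻¹ • (ContinuousLinearMap.fst ℝ ℝ ℝ + σ • ContinuousLinearMap.snd ℝ ℝ ℝ)) (bv 1) =
      h⁻¹ * σ := by
  simp [bv]

/-- the constant of the slow frame -/
private def BF6_C : ℝ := ‖BF6_P1‖ + ‖BF6_Q1‖ + (‖BF6_P2‖ + ‖BF6_Q2‖)

private theorem BF6_C_nonneg : 0 ≤ BF6_C := by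
  unfold BF6_C
  positivity

private theorem BF6_slo_pd {τ h : ℝ} (hτ : 0 < τ) (hh : 0 < h) {w : E2 → V4} {x : E2}
    (hw : DifferentiableAt ℝ w x) :
    DifferentiableAt ℝ (fun y => slo τ h y (w y)) x ∧
      ‖pd 1 (fun y => slo τ h y (w y)) x‖ ≤ BF6_C * (‖pd 1 w x‖ + τ / h * ‖w x‖) := by
  have hθ := BF6_theta τ h x
  have hθ' := BF6_theta (-τ) h x
  have hT : |h⁻¹ * τ| = τ / h := by
    rw [abs_of_pos (by positivity), div_eq_inv_mul]
  have hT' : |h⁻¹ * (-τ)| = τ / h := by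
    rw [mul_neg, abs_neg, hT]
  have hb : ∀ s a b : ℝ, |s| ≤ 1 → |b| = a → |s * b| ≤ a := by
    intro s a b hs hb
    rw [abs_mul, hb]
    have : 0 ≤ a := hb ▸ abs_nonneg b
    nlinarith
  obtain ⟨a1, b1⟩ := BF6_term BF6_P1 (T := τ / h) hθ.cos hw (Real.abs_cos_le_one _) (by
    rw [_root_.smul_apply, BF6_dir, smul_eq_mul]
    exact hb _ _ _ (by rw [abs_neg]; exact Real.abs_sin_le_one _) hT)
  obtain ⟨a2, b2⟩ := BF6_term BF6_Q1 (T := τ / h) hθ.sin hw (Real.abs_sin_le_one _) (by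
    rw [_root_.smul_apply, BF6_dir, smul_eq_mul]
    exact hb _ _ _ (Real.abs_cos_le_one _) hT)
  obtain ⟨a3, b3⟩ := BF6_term BF6_P2 (T := τ / h) hθ'.cos hw (Real.abs_cos_le_one _) (by
    rw [_root_.smul_apply, BF6_dir, smul_eq_mul]
    exact hb _ _ _ (by rw [abs_neg]; exact Real.abs_sin_le_one _) hT')
  obtain ⟨a4, b4⟩ := BF6_term BF6_Q2 (T := τ / h) hθ'.sin hw (Real.abs_sin_le_one _) (by
    rw [_root_.smul_apply, BF6_dir, smul_eq_mul]
    exact hb _ _ _ (Real.abs_cos_le_one _) hT')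
  have he : (fun y => slo τ h y (w y)) =
      ((fun y => Real.cos ((y.1 + τ * y.2) / h) • BF6_P1 (w y)) +
        fun y => Real.sin ((y.1 + τ * y.2) / h) • BF6_Q1 (w y)) +
      ((fun y => Real.cos ((y.1 + (-τ) * y.2) / h) • BF6_P2 (w y)) +
        fun y => Real.sin ((y.1 + (-τ) * y.2) / h) • BF6_Q2 (w y)) := by
    funext y
    rw [BF6_slo]
    simp only [Pi.add_apply, neg_mul, ← sub_eq_add_neg]
  rw [he]
  refine ⟨(a1.add a2).add (a3.add a4), ?_⟩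
  have hs : ∀ (p q : E2 → V4), DifferentiableAt ℝ p x → DifferentiableAt ℝ q x →
      pd 1 (p + q) x = pd 1 p x + pd 1 q x := by
    intro p q hp hq
    unfold pd
    rw [fderiv_add hp hq]
    rfl
  rw [hs _ _ (a1.add a2) (a3.add a4), hs _ _ a1 a2, hs _ _ a3 a4]
  have hsum : BF6_C * (‖pd 1 w x‖ + τ / h * ‖w x‖) =
      (‖BF6_P1‖ * (‖pd 1 w x‖ + τ / h * ‖w x‖) + ‖BF6_Q1‖ * (‖pd 1 w x‖ + τ / h * ‖w x‖)) +
      (‖BF6_P2‖ * (‖pd 1 w x‖ + τ / h * ‖w x‖) + ‖BF6_Q2‖ * (‖pd 1 w x‖ + τ / h * ‖w x‖)) := by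
    unfold BF6_C
    ring
  rw [hsum]
  exact (norm_add_le _ _).trans (add_le_add ((norm_add_le _ _).trans (add_le_add b1 b2))
    ((norm_add_le _ _).trans (add_le_add b3 b4)))

private theorem BF6_slo_add (τ h : ℝ) (y : E2) (u v : V4) :
    slo τ h y (u + v) = slo τ h y u + slo τ h y v := by
  simp only [BF6_slo, map_add, smul_add]
  abel

private theorem BF6_pd_add {p q : E2 → V4} {x : E2} (i : Fin 2) (hp : DifferentiableAt ℝ p x)
    (hq : DifferentiableAt ℝ q x) : pd i (p + q) x = pd i p x + pd i q x := by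
  unfold pd
  rw [fderiv_add hp hq]
  rfl

private theorem BF6_diff {U : Set E2} (hU : IsOpen U) {G : E2 → V4} (hG : ContDiffOn ℝ ∞ G U)
    {x : E2} (hx : x ∈ U) : DifferentiableAt ℝ G x :=
  (hG.contDiffAt (hU.mem_nhds hx)).differentiableAt (by simp)

/-- derivatives of `pd j d` -/
private theorem BF6_up {U : Set E2} (hU : IsOpen U) {d : E2 → V4} (hd : ContDiffOn ℝ ∞ d U)
    {x : E2} (hx : x ∈ U) (j : Fin 2) (n : ℕ) :
    ‖iteratedFDeriv ℝ n (pd j d) x‖ ≤ ‖iteratedFDeriv ℝ (n + 1) d x‖ := by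
  have h1 : ContDiffAt ℝ ∞ (fderiv ℝ d) x :=
    (hd.fderiv_of_isOpen hU (by norm_cast)).contDiffAt (hU.mem_nhds hx)
  have h2 := norm_iteratedFDeriv_clm_apply_const (c := bv j) (n := n) h1 (by exact_mod_cast le_top)
  rw [MD3_bv, one_mul, norm_iteratedFDeriv_fderiv] at h2
  exact h2

/-- the planar statement -/
private theorem BF6_planar {U : Set E2} (hU : IsOpen U) {G d : E2 → V4}
    (hG : ContDiffOn ℝ ∞ G U) (hd : ContDiffOn ℝ ∞ d U) {x : E2} (hx : x ∈ U) {τ h K δ : ℝ}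
    (hτ : 0 < τ) (hh : 0 < h) (hh1 : h ≤ 1) (hK : 1 ≤ K) (hδ : 0 ≤ δ)
    (hb : ∀ j ≤ 3, ‖iteratedFDeriv ℝ j d x‖ ≤ δ)
    (hs : δ + BF6_C * (δ + τ / h * δ) + 2000 * K ^ 6 * δ ≤ 1)
    (hI : INV τ h K G x) : INV τ h (2 * K) (G + d) x := by
  obtain ⟨i1, i2, i3, i4, i5, i6, i7⟩ := hI
  have hC := BF6_C_nonneg
  have hs1 : 0 ≤ BF6_C * (δ + τ / h * δ) := by positivity
  have hs2 : 0 ≤ 2000 * K ^ 6 * δ := by positivity
  have hδ1 : δ ≤ 1 := by linarith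
  -- first derivatives
  have hdG := BF6_diff hU hG hx
  have hdd := BF6_diff hU hd hx
  have hpG : ∀ i, ContDiffOn ℝ ∞ (pd i G) U := pd_contDiffOn hU hG
  have hpd : ∀ i, ContDiffOn ℝ ∞ (pd i d) U := pd_contDiffOn hU hd
  have e1 : ∀ i, ∀ y ∈ U, pd i (G + d) y = pd i G y + pd i d y := fun i y hy =>
    BF6_pd_add i (BF6_diff hU hG hy) (BF6_diff hU hd hy)
  have e2 : ∀ i j, ∀ y ∈ U, pd j (pd i (G + d)) y = pd j (pd i G) y + pd j (pd i d) y := by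
    intro i j y hy
    rw [pd_congr hU (fun z hz => e1 i z hz) j hy]
    exact BF6_pd_add j (BF6_diff hU (hpG i) hy) (BF6_diff hU (hpd i) hy)
  have b1 : ∀ i, ‖pd i d x‖ ≤ δ := fun i =>
    (MD3_pd_norm d x i).trans (hb 1 (by norm_num))
  have b2 : ∀ i j, ‖pd j (pd i d) x‖ ≤ δ := fun i j =>
    (MD3_pd_norm _ x j).trans ((BF6_up hU hd hx i 1).trans (hb 2 (by norm_num)))
  have b3 : ∀ i j k, ‖pd k (pd j (pd i d)) x‖ ≤ δ := fun i j k =>
    (MD3_pd_norm _ x k).trans ((BF6_up hU (hpd i) hx j 1).trans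
      ((BF6_up hU hd hx i 2).trans (hb 3 le_rfl)))
  -- the slow frame
  have slow : ∀ (w v w' : E2 → V4), ContDiffOn ℝ ∞ w U → ContDiffOn ℝ ∞ v U →
      (∀ y ∈ U, w' y = w y + v y) → ‖v x‖ ≤ δ → ‖pd 1 v x‖ ≤ δ →
      ‖pd 1 (fun y => slo τ h y (w y)) x‖ ≤ K →
      ‖pd 1 (fun y => slo τ h y (w' y)) x‖ ≤ 2 * K := by
    intro w v w' hw hv hw' hv1 hv2 hwK
    obtain ⟨s1, _⟩ := BF6_slo_pd (h := h) hτ hh (BF6_diff hU hw hx)
    obtain ⟨s2, s3⟩ := BF6_slo_pd (h := h) hτ hh (BF6_diff hU hv hx)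
    have h1 : pd 1 (fun y => slo τ h y (w' y)) x =
        pd 1 ((fun y => slo τ h y (w y)) + fun y => slo τ h y (v y)) x := by
      refine pd_congr hU (fun y hy => ?_) 1 hx
      rw [hw' y hy, BF6_slo_add]
      rfl
    rw [h1, BF6_pd_add 1 s1 s2]
    have h2 : BF6_C * (‖pd 1 v x‖ + τ / h * ‖v x‖) ≤ BF6_C * (δ + τ / h * δ) := by
      refine mul_le_mul_of_nonneg_left ?_ hC
      exact add_le_add hv2 (mul_le_mul_of_nonneg_left hv1 (by positivity))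
    have h3 := norm_add_le (pd 1 (fun y => slo τ h y (w y)) x)
      (pd 1 (fun y => slo τ h y (v y)) x)
    linarith
  have hsm : ∀ u : V4, ‖u‖ ≤ δ → ‖h • u‖ ≤ δ := by
    intro u hu
    rw [norm_smul, Real.norm_eq_abs, abs_of_pos hh]
    have := norm_nonneg u
    nlinarith
  have hpds : ∀ (g : E2 → V4), ContDiffOn ℝ ∞ g U → pd 1 (h • g) x = h • pd 1 g x := by
    intro g hg
    unfold pd
    rw [fderiv_const_smul (BF6_diff hU hg hx)]
    rfl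
  refine ⟨?_, ?_, ?_, ?_, ?_, ?_, ?_⟩
  · rw [e1 0 x hx]
    have := norm_add_le (pd 0 G x) (pd 0 d x)
    have := b1 0
    linarith
  · rw [e1 1 x hx]
    have := norm_add_le (pd 1 G x) (pd 1 d x)
    have := b1 1
    linarith
  · rw [e2 1 1 x hx, smul_add]
    have h1 := norm_add_le (h • pd 1 (pd 1 G) x) (h • pd 1 (pd 1 d) x)
    have h2 := hsm _ (b2 1 1)
    linarith
  · exact slow (pd 0 G) (pd 0 d) (pd 0 (G + d)) (hpG 0) (hpd 0) (fun y hy => e1 0 y hy) (b1 0)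
      (b2 0 1) i4
  · exact slow (pd 1 G) (pd 1 d) (pd 1 (G + d)) (hpG 1) (hpd 1) (fun y hy => e1 1 y hy) (b1 1)
      (b2 1 1) i5
  · refine slow (h • pd 1 (pd 1 G)) (h • pd 1 (pd 1 d)) (h • pd 1 (pd 1 (G + d)))
      ((pd_contDiffOn hU (hpG 1) 1).const_smul h) ((pd_contDiffOn hU (hpd 1) 1).const_smul h)
      (fun y hy => ?_) (hsm _ (b2 1 1)) ?_ i6
    · change h • pd 1 (pd 1 (G + d)) y = h • pd 1 (pd 1 G) y + h • pd 1 (pd 1 d) y
      rw [e2 1 1 y hy, smul_add]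
    · rw [hpds _ (pd_contDiffOn hU (hpd 1) 1)]
      exact hsm _ (b3 1 1 1)
  · have h1 := gram3_sub_le (pd 0 G x) (pd 1 G x) (h • pd 1 (pd 1 G) x) (pd 0 (G + d) x)
      (pd 1 (G + d) x) (h • pd 1 (pd 1 (G + d)) x) K δ i1 i2 i3
      (by rw [e1 0 x hx, add_sub_cancel_left]; exact b1 0)
      (by rw [e1 1 x hx, add_sub_cancel_left]; exact b1 1)
      (by rw [e2 1 1 x hx, smul_add, add_sub_cancel_left]; exact hsm _ (b2 1 1)) hδ1 hK
    have h2 := (abs_le.1 h1).1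
    have h3 : 2 * K * (gram3 (pd 0 G x) (pd 1 G x) (h • pd 1 (pd 1 G) x) -
        1000 * K ^ 5 * δ) ≤ 2 * K * gram3 (pd 0 (G + d) x)
      (pd 1 (G + d) x) (h • pd 1 (pd 1 (G + d)) x) :=
      mul_le_mul_of_nonneg_left (by linarith) (by linarith)
    have h4 : 2 * K * (1000 * K ^ 5 * δ) = 2000 * K ^ 6 * δ := by ring
    have h5 : 2000 * K ^ 6 * δ ≤ 1 := by linarith
    rw [mul_sub, h4] at h3
    linarith

end planar

variable {M : Type} [TopologicalSpace M] [ChartedSpace E2 M] [IsManifold 𝓘(ℝ, E2) ∞ M]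

/-- uniform comparison of derivatives in `(x, y)`-charts over a compact set -/
private theorem BF6_unif (𝒜 : FinAtlas M) {A B : M → ℝ} (hA : Sm A) (hB : Sm B) {τ : ℝ}
    (hτ : 0 < τ) {KO : Set M} (hK : IsCompact KO)
    (hKO : ∀ p ∈ KO, detC (dP A p) (dP B p) ≠ 0) :
    ∃ C : ℝ, 0 < C ∧ ∀ (u : M → V4) (η : ℝ), Sm u → 0 ≤ η → (∀ p, ClAt 𝒜 3 u η p) →
      ∀ χ, IsXY A B τ χ → ∀ x ∈ χ.target, χ.symm x ∈ KO → ∀ j ≤ 3,
        ‖iteratedFDeriv ℝ j (u ∘ χ.symm) x‖ ≤ C * η := by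
  refine hK.induction_on (p := fun s => ∃ C : ℝ, 0 < C ∧ ∀ (u : M → V4) (η : ℝ), Sm u → 0 ≤ η →
    (∀ p, ClAt 𝒜 3 u η p) → ∀ χ, IsXY A B τ χ → ∀ x ∈ χ.target, χ.symm x ∈ s → ∀ j ≤ 3,
        ‖iteratedFDeriv ℝ j (u ∘ χ.symm) x‖ ≤ C * η) ?_ ?_ ?_ ?_
  · exact ⟨1, one_pos, fun u η _ _ _ χ _ x _ hx => absurd hx (notMem_empty _)⟩
  · rintro s t hst ⟨C, hC, h⟩
    exact ⟨C, hC, fun u η hu hη hcl χ hχ x hx hxs => h u η hu hη hcl χ hχ x hx (hst hxs)⟩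
  · rintro s t ⟨C, hC, h⟩ ⟨C', hC', h'⟩
    refine ⟨max C C', lt_max_of_lt_left hC, fun u η hu hη hcl χ hχ x hx hxs j hj => ?_⟩
    rcases hxs with hxs | hxs
    · exact (h u η hu hη hcl χ hχ x hx hxs j hj).trans
        (mul_le_mul_of_nonneg_right (le_max_left _ _) hη)
    · exact (h' u η hu hη hcl χ hχ x hx hxs j hj).trans
        (mul_le_mul_of_nonneg_right (le_max_right _ _) hη)
  · intro p hp
    obtain ⟨χ0, hχ0, hpχ⟩ := exists_XY hA hB hτ (hKO p hp)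
    obtain ⟨N, hN, C, hC, h⟩ := MD3_local 𝒜 hχ0.1 3 (χ0.map_source hpχ)
    have hV : χ0.source ∩ χ0 ⁻¹' N ∈ 𝓝 p :=
      Filter.inter_mem (χ0.open_source.mem_nhds hpχ) ((χ0.continuousAt hpχ).preimage_mem_nhds hN)
    refine ⟨_, mem_nhdsWithin_of_mem_nhds hV, C, hC, ?_⟩
    intro u η hu hη hcl χ hχ x hx hxs j hj
    obtain ⟨q, hq⟩ : ∃ q, q = χ.symm x := ⟨_, rfl⟩
    have hqs : q ∈ χ.source := hq ▸ χ.map_target hx
    have hqx : χ q = x := by rw [hq, χ.right_inv hx]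
    rw [← hq] at hxs
    obtain ⟨h1, h2⟩ := isXY_eq hτ hχ hχ0 hqs hxs.1
    have h3 := (h2 u).iteratedFDeriv ℝ j
    have h4 := h3.eq_of_nhds
    rw [hqx] at h4 h1
    rw [h4, h1]
    exact h u η hu hη (χ0 q) hxs.2 (hcl _) j hj

/-- stability of the invariant under `C³`-perturbations of size `h ^ 4` -/
theorem inv_pert (𝒜 : FinAtlas M) {A B : M → ℝ} (hA : Sm A) (hB : Sm B) {τ : ℝ} (hτ : 0 < τ)
    {KO : Set M} (hK : IsCompact KO) (hKO : ∀ p ∈ KO, detC (dP A p) (dP B p) ≠ 0) {K : ℝ}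
    (hK1 : 1 ≤ K) : ∃ h₂ : ℝ, 0 < h₂ ∧ ∀ h ∈ Ioo 0 h₂, ∀ F F' : M → V4, Sm F → Sm F' →
      (∀ p, ClAt 𝒜 3 (F' - F) (h ^ 4) p) → ∀ χ, IsXY A B τ χ → ∀ x ∈ χ.target, χ.symm x ∈ KO →
      INV τ h K (F ∘ χ.symm) x → INV τ h (2 * K) (F' ∘ χ.symm) x := by
  obtain ⟨C, hC, hunif⟩ := BF6_unif 𝒜 hA hB hτ hK hKO
  have hC0 := BF6_C_nonneg
  obtain ⟨E, hE⟩ : ∃ E : ℝ, E = C * (1 + BF6_C * (1 + τ) + 2000 * K ^ 6) := ⟨_, rfl⟩
  have hE0 : 0 < E := by rw [hE]; positivity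
  refine ⟨min 1 E⁻¹, lt_min one_pos (inv_pos.2 hE0), ?_⟩
  intro h hh F F' hF hF' hcl χ hχ x hx hxK hI
  have hh0 : 0 < h := hh.1
  have hh1 : h ≤ 1 := (hh.2.trans_le (min_le_left _ _)).le
  have hhE : E * h ≤ 1 := by
    have h1 : h ≤ E⁻¹ := (hh.2.trans_le (min_le_right _ _)).le
    calc E * h ≤ E * E⁻¹ := mul_le_mul_of_nonneg_left h1 hE0.le
      _ = 1 := mul_inv_cancel₀ hE0.ne'
  have hsub : Sm (F' - F) := by
    have h1 : ContMDiff 𝓘(ℝ, E2) 𝓘(ℝ, V4) ∞ F' := hF'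
    have h2 : ContMDiff 𝓘(ℝ, E2) 𝓘(ℝ, V4) ∞ F := hF
    exact h1.sub h2
  have hb := hunif (F' - F) (h ^ 4) hsub (by positivity) hcl χ hχ x hx hxK
  have heq : F' ∘ χ.symm = F ∘ χ.symm + (F' - F) ∘ χ.symm := by
    funext y
    simp
  rw [heq]
  refine BF6_planar χ.open_target (hF.loc hχ.1) (hsub.loc hχ.1) hx hτ hh0 hh1 hK1
    (by positivity) hb ?_ hI
  have h4 : h ^ 4 ≤ h := by
    calc h ^ 4 ≤ h ^ 1 := pow_le_pow_of_le_one hh0.le hh1 (by norm_num)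
      _ = h := pow_one h
  have h3 : τ / h * (C * h ^ 4) ≤ τ * (C * h) := by
    have h5 : τ / h * (C * h ^ 4) = τ * (C * h ^ 3) := by
      field_simp
    rw [h5]
    have h6 : h ^ 3 ≤ h := by
      calc h ^ 3 ≤ h ^ 1 := pow_le_pow_of_le_one hh0.le hh1 (by norm_num)
        _ = h := pow_one h
    exact mul_le_mul_of_nonneg_left (mul_le_mul_of_nonneg_left h6 hC.le) hτ.le
  have h5 : C * h ^ 4 ≤ C * h := mul_le_mul_of_nonneg_left h4 hC.le
  have h6 : BF6_C * (C * h ^ 4 + τ / h * (C * h ^ 4)) ≤ BF6_C * (C * h + τ * (C * h)) :=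
    mul_le_mul_of_nonneg_left (add_le_add h5 h3) hC0
  have h7 : 2000 * K ^ 6 * (C * h ^ 4) ≤ 2000 * K ^ 6 * (C * h) :=
    mul_le_mul_of_nonneg_left h5 (by positivity)
  have h8 : C * h + BF6_C * (C * h + τ * (C * h)) + 2000 * K ^ 6 * (C * h) = E * h := by
    rw [hE]; ring
  linarith

end P205F
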