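import Vale.Agent.Lib.P205B.BIter

/-!
# P205F BASE: the base map and its nondegeneracy

`f_h = h (λ₁ e^{iA/h}, λ₂ e^{iB/h}) ∈ ℂ² = ℝ⁴`.  In the slow frame `FF = (e^{iA/h}, e^{iB/h})`:
`FF⁻¹ f_v = (h λ₁_v + i A_v λ₁, h λ₂_v + i B_v λ₂)`,
`h FF⁻¹ f_vv = (-A_v² λ₁ + i h (2 A_v λ₁_v + A_vv λ₁) + h² λ₁_vv, same for λ₂, B)`.
`gram3` is invariant under the rotation `FF`.

`nv_local`, case 1 (`dA ∧ dB ≠ 0` at `x₀`): at `h = 0` the vectors are `i(A_1λ₁, B_1λ₂)`,
`i(A_2λ₁, B_2λ₂)`, `-(A_v²λ₁, B_v²λ₂)`, independent, so `gram3 (f_1, f_2, h f_vv) ≥ c` near `(x₀, v₀, 0)`.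
Case 2 (`dA n = dB n = 0` at `x₀`, `n` constant): the two minors `(Re₁, Re₂, Im₁)`, `(Re₁, Re₂, Im₂)`
of `(f_v, f_n/h, h f_vv)` (in the slow frame) are the components of
`det(R_n, R_vv) I_v - det(R_v, R_vv) I_n + det(R_v, R_n) I_vv` with `R_v = h λ_v`, `R_n = λ_n`,
`I_v = (A_vλ₁, B_vλ₂)`, `I_n = (A_nλ₁, B_nλ₂)/h`, `R_vv = -(A_v²λ₁, B_v²λ₂) + h²λ_vv`, `I_vv = h (…)`;
the factor `1/h` cancels: the expression is continuous in `(x, v, h)` also at `h = 0` and its value at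
`(x₀, v₀, 0)` is `- det(λ_n, (A_v²λ₁, B_v²λ₂)) (A_vλ₁, B_vλ₂) ≠ 0`.  Hence
`gram3 (f_v, f_n, f_vv) = gram3 (f_v, f_n/h, h f_vv) ≥ c`, and
`gram3 (f_v, f_n, f_vv) = det(v,n)² gram3 (f_1, f_2, f_vv)`, `det (v,n)` bounded.
-/

noncomputable section

namespace P205F

open scoped Manifold ContDiff Topology RealInnerProductSpace
open Set

set_option maxSynthPendingDepth 3

variable {M : Type} [TopologicalSpace M] [ChartedSpace E2 M] [IsManifold 𝓘(ℝ, E2) ∞ M]

open Filter in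
theorem BNv3_one {m R l : ℝ → ℝ} {m' R' l' ε : ℝ} (hm : HasDerivAt m m' 0)
    (hR : HasDerivAt R R' 0) (hl : HasDerivAt l l' 0) (hR0 : 0 < R 0)
    (he : ∀ᶠ s in 𝓝 (0 : ℝ), l s = Real.exp (ε * m s) * Real.sqrt (1 / R s)) :
    0 < l 0 ∧ l' = l 0 * (ε * m' - R' / (2 * R 0)) := by
  have h0 : l 0 = Real.exp (ε * m 0) * Real.sqrt (1 / R 0) := he.self_of_nhds
  have hσ : 0 < Real.sqrt (1 / R 0) := Real.sqrt_pos.2 (by positivity)
  refine ⟨by rw [h0]; positivity, ?_⟩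
  have h1 : HasDerivAt (fun s => (R s)⁻¹) (-R' / R 0 ^ 2) 0 := hR.inv hR0.ne'
  have h2 : HasDerivAt (fun s => Real.sqrt ((R s)⁻¹))
      ((-R' / R 0 ^ 2) / (2 * Real.sqrt ((R 0)⁻¹))) 0 := h1.sqrt (by positivity)
  have h3 : HasDerivAt (fun s => Real.exp (ε * m s)) (Real.exp (ε * m 0) * (ε * m')) 0 :=
    (hm.const_mul ε).exp
  have h4 := h3.mul h2
  have h5 : HasDerivAt l (Real.exp (ε * m 0) * (ε * m') * Real.sqrt ((R 0)⁻¹) +
      Real.exp (ε * m 0) * ((-R' / R 0 ^ 2) / (2 * Real.sqrt ((R 0)⁻¹)))) 0 := by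
    refine h4.congr_of_eventuallyEq ?_
    filter_upwards [he] with s hs
    rw [hs, one_div]
    rfl
  rw [hl.unique h5, h0, one_div]
  rw [one_div] at hσ
  have hs2 : Real.sqrt ((R 0)⁻¹) ^ 2 = (R 0)⁻¹ := Real.sq_sqrt (by positivity)
  have hs3 : Real.sqrt ((R 0)⁻¹) ^ 2 * R 0 = 1 := by rw [hs2]; field_simp
  generalize Real.sqrt ((R 0)⁻¹) = σ at *
  generalize Real.exp (ε * m 0) = E at *
  generalize R 0 = r at *
  have h6 : -R' / r ^ 2 / (2 * σ) = - (σ * R' / (2 * r)) := by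
    rw [div_div, neg_div, neg_inj, div_eq_div_iff (by positivity) (by positivity)]
    linear_combination (-(R' * 2 * r)) * hs3
  rw [h6]
  ring

theorem BNv3_scal {m P Q C l1 l2 : ℝ → ℝ} {m' P' Q' C' l1' l2' : ℝ}
    (hm : HasDerivAt m m' 0) (hP : HasDerivAt P P' 0) (hQ : HasDerivAt Q Q' 0)
    (hC : HasDerivAt C C' 0) (h1 : HasDerivAt l1 l1' 0) (h2 : HasDerivAt l2 l2' 0)
    (q1 : ∀ᶠ s in 𝓝 (0 : ℝ), l1 s = Real.exp (m s) * Real.sqrt (1 /
      ((Real.exp (2 * m s) * P s + Real.exp (-(2 * m s)) * Q s) / 2 +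
        Real.sqrt (((Real.exp (2 * m s) * P s - Real.exp (-(2 * m s)) * Q s) / 2) ^ 2 + C s ^ 2))))
    (q2 : ∀ᶠ s in 𝓝 (0 : ℝ), l2 s = Real.exp (-(m s)) * Real.sqrt (1 /
      ((Real.exp (2 * m s) * P s + Real.exp (-(2 * m s)) * Q s) / 2 +
        Real.sqrt (((Real.exp (2 * m s) * P s - Real.exp (-(2 * m s)) * Q s) / 2) ^ 2 + C s ^ 2))))
    (hP0 : 0 ≤ P 0) (hQ0 : 0 ≤ Q 0) (hPQ : 0 < P 0 + Q 0) (hd : P 0 * Q 0 = C 0 ^ 2)
    (hd' : P' * Q 0 + P 0 * Q' = 2 * C 0 * C')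
    (hX : 0 < 2 * m' * (Real.exp (2 * m 0) * P 0 ^ 2 + Real.exp (-(2 * m 0)) * Q 0 ^ 2)
      + (P 0 - Q 0) / 2 * (Real.exp (2 * m 0) * P' + Real.exp (-(2 * m 0)) * Q'))
    {a b : ℝ} (hab : a ^ 2 * Q 0 = b ^ 2 * P 0) (hab0 : a ≠ 0 ∨ b ≠ 0) :
    a ^ 2 * l1 0 * l2' ≠ b ^ 2 * l2 0 * l1' := by
  set E : ℝ := Real.exp (2 * m 0) with hE
  set F : ℝ := Real.exp (-(2 * m 0)) with hF
  have hEp : 0 < E := Real.exp_pos _
  have hFp : 0 < F := Real.exp_pos _
  have hEF : E * F = 1 := by rw [hE, hF, ← Real.exp_add, add_neg_cancel, Real.exp_zero]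
  have dE : HasDerivAt (fun s => Real.exp (2 * m s)) (E * (2 * m')) 0 := (hm.const_mul 2).exp
  have dF : HasDerivAt (fun s => Real.exp (-(2 * m s))) (F * (-(2 * m'))) 0 :=
    ((hm.const_mul 2).neg).exp
  have dA := dE.mul hP
  have dB := dF.mul hQ
  have dT := (dA.add dB).div_const 2
  have dW := (dA.sub dB).div_const 2
  have dN := (dW.pow 2).add (hC.pow 2)
  have hN0 : ((E * P 0 - F * Q 0) / 2) ^ 2 + C 0 ^ 2 = ((E * P 0 + F * Q 0) / 2) ^ 2 := by
    rw [← hd]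
    linear_combination (-(P 0 * Q 0)) * hEF
  have hT0 : 0 < (E * P 0 + F * Q 0) / 2 := by
    have h3 : 0 ≤ E * P 0 := by positivity
    have h4 : 0 ≤ F * Q 0 := by positivity
    rcases hP0.lt_or_eq with h5 | h5
    · have : 0 < E * P 0 := by positivity
      linarith
    · have h6 : 0 < Q 0 := by linarith
      have : 0 < F * Q 0 := by positivity
      linarith
  have dS := dN.sqrt (by
    show ((E * P 0 - F * Q 0) / 2) ^ 2 + C 0 ^ 2 ≠ 0
    rw [hN0]; positivity)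
  have dR := dT.add dS
  obtain ⟨R', hR', hRd⟩ : ∃ R' : ℝ, HasDerivAt (fun s => (Real.exp (2 * m s) * P s +
      Real.exp (-(2 * m s)) * Q s) / 2 + Real.sqrt (((Real.exp (2 * m s) * P s -
      Real.exp (-(2 * m s)) * Q s) / 2) ^ 2 + C s ^ 2)) R' 0 ∧
      R' * (E * P 0 + F * Q 0) = E * P 0 * (E * (2 * m') * P 0 + E * P') +
        F * Q 0 * (F * (-(2 * m')) * Q 0 + F * Q') + 2 * C 0 * C' := by
    refine ⟨_, dR, ?_⟩
    simp only [Pi.add_apply, Pi.mul_apply, Pi.sub_apply, Pi.pow_apply]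
    rw [← hE, ← hF, hN0, Real.sqrt_sq hT0.le]
    have h3 : (E * P 0 + F * Q 0) / 2 ≠ 0 := hT0.ne'
    have h4 : E * P 0 + F * Q 0 ≠ 0 := by
      intro h
      rw [h] at h3
      simp at h3
    field_simp
    ring
  have hRv : (E * P 0 + F * Q 0) / 2 + Real.sqrt (((E * P 0 - F * Q 0) / 2) ^ 2 + C 0 ^ 2) =
      E * P 0 + F * Q 0 := by
    rw [hN0, Real.sqrt_sq hT0.le]
    ring
  have hR0 : 0 < E * P 0 + F * Q 0 := by linarith
  obtain ⟨k1, k2⟩ := BNv3_one (ε := 1) hm hR' h1 (by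
    show 0 < (E * P 0 + F * Q 0) / 2 + Real.sqrt (((E * P 0 - F * Q 0) / 2) ^ 2 + C 0 ^ 2)
    rw [hRv]; exact hR0) (by
    filter_upwards [q1] with s hs
    rw [hs, one_mul])
  obtain ⟨k3, k4⟩ := BNv3_one (ε := -1) hm hR' h2 (by
    show 0 < (E * P 0 + F * Q 0) / 2 + Real.sqrt (((E * P 0 - F * Q 0) / 2) ^ 2 + C 0 ^ 2)
    rw [hRv]; exact hR0) (by
    filter_upwards [q2] with s hs
    rw [hs, neg_one_mul])
  simp only [← hE, ← hF] at k2 k4
  rw [hRv] at k2 k4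
  set μ := E * P 0 + F * Q 0 with hμ
  intro hcon
  have e3 : l1' * (2 * μ) = l1 0 * (m' * (2 * μ) - R') := by
    rw [k2]; field_simp
  have e4 : l2' * (2 * μ) = l2 0 * (-(m' * (2 * μ)) - R') := by
    rw [k4]; field_simp
  have e5 : l1 0 * l2 0 * (a ^ 2 * (-(m' * (2 * μ)) - R') - b ^ 2 * (m' * (2 * μ) - R')) = 0 := by
    linear_combination (2 * μ) * hcon - (a ^ 2 * l1 0) * e4 + (b ^ 2 * l2 0) * e3
  have e6 : a ^ 2 * (-(m' * (2 * μ)) - R') - b ^ 2 * (m' * (2 * μ) - R') = 0 := by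
    rcases mul_eq_zero.1 e5 with h | h
    · exact absurd h (mul_pos k1 k3).ne'
    · exact h
  have hs : 0 < a ^ 2 + b ^ 2 := by
    rcases hab0 with h | h
    · have : 0 < a ^ 2 := by positivity
      have h3 := sq_nonneg b
      linarith
    · have : 0 < b ^ 2 := by positivity
      have h3 := sq_nonneg a
      linarith
  -- multiply by `(P + Q) μ`
  have e7 : (a ^ 2 + b ^ 2) * μ * (2 * (2 * m' * (E * P 0 ^ 2 + F * Q 0 ^ 2)
      + (P 0 - Q 0) / 2 * (E * P' + F * Q'))) = 0 := by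
    have a1 : a ^ 2 * (P 0 + Q 0) = P 0 * (a ^ 2 + b ^ 2) := by linear_combination hab
    have b1 : b ^ 2 * (P 0 + Q 0) = Q 0 * (a ^ 2 + b ^ 2) := by linear_combination (-1 : ℝ) * hab
    have e8 : (a ^ 2 + b ^ 2) * (P 0 * (-(m' * (2 * μ)) - R') - Q 0 * (m' * (2 * μ) - R')) = 0 := by
      linear_combination (P 0 + Q 0) * e6 - (-(m' * (2 * μ)) - R') * a1 + (m' * (2 * μ) - R') * b1
    have e9 : P 0 * (-(m' * (2 * μ)) - R') - Q 0 * (m' * (2 * μ) - R') = 0 := by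
      rcases mul_eq_zero.1 e8 with h | h
      · exact absurd h hs.ne'
      · exact h
    have e10 : 2 * μ * m' * (P 0 + Q 0) * μ + (P 0 - Q 0) * (R' * μ) = 0 := by
      linear_combination (-μ) * e9
    rw [hRd, ← hd', hμ] at e10
    rw [hμ]
    linear_combination (a ^ 2 + b ^ 2) * e10 + (a ^ 2 + b ^ 2) * (P' * Q 0 + P 0 * Q') * (P 0 - Q 0) * hEF
  have h9 : 0 < (a ^ 2 + b ^ 2) * μ * (2 * (2 * m' * (E * P 0 ^ 2 + F * Q 0 ^ 2)
      + (P 0 - Q 0) / 2 * (E * P' + F * Q'))) :=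
    mul_pos (mul_pos hs hR0) (by linarith)
  rw [e7] at h9
  exact lt_irrefl _ h9

omit [IsManifold 𝓘(ℝ, E2) ∞ M] in
theorem BNv3_wM {A B m : M → ℝ} {g : M → Bil} {p : M} (hG : PosDef (g p)) :
    wM A B m g p = ((Real.exp (2 * m p) * nrmD g A p + Real.exp (-(2 * m p)) * nrmD g B p) / 2,
      (Real.exp (2 * m p) * nrmD g A p - Real.exp (-(2 * m p)) * nrmD g B p) / 2,
      ip (g p) (dP A p) (dP B p)) := by
  have h1 : ip (g p) (alf A m p) (alf A m p) = Real.exp (2 * m p) * nrmD g A p := by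
    unfold alf nrmD
    rw [ip_smul_left, ip_comm hG, ip_smul_left, ← mul_assoc, ← Real.exp_add, two_mul]
  have h2 : ip (g p) (bet B m p) (bet B m p) = Real.exp (-(2 * m p)) * nrmD g B p := by
    unfold bet nrmD
    rw [ip_smul_left, ip_comm hG, ip_smul_left, ← mul_assoc, ← Real.exp_add]
    congr 2
    ring
  have h3 : ip (g p) (alf A m p) (bet B m p) = ip (g p) (dP A p) (dP B p) := by
    unfold alf bet
    rw [ip_smul_left, ip_comm hG, ip_smul_left, ← mul_assoc, ← Real.exp_add, ip_comm hG,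
      add_neg_cancel, Real.exp_zero, one_mul]
  unfold wM wOf
  rw [h1, h2, h3]

theorem BNv3_line {u : E2 → ℝ} {x n : E2} (hu : DifferentiableAt ℝ u x) :
    HasDerivAt (fun s : ℝ => u (x + s • n)) (fderiv ℝ u x n) 0 := by
  have h1 : HasDerivAt (fun s : ℝ => x + s • n) n 0 := by
    have := ((hasDerivAt_id (0 : ℝ)).smul_const n).const_add x
    simpa using this
  have h2 : HasFDerivAt u (fderiv ℝ u x) (x + (0 : ℝ) • n) := by
    rw [zero_smul, add_zero]
    exact hu.hasFDerivAt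
  exact h2.comp_hasDerivAt 0 h1

/-- on `Σ` (where `S = T = σ` near `p` and `σ = 1/μ₊`, `μ₊ = t + |w|` largest eigenvalue of the Gram
matrix of `(α, β)`): for every `v` with `(A_v, B_v) ≠ 0`:
`A_v² λ₁ λ₂_n - B_v² λ₂ λ₁_n ≠ 0`.
Proof.  `P Q = C²`, `C = ⟨dA, dB⟩`, and `(A_v², B_v²)` is a positive multiple of `(P, Q)`.
`log λ₁ = m + ½ log σ`, `log λ₂ = -m + ½ log σ` near `p`, so with `a = e^{2m}P`, `b = e^{-2m}Q`,
`μ₊ = a + b` at `p` and `(μ₊)_n = (a a_n + 2 C C_n + b b_n)/(a+b)` (derivative of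
`t + sqrt(w₁²+w₂²)`, where `sqrt = (a+b)/2` at `p`).  Since `PQ - C² = |dA∧dB|²` has zero differential
on `Σ`, `2 C C_n = P_n Q + P Q_n`; then `(μ₊)_n = 2 m_n (a-b) + e^{2m}P_n + e^{-2m}Q_n` and
`(a+b) (P (log λ₂)_n - Q (log λ₁)_n) = - Ξ`. -/
theorem sigma_nondeg {A B m : M → ℝ} {r0 τ : ℝ} {g : M → Bil} (hg : IsMetric g) (hr : 0 < r0)
    (hw : Weights g A B m τ) {p : M} (hp : detC (dP A p) (dP B p) = 0) :
    ∃ n : E2, dP A p n = 0 ∧ dP B p n = 0 ∧ n ≠ 0 ∧ ∀ v : E2, (dP A p v ≠ 0 ∨ dP B p v ≠ 0) →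
      (dP A p v) ^ 2 * lam1 r0 A B m g p * dP (lam2 r0 A B m g) p n ≠
        (dP B p v) ^ 2 * lam2 r0 A B m g p * dP (lam1 r0 A B m g) p n := by
  obtain ⟨sA, sB, sm, -, -, hne, hXi⟩ := hw
  obtain ⟨n, hAn, hBn, hX⟩ := hXi p hp
  have sP : Sm (nrmD g A) := sm_ip hg sA sA
  have sQ : Sm (nrmD g B) := sm_ip hg sB sB
  have sC : Sm (fun q => ip (g q) (dP A q) (dP B q)) := sm_ip hg sA sB
  set φ := chartAt E2 p with hφ
  have hφA : φ ∈ ATL M := chart_mem_ATL p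
  set x₀ : E2 := φ p with hx₀
  have hx : x₀ ∈ φ.target := mem_chart_target E2 p
  have hp0 : φ.symm x₀ = p := φ.left_inv (mem_chart_source E2 p)
  have hpos : ∀ q, 0 ≤ nrmD g A q ∧ 0 ≤ nrmD g B q := by
    intro q
    constructor
    · by_cases h : dP A q = 0
      · unfold nrmD
        rw [h]
        simp [ip]
      · exact (ip_self_pos (hg.2 q) h).le
    · by_cases h : dP B q = 0
      · unfold nrmD
        rw [h]
        simp [ip]
      · exact (ip_self_pos (hg.2 q) h).le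
  have hPQ : 0 < nrmD g A p + nrmD g B p := by
    rcases hne p with h | h
    · have h1 : 0 < nrmD g A p := ip_self_pos (hg.2 p) h
      have h2 := (hpos p).2
      linarith
    · have h1 : 0 < nrmD g B p := ip_self_pos (hg.2 p) h
      have h2 := (hpos p).1
      linarith
  have hdet : ∀ q, 0 ≤ nrmD g A q * nrmD g B q - ip (g q) (dP A q) (dP B q) ^ 2 := by
    intro q
    have h1 := ip_det (hg.2 q) (dP A q) (dP B q)
    unfold nrmD
    rw [h1]
    exact div_nonneg (sq_nonneg _) (dtB_pos (hg.2 q)).le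
  have hdet0 : nrmD g A p * nrmD g B p - ip (g p) (dP A p) (dP B p) ^ 2 = 0 := by
    have h1 := ip_det (hg.2 p) (dP A p) (dP B p)
    unfold nrmD
    rw [h1, hp]
    simp
  -- the local formula
  have hloc : ∀ᶠ q in 𝓝 p, ¬ (nW (wM A B m g q) ≤ r0 * dW (wM A B m g q)) := by
    have h1 : ∀ q, nW (wM A B m g q) = Real.sqrt (((Real.exp (2 * m q) * nrmD g A q -
        Real.exp (-(2 * m q)) * nrmD g B q) / 2) ^ 2 + ip (g q) (dP A q) (dP B q) ^ 2) := by
      intro q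
      rw [BNv3_wM (hg.2 q)]
      rfl
    have h2 : ∀ q, dW (wM A B m g q) =
        nrmD g A q * nrmD g B q - ip (g q) (dP A q) (dP B q) ^ 2 := by
      intro q
      rw [BNv3_wM (hg.2 q)]
      unfold dW
      have h3 : Real.exp (2 * m q) * Real.exp (-(2 * m q)) = 1 := by
        rw [← Real.exp_add, add_neg_cancel, Real.exp_zero]
      simp only []
      linear_combination (nrmD g A q * nrmD g B q) * h3
    have c1 := sP.continuous
    have c2 := sQ.continuous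
    have c3 := sC.continuous
    have c4 := sm.continuous
    have h3 : Continuous (fun q => Real.sqrt (((Real.exp (2 * m q) * nrmD g A q -
        Real.exp (-(2 * m q)) * nrmD g B q) / 2) ^ 2 + ip (g q) (dP A q) (dP B q) ^ 2)) := by
      fun_prop
    have h4 : Continuous (fun q => r0 *
        (nrmD g A q * nrmD g B q - ip (g q) (dP A q) (dP B q) ^ 2)) := by
      fun_prop
    have h5 : r0 * (nrmD g A p * nrmD g B p - ip (g p) (dP A p) (dP B p) ^ 2) <
        Real.sqrt (((Real.exp (2 * m p) * nrmD g A p -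
        Real.exp (-(2 * m p)) * nrmD g B p) / 2) ^ 2 + ip (g p) (dP A p) (dP B p) ^ 2) := by
      rw [hdet0, mul_zero]
      apply Real.sqrt_pos.2
      have h6 : Real.exp (2 * m p) * Real.exp (-(2 * m p)) = 1 := by
        rw [← Real.exp_add, add_neg_cancel, Real.exp_zero]
      have h7 : ((Real.exp (2 * m p) * nrmD g A p -
        Real.exp (-(2 * m p)) * nrmD g B p) / 2) ^ 2 + ip (g p) (dP A p) (dP B p) ^ 2 =
        ((Real.exp (2 * m p) * nrmD g A p +
        Real.exp (-(2 * m p)) * nrmD g B p) / 2) ^ 2 := by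
        linear_combination (-(nrmD g A p * nrmD g B p)) * h6 - hdet0
      rw [h7]
      have h8 : 0 < Real.exp (2 * m p) * nrmD g A p + Real.exp (-(2 * m p)) * nrmD g B p := by
        rcases hne p with h | h
        · have h1 : 0 < nrmD g A p := ip_self_pos (hg.2 p) h
          have h2 := (hpos p).2
          positivity
        · have h1 : 0 < nrmD g B p := ip_self_pos (hg.2 p) h
          have h2 := (hpos p).1
          positivity
      positivity
    filter_upwards [h4.continuousAt.eventually_lt h3.continuousAt h5] with q hq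
    rw [h1, h2]
    exact not_le.2 hq
  have hl1 : ∀ᶠ q in 𝓝 p, lam1 r0 A B m g q = Real.exp (m q) * Real.sqrt (1 /
      ((Real.exp (2 * m q) * nrmD g A q + Real.exp (-(2 * m q)) * nrmD g B q) / 2 +
        Real.sqrt (((Real.exp (2 * m q) * nrmD g A q - Real.exp (-(2 * m q)) * nrmD g B q) / 2) ^ 2
          + ip (g q) (dP A q) (dP B q) ^ 2))) := by
    filter_upwards [hloc] with q hq
    unfold lam1 SW
    rw [if_neg hq, BNv3_wM (hg.2 q)]
    rfl
  have hl2 : ∀ᶠ q in 𝓝 p, lam2 r0 A B m g q = Real.exp (-(m q)) * Real.sqrt (1 /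
      ((Real.exp (2 * m q) * nrmD g A q + Real.exp (-(2 * m q)) * nrmD g B q) / 2 +
        Real.sqrt (((Real.exp (2 * m q) * nrmD g A q - Real.exp (-(2 * m q)) * nrmD g B q) / 2) ^ 2
          + ip (g q) (dP A q) (dP B q) ^ 2))) := by
    filter_upwards [hloc] with q hq
    unfold lam2 TW
    rw [if_neg hq, BNv3_wM (hg.2 q)]
    rfl
  have hcont : Filter.Tendsto φ.symm (𝓝 x₀) (𝓝 p) := by
    have h1 := φ.continuousAt_symm hx
    unfold ContinuousAt at h1
    rwa [hp0] at h1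
  have hl1' := hcont.eventually hl1
  have hl2' := hcont.eventually hl2
  have hdif : ∀ {u : M → ℝ}, Sm u → DifferentiableAt ℝ (u ∘ φ.symm) x₀ := fun hu =>
    ((hu.loc hφA).contDiffAt (φ.open_target.mem_nhds hx)).differentiableAt (by simp)
  have dm := hdif sm
  have dP' := hdif sP
  have dQ' := hdif sQ
  have dC' := hdif sC
  have dE : DifferentiableAt ℝ (fun x => Real.exp (2 * (m ∘ φ.symm) x)) x₀ :=
    (dm.const_mul 2).exp
  have dF : DifferentiableAt ℝ (fun x => Real.exp (-(2 * (m ∘ φ.symm) x))) x₀ :=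
    ((dm.const_mul 2).neg).exp
  have dT : DifferentiableAt ℝ (fun x => (Real.exp (2 * (m ∘ φ.symm) x) * (nrmD g A ∘ φ.symm) x +
      Real.exp (-(2 * (m ∘ φ.symm) x)) * (nrmD g B ∘ φ.symm) x) / 2) x₀ := by
    simp only [div_eq_mul_inv]
    exact ((dE.mul dP').add (dF.mul dQ')).mul_const (2⁻¹ : ℝ)
  have dW : DifferentiableAt ℝ (fun x => (Real.exp (2 * (m ∘ φ.symm) x) * (nrmD g A ∘ φ.symm) x -
      Real.exp (-(2 * (m ∘ φ.symm) x)) * (nrmD g B ∘ φ.symm) x) / 2) x₀ := by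
    simp only [div_eq_mul_inv]
    exact ((dE.mul dP').sub (dF.mul dQ')).mul_const (2⁻¹ : ℝ)
  have hEF : Real.exp (2 * m p) * Real.exp (-(2 * m p)) = 1 := by
    rw [← Real.exp_add, add_neg_cancel, Real.exp_zero]
  have hsum : 0 < Real.exp (2 * m p) * nrmD g A p + Real.exp (-(2 * m p)) * nrmD g B p := by
    rcases hne p with h | h
    · have h1 : 0 < nrmD g A p := ip_self_pos (hg.2 p) h
      have h2 := (hpos p).2
      positivity
    · have h1 : 0 < nrmD g B p := ip_self_pos (hg.2 p) h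
      have h2 := (hpos p).1
      positivity
  have hrad : ((Real.exp (2 * m p) * nrmD g A p -
      Real.exp (-(2 * m p)) * nrmD g B p) / 2) ^ 2 + ip (g p) (dP A p) (dP B p) ^ 2 =
      ((Real.exp (2 * m p) * nrmD g A p +
      Real.exp (-(2 * m p)) * nrmD g B p) / 2) ^ 2 := by
    linear_combination (-(nrmD g A p * nrmD g B p)) * hEF - hdet0
  have dN := ((dW.pow 2).add (dC'.pow 2)).sqrt (by
    show ((Real.exp (2 * m (φ.symm x₀)) * nrmD g A (φ.symm x₀) -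
      Real.exp (-(2 * m (φ.symm x₀))) * nrmD g B (φ.symm x₀)) / 2) ^ 2 +
      ip (g (φ.symm x₀)) (dP A (φ.symm x₀)) (dP B (φ.symm x₀)) ^ 2 ≠ 0
    rw [hp0, hrad]
    positivity)
  have dR := dT.add dN
  have hR0 : 0 < (Real.exp (2 * m p) * nrmD g A p + Real.exp (-(2 * m p)) * nrmD g B p) / 2 +
      Real.sqrt (((Real.exp (2 * m p) * nrmD g A p -
      Real.exp (-(2 * m p)) * nrmD g B p) / 2) ^ 2 + ip (g p) (dP A p) (dP B p) ^ 2) := by
    positivity
  have dI := dR.inv (by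
    show (Real.exp (2 * m (φ.symm x₀)) * nrmD g A (φ.symm x₀) +
      Real.exp (-(2 * m (φ.symm x₀))) * nrmD g B (φ.symm x₀)) / 2 +
      Real.sqrt (((Real.exp (2 * m (φ.symm x₀)) * nrmD g A (φ.symm x₀) -
      Real.exp (-(2 * m (φ.symm x₀))) * nrmD g B (φ.symm x₀)) / 2) ^ 2 +
      ip (g (φ.symm x₀)) (dP A (φ.symm x₀)) (dP B (φ.symm x₀)) ^ 2) ≠ 0
    rw [hp0]
    exact hR0.ne')
  have dS := dI.sqrt (by
    show ((Real.exp (2 * m (φ.symm x₀)) * nrmD g A (φ.symm x₀) +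
      Real.exp (-(2 * m (φ.symm x₀))) * nrmD g B (φ.symm x₀)) / 2 +
      Real.sqrt (((Real.exp (2 * m (φ.symm x₀)) * nrmD g A (φ.symm x₀) -
      Real.exp (-(2 * m (φ.symm x₀))) * nrmD g B (φ.symm x₀)) / 2) ^ 2 +
      ip (g (φ.symm x₀)) (dP A (φ.symm x₀)) (dP B (φ.symm x₀)) ^ 2))⁻¹ ≠ 0
    rw [hp0]
    positivity)
  have d1 : DifferentiableAt ℝ (lam1 r0 A B m g ∘ φ.symm) x₀ := by
    refine (dm.exp.mul dS).congr_of_eventuallyEq ?_
    filter_upwards [hl1'] with y hy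
    show lam1 r0 A B m g (φ.symm y) = _
    rw [hy, one_div]
    rfl
  have d2 : DifferentiableAt ℝ (lam2 r0 A B m g ∘ φ.symm) x₀ := by
    refine (dm.neg.exp.mul dS).congr_of_eventuallyEq ?_
    filter_upwards [hl2'] with y hy
    show lam2 r0 A B m g (φ.symm y) = _
    rw [hy, one_div]
    rfl
  have hγ0 : φ.symm (x₀ + (0 : ℝ) • n) = p := by rw [zero_smul, add_zero, hp0]
  have hγ : Filter.Tendsto (fun s : ℝ => φ.symm (x₀ + s • n)) (𝓝 0) (𝓝 p) := by
    have h1 : Filter.Tendsto (fun s : ℝ => x₀ + s • n) (𝓝 0) (𝓝 x₀) := by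
      have h2 : Continuous (fun s : ℝ => x₀ + s • n) := by fun_prop
      have h3 := h2.tendsto 0
      rwa [zero_smul, add_zero] at h3
    exact hcont.comp h1
  have lm : HasDerivAt (fun s : ℝ => m (φ.symm (x₀ + s • n))) (dP m p n) 0 := BNv3_line dm
  have lP : HasDerivAt (fun s : ℝ => nrmD g A (φ.symm (x₀ + s • n))) (dP (nrmD g A) p n) 0 :=
    BNv3_line dP'
  have lQ : HasDerivAt (fun s : ℝ => nrmD g B (φ.symm (x₀ + s • n))) (dP (nrmD g B) p n) 0 :=
    BNv3_line dQ'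
  have lC : HasDerivAt (fun s : ℝ => ip (g (φ.symm (x₀ + s • n))) (dP A (φ.symm (x₀ + s • n)))
      (dP B (φ.symm (x₀ + s • n)))) (dP (fun q => ip (g q) (dP A q) (dP B q)) p n) 0 :=
    BNv3_line dC'
  have l1 : HasDerivAt (fun s : ℝ => lam1 r0 A B m g (φ.symm (x₀ + s • n)))
      (dP (lam1 r0 A B m g) p n) 0 := BNv3_line d1
  have l2 : HasDerivAt (fun s : ℝ => lam2 r0 A B m g (φ.symm (x₀ + s • n)))
      (dP (lam2 r0 A B m g) p n) 0 := BNv3_line d2
  have hdd : dP (nrmD g A) p n * nrmD g B p + nrmD g A p * dP (nrmD g B) p n =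
      2 * ip (g p) (dP A p) (dP B p) * dP (fun q => ip (g q) (dP A q) (dP B q)) p n := by
    have h1 := (lP.mul lQ).sub (lC.pow 2)
    have h2 := IsLocalMin.hasDerivAt_eq_zero (a := (0 : ℝ)) (by
      refine Filter.Eventually.of_forall fun s => ?_
      show nrmD g A (φ.symm (x₀ + (0 : ℝ) • n)) * nrmD g B (φ.symm (x₀ + (0 : ℝ) • n)) -
        ip (g (φ.symm (x₀ + (0 : ℝ) • n))) (dP A (φ.symm (x₀ + (0 : ℝ) • n)))
          (dP B (φ.symm (x₀ + (0 : ℝ) • n))) ^ 2 ≤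
        nrmD g A (φ.symm (x₀ + s • n)) * nrmD g B (φ.symm (x₀ + s • n)) -
        ip (g (φ.symm (x₀ + s • n))) (dP A (φ.symm (x₀ + s • n)))
          (dP B (φ.symm (x₀ + s • n))) ^ 2
      rw [hγ0, hdet0]
      exact hdet _) h1
    rw [hγ0] at h2
    simp only [Nat.cast_ofNat] at h2
    linear_combination h2
  refine ⟨n, hAn, hBn, ?_, fun v hv => ?_⟩
  · rintro rfl
    unfold Xi at hX
    simp at hX
  · have hcol : (dP B p v) • dP A p = (dP A p v) • dP B p := by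
      have h1 : ∀ w : E2, (dP B p v) * dP A p w = (dP A p v) * dP B p w := by
        intro w
        have a1 := bip_cov (dP A p) v
        have a2 := bip_cov (dP B p) v
        have a3 := bip_cov (dP A p) w
        have a4 := bip_cov (dP B p) w
        simp only [smul_eq_mul] at a1 a2 a3 a4
        rw [a1, a2, a3, a4]
        unfold detC at hp
        linear_combination (v.1 * w.2 - v.2 * w.1) * (-hp)
      ext
      · simpa using h1 _
      · simpa using h1 _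
    have hab : dP A p v ^ 2 * nrmD g B p = dP B p v ^ 2 * nrmD g A p := by
      have h1 : dP B p v ^ 2 * nrmD g A p =
          ip (g p) (dP B p v • dP A p) (dP B p v • dP A p) := by
        unfold nrmD
        rw [ip_smul_left, ip_comm (hg.2 p) (dP A p) (dP B p v • dP A p), ip_smul_left]
        ring
      have h2 : dP A p v ^ 2 * nrmD g B p =
          ip (g p) (dP A p v • dP B p) (dP A p v • dP B p) := by
        unfold nrmD
        rw [ip_smul_left, ip_comm (hg.2 p) (dP B p) (dP A p v • dP B p), ip_smul_left]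
        ring
      rw [h1, h2, hcol]
    have hfin := BNv3_scal lm lP lQ lC l1 l2 (hγ.eventually hl1) (hγ.eventually hl2)
      (by rw [hγ0]; exact (hpos p).1) (by rw [hγ0]; exact (hpos p).2) (by rw [hγ0]; exact hPQ)
      (by rw [hγ0]; linarith [hdet0]) (by rw [hγ0]; exact hdd) (by
        rw [hγ0]
        exact hX) (a := dP A p v) (b := dP B p v) (by rw [hγ0]; exact hab) hv
    rw [hγ0] at hfin
    exact hfin

end P205F
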