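import Mathlib
import Vale.Agent.Lib.P205B.BNv2
import Vale.Agent.Lib.P205B.BNv3
import Vale.Agent.Lib.P205F.MD3

/-!
# P205F BASE: the base map and its nondegeneracy

`f_h = h (λ₁ e^{iA/h}, λ₂ e^{iB/h}) ∈ ℂ² = ℝ⁴`.  In the slow frame `FF = (e^{iA/h}, e^{iB/h})`:
`FF⁻¹ f_v = (h λ₁_v + i A_v λ₁, h λ₂_v + i B_v λ₂)`,
`h FF⁻¹ f_vv = (-A_v² λ₁ + i h (2 A_v λ₁_v + A_vv λ₁) + h² λ₁_vv, same for λ₂, B)`.
`gram3` is invariant under the rotation `FF`.

`nv_local`, case 1 (`dA ∧ dB ≠ 0` at `x₀`): at `h = 0` the vectors are `i(A_1λ₁, B_1λ₂)`,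
`i(A_2λ₁, B_2λ₂)`, `-(A_v²λ₁, B_v²λ₂)`, independent, so `gram3 (f_1, f_2, h f_vv) ≥ c` near `(x₀, v₀, 0)`.
Case 2 (`dA n = dB n = 0` at `x₀`, `n` constant): the two minors `(Re₁, Re₂, Im₁)`, `(Re₁, Re₂, Im₂)`
of `(f_v, f_n/h, h f_vv)` (in the slow frame) are the components of
`det(R_n, R_vv) I_v - det(R_v, R_vv) I_n + det(R_v, R_n) I_vv` with `R_v = h λ_v`, `R_n = λ_n`,
`I_v = (A_vλ₁, B_vλ₂)`, `I_n = (A_nλ₁, B_nλ₂)/h`, `R_vv = -(A_v²λ₁, B_v²λ₂) + h²λ_vv`, `I_vv = h (…)`;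
the factor `1/h` cancels: the expression is continuous in `(x, v, h)` also at `h = 0` and its value at
`(x₀, v₀, 0)` is `- det(λ_n, (A_v²λ₁, B_v²λ₂)) (A_vλ₁, B_vλ₂) ≠ 0`.  Hence
`gram3 (f_v, f_n, f_vv) = gram3 (f_v, f_n/h, h f_vv) ≥ c`, and
`gram3 (f_v, f_n, f_vv) = det(v,n)² gram3 (f_1, f_2, f_vv)`, `det (v,n)` bounded.
-/

noncomputable section

namespace P205F

open scoped Manifold ContDiff Topology RealInnerProductSpace
open Set

set_option maxSynthPendingDepth 3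

theorem BNv_ca {V : Type*} [NormedAddCommGroup V] [NormedSpace ℝ V] {F : E2 × ℝ → V} {U : Set E2}
    (hU : IsOpen U) {h₁ : ℝ} (hh : 0 < h₁) (hF : ContDiffOn ℝ ∞ F (U ×ˢ Ioo (-h₁) h₁)) {x₀ : E2}
    (hx : x₀ ∈ U) (v₀ : E2) :
    ContinuousAt (fun q : (E2 × E2) × ℝ => F (q.1.1, q.2)) ((x₀, v₀), 0) := by
  have h1 : ContinuousAt F (x₀, 0) :=
    hF.continuousOn.continuousAt ((hU.prod isOpen_Ioo).mem_nhds
      ⟨hx, by constructor <;> linarith⟩)
  have h2 : ContinuousAt (fun q : (E2 × E2) × ℝ => ((q.1.1, q.2) : E2 × ℝ)) ((x₀, v₀), 0) := by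
    fun_prop
  exact ContinuousAt.comp (f := fun q : (E2 × E2) × ℝ => ((q.1.1, q.2) : E2 × ℝ)) (g := F) h1 h2

theorem BNv_cd {u : E2 → ℝ} {U : Set E2} (hU : IsOpen U) (hu : ContDiffOn ℝ ∞ u U) {x₀ : E2}
    (hx : x₀ ∈ U) (v₀ : E2) :
    ContinuousAt (fun q : (E2 × E2) × ℝ => fderiv ℝ u q.1.1 q.1.2) ((x₀, v₀), 0) := by
  have h0 : ContDiffOn ℝ ∞ (fderiv ℝ u) U := hu.fderiv_of_isOpen hU (by simp)
  have h1 : ContinuousAt (fderiv ℝ u) x₀ := h0.continuousOn.continuousAt (hU.mem_nhds hx)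
  have h2 : ContinuousAt (fun q : (E2 × E2) × ℝ => fderiv ℝ u q.1.1) ((x₀, v₀), 0) := by
    have h3 : ContinuousAt (fun q : (E2 × E2) × ℝ => q.1.1) ((x₀, v₀), 0) := by fun_prop
    exact ContinuousAt.comp (f := fun q : (E2 × E2) × ℝ => q.1.1) (g := fderiv ℝ u) h1 h3
  have h4 : ContinuousAt (fun q : (E2 × E2) × ℝ => q.1.2) ((x₀, v₀), 0) := by fun_prop
  exact h2.clm_apply h4

/-- an eventual property near `(z, 0)` -/
theorem BNv_ev {Z : Type*} [TopologicalSpace Z] {P : Z → ℝ → Prop} {z : Z}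
    (h : ∀ᶠ q : Z × ℝ in 𝓝 (z, 0), P q.1 q.2) :
    ∃ h₂ : ℝ, 0 < h₂ ∧ ∀ᶠ y in 𝓝 z, ∀ h ∈ Ioo 0 h₂, P y h := by
  rw [nhds_prod_eq, Filter.eventually_prod_iff] at h
  obtain ⟨pa, ha, pb, hb, hab⟩ := h
  obtain ⟨ε, hε, hb'⟩ := Metric.eventually_nhds_iff.1 hb
  refine ⟨ε, hε, ?_⟩
  filter_upwards [ha] with y hy t ht
  refine hab hy (hb' ?_)
  rw [Real.dist_eq, sub_zero, abs_of_pos ht.1]
  exact ht.2

variable {M : Type} [TopologicalSpace M] [ChartedSpace E2 M] [IsManifold 𝓘(ℝ, E2) ∞ M]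

theorem BNv_sq {u : M → ℝ} {φ : OpenPartialHomeomorph M E2} (hφ : φ ∈ ATL M) {x : E2}
    (hx : x ∈ φ.target) (hu : DifferentiableAt ℝ (u ∘ φ.symm) x) (v : E2) :
    sqT u (φ.symm x) (TTi φ x v) (TTi φ x v) = fderiv ℝ (u ∘ φ.symm) x v ^ 2 := by
  rw [← dP_comp_TTi hφ hx hu]
  change dP u (φ.symm x) (TTi φ x v) * dP u (φ.symm x) (TTi φ x v) =
    dP u (φ.symm x) (TTi φ x v) ^ 2
  ring

/-- the form `η² Q̃` in a chart -/
theorem BNv_formula {A B m : M → ℝ} {r0 τ h₁ : ℝ} {g : M → Bil} {k : ℕ} {G : M → ℝ → Bil}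
    (hr : 0 < r0) (hw : Weights g A B m τ) (hI : IterPack g A B m r0 k h₁ G)
    {φ : OpenPartialHomeomorph M E2} (hφ : φ ∈ ATL M) {x : E2} (hx : x ∈ φ.target) {h : ℝ}
    (hh : h ∈ Ioo (-h₁) h₁) (v : E2) :
    etM r0 A B m (fun q => G q h) (φ.symm x) ^ 2 *
        locT φ (QtM r0 A B m (fun q => G q h)) x v v =
      locT φ (fun p => G p h) x v v
        - lam1 r0 A B m (fun q => G q h) (φ.symm x) ^ 2 * fderiv ℝ (A ∘ φ.symm) x v ^ 2
        - lam2 r0 A B m (fun q => G q h) (φ.symm x) ^ 2 * fderiv ℝ (B ∘ φ.symm) x v ^ 2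
        - 4 * beM r0 A B m (fun q => G q h) (φ.symm x) ^ 2 *
          ((fderiv ℝ (A ∘ φ.symm) x v + fderiv ℝ (B ∘ φ.symm) x v) / 2) ^ 2 := by
  have hdA : DifferentiableAt ℝ (A ∘ φ.symm) x :=
    ((hw.1.loc hφ).contDiffAt (φ.open_target.mem_nhds hx)).differentiableAt (by simp)
  have hdB : DifferentiableAt ℝ (B ∘ φ.symm) x :=
    ((hw.2.1.loc hφ).contDiffAt (φ.open_target.mem_nhds hx)).differentiableAt (by simp)
  have hdC : HasFDerivAt ((fun q => (A q + B q) / 2) ∘ φ.symm)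
      ((2 : ℝ)⁻¹ • (fderiv ℝ (A ∘ φ.symm) x + fderiv ℝ (B ∘ φ.symm) x)) x := by
    have h1 := (hdA.hasFDerivAt.add hdB.hasFDerivAt).mul_const (2 : ℝ)⁻¹
    exact h1
  have h1 := dec_M hr hw (hI.2.2.2.1 h hh) (φ.symm x)
  have h2 := congrArg (fun L : Bil => L (TTi φ x v) (TTi φ x v)) h1
  simp only [add_apply, smul_apply, smul_eq_mul] at h2
  rw [BNv_sq hφ hx hdA, BNv_sq hφ hx hdB, BNv_sq hφ hx hdC.differentiableAt, hdC.fderiv] at h2
  simp only [add_apply, smul_apply, smul_eq_mul] at h2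
  have h3 : locT φ (fun p => G p h) x v v = G (φ.symm x) h (TTi φ x v) (TTi φ x v) := rfl
  have h4 : locT φ (QtM r0 A B m (fun q => G q h)) x v v =
      QtM r0 A B m (fun q => G q h) (φ.symm x) (TTi φ x v) (TTi φ x v) := rfl
  rw [h3, h4, h2]
  ring

/-- local version of `nv_all` -/
theorem BNv_local {A B m : M → ℝ} {r0 τ h₁ : ℝ} {g : M → Bil} {k : ℕ} {G : M → ℝ → Bil}
    (hg : IsMetric g) (hr : 0 < r0) (hw : Weights g A B m τ) (hI : IterPack g A B m r0 k h₁ G)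
    {φ : OpenPartialHomeomorph M E2} (hφ : φ ∈ ATL M) {x₀ : E2} (hx : x₀ ∈ φ.target) {v₀ : E2}
    (hv : v₀ ≠ 0) :
    ∃ c : ℝ, 0 < c ∧ ∃ h₂ : ℝ, 0 < h₂ ∧ ∀ᶠ q in 𝓝 (x₀, v₀), ∀ h ∈ Ioo 0 h₂,
      etM r0 A B m (fun q => G q h) (φ.symm q.1) ^ 2 *
        locT φ (QtM r0 A B m (fun q => G q h)) q.1 q.2 q.2 = 0 →
      c ≤ gramV (bmM A B (lam1 r0 A B m (fun q => G q h)) (lam2 r0 A B m (fun q => G q h)) h ∘
        φ.symm) q.2 q.1 := by
  have hh : 0 < h₁ := hI.1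
  obtain ⟨s1, s2, s3, -⟩ := smP_lam hr hw hI.2.1 hI.2.2.2.1
  have h00 : (0 : ℝ) ∈ Ioo (-h₁) h₁ := ⟨by linarith, hh⟩
  have hgG : (fun p => G p 0) = g := funext hI.2.2.1
  by_cases h0 : etM r0 A B m (fun q => G q 0) (φ.symm x₀) ^ 2 *
        locT φ (QtM r0 A B m (fun q => G q 0)) x₀ v₀ v₀ = 0
  · -- nondegenerate case
    have hdA : DifferentiableAt ℝ (A ∘ φ.symm) x₀ :=
      ((hw.1.loc hφ).contDiffAt (φ.open_target.mem_nhds hx)).differentiableAt (by simp)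
    have hdB : DifferentiableAt ℝ (B ∘ φ.symm) x₀ :=
      ((hw.2.1.loc hφ).contDiffAt (φ.open_target.mem_nhds hx)).differentiableAt (by simp)
    have hAB : fderiv ℝ (A ∘ φ.symm) x₀ v₀ ≠ 0 ∨ fderiv ℝ (B ∘ φ.symm) x₀ v₀ ≠ 0 := by
      by_contra hcon
      push Not at hcon
      rw [BNv_formula hr hw hI hφ hx h00, hcon.1, hcon.2, hgG] at h0
      have h1 := ((posDef_locT hφ hx).2 (hg.2 (φ.symm x₀))).2 v₀ hv
      have h2 : locT φ g x₀ v₀ v₀ = 0 := by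
        rw [← h0]
        ring
      linarith
    have hpos := lam_pos hr hw (hI.2.2.2.1 0 h00) (φ.symm x₀)
    obtain ⟨c, hc, h₂, hh2, hev⟩ := nv_local φ.open_target hh (A := A ∘ φ.symm) (B := B ∘ φ.symm)
      (l1 := fun y h => lam1 r0 A B m (fun q => G q h) (φ.symm y))
      (l2 := fun y h => lam2 r0 A B m (fun q => G q h) (φ.symm y))
      (hw.1.loc hφ) (hw.2.1.loc hφ) (s1 φ hφ) (s2 φ hφ) hx hv hpos.1 hpos.2 (by
        by_cases hdet : detC (fderiv ℝ (A ∘ φ.symm) x₀) (fderiv ℝ (B ∘ φ.symm) x₀) = 0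
        · right
          have hA' := dP_comp_TTi (F := A) hφ hx hdA
          have hB' := dP_comp_TTi (F := B) hφ hx hdB
          have hTT : ∀ v, TT φ (φ.symm x₀) (TTi φ x₀ v) = v := fun v => by
            rw [← ContinuousLinearMap.comp_apply, TT_comp_TTi hφ hx]; rfl
          have hTTi : ∀ v, TTi φ x₀ (TT φ (φ.symm x₀) v) = v := fun v => by
            have h := TTi_comp_TT hφ (φ.map_target hx)
            rw [φ.right_inv hx] at h
            rw [← ContinuousLinearMap.comp_apply, h]; rfl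
          have eA : ∀ w, fderiv ℝ (A ∘ φ.symm) x₀ w = dP A (φ.symm x₀) (TTi φ x₀ w) :=
            fun w => by rw [← hA']; rfl
          have eB : ∀ w, fderiv ℝ (B ∘ φ.symm) x₀ w = dP B (φ.symm x₀) (TTi φ x₀ w) :=
            fun w => by rw [← hB']; rfl
          have hdet' : detC (dP A (φ.symm x₀)) (dP B (φ.symm x₀)) = 0 := by
            obtain ⟨n', hn', n1, n2⟩ := BXyz_ker (α := fderiv ℝ (A ∘ φ.symm) x₀)
              (β := fderiv ℝ (B ∘ φ.symm) x₀) (by rw [← hdet]; unfold detC; ring)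
            by_contra hne
            have h3 := BXyz_inj (α := dP A (φ.symm x₀)) (β := dP B (φ.symm x₀))
              (fun h4 => hne (by rw [← h4]; unfold detC; ring)) (v := TTi φ x₀ n')
              (by rw [← eA]; exact n1) (by rw [← eB]; exact n2)
            apply hn'
            rw [← hTT n', h3, map_zero]
          obtain ⟨n, n1, n2, -, hn⟩ := sigma_nondeg hg hr hw hdet'
          refine ⟨TT φ (φ.symm x₀) n, ?_, ?_, ?_⟩
          · rw [eA, hTTi, n1]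
          · rw [eB, hTTi, n2]
          · have h3 := hn (TTi φ x₀ v₀) (by rw [← eA, ← eB]; exact hAB)
            have hsl1 : DifferentiableAt ℝ (lam1 r0 A B m g ∘ φ.symm) x₀ := by
              have h4 := bip_slice (s1 φ hφ) h00
              have h5 := (h4.contDiffAt (φ.open_target.mem_nhds hx)).differentiableAt (by simp)
              have h6 : (fun x : E2 => lam1 r0 A B m (fun q => G q 0) (φ.symm x)) =
                  lam1 r0 A B m g ∘ φ.symm := by rw [hgG]; rfl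
              rw [← h6]
              exact h5
            have hsl2 : DifferentiableAt ℝ (lam2 r0 A B m g ∘ φ.symm) x₀ := by
              have h4 := bip_slice (s2 φ hφ) h00
              have h5 := (h4.contDiffAt (φ.open_target.mem_nhds hx)).differentiableAt (by simp)
              have h6 : (fun x : E2 => lam2 r0 A B m (fun q => G q 0) (φ.symm x)) =
                  lam2 r0 A B m g ∘ φ.symm := by rw [hgG]; rfl
              rw [← h6]
              exact h5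
            have e1' := congrArg (fun L : E2 →L[ℝ] ℝ => L (TT φ (φ.symm x₀) n))
              (dP_comp_TTi (F := lam1 r0 A B m g) hφ hx hsl1)
            have e2' := congrArg (fun L : E2 →L[ℝ] ℝ => L (TT φ (φ.symm x₀) n))
              (dP_comp_TTi (F := lam2 r0 A B m g) hφ hx hsl2)
            simp only [ContinuousLinearMap.comp_apply, hTTi] at e1' e2'
            rw [e1', e2', ← eA, ← eB] at h3
            rw [hgG]
            exact h3
        · left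
          exact hdet)
    refine ⟨c, hc, h₂, hh2, ?_⟩
    filter_upwards [hev] with q hq h hh' _
    exact hq h hh'
  · -- vacuous case
    have hcont : ContinuousAt (fun q : (E2 × E2) × ℝ =>
        locT φ (fun p => G p q.2) q.1.1 q.1.2 q.1.2
        - lam1 r0 A B m (fun p => G p q.2) (φ.symm q.1.1) ^ 2 *
          fderiv ℝ (A ∘ φ.symm) q.1.1 q.1.2 ^ 2
        - lam2 r0 A B m (fun p => G p q.2) (φ.symm q.1.1) ^ 2 *
          fderiv ℝ (B ∘ φ.symm) q.1.1 q.1.2 ^ 2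
        - 4 * beM r0 A B m (fun p => G p q.2) (φ.symm q.1.1) ^ 2 *
          ((fderiv ℝ (A ∘ φ.symm) q.1.1 q.1.2 + fderiv ℝ (B ∘ φ.symm) q.1.1 q.1.2) / 2) ^ 2)
        ((x₀, v₀), 0) := by
      have c0 : ContinuousAt (fun q : (E2 × E2) × ℝ => q.1.2) ((x₀, v₀), 0) := by fun_prop
      have c1 := BNv_ca φ.open_target hh (hI.2.1 φ hφ) hx v₀
      have c2 := BNv_ca φ.open_target hh (s1 φ hφ) hx v₀
      have c3 := BNv_ca φ.open_target hh (s2 φ hφ) hx v₀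
      have c4 := BNv_ca φ.open_target hh (s3 φ hφ) hx v₀
      have c5 := BNv_cd φ.open_target (hw.1.loc hφ) hx v₀
      have c6 := BNv_cd φ.open_target (hw.2.1.loc hφ) hx v₀
      exact ((((c1.clm_apply c0).clm_apply c0).sub ((c2.pow 2).mul (c5.pow 2))).sub
        ((c3.pow 2).mul (c6.pow 2))).sub
        ((continuousAt_const.mul (c4.pow 2)).mul (((c5.add c6).div_const 2).pow 2))
    have hne := hcont.eventually_ne (y := 0) (by
      rw [← BNv_formula hr hw hI hφ hx h00]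
      exact h0)
    obtain ⟨h₂, hh2, hev⟩ := BNv_ev (P := fun (q : E2 × E2) (h : ℝ) =>
      locT φ (fun p => G p h) q.1 q.2 q.2
        - lam1 r0 A B m (fun p => G p h) (φ.symm q.1) ^ 2 *
          fderiv ℝ (A ∘ φ.symm) q.1 q.2 ^ 2
        - lam2 r0 A B m (fun p => G p h) (φ.symm q.1) ^ 2 *
          fderiv ℝ (B ∘ φ.symm) q.1 q.2 ^ 2
        - 4 * beM r0 A B m (fun p => G p h) (φ.symm q.1) ^ 2 *
          ((fderiv ℝ (A ∘ φ.symm) q.1 q.2 + fderiv ℝ (B ∘ φ.symm) q.1 q.2) / 2) ^ 2 ≠ 0) hne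
    refine ⟨1, one_pos, min h₂ h₁, lt_min hh2 hh, ?_⟩
    have htar : ∀ᶠ q : E2 × E2 in 𝓝 (x₀, v₀), q.1 ∈ φ.target :=
      continuousAt_fst.eventually (φ.open_target.mem_nhds hx)
    filter_upwards [hev, htar] with q hq hqt h hh' hz
    have hh1 : h ∈ Ioo (-h₁) h₁ :=
      ⟨by linarith [hh'.1], hh'.2.trans_le (min_le_right _ _)⟩
    rw [BNv_formula hr hw hI hφ hqt hh1] at hz
    exact absurd hz (hq h ⟨hh'.1, hh'.2.trans_le (min_le_left _ _)⟩)

/-- nondegeneracy on `M`: directions in the kernel of `Q_V = η² Q̃` are good, uniformly in `h` -/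
theorem nv_all [CompactSpace M] (𝒜 : FinAtlas M) {A B m : M → ℝ} {r0 τ h₁ : ℝ} {g : M → Bil}
    {k : ℕ} {G : M → ℝ → Bil} (hg : IsMetric g) (hr : 0 < r0) (hw : Weights g A B m τ)
    (hI : IterPack g A B m r0 k h₁ G) :
    ∃ c : ℝ, 0 < c ∧ ∃ h₂ ∈ Ioc 0 (h₁ / 2), ∀ h ∈ Ioo 0 h₂, ∀ j, ∀ x ∈ Metric.closedBall (0 : E2) 3,
      ∀ v : E2, ‖v‖ = 1 →
      etM r0 A B m (fun q => G q h) ((𝒜.φ j).symm x) ^ 2 *
        locT (𝒜.φ j) (QtM r0 A B m (fun q => G q h)) x v v = 0 →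
      c ≤ gramV (bmM A B (lam1 r0 A B m (fun q => G q h)) (lam2 r0 A B m (fun q => G q h)) h ∘
        (𝒜.φ j).symm) v x := by
  have hh : 0 < h₁ := hI.1
  have key : ∀ j : Fin 𝒜.n, ∃ c : ℝ, 0 < c ∧ ∃ h₂ : ℝ, 0 < h₂ ∧
      ∀ q ∈ Metric.closedBall (0 : E2) 3 ×ˢ Metric.sphere (0 : E2) 1, ∀ h ∈ Ioo 0 h₂,
      etM r0 A B m (fun q => G q h) ((𝒜.φ j).symm q.1) ^ 2 *
        locT (𝒜.φ j) (QtM r0 A B m (fun q => G q h)) q.1 q.2 q.2 = 0 →
      c ≤ gramV (bmM A B (lam1 r0 A B m (fun q => G q h)) (lam2 r0 A B m (fun q => G q h)) h ∘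
        (𝒜.φ j).symm) q.2 q.1 := by
    intro j
    have hsub : Metric.closedBall (0 : E2) 3 ⊆ (𝒜.φ j).target :=
      (Metric.closedBall_subset_closedBall (by norm_num)).trans (𝒜.target j)
    refine ((isCompact_closedBall (0 : E2) 3).prod (isCompact_sphere (0 : E2) 1)).induction_on
      (p := fun s => ∃ c : ℝ, 0 < c ∧ ∃ h₂ : ℝ, 0 < h₂ ∧ ∀ q ∈ s, ∀ h ∈ Ioo 0 h₂,
        etM r0 A B m (fun q => G q h) ((𝒜.φ j).symm q.1) ^ 2 *
          locT (𝒜.φ j) (QtM r0 A B m (fun q => G q h)) q.1 q.2 q.2 = 0 →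
        c ≤ gramV (bmM A B (lam1 r0 A B m (fun q => G q h)) (lam2 r0 A B m (fun q => G q h)) h ∘
          (𝒜.φ j).symm) q.2 q.1) ?_ ?_ ?_ ?_
    · exact ⟨1, one_pos, 1, one_pos, fun q hq => absurd hq (notMem_empty q)⟩
    · rintro s t hst ⟨c, hc, h₂, hh2, H⟩
      exact ⟨c, hc, h₂, hh2, fun q hq => H q (hst hq)⟩
    · rintro s t ⟨c, hc, h₂, hh2, H⟩ ⟨c', hc', h₂', hh2', H'⟩
      refine ⟨min c c', lt_min hc hc', min h₂ h₂', lt_min hh2 hh2', fun q hq h hh' hz => ?_⟩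
      rcases hq with hq | hq
      · exact (min_le_left _ _).trans
          (H q hq h ⟨hh'.1, hh'.2.trans_le (min_le_left _ _)⟩ hz)
      · exact (min_le_right _ _).trans
          (H' q hq h ⟨hh'.1, hh'.2.trans_le (min_le_right _ _)⟩ hz)
    · rintro ⟨x₀, v₀⟩ ⟨hx0, hv0⟩
      have hv0' : v₀ ≠ 0 := by
        rintro rfl
        simp at hv0
      obtain ⟨c, hc, h₂, hh2, hev⟩ := BNv_local hg hr hw hI (𝒜.mem j) (hsub hx0) hv0'
      exact ⟨_, mem_nhdsWithin_of_mem_nhds hev, c, hc, h₂, hh2, fun q hq => hq⟩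
  choose c hc h₂ hh2 H using key
  obtain ⟨c0, hc0, hcle⟩ := MD3_fin_pos c hc
  obtain ⟨t0, ht0, htle⟩ := MD3_fin_pos h₂ hh2
  refine ⟨c0, hc0, min t0 (h₁ / 2), ⟨lt_min ht0 (by linarith), min_le_right _ _⟩,
    fun h hh' j x hx v hv hz => ?_⟩
  exact (hcle j).trans (H j (x, v) ⟨hx, by simpa using hv⟩ h
    ⟨hh'.1, hh'.2.trans_le ((min_le_left _ _).trans (htle j))⟩ hz)

end P205F
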