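import Mathlib
import Vale.Agent.Lib.P205B.BNv
import Vale.Agent.Lib.P205F.MStmt

/-!
# P205F BASE: the compact set `KO`, the invariant for the base map, and the base package

`KO := {p | ε ≤ dW (wM g p)}`, `KT := {p | 2 ε ≤ dW (wM g p)}` with `ε` small:
`tsupport β(h) ⊆ {|w| ≤ r₀ d}` (for `G(·,h)`), and for `h`
small this closed set is contained in `KT` (compactness: at `h = 0` a point with
`|w| ≤ r₀ d`, `d ≤ ε` has `t² = |w|² + d ≤ r₀² ε² + ε`, impossible when `t ≥ t_min > 0` and `ε` small).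
-/

noncomputable section

namespace P205F

open scoped Manifold ContDiff Topology RealInnerProductSpace
open Set

set_option maxSynthPendingDepth 3

section BF7_planar

theorem BF7_gram_le (a b c : V4) : gram3 a b c ≤
    (inner ℝ a a * inner ℝ b b - inner ℝ a b ^ 2) * inner ℝ c c := by
  have h := real_inner_self_nonneg (x := (inner ℝ b c : ℝ) • a - (inner ℝ a c : ℝ) • b)
  rw [inner_sub_left, inner_sub_right, inner_sub_right, real_inner_smul_left,
    real_inner_smul_left, real_inner_smul_left, real_inner_smul_left, real_inner_smul_right,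
    real_inner_smul_right, real_inner_smul_right, real_inner_smul_right,
    real_inner_comm a b] at h
  unfold gram3
  nlinarith [h]

theorem BF7_ker {Q : Bil} (hs : ∀ v w, Q v w = Q w v)
    (hd : Q e1 e1 * Q e2 e2 = Q e1 e2 ^ 2) : ∃ v : E2, v ≠ 0 ∧ Q v v = 0 := by
  by_cases h0 : Q e1 e1 = 0
  · refine ⟨e1, ?_, h0⟩
    intro h
    have := congrArg Prod.fst h
    simp [e1] at this
  · refine ⟨(-Q e1 e2, Q e1 e1), ?_, ?_⟩
    · intro h
      exact h0 (congrArg Prod.snd h)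
    · rw [bip_bil, hs e2 e1]
      linear_combination (Q e1 e1) * hd

theorem BF7_low {G : E2 → V4} {x : E2} (hG : ContDiffAt ℝ 2 G x) {v : E2} (hv : ‖v‖ = 1)
    {c L : ℝ} (hc : c ≤ gramV G v x) (h1 : ‖iteratedFDeriv ℝ 1 G x‖ ≤ L)
    (h2 : ‖iteratedFDeriv ℝ 2 G x‖ ≤ L) (w : E2) :
    c * ‖w‖ ^ 2 ≤ 2 * L ^ 4 * metrU G x w w := by
  set a := pd 0 G x with ha
  set b := pd 1 G x with hb
  set d := ddv v G x with hd
  have hL : 0 ≤ L := (norm_nonneg _).trans h1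
  have ha1 : inner ℝ a a ≤ L ^ 2 := by
    rw [real_inner_self_eq_norm_sq]
    exact pow_le_pow_left₀ (norm_nonneg _) ((MD3_pd_norm G x 0).trans h1) 2
  have hb1 : inner ℝ b b ≤ L ^ 2 := by
    rw [real_inner_self_eq_norm_sq]
    exact pow_le_pow_left₀ (norm_nonneg _) ((MD3_pd_norm G x 1).trans h1) 2
  have hd1 : inner ℝ d d ≤ L ^ 2 := by
    rw [real_inner_self_eq_norm_sq]
    exact pow_le_pow_left₀ (norm_nonneg _) ((MD3_ddv_norm hG v hv).trans h2) 2
  have hD : 0 ≤ (inner ℝ a a : ℝ) * inner ℝ b b - inner ℝ a b ^ 2 := by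
    have := real_inner_mul_inner_self_le a b
    nlinarith [this]
  have hcD : c ≤ ((inner ℝ a a : ℝ) * inner ℝ b b - inner ℝ a b ^ 2) * L ^ 2 :=
    (hc.trans (BF7_gram_le a b d)).trans (mul_le_mul_of_nonneg_left hd1 hD)
  have hm : metrU G x w w = w.1 ^ 2 * inner ℝ a a + 2 * w.1 * w.2 * inner ℝ a b
      + w.2 ^ 2 * inner ℝ b b := by
    have e : metrU G x w w = inner ℝ (fderiv ℝ G x w) (fderiv ℝ G x w) := rfl
    rw [e, MD2_app]
    change inner ℝ (w.1 • a + w.2 • b) (w.1 • a + w.2 • b) = _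
    rw [inner_add_left, inner_add_right, inner_add_right, real_inner_smul_left,
      real_inner_smul_left, real_inner_smul_left, real_inner_smul_left, real_inner_smul_right,
      real_inner_smul_right, real_inner_smul_right, real_inner_smul_right, real_inner_comm a b]
    ring
  have hn : ‖w‖ ^ 2 ≤ w.1 ^ 2 + w.2 ^ 2 := by
    rw [Prod.norm_def]
    rcases max_cases ‖w.1‖ ‖w.2‖ with h | h
    · rw [h.1, Real.norm_eq_abs, sq_abs]
      nlinarith [sq_nonneg w.2]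
    · rw [h.1, Real.norm_eq_abs, sq_abs]
      nlinarith [sq_nonneg w.1]
  set p := (inner ℝ a a : ℝ)
  set q := (inner ℝ a b : ℝ)
  set r := (inner ℝ b b : ℝ)
  have hm0 : 0 ≤ w.1 ^ 2 * p + 2 * w.1 * w.2 * q + w.2 ^ 2 * r := by
    rw [← hm]
    exact real_inner_self_nonneg (x := fderiv ℝ G x w)
  have key : (w.1 ^ 2 + w.2 ^ 2) * (p * r - q ^ 2) ≤
      (p + r) * (w.1 ^ 2 * p + 2 * w.1 * w.2 * q + w.2 ^ 2 * r) := by
    nlinarith [sq_nonneg (p * w.1 + q * w.2), sq_nonneg (q * w.1 + r * w.2)]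
  rw [hm]
  calc c * ‖w‖ ^ 2 ≤ ((p * r - q ^ 2) * L ^ 2) * (w.1 ^ 2 + w.2 ^ 2) :=
        mul_le_mul hcD hn (by positivity) (by positivity)
    _ = L ^ 2 * ((w.1 ^ 2 + w.2 ^ 2) * (p * r - q ^ 2)) := by ring
    _ ≤ L ^ 2 * ((p + r) * (w.1 ^ 2 * p + 2 * w.1 * w.2 * q + w.2 ^ 2 * r)) :=
        mul_le_mul_of_nonneg_left key (by positivity)
    _ ≤ L ^ 2 * ((L ^ 2 + L ^ 2) * (w.1 ^ 2 * p + 2 * w.1 * w.2 * q + w.2 ^ 2 * r)) := by
        refine mul_le_mul_of_nonneg_left ?_ (by positivity)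
        exact mul_le_mul_of_nonneg_right (add_le_add ha1 hb1) hm0
    _ = 2 * L ^ 4 * (w.1 ^ 2 * p + 2 * w.1 * w.2 * q + w.2 ^ 2 * r) := by ring

end BF7_planar

variable {M : Type} [TopologicalSpace M] [ChartedSpace E2 M] [IsManifold 𝓘(ℝ, E2) ∞ M]

theorem BF7_dir {φ : OpenPartialHomeomorph M E2} (hφ : φ ∈ ATL M) {x : E2} (hx : x ∈ φ.target)
    (Q : M → Bil) {v : E2} (hv : v ≠ 0) (h : Q (φ.symm x) v v = 0) :
    ∃ u : E2, ‖u‖ = 1 ∧ locT φ Q x u u = 0 := by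
  have h2 : ∀ v, TTi φ x (TT φ (φ.symm x) v) = v := fun v => by
    have h := TTi_comp_TT hφ (φ.map_target hx)
    rw [φ.right_inv hx] at h
    rw [← ContinuousLinearMap.comp_apply, h]; rfl
  have e : ∀ v w, locT φ Q x v w = Q (φ.symm x) (TTi φ x v) (TTi φ x w) := fun v w => rfl
  set u := TT φ (φ.symm x) v with hu
  have hu0 : u ≠ 0 := by
    intro h0
    apply hv
    rw [← h2 v, ← hu, h0, map_zero]
  refine ⟨‖u‖⁻¹ • u, ?_, ?_⟩
  · rw [norm_smul, norm_inv, norm_norm, inv_mul_cancel₀ (norm_ne_zero_iff.2 hu0)]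
  · rw [e, map_smul, hu, h2, map_smul, map_smul, smul_apply, h]
    simp

/-- the target metric -/
def BF7_tgt (A B m : M → ℝ) (r0 : ℝ) (g : M → Bil) (G : M → ℝ → Bil) (h : ℝ) (p : M) : Bil :=
  g p - (4 * beM r0 A B m (fun q => G q h) p ^ 2) • sqT (fun q => (A q + B q) / 2) p
    - etM r0 A B m (fun q => G q h) p ^ 2 • QtM r0 A B m (fun q => G q h) p

/-- the error of the iteration -/
def BF7_err (A B m : M → ℝ) (r0 : ℝ) (g : M → Bil) (G : M → ℝ → Bil) (h : ℝ) (p : M) : Bil :=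
  g p - h ^ 2 • (sqT (lam1 r0 A B m (fun q => G q h)) p + sqT (lam2 r0 A B m (fun q => G q h)) p)
    - G p h

theorem BF7_tgt_eq {A B m : M → ℝ} {r0 τ h₁ h : ℝ} {g : M → Bil} (hr : 0 < r0)
    (hw : Weights g A B m τ) {G : M → ℝ → Bil} (hG : SmTP h₁ G)
    (hR : ∀ h ∈ Ioo (-h₁) h₁, InReg r0 A B m (fun p => G p h)) (hh : h ∈ Ioo (-h₁) h₁)
    (h0 : h ≠ 0) (p : M) : BF7_tgt A B m r0 g G h p =
      metr (bmM A B (lam1 r0 A B m (fun q => G q h)) (lam2 r0 A B m (fun q => G q h)) h) p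
        + BF7_err A B m r0 g G h p := by
  obtain ⟨hl1, hl2, -, -⟩ := smP_lam hr hw hG hR
  have s1 : Sm (lam1 r0 A B m (fun q => G q h)) := hl1.sm hh
  have s2 : Sm (lam2 r0 A B m (fun q => G q h)) := hl2.sm hh
  have hd : G p h = _ := dec_M hr hw (hR h hh) p
  unfold BF7_tgt BF7_err
  rw [metr_bmM hw.1 hw.2.1 s1 s2 h0 p, hd]
  abel

theorem BF7_smT {A B m : M → ℝ} {r0 τ h₁ h : ℝ} {g : M → Bil} (hg : IsMetric g) (hr : 0 < r0)
    (hw : Weights g A B m τ) {G : M → ℝ → Bil} (hG : SmTP h₁ G)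
    (hR : ∀ h ∈ Ioo (-h₁) h₁, InReg r0 A B m (fun p => G p h)) (hh : h ∈ Ioo (-h₁) h₁)
    (h0 : h ≠ 0) : SmT (BF7_tgt A B m r0 g G h) ∧
      ∀ p v w, BF7_tgt A B m r0 g G h p v w = BF7_tgt A B m r0 g G h p w v := by
  obtain ⟨hl1, hl2, -, -⟩ := smP_lam hr hw hG hR
  have s1 : Sm (lam1 r0 A B m (fun q => G q h)) := hl1.sm hh
  have s2 : Sm (lam2 r0 A B m (fun q => G q h)) := hl2.sm hh
  have s3 := sm_bmM hw.1 hw.2.1 s1 s2 h
  have hc : Sm (fun _ : M => h ^ 2) := contMDiff_const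
  have e : BF7_tgt A B m r0 g G h = fun p =>
      metr (bmM A B (lam1 r0 A B m (fun q => G q h)) (lam2 r0 A B m (fun q => G q h)) h) p
        + BF7_err A B m r0 g G h p := funext fun p => BF7_tgt_eq hr hw hG hR hh h0 p
  have hsq : ∀ (α : E2 →L[ℝ] ℝ) (v w : E2), sqC α v w = sqC α w v := by
    intro α v w
    simp only [sqC, ContinuousLinearMap.smulRight_apply, smul_apply, smul_eq_mul]
    ring
  constructor
  · rw [e]
    exact (smT_metr s3).add ((hg.1.sub (SmT.smul hc ((smT_sqT s1).add (smT_sqT s2)))).sub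
      (hG.smT hh))
  · intro p v w
    have e2 : ∀ v w, BF7_tgt A B m r0 g G h p v w =
        inner ℝ (dP (bmM A B (lam1 r0 A B m (fun q => G q h)) (lam2 r0 A B m (fun q => G q h)) h) p v)
          (dP (bmM A B (lam1 r0 A B m (fun q => G q h)) (lam2 r0 A B m (fun q => G q h)) h) p w)
        + (g p v w - h ^ 2 * (sqC (dP (lam1 r0 A B m (fun q => G q h)) p) v w
          + sqC (dP (lam2 r0 A B m (fun q => G q h)) p) v w) - G p h v w) := by
      intro v w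
      rw [BF7_tgt_eq hr hw hG hR hh h0 p]
      rfl
    rw [e2, e2, (hg.2 p).1 v w, ((hR h hh) p).1.1 v w, hsq _ v w, hsq _ v w, real_inner_comm]

theorem apply_T [CompactSpace M] (hT : ThmT M) (𝒜 : FinAtlas M) {A B m : M → ℝ} {r0 τ : ℝ}
    {g : M → Bil} (hg : IsMetric g) (hr : 0 < r0) (hw : Weights g A B m τ) (e : ℕ) :
    ∃ k : ℕ, ∀ (h₁ : ℝ) (G : M → ℝ → Bil), IterPack g A B m r0 k h₁ G →
      ∃ h₂ : ℝ, 0 < h₂ ∧ ∀ h ∈ Ioo 0 h₂, ∃ f : M → V4, Sm f ∧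
        (∀ p, metr f p = g p
          - (4 * beM r0 A B m (fun q => G q h) p ^ 2) • sqT (fun q => (A q + B q) / 2) p
          - etM r0 A B m (fun q => G q h) p ^ 2 • QtM r0 A B m (fun q => G q h) p) ∧
        ∀ p, ClAt 𝒜 3 (f - bmM A B (lam1 r0 A B m (fun q => G q h))
          (lam2 r0 A B m (fun q => G q h)) h) (h ^ e) p := by
  obtain ⟨m', s, C, hC, hT'⟩ := hT 𝒜 3
  refine ⟨2 * (max s 2) * m' + 2 * e, fun h₁ G hI => ?_⟩
  obtain ⟨hh1, hG, hG0, hR, hE⟩ := id hI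
  obtain ⟨hl1, hl2, hbe, het⟩ := smP_lam hr hw hG hR
  set N := max s 2 with hN
  obtain ⟨C1, hC1⟩ := bmM_bound 𝒜 hh1 hw.1 hw.2.1 hl1 hl2 N
  obtain ⟨c, hc, h2, hh2, hnv⟩ := nv_all 𝒜 hg hr hw hI
  have hE' : ∀ (j : Fin 𝒜.n) (i : ℕ), ∃ C : ℝ, ∀ h ∈ Ioc 0 (h₁ / 2),
      ∀ x ∈ Metric.closedBall (0 : E2) 3,
      ‖iteratedFDeriv ℝ i (fun y => locT (𝒜.φ j) (BF7_err A B m r0 g G h) y) x‖ ≤
        C * h ^ (2 * (2 * N * m' + 2 * e) + 2) := fun j i =>
    hE (𝒜.φ j) (𝒜.mem j) _ (isCompact_closedBall _ _)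
      ((Metric.closedBall_subset_closedBall (by norm_num)).trans (𝒜.target j)) i
  choose CE hCE using hE'
  set C3 : ℝ := 1 + ∑ j, ∑ i ∈ Finset.range (s + 1), |CE j i| with hC3
  have hC3pos : 0 < C3 := by
    have : 0 ≤ ∑ j, ∑ i ∈ Finset.range (s + 1), |CE j i| :=
      Finset.sum_nonneg fun j _ => Finset.sum_nonneg fun i _ => abs_nonneg _
    linarith
  have hCE3 : ∀ j, ∀ i ≤ s, CE j i ≤ C3 := by
    intro j i hi
    have h1 : |CE j i| ≤ ∑ i ∈ Finset.range (s + 1), |CE j i| :=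
      Finset.single_le_sum (f := fun i => |CE j i|) (fun i _ => abs_nonneg _)
        (Finset.mem_range.2 (by omega))
    have h2 : ∑ i ∈ Finset.range (s + 1), |CE j i| ≤
        ∑ j, ∑ i ∈ Finset.range (s + 1), |CE j i| :=
      Finset.single_le_sum (f := fun j => ∑ i ∈ Finset.range (s + 1), |CE j i|)
        (fun j _ => Finset.sum_nonneg fun i _ => abs_nonneg _) (Finset.mem_univ j)
    have h3 := le_abs_self (CE j i)
    linarith
  set c' := min c 1 with hc'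
  have hc'0 : 0 < c' := lt_min hc one_pos
  have hc'1 : c' ≤ 1 := min_le_right _ _
  have hc'c : c' ≤ c := min_le_left _ _
  set D1 := max C1 1 with hD1
  have hD11 : 1 ≤ D1 := le_max_right _ _
  set D2 := 2 * D1 ^ 4 / c' with hD2
  have hD20 : 0 < D2 := by positivity
  set D := C * D2 ^ m' * C3 + C3 + 1 with hD
  have hX0 : 0 < C * D2 ^ m' * C3 := by positivity
  have hD0 : 0 < D := by positivity
  refine ⟨min (min h2 (h₁ / 2)) (1 / D), lt_min (lt_min hh2.1 (by linarith)) (by positivity),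
    fun h hh => ?_⟩
  have hpos : 0 < h := hh.1
  have hlt2 : h < h2 := hh.2.trans_le ((min_le_left _ _).trans (min_le_left _ _))
  have hlt1 : h < h₁ / 2 := hh.2.trans_le ((min_le_left _ _).trans (min_le_right _ _))
  have hltD : h < 1 / D := hh.2.trans_le (min_le_right _ _)
  have hDh : D * h ≤ 1 := by
    rw [lt_div_iff₀ hD0] at hltD
    linarith
  have hX : C * D2 ^ m' * C3 * h ≤ 1 := by
    have h1 : C * D2 ^ m' * C3 * h ≤ D * h := mul_le_mul_of_nonneg_right (by linarith) hpos.le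
    linarith
  have hC3h : C3 * h ≤ 1 := by
    have h1 : C3 * h ≤ D * h := mul_le_mul_of_nonneg_right (by linarith) hpos.le
    linarith
  have hle1 : h ≤ 1 := by
    have h1 : 1 * h ≤ D * h := mul_le_mul_of_nonneg_right (by linarith) hpos.le
    linarith
  have hm1 : h ∈ Ioo (-h₁) h₁ := ⟨by linarith, by linarith⟩
  have hm2 : h ∈ Ioc 0 (h₁ / 2) := ⟨hpos, hlt1.le⟩
  have hm3 : h ∈ Ioc 0 (min (h₁ / 2) 1) := ⟨hpos, le_min hlt1.le hle1⟩
  set F := bmM A B (lam1 r0 A B m (fun q => G q h)) (lam2 r0 A B m (fun q => G q h)) h with hF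
  have sF : Sm F := sm_bmM hw.1 hw.2.1 (hl1.sm hm1) (hl2.sm hm1) h
  set L := D1 / h ^ N with hL
  have hhN : 0 < h ^ N := by positivity
  have hL1 : 1 ≤ L := by
    rw [hL, le_div_iff₀ hhN, one_mul]
    exact (pow_le_one₀ hpos.le hle1).trans hD11
  have hL0 : 0 < L := by linarith
  have hCl : ∀ p, ClAt 𝒜 N F L p := by
    intro p j hp1 hp2 i hi
    refine (hC1 h hm3 p j hp1 hp2 i hi).trans ?_
    exact div_le_div_of_nonneg_right (le_max_left _ _) hhN.le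
  set Lam := 2 * L ^ 4 / c' with hLam
  have hLam0 : 0 < Lam := by positivity
  have hLam1 : 2 * L ^ 4 ≤ Lam := by
    rw [hLam, le_div_iff₀ hc'0]
    have : 0 ≤ 2 * L ^ 4 := by positivity
    nlinarith
  have hL4 : L ≤ L ^ 4 := le_self_pow₀ hL1 (by norm_num)
  have hLL : L ≤ Lam := by linarith
  have hcL : Lam * c' = 2 * L ^ 4 := by
    rw [hLam]
    field_simp
  have hLamD : Lam = D2 / h ^ (4 * N) := by
    rw [hLam, hD2, hL, div_pow, ← pow_mul, mul_comm N 4]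
    field_simp
  have hball : ∀ j, Metric.closedBall (0 : E2) 3 ⊆ (𝒜.φ j).target := fun j =>
    (Metric.closedBall_subset_closedBall (by norm_num)).trans (𝒜.target j)
  have hbd : ∀ j, ∀ x ∈ Metric.closedBall (0 : E2) 3, ∀ i ≤ N,
      ‖iteratedFDeriv ℝ i (F ∘ (𝒜.φ j).symm) x‖ ≤ L := by
    intro j x hx i hi
    have h1 := hCl ((𝒜.φ j).symm x) j ((𝒜.φ j).map_target (hball j hx))
      (by rw [(𝒜.φ j).right_inv (hball j hx)]; exact hx) i hi
    rwa [(𝒜.φ j).right_inv (hball j hx)] at h1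
  have hdir : ∀ j, ∀ x ∈ Metric.closedBall (0 : E2) 3, ∃ v : E2, ‖v‖ = 1 ∧
      c' ≤ gramV (F ∘ (𝒜.φ j).symm) v x := by
    intro j x hx
    have hxt := hball j hx
    have hex : ∃ v : E2, ‖v‖ = 1 ∧ etM r0 A B m (fun q => G q h) ((𝒜.φ j).symm x) ^ 2 *
        locT (𝒜.φ j) (QtM r0 A B m (fun q => G q h)) x v v = 0 := by
      by_cases het0 : etM r0 A B m (fun q => G q h) ((𝒜.φ j).symm x) = 0
      · refine ⟨e1, by simp [e1, Prod.norm_def], ?_⟩
        rw [het0]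
        ring
      · have hGm : IsMetric (fun q => G q h) := ⟨hG.smT hm1, fun p => (hR h hm1 p).1⟩
        have hts : (𝒜.φ j).symm x ∈ tsupport (etM r0 A B m (fun q => G q h)) :=
          subset_tsupport _ het0
        obtain ⟨U, hU, hpU, -, hQ⟩ := QtM_rank hr hw hGm hts
        obtain ⟨q1, q2, -⟩ := hQ _ hpU
        obtain ⟨v, hv, hv0⟩ := BF7_ker q1 q2
        obtain ⟨u, hu, hu0⟩ := BF7_dir (𝒜.mem j) hxt (QtM r0 A B m (fun q => G q h)) hv hv0
        exact ⟨u, hu, by rw [hu0, mul_zero]⟩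
    obtain ⟨v, hv, hv0⟩ := hex
    exact ⟨v, hv, hc'c.trans (hnv h ⟨hpos, hlt2⟩ j x hx v hv hv0)⟩
  have hexp : Lam ^ m' * h ^ (4 * N * m') = D2 ^ m' := by
    rw [hLamD, div_pow, ← pow_mul, div_mul_cancel₀]
    positivity
  have hδ : h ^ (2 * (2 * N * m' + 2 * e) + 2) = h ^ (4 * N * m') * ((h ^ e) ^ 4 * h * h) := by
    have e0 : (h ^ e) ^ 4 * h * h = h ^ (4 * e + 2) := by
      rw [← pow_mul, mul_assoc, ← sq, ← pow_add, mul_comm e 4]
    rw [e0, ← pow_add]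
    congr 1
    ring
  have hhe : (h ^ e) ^ 4 ≤ 1 := pow_le_one₀ (by positivity) (pow_le_one₀ hpos.le hle1)
  have hhe0 : 0 < (h ^ e) ^ 4 := by positivity
  have hhm1 : h ^ (4 * N * m') ≤ 1 := pow_le_one₀ hpos.le hle1
  have hhm0 : 0 < h ^ (4 * N * m') := by positivity
  have g1 : C * Lam ^ m' * (C3 * h ^ (2 * (2 * N * m' + 2 * e) + 2)) ≤ 1 := by
    calc C * Lam ^ m' * (C3 * h ^ (2 * (2 * N * m' + 2 * e) + 2))
        = C * (Lam ^ m' * h ^ (4 * N * m')) * C3 * h * ((h ^ e) ^ 4 * h) := by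
          rw [hδ]; ring
      _ = (C * D2 ^ m' * C3 * h) * ((h ^ e) ^ 4 * h) := by rw [hexp]
      _ ≤ 1 * (1 * 1) := by
          refine mul_le_mul hX ?_ (by positivity) zero_le_one
          exact mul_le_mul hhe hle1 hpos.le zero_le_one
      _ = 1 := by norm_num
  have g0 : C3 * h ^ (2 * (2 * N * m' + 2 * e) + 2) ≤ (h ^ e) ^ 4 := by
    calc C3 * h ^ (2 * (2 * N * m' + 2 * e) + 2)
        = (C3 * h) * (h ^ (4 * N * m') * h) * (h ^ e) ^ 4 := by rw [hδ]; ring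
      _ ≤ (1 * (1 * 1)) * (h ^ e) ^ 4 := by
          refine mul_le_mul_of_nonneg_right ?_ hhe0.le
          refine mul_le_mul hC3h ?_ (by positivity) zero_le_one
          exact mul_le_mul hhm1 hle1 hpos.le zero_le_one
      _ = (h ^ e) ^ 4 := by ring
  have g2 : ∀ p, ClAt 𝒜 s F Lam p := by
    intro p j hp1 hp2 i hi
    exact ((hCl p) j hp1 hp2 i (hi.trans (le_max_left _ _))).trans hLL
  have g3 : ∀ j, ∀ x ∈ Metric.closedBall (0 : E2) 3, ∀ w : E2,
      ‖w‖ ^ 2 ≤ Lam * locT (𝒜.φ j) (metr F) x w w := by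
    intro j x hx w
    obtain ⟨v, hv, hv1⟩ := hdir j x hx
    have hG2 : ContDiffAt ℝ 2 (F ∘ (𝒜.φ j).symm) x :=
      ((sF.loc (𝒜.mem j)).contDiffAt ((𝒜.φ j).open_target.mem_nhds (hball j hx))).of_le
        (WithTop.coe_le_coe.2 le_top)
    have h7 := BF7_low hG2 hv hv1 (hbd j x hx 1 (by omega)) (hbd j x hx 2 (by omega)) w
    rw [locT_metr sF (𝒜.mem j) (hball j hx), hLam]
    rw [div_mul_eq_mul_div, le_div_iff₀ hc'0]
    linarith
  have g4 : ∀ j, ∀ x ∈ Metric.closedBall (0 : E2) 3, ∃ v : E2, ‖v‖ = 1 ∧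
      1 ≤ Lam * gramV (F ∘ (𝒜.φ j).symm) v x := by
    intro j x hx
    obtain ⟨v, hv, hv1⟩ := hdir j x hx
    refine ⟨v, hv, ?_⟩
    have h8 : Lam * c' ≤ Lam * gramV (F ∘ (𝒜.φ j).symm) v x :=
      mul_le_mul_of_nonneg_left hv1 hLam0.le
    linarith
  have g5 : ∀ j, ∀ x ∈ Metric.closedBall (0 : E2) 3, ∀ i ≤ s,
      ‖iteratedFDeriv ℝ i (fun y => locT (𝒜.φ j) (BF7_tgt A B m r0 g G h) y
        - locT (𝒜.φ j) (metr F) y) x‖ ≤ C3 * h ^ (2 * (2 * N * m' + 2 * e) + 2) := by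
    intro j x hx i hi
    have h9 : (fun y => locT (𝒜.φ j) (BF7_tgt A B m r0 g G h) y - locT (𝒜.φ j) (metr F) y) =
        fun y => locT (𝒜.φ j) (BF7_err A B m r0 g G h) y := by
      funext y
      refine ContinuousLinearMap.ext fun v => ContinuousLinearMap.ext fun w => ?_
      have h10 := BF7_tgt_eq hr hw hG hR hm1 hpos.ne' ((𝒜.φ j).symm y)
      simp only [locT, ContinuousLinearMap.bilinearComp_apply, sub_apply,
        h10, add_apply]
      rw [← hF]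
      ring
    rw [h9]
    refine (hCE j i h hm2 x hx).trans ?_
    exact mul_le_mul_of_nonneg_right (hCE3 j i hi) (by positivity)
  obtain ⟨F', sF', hF', hcl⟩ := hT' Lam (C3 * h ^ (2 * (2 * N * m' + 2 * e) + 2)) F
    (BF7_tgt A B m r0 g G h) (by linarith) (by positivity) g1 sF
    (BF7_smT hg hr hw hG hR hm1 hpos.ne').1 (BF7_smT hg hr hw hG hR hm1 hpos.ne').2 g2 g3 g4 g5
  refine ⟨F', sF', hF', fun p j hp1 hp2 i hi => (hcl p j hp1 hp2 i hi).trans ?_⟩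
  have h5 := Real.pow_rpow_inv_natCast (x := h ^ e) (by positivity) (n := 4) (by norm_num)
  have h6 : (1 : ℝ) / 4 = (((4 : ℕ) : ℝ))⁻¹ := by norm_num
  rw [h6]
  calc _ ≤ ((h ^ e) ^ 4) ^ (((4 : ℕ) : ℝ))⁻¹ :=
        Real.rpow_le_rpow (by positivity) g0 (by positivity)
    _ = h ^ e := h5

end P205F
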