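import Mathlib
import Vale.Agent.Lib.P205B.BF3
import Vale.Agent.Lib.P205B.BF4
import Vale.Agent.Lib.P205B.BF5
import Vale.Agent.Lib.P205B.BF6
import Vale.Agent.Lib.P205B.BF7

/-!
# P205F BASE: the compact set `KO`, the invariant for the base map, and the base package

`KO := {p | ε ≤ dW (wM g p)}`, `KT := {p | 2 ε ≤ dW (wM g p)}` with `ε` small:
`tsupport β(h) ⊆ {|w| ≤ r₀ d}` (for `G(·,h)`), and for `h`
small this closed set is contained in `KT` (compactness: at `h = 0` a point with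
`|w| ≤ r₀ d`, `d ≤ ε` has `t² = |w|² + d ≤ r₀² ε² + ε`, impossible when `t ≥ t_min > 0` and `ε` small).
-/

noncomputable section

namespace P205F

open scoped Manifold ContDiff Topology RealInnerProductSpace
open Set

set_option maxSynthPendingDepth 3

variable {M : Type} [TopologicalSpace M] [ChartedSpace E2 M] [IsManifold 𝓘(ℝ, E2) ∞ M]

omit [IsManifold 𝓘(ℝ, E2) ∞ M] in
theorem BFin_clAt_mono {𝒜 : FinAtlas M} {V : Type} [NormedAddCommGroup V] [NormedSpace ℝ V]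
    {r r' : ℕ} (hr : r' ≤ r) {u : M → V} {η η' : ℝ} (hη : η ≤ η') {p : M}
    (h : ClAt 𝒜 r u η p) : ClAt 𝒜 r' u η' p :=
  fun k h1 h2 j hj => (h k h1 h2 j (hj.trans hr)).trans hη

theorem BFin_gram (𝒜 : FinAtlas M) {F F' : M → V4} (hF : Sm F) (hF' : Sm F') (k : Fin 𝒜.n)
    {x : E2} (hx : x ∈ Metric.closedBall (0 : E2) 3) {v : E2} (hv : ‖v‖ = 1) {R η : ℝ}
    (hR : 1 ≤ R) (hη : η ≤ 1) (hb : ClAt 𝒜 2 F R ((𝒜.φ k).symm x))
    (hcl : ClAt 𝒜 2 (F' - F) η ((𝒜.φ k).symm x)) :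
    |gramV (F' ∘ (𝒜.φ k).symm) v x - gramV (F ∘ (𝒜.φ k).symm) v x| ≤ 1000 * R ^ 5 * η := by
  have hsub : Metric.closedBall (0 : E2) 3 ⊆ (𝒜.φ k).target :=
    (Metric.closedBall_subset_closedBall (by norm_num)).trans (𝒜.target k)
  have hG := hF.loc (𝒜.mem k)
  have hxt := hsub hx
  have hG' := hF'.loc (𝒜.mem k)
  have h1 := MD3_at (𝒜.φ k).open_target hG hxt
  have h2 := MD3_at (𝒜.φ k).open_target hG' hxt
  have h3 := hcl k ((𝒜.φ k).map_target hxt) (by rw [(𝒜.φ k).right_inv hxt]; exact hx)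
  rw [(𝒜.φ k).right_inv hxt] at h3
  have h5 := hb k ((𝒜.φ k).map_target hxt) (by rw [(𝒜.φ k).right_inv hxt]; exact hx)
  rw [(𝒜.φ k).right_inv hxt] at h5
  have h4 : (F' - F) ∘ (𝒜.φ k).symm = F' ∘ (𝒜.φ k).symm - F ∘ (𝒜.φ k).symm := rfl
  rw [h4] at h3
  unfold gramV
  refine gram3_sub_le _ _ _ _ _ _ R η ?_ ?_ ?_ ?_ ?_ ?_ hη hR
  · exact (MD3_pd_norm _ x 0).trans (h5 1 (by norm_num))
  · exact (MD3_pd_norm _ x 1).trans (h5 1 (by norm_num))
  · exact (MD3_ddv_norm h1 v hv).trans (h5 2 le_rfl)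
  · rw [← MD3_pd_sub h1 h2]
    exact (MD3_pd_norm _ x 0).trans (h3 1 (by norm_num))
  · rw [← MD3_pd_sub h1 h2]
    exact (MD3_pd_norm _ x 1).trans (h3 1 (by norm_num))
  · rw [← MD3_ddv_sub h1 h2]
    exact (MD3_ddv_norm (h2.sub h1) v hv).trans (h3 2 le_rfl)

/-- good directions at all points from good directions in the atlas charts -/
theorem BFin_good (𝒜 : FinAtlas M) {F F' : M → V4} (hF : Sm F) (hF' : Sm F') {R η c : ℝ}
    (hR : 1 ≤ R) (hη : η ≤ 1) (hc : 1000 * R ^ 5 * η < c) (hb : ∀ p, ClAt 𝒜 2 F R p)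
    (hcl : ∀ p, ClAt 𝒜 2 (F' - F) η p) {e : M → ℝ} {Q : M → Bil}
    (hn : ∀ j, ∀ x ∈ Metric.closedBall (0 : E2) 3, ∀ v : E2, ‖v‖ = 1 →
      e ((𝒜.φ j).symm x) ^ 2 * locT (𝒜.φ j) Q x v v = 0 →
        c ≤ gramV (F ∘ (𝒜.φ j).symm) v x) (p : M) (v : E2) (hv : v ≠ 0)
    (hz : e p ^ 2 * Q p v v = 0) : GoodIn (chartAt E2 p) F' v (chartAt E2 p p) := by
  obtain ⟨k, hk1, hk2⟩ := 𝒜.cover p
  have hx3 : 𝒜.φ k p ∈ Metric.closedBall (0 : E2) 3 :=
    Metric.ball_subset_closedBall (Metric.ball_subset_ball (by norm_num) hk2)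
  have h1 : TTi (𝒜.φ k) (𝒜.φ k p) (TT (𝒜.φ k) p v) = v := by
    have := congrArg (fun L : E2 →L[ℝ] E2 => L v) (TTi_comp_TT (𝒜.mem k) hk1)
    simpa using this
  set w : E2 := TT (𝒜.φ k) p v with hw
  have hw0 : w ≠ 0 := by
    intro h0
    rw [h0, map_zero] at h1
    exact hv h1.symm
  have hn0 : ‖w‖ ≠ 0 := norm_ne_zero_iff.2 hw0
  have hnorm : ‖‖w‖⁻¹ • w‖ = 1 := by
    rw [norm_smul, norm_inv, norm_norm, inv_mul_cancel₀ hn0]
  have h2 : e ((𝒜.φ k).symm (𝒜.φ k p)) ^ 2 *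
      locT (𝒜.φ k) Q (𝒜.φ k p) (‖w‖⁻¹ • w) (‖w‖⁻¹ • w) = 0 := by
    have h3 : locT (𝒜.φ k) Q (𝒜.φ k p) (‖w‖⁻¹ • w) (‖w‖⁻¹ • w) =
        ‖w‖⁻¹ * (‖w‖⁻¹ * Q p v v) := by
      unfold locT
      rw [(𝒜.φ k).left_inv hk1]
      simp only [ContinuousLinearMap.bilinearComp_apply, map_smul, h1,
        smul_apply, smul_eq_mul]
    rw [h3, (𝒜.φ k).left_inv hk1]
    calc e p ^ 2 * (‖w‖⁻¹ * (‖w‖⁻¹ * Q p v v)) = ‖w‖⁻¹ * ‖w‖⁻¹ * (e p ^ 2 * Q p v v) := by ring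
      _ = 0 := by rw [hz, mul_zero]
  have h4 := hn k _ hx3 _ hnorm h2
  have h5 := BFin_gram 𝒜 hF hF' k hx3 hnorm hR hη (hb _) (hcl _)
  have h6 := (abs_le.1 h5).1
  have h7 : GoodIn (𝒜.φ k) F' (‖w‖⁻¹ • w) (𝒜.φ k p) := by
    unfold GoodIn
    linarith
  rw [goodIn_TT hF' (𝒜.mem k) hk1]
  exact (goodIn_smul (inv_ne_zero hn0)).1 h7

/-- a degenerate symmetric form has an isotropic vector -/
theorem BFin_ker {Q : Bil} (hs : ∀ v w, Q v w = Q w v)
    (hd : Q e1 e1 * Q e2 e2 = Q e1 e2 ^ 2) : ∃ v : E2, v ≠ 0 ∧ Q v v = 0 := by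
  by_cases h : Q e1 e1 = 0
  · exact ⟨e1, by simp [e1], h⟩
  · refine ⟨(Q e1 e2, -Q e1 e1), ?_, ?_⟩
    · intro h0
      have := congrArg Prod.snd h0
      simp only [Prod.snd_zero, neg_eq_zero] at this
      exact h this
    · rw [bip_bil]
      have h21 := hs e2 e1
      simp only [h21]
      linear_combination (Q e1 e1) * hd

omit [IsManifold 𝓘(ℝ, E2) ∞ M] in
theorem BFin_sqT_nonneg (u : M → ℝ) (p : M) (v : E2) : 0 ≤ sqT u p v v := by
  simp only [sqT, sqC, ContinuousLinearMap.smulRight_apply, smul_apply,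
    smul_eq_mul]
  exact mul_self_nonneg _

omit [IsManifold 𝓘(ℝ, E2) ∞ M] in
theorem BFin_metr_nonneg (F : M → V4) (p : M) (v : E2) : 0 ≤ metr F p v v := by
  simp only [metr, ContinuousLinearMap.bilinearComp_apply, innerSL_apply_apply]
  exact real_inner_self_nonneg

theorem BFin_inv_mono {τ h K K' : ℝ} (hK : 1 ≤ K) (hKK : K ≤ K') {F : E2 → V4} {x : E2}
    (hI : INV τ h K F x) : INV τ h K' F x := by
  obtain ⟨a1, a2, a3, a4, a5, a6, a7⟩ := hI
  refine ⟨a1.trans hKK, a2.trans hKK, a3.trans hKK, a4.trans hKK, a5.trans hKK, a6.trans hKK, ?_⟩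
  have h1 : 0 < gram3 (pd 0 F x) (pd 1 F x) (h • pd 1 (pd 1 F) x) := by
    by_contra hcon
    push Not at hcon
    have : K * gram3 (pd 0 F x) (pd 1 F x) (h • pd 1 (pd 1 F) x) ≤ 0 :=
      mul_nonpos_of_nonneg_of_nonpos (by linarith) hcon
    linarith
  exact a7.trans (mul_le_mul_of_nonneg_right hKK h1.le)

section SmTPlemmas

omit [IsManifold 𝓘(ℝ, E2) ∞ M]

variable {h₁ : ℝ}

theorem BFin_smTP_const {g : M → Bil} (hg : SmT g) : SmTP h₁ (fun p _ => g p) := by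
  intro φ hφ
  exact (hg φ hφ).comp contDiffOn_fst (fun q hq => hq.1)

theorem BFin_smP_const [IsManifold 𝓘(ℝ, E2) ∞ M] {u : M → ℝ} (hu : Sm u) : SmP h₁ (fun p _ => u p) := by
  intro φ hφ
  exact (hu.loc hφ).comp contDiffOn_fst (fun q hq => hq.1)

theorem BFin_smTP_add {H H' : M → ℝ → Bil} (h : SmTP h₁ H) (h' : SmTP h₁ H') :
    SmTP h₁ (fun p t => H p t + H' p t) := by
  intro φ hφ
  refine ((h φ hφ).add (h' φ hφ)).congr fun q _ => ?_
  ext <;> simp [locT]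

theorem BFin_smTP_sub {H H' : M → ℝ → Bil} (h : SmTP h₁ H) (h' : SmTP h₁ H') :
    SmTP h₁ (fun p t => H p t - H' p t) := by
  intro φ hφ
  refine ((h φ hφ).sub (h' φ hφ)).congr fun q _ => ?_
  ext <;> simp [locT]

theorem BFin_smTP_smul {u : M → ℝ → ℝ} (hu : SmP h₁ u) {H : M → ℝ → Bil} (h : SmTP h₁ H) :
    SmTP h₁ (fun p t => u p t • H p t) := by
  intro φ hφ
  refine ((hu φ hφ).smul (h φ hφ)).congr fun q _ => ?_
  ext <;> simp [locT]

theorem BFin_smP_mul {u w : M → ℝ → ℝ} (hu : SmP h₁ u) (hw : SmP h₁ w) :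
    SmP h₁ (fun p t => u p t * w p t) := fun φ hφ => (hu φ hφ).mul (hw φ hφ)

theorem BFin_smP_sq {u : M → ℝ → ℝ} (hu : SmP h₁ u) : SmP h₁ (fun p t => u p t ^ 2) :=
  fun φ hφ => (hu φ hφ).pow 2

theorem BFin_smTP_congr {H H' : M → ℝ → Bil} (h : SmTP h₁ H)
    (he : ∀ p, ∀ t ∈ Ioo (-h₁) h₁, H' p t = H p t) : SmTP h₁ H' := by
  intro φ hφ
  refine (h φ hφ).congr fun q hq => ?_
  have h1 := he (φ.symm q.1) q.2 hq.2
  change ((H' (φ.symm q.1) q.2).bilinearComp _ _ : Bil) = (H (φ.symm q.1) q.2).bilinearComp _ _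
  rw [h1]

end SmTPlemmas

/-- the family `g - η² Q̃` is smooth in `(p, h)` -/
theorem BFin_smTP {A B m : M → ℝ} {r0 τ h₁ : ℝ} {g : M → Bil} (hg : IsMetric g) (hr : 0 < r0)
    (hw : Weights g A B m τ) {G : M → ℝ → Bil} (hG : SmTP h₁ G)
    (hR : ∀ h ∈ Ioo (-h₁) h₁, InReg r0 A B m (fun p => G p h)) :
    SmTP h₁ (fun p h => g p - etM r0 A B m (fun q => G q h) p ^ 2 •
      QtM r0 A B m (fun q => G q h) p) := by
  obtain ⟨s1, s2, s3, s4⟩ := smP_lam hr hw hG hR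
  have hA : Sm A := hw.1
  have hB : Sm B := hw.2.1
  have hAB : Sm (fun q => (A q + B q) / 2) := by
    have h1 : Sm (fun q => A q + B q) := ContMDiff.add hA hB
    have h2 : Sm (fun q => (A q + B q) * (2 : ℝ)⁻¹) := ContMDiff.mul h1 contMDiff_const
    exact h2
  have t1 := BFin_smTP_smul (BFin_smP_sq s1) (BFin_smTP_const (h₁ := h₁) (smT_sqT hA))
  have t2 := BFin_smTP_smul (BFin_smP_sq s2) (BFin_smTP_const (h₁ := h₁) (smT_sqT hB))
  have t3 := BFin_smTP_smul (BFin_smP_mul (BFin_smP_const (h₁ := h₁)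
    (contMDiff_const : Sm (fun _ : M => (4 : ℝ)))) (BFin_smP_sq s3))
      (BFin_smTP_const (h₁ := h₁) (smT_sqT hAB))
  have t4 := BFin_smTP_sub (BFin_smTP_const (h₁ := h₁) hg.1) (BFin_smTP_sub hG
    (BFin_smTP_add (BFin_smTP_add t1 t2) t3))
  refine BFin_smTP_congr t4 fun p t ht => ?_
  have h1 := dec_M hr hw (hR t ht) p
  have h2 : etM r0 A B m (fun q => G q t) p ^ 2 • QtM r0 A B m (fun q => G q t) p =
      G p t - (lam1 r0 A B m (fun q => G q t) p ^ 2 • sqT A p +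
        lam2 r0 A B m (fun q => G q t) p ^ 2 • sqT B p +
        (4 * beM r0 A B m (fun q => G q t) p ^ 2) • sqT (fun q => (A q + B q) / 2) p) := by
    rw [eq_sub_iff_add_eq, add_comm]
    exact h1.symm
  rw [h2]

/-- BASE -/
theorem base_pack [CompactSpace M] [T2Space M] (hT : ThmT M) {g : M → Bil} (hg : IsMetric g)
    {A B m : M → ℝ} {τ : ℝ} (hw : Weights g A B m τ) : BasePack g := by
  have hw' := hw
  obtain ⟨hA, hB, hm, hτ, -, -, -⟩ := hw'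
  obtain ⟨r0, hr, hr2⟩ := exists_r0 hg hw
  obtain ⟨𝒜⟩ := exists_finAtlas (M := M)
  obtain ⟨k, hk⟩ := apply_T hT 𝒜 hg hr hw 12
  obtain ⟨h₁, G, hI⟩ := exists_iter hg hw hr hr2 k
  obtain ⟨hT1, hTpos, hTf⟩ := hk h₁ G hI
  have hI' := hI
  obtain ⟨hh1, hG, hG0, hR, -⟩ := hI'
  obtain ⟨KT, KO, hKT, hKO, hsub, hdet, hO1, hOm, hOs⟩ := exists_KO hg hr hw hI
  obtain ⟨s1, s2, s3, s4⟩ := smP_lam hr hw hG hR
  obtain ⟨Kl, hl1, hlpos, hlow⟩ := lower_KO hg hr hw hI hKO hdet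
  have h0mem : (0 : ℝ) ∈ Ioo (-h₁) h₁ := ⟨by linarith, hh1⟩
  obtain ⟨Ki, hKi, hi1, hipos, hinv⟩ := inv_base hA hB hτ hKO hdet hh1 s1 s2
    (fun p _ => (lam_pos hr hw (hR 0 h0mem) p).1) (fun p _ => (lam_pos hr hw (hR 0 h0mem) p).2)
  obtain ⟨hp1, hppos, hpert⟩ := inv_pert 𝒜 hA hB hτ hKO hdet hKi
  obtain ⟨C0, hC0⟩ := xy_bound hA hB hτ hKO hdet hh1 s3 0
  obtain ⟨C1, hC1⟩ := xy_bound hA hB hτ hKO hdet hh1 s3 1
  obtain ⟨C2, hC2⟩ := xy_boundT hA hB hτ hKO hdet hh1 (BFin_smTP hg hr hw hG hR)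
  obtain ⟨c, hc, hn1, hnm, hnv⟩ := nv_all 𝒜 hg hr hw hI
  obtain ⟨Cb, hCb⟩ := bmM_bound 𝒜 hh1 hA hB s1 s2 2
  set C : ℝ := max Cb 1 with hCdef
  have hC1' : 1 ≤ C := le_max_right _ _
  set K : ℝ := max (2 * Ki) (max Kl (max C0 (max C1 C2))) with hKdef
  have hK1 : 2 * Ki ≤ K := le_max_left _ _
  have hK2 : Kl ≤ K := (le_max_left _ _).trans (le_max_right _ _)
  have hK3 : C0 ≤ K := (le_max_left _ _).trans ((le_max_right _ _).trans (le_max_right _ _))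
  have hK4 : C1 ≤ K := (le_max_left _ _).trans ((le_max_right _ _).trans
    ((le_max_right _ _).trans (le_max_right _ _)))
  have hK5 : C2 ≤ K := (le_max_right _ _).trans ((le_max_right _ _).trans
    ((le_max_right _ _).trans (le_max_right _ _)))
  refine ⟨A, B, τ, KT, KO, K, hA, hB, hτ, by linarith, hKT, hKO, hsub, hdet, ?_⟩
  intro h0 hh0
  obtain ⟨h, hpos, hsm⟩ : ∃ h : ℝ, 0 < h ∧ h < h0 ∧ h < 1 ∧ h < h₁ / 2 ∧ h < hT1 ∧ h < hO1 ∧
      h < hl1 ∧ h < hi1 ∧ h < hp1 ∧ h < hn1 ∧ h < c / (1000 * C ^ 5) := by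
    have hc5 : 0 < c / (1000 * C ^ 5) := by positivity
    set S : ℝ := min h0 (min 1 (min (h₁ / 2) (min hT1 (min hO1 (min hl1 (min hi1 (min hp1
      (min hn1 (c / (1000 * C ^ 5)))))))))) with hS
    have hS0 : 0 < S := by
      simp only [hS, lt_min_iff]
      exact ⟨hh0, one_pos, by linarith, hTpos, hOm.1, hlpos, hipos, hppos, hnm.1, hc5⟩
    obtain ⟨h, h1, h2⟩ := exists_between hS0
    simp only [hS, lt_min_iff] at h2
    exact ⟨h, h1, h2⟩
  obtain ⟨b0, b1, b2, b3, b4, b5, b6, b7, b8, b9⟩ := hsm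
  have hmem : h ∈ Ioo (-h₁) h₁ := ⟨by linarith, by linarith⟩
  have hreg := hR h hmem
  have hmet : IsMetric (fun p => G p h) := ⟨hG.smT hmem, fun p => (hreg p).1⟩
  obtain ⟨f, hf, hfm, hfc⟩ := hTf h ⟨hpos, b3⟩
  obtain ⟨hfl1, hfl2⟩ := flat_be_et hr hw hmet
  have hbm : Sm (bmM A B (lam1 r0 A B m (fun q => G q h)) (lam2 r0 A B m (fun q => G q h)) h) :=
    sm_bmM hA hB (s1.sm hmem) (s2.sm hmem) h
  have hpow : h ^ 12 ≤ h ^ 4 := pow_le_pow_of_le_one hpos.le b1.le (by norm_num)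
  have hpow1 : h ^ 12 ≤ 1 := pow_le_one₀ hpos.le b1.le
  -- the kernel directions are good
  have hgood : ∀ p (v : E2), v ≠ 0 → etM r0 A B m (fun q => G q h) p ^ 2 *
      QtM r0 A B m (fun q => G q h) p v v = 0 → GoodIn (chartAt E2 p) f v (chartAt E2 p p) := by
    have hRC : 1 ≤ C / h ^ 2 := by
      rw [le_div_iff₀ (by positivity), one_mul]
      exact (pow_le_one₀ hpos.le b1.le).trans hC1'
    have hgc : 1000 * (C / h ^ 2) ^ 5 * h ^ 12 < c := by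
      have h1 : 1000 * (C / h ^ 2) ^ 5 * h ^ 12 = 1000 * C ^ 5 * h ^ 2 := by
        field_simp
      rw [h1]
      have h2 : h ^ 2 ≤ h := by
        calc h ^ 2 ≤ h ^ 1 := pow_le_pow_of_le_one hpos.le b1.le (by norm_num)
          _ = h := pow_one h
      have h3 : h * (1000 * C ^ 5) < c := (lt_div_iff₀ (by positivity)).1 b9
      have h4 : 0 ≤ 1000 * C ^ 5 := by positivity
      calc 1000 * C ^ 5 * h ^ 2 ≤ 1000 * C ^ 5 * h := mul_le_mul_of_nonneg_left h2 h4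
        _ < c := by linarith
    intro p v hv hz
    refine BFin_good 𝒜 hbm hf hRC hpow1 hgc ?_ ?_ (hnv h ⟨hpos, b8⟩) p v hv hz
    · intro q
      refine BFin_clAt_mono le_rfl ?_ (hCb h ⟨hpos, le_min b2.le b1.le⟩ q)
      exact div_le_div_of_nonneg_right (le_max_left _ _) (by positivity)
    · intro q
      exact BFin_clAt_mono (by norm_num) le_rfl (hfc q)
  have hrank : ∀ p ∈ tsupport (etM r0 A B m (fun q => G q h)),
      RankOneNear (QtM r0 A B m (fun q => G q h)) p := fun p hp => QtM_rank hr hw hmet hp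
  refine ⟨h, hpos, b0, f, beM r0 A B m (fun q => G q h), etM r0 A B m (fun q => G q h),
    QtM r0 A B m (fun q => G q h), hf, ?_, hfl1, hfl2, fun p => bW_nonneg hr _,
    fun p => etW_nonneg _ _, hOs h ⟨hpos, b4⟩, hfm, hrank, hgood, ?_⟩
  · intro p
    by_cases he : etM r0 A B m (fun q => G q h) p = 0
    · refine ⟨e1, hgood p e1 (by simp [e1]) ?_⟩
      rw [he]
      ring
    · have hp : p ∈ tsupport (etM r0 A B m (fun q => G q h)) :=
        subset_tsupport _ (by simpa using he)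
      obtain ⟨U, -, hpU, -, hU⟩ := hrank p hp
      obtain ⟨u1, u2, -⟩ := hU p hpU
      obtain ⟨v, hv, hv0⟩ := BFin_ker u1 u2
      exact ⟨v, hgood p v hv (by rw [hv0, mul_zero])⟩
  · intro χ hχ x hx hxK
    have hhalf : |h| ≤ h₁ / 2 := by rw [abs_of_pos hpos]; exact b2.le
    refine ⟨?_, ?_, ?_, ?_, ?_⟩
    · refine BFin_inv_mono (by linarith) hK1 ?_
      exact hpert h ⟨hpos, b7⟩ _ f hbm hf (fun p => BFin_clAt_mono le_rfl hpow (hfc p)) χ hχ x hx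
        hxK (hinv h ⟨hpos, b6⟩ χ hχ x hx hxK)
    · have h1 := hC0 χ hχ x hx hxK h hhalf
      rw [norm_iteratedFDeriv_zero] at h1
      exact (Real.norm_eq_abs _ ▸ h1).trans hK3
    · have h1 := hC1 χ hχ x hx hxK h hhalf
      rw [norm_iteratedFDeriv_one] at h1
      have h2 : |pd 1 (beM r0 A B m (fun q => G q h) ∘ χ.symm) x| ≤
          ‖fderiv ℝ (fun y => beM r0 A B m (fun q => G q h) (χ.symm y)) x‖ := by
        unfold pd
        rw [← Real.norm_eq_abs]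
        refine (ContinuousLinearMap.le_opNorm _ _).trans ?_
        rw [MD3_bv, mul_one]
        exact le_refl _
      exact h2.trans (h1.trans hK4)
    · intro v
      have h1 := hlow h ⟨hpos, b5⟩ χ hχ x hx hxK v
      have h2 : 0 ≤ locT χ (fun p => g p - etM r0 A B m (fun q => G q h) p ^ 2 •
          QtM r0 A B m (fun q => G q h) p) x v v := by
        have h3 : ∀ p, g p - etM r0 A B m (fun q => G q h) p ^ 2 •
            QtM r0 A B m (fun q => G q h) p = metr f p +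
            (4 * beM r0 A B m (fun q => G q h) p ^ 2) • sqT (fun q => (A q + B q) / 2) p := by
          intro p
          rw [hfm p]
          abel
        unfold locT
        simp only [h3]
        simp only [ContinuousLinearMap.bilinearComp_apply, add_apply, smul_apply, smul_eq_mul]
        have h4 := BFin_metr_nonneg f (χ.symm x) (TTi χ x v)
        have h5 := BFin_sqT_nonneg (fun q => (A q + B q) / 2) (χ.symm x) (TTi χ x v)
        positivity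
      exact h1.trans (mul_le_mul_of_nonneg_right hK2 h2)
    · intro i j k' l
      have h1 := hC2 χ hχ x hx hxK h hhalf i j k' l
      exact ⟨h1.1.trans hK5, h1.2.trans hK5⟩

end P205F
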