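import Mathlib
import Vale.Agent.Lib.P205F.MD1

/-!
# P205F: from manifolds modelled on `EuclideanSpace ℝ (Fin 2)` to manifolds modelled on `ℝ × ℝ`

`M` with its charts composed with a continuous linear equivalence `J : EuclideanSpace ℝ (Fin 2) ≃L ℝ × ℝ`.
-/

set_option maxSynthPendingDepth 3

noncomputable section

namespace P205F

open scoped Manifold ContDiff Topology RealInnerProductSpace
open Set Bundle

abbrev Eu2 := EuclideanSpace ℝ (Fin 2)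

/-- the linear equivalence of the model spaces -/
def Jeq : Eu2 ≃L[ℝ] E2 :=
  (EuclideanSpace.equiv (Fin 2) ℝ).trans (ContinuousLinearEquiv.finTwoArrow ℝ ℝ)

/-- `M` as a manifold modelled on `ℝ × ℝ`: every chart `e` becomes `e ≫ J` -/
@[reducible]
def chE2 (M : Type) [TopologicalSpace M] [ChartedSpace Eu2 M] : ChartedSpace E2 M where
  atlas := (fun e : OpenPartialHomeomorph M Eu2 =>
    e.trans Jeq.toHomeomorph.toOpenPartialHomeomorph) '' atlas Eu2 M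
  chartAt p := (chartAt Eu2 p).trans Jeq.toHomeomorph.toOpenPartialHomeomorph
  mem_chart_source p := by simp
  chart_mem_atlas p := ⟨_, chart_mem_atlas Eu2 p, rfl⟩

/-- transition maps of the `Eu2`-charts are smooth -/
private theorem Wrap_trans {M : Type} [TopologicalSpace M] [ChartedSpace Eu2 M]
    [IsManifold 𝓘(ℝ, Eu2) ∞ M] {a b : OpenPartialHomeomorph M Eu2} (ha : a ∈ atlas Eu2 M)
    (hb : b ∈ atlas Eu2 M) :
    ContDiffOn ℝ ∞ (b ∘ a.symm) (a.target ∩ a.symm ⁻¹' b.source) := by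
  have h1 : ContMDiffOn 𝓘(ℝ, Eu2) 𝓘(ℝ, Eu2) ∞ b b.source :=
    contMDiffOn_of_mem_maximalAtlas (IsManifold.subset_maximalAtlas hb)
  have h2 : ContMDiffOn 𝓘(ℝ, Eu2) 𝓘(ℝ, Eu2) ∞ a.symm a.target :=
    contMDiffOn_symm_of_mem_maximalAtlas (IsManifold.subset_maximalAtlas ha)
  exact (contMDiffOn_iff_contDiffOn.mp (h1.comp (h2.mono inter_subset_left)
    (fun x hx => hx.2)))

theorem isManifold_chE2 (M : Type) [TopologicalSpace M] [ChartedSpace Eu2 M]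
    [IsManifold 𝓘(ℝ, Eu2) ∞ M] : @IsManifold ℝ _ E2 _ _ E2 _ 𝓘(ℝ, E2) ∞ M _ (chE2 M) := by
  let := chE2 M
  refine isManifold_of_contDiffOn 𝓘(ℝ, E2) ∞ M ?_
  rintro e e' ⟨a, ha, rfl⟩ ⟨b, hb, rfl⟩
  have h1 := Wrap_trans ha hb
  have h2 : ContDiffOn ℝ ∞ (Jeq ∘ (b ∘ a.symm) ∘ Jeq.symm)
      (Jeq.symm ⁻¹' (a.target ∩ a.symm ⁻¹' b.source)) :=
    Jeq.contDiff.comp_contDiffOn
      (h1.comp Jeq.symm.contDiff.contDiffOn fun x hx => hx)
  refine (h2.congr fun x _ => rfl).mono ?_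
  intro x hx
  have h3 := hx.1
  simp only [mfld_simps] at h3
  exact ⟨h3.1, h3.2⟩

/-- smoothness at a point in the `Eu2`-chart -/
private theorem Wrap_at {M : Type} [TopologicalSpace M] [ChartedSpace Eu2 M]
    [IsManifold 𝓘(ℝ, Eu2) ∞ M] {V : Type} [NormedAddCommGroup V] [NormedSpace ℝ V] (F : M → V)
    (p : M) : ContMDiffAt 𝓘(ℝ, Eu2) 𝓘(ℝ, V) ∞ F p ↔
      ContDiffAt ℝ ∞ (F ∘ (chartAt Eu2 p).symm) (chartAt Eu2 p p) := by
  have hm := IsManifold.chart_mem_maximalAtlas (I := 𝓘(ℝ, Eu2)) (n := ∞) p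
  have hps := mem_chart_source Eu2 p
  constructor
  · intro h
    have h2 : ContMDiffAt 𝓘(ℝ, Eu2) 𝓘(ℝ, Eu2) ∞ (chartAt Eu2 p).symm (chartAt Eu2 p p) :=
      (contMDiffOn_symm_of_mem_maximalAtlas hm).contMDiffAt
        ((chartAt Eu2 p).open_target.mem_nhds ((chartAt Eu2 p).map_source hps))
    have h3 : ContMDiffAt 𝓘(ℝ, Eu2) 𝓘(ℝ, V) ∞ F ((chartAt Eu2 p).symm (chartAt Eu2 p p)) := by
      rw [(chartAt Eu2 p).left_inv hps]
      exact h
    exact contMDiffAt_iff_contDiffAt.mp (h3.comp _ h2)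
  · intro h
    have h1 : ContMDiffAt 𝓘(ℝ, Eu2) 𝓘(ℝ, Eu2) ∞ (chartAt Eu2 p) p :=
      (contMDiffOn_of_mem_maximalAtlas hm).contMDiffAt ((chartAt Eu2 p).open_source.mem_nhds hps)
    have h2 : ContMDiffAt 𝓘(ℝ, Eu2) 𝓘(ℝ, V) ∞ ((F ∘ (chartAt Eu2 p).symm) ∘ (chartAt Eu2 p)) p :=
      (contMDiffAt_iff_contDiffAt.mpr h).comp p h1
    refine h2.congr_of_eventuallyEq ?_
    filter_upwards [(chartAt Eu2 p).open_source.mem_nhds hps] with q hq
    simp only [Function.comp_apply]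
    rw [(chartAt Eu2 p).left_inv hq]

/-- composing with the linear equivalence -/
private theorem Wrap_J {V : Type} [NormedAddCommGroup V] [NormedSpace ℝ V] (G : Eu2 → V)
    (x : Eu2) : ContDiffAt ℝ ∞ (G ∘ Jeq.symm) (Jeq x) ↔ ContDiffAt ℝ ∞ G x := by
  constructor
  · intro h
    have h1 : ContDiffAt ℝ ∞ ((G ∘ Jeq.symm) ∘ Jeq) x := h.comp x Jeq.contDiff.contDiffAt
    refine h1.congr_of_eventuallyEq (Filter.Eventually.of_forall fun y => ?_)
    simp only [Function.comp_apply, ContinuousLinearEquiv.symm_apply_apply]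
  · intro h
    have h2 : ContDiffAt ℝ ∞ G (Jeq.symm (Jeq x)) := by
      rw [ContinuousLinearEquiv.symm_apply_apply]
      exact h
    exact h2.comp _ Jeq.symm.contDiff.contDiffAt

theorem sm_iff_wrap {M : Type} [TopologicalSpace M] [ChartedSpace Eu2 M]
    [IsManifold 𝓘(ℝ, Eu2) ∞ M] {V : Type} [NormedAddCommGroup V] [NormedSpace ℝ V] (F : M → V) :
    (@Sm M _ (chE2 M) V _ _ F) ↔ ContMDiff 𝓘(ℝ, Eu2) 𝓘(ℝ, V) ∞ F := by
  let c2 : ChartedSpace E2 M := chE2 M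
  have m2 : IsManifold 𝓘(ℝ, E2) ∞ M := isManifold_chE2 M
  have hfun : ∀ p : M, F ∘ (chartAt E2 p).symm = (F ∘ (chartAt Eu2 p).symm) ∘ Jeq.symm :=
    fun p => rfl
  have hpt : ∀ p : M, chartAt E2 p p = Jeq (chartAt Eu2 p p) := fun p => rfl
  constructor
  · intro h p
    rw [Wrap_at]
    have h1 := (Sm.loc h (chart_mem_ATL p)).contDiffAt
      ((chartAt E2 p).open_target.mem_nhds ((chartAt E2 p).map_source (mem_chart_source E2 p)))
    rw [hfun, hpt, Wrap_J] at h1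
    exact h1
  · intro h
    refine sm_of_loc fun p => ⟨chartAt E2 p, chart_mem_ATL p, mem_chart_source E2 p, ?_⟩
    rw [hfun, hpt, Wrap_J, ← Wrap_at]
    exact h p

theorem dP_wrap {M : Type} [TopologicalSpace M] [ChartedSpace Eu2 M]
    [IsManifold 𝓘(ℝ, Eu2) ∞ M] {V : Type} [NormedAddCommGroup V] [NormedSpace ℝ V] {F : M → V}
    (hF : ContMDiff 𝓘(ℝ, Eu2) 𝓘(ℝ, V) ∞ F) (p : M) (v : Eu2) :
    (mfderiv 𝓘(ℝ, Eu2) 𝓘(ℝ, V) F p : Eu2 →L[ℝ] V) v = @dP M _ (chE2 M) V _ _ F p (Jeq v) := by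
  have h1 : MDifferentiableAt 𝓘(ℝ, Eu2) 𝓘(ℝ, V) F p := (hF p).mdifferentiableAt (by simp)
  have h2 : (mfderiv 𝓘(ℝ, Eu2) 𝓘(ℝ, V) F p : Eu2 →L[ℝ] V) =
      fderiv ℝ (F ∘ (chartAt Eu2 p).symm) (chartAt Eu2 p p) := by
    rw [h1.mfderiv]
    simp only [mfld_simps, fderivWithin_univ]
    rfl
  have h3 : @dP M _ (chE2 M) V _ _ F p =
      fderiv ℝ ((F ∘ (chartAt Eu2 p).symm) ∘ Jeq.symm) (Jeq (chartAt Eu2 p p)) := rfl
  rw [h2, h3, ContinuousLinearEquiv.comp_right_fderiv, ContinuousLinearEquiv.symm_apply_apply]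
  change _ = (fderiv ℝ (F ∘ (chartAt Eu2 p).symm) (chartAt Eu2 p p)) (Jeq.symm (Jeq v))
  rw [ContinuousLinearEquiv.symm_apply_apply]
  rfl

/-- the metric as a tensor in the sense of `MDefs` -/
def gWrap {M : Type} [TopologicalSpace M] [ChartedSpace Eu2 M] [IsManifold 𝓘(ℝ, Eu2) ∞ M]
    (g : ContMDiffRiemannianMetric 𝓘(ℝ, Eu2) ∞ Eu2 (fun p : M => TangentSpace 𝓘(ℝ, Eu2) p))
    (p : M) : Bil :=
  (g.inner p : Eu2 →L[ℝ] Eu2 →L[ℝ] ℝ).bilinearComp (Jeq.symm : E2 →L[ℝ] Eu2)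
    (Jeq.symm : E2 →L[ℝ] Eu2)

theorem gWrap_apply {M : Type} [TopologicalSpace M] [ChartedSpace Eu2 M]
    [IsManifold 𝓘(ℝ, Eu2) ∞ M]
    (g : ContMDiffRiemannianMetric 𝓘(ℝ, Eu2) ∞ Eu2 (fun p : M => TangentSpace 𝓘(ℝ, Eu2) p))
    (p : M) (v w : Eu2) :
    gWrap g p (Jeq v) (Jeq w) = (g.inner p : Eu2 →L[ℝ] Eu2 →L[ℝ] ℝ) v w := by
  have h : gWrap g p (Jeq v) (Jeq w) = (g.inner p : Eu2 →L[ℝ] Eu2 →L[ℝ] ℝ) (Jeq.symm (Jeq v))
    (Jeq.symm (Jeq w)) := rfl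
  rw [h, ContinuousLinearEquiv.symm_apply_apply, ContinuousLinearEquiv.symm_apply_apply]

private theorem Wrap_cd_flip {X Y Z : Type*} [NormedAddCommGroup X] [NormedSpace ℝ X]
    [NormedAddCommGroup Y] [NormedSpace ℝ Y] [NormedAddCommGroup Z] [NormedSpace ℝ Z]
    {G : X → Y →L[ℝ] Z →L[ℝ] ℝ} {x : X} (hG : ContDiffAt ℝ ∞ G x) :
    ContDiffAt ℝ ∞ (fun y => (G y).flip) x :=
  (LinearIsometryEquiv.contDiff (ContinuousLinearMap.flipₗᵢ ℝ Y Z ℝ)).comp_contDiffAt x hG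

private theorem Wrap_cd_bc {X W W' : Type*} [NormedAddCommGroup X] [NormedSpace ℝ X]
    [NormedAddCommGroup W] [NormedSpace ℝ W] [NormedAddCommGroup W'] [NormedSpace ℝ W']
    {B : X → W →L[ℝ] W →L[ℝ] ℝ}
    {L : X → W' →L[ℝ] W} {x : X} (hB : ContDiffAt ℝ ∞ B x) (hL : ContDiffAt ℝ ∞ L x) :
    ContDiffAt ℝ ∞ (fun y => (B y).bilinearComp (L y) (L y)) x :=
  Wrap_cd_flip ((Wrap_cd_flip (hB.clm_comp hL)).clm_comp hL)

/-- the metric in the coordinates of the chart at `p`, as a function on `M` -/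
private def WrapG {M : Type} [TopologicalSpace M] [ChartedSpace Eu2 M]
    [IsManifold 𝓘(ℝ, Eu2) ∞ M]
    (g : ContMDiffRiemannianMetric 𝓘(ℝ, Eu2) ∞ Eu2 (fun p : M => TangentSpace 𝓘(ℝ, Eu2) p))
    (p q : M) : Eu2 →L[ℝ] Eu2 →L[ℝ] ℝ :=
  (trivializationAt (Eu2 →L[ℝ] Eu2 →L[ℝ] ℝ)
    (fun b : M => TangentSpace 𝓘(ℝ, Eu2) b →L[ℝ] TangentSpace 𝓘(ℝ, Eu2) b →L[ℝ] ℝ) p
    ⟨q, g.inner q⟩).2

private theorem WrapG_smooth {M : Type} [TopologicalSpace M] [ChartedSpace Eu2 M]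
    [IsManifold 𝓘(ℝ, Eu2) ∞ M]
    (g : ContMDiffRiemannianMetric 𝓘(ℝ, Eu2) ∞ Eu2 (fun p : M => TangentSpace 𝓘(ℝ, Eu2) p))
    (p : M) : ContMDiffAt 𝓘(ℝ, Eu2) 𝓘(ℝ, Eu2 →L[ℝ] Eu2 →L[ℝ] ℝ) ∞ (WrapG g p) p :=
  (Bundle.contMDiffAt_section p).1 (g.contMDiff p)

private theorem WrapG_apply {M : Type} [TopologicalSpace M] [ChartedSpace Eu2 M]
    [IsManifold 𝓘(ℝ, Eu2) ∞ M]
    (g : ContMDiffRiemannianMetric 𝓘(ℝ, Eu2) ∞ Eu2 (fun p : M => TangentSpace 𝓘(ℝ, Eu2) p))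
    {p q : M} (hq : q ∈ (chartAt Eu2 p).source) (v w : Eu2) :
    WrapG g p q v w =
      g.inner q ((trivializationAt Eu2 (TangentSpace 𝓘(ℝ, Eu2)) p).symmL ℝ q v)
        ((trivializationAt Eu2 (TangentSpace 𝓘(ℝ, Eu2)) p).symmL ℝ q w) := by
  have hb : q ∈ (trivializationAt Eu2 (TangentSpace 𝓘(ℝ, Eu2)) p).baseSet := by
    simpa using hq
  unfold WrapG
  rw [hom_trivializationAt_apply]
  simp only [ContinuousLinearMap.inCoordinates, ContinuousLinearMap.comp_apply]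
  rw [Trivialization.continuousLinearMapAt_apply_of_mem]
  · rw [hom_trivializationAt_apply]
    simp only [ContinuousLinearMap.inCoordinates, ContinuousLinearMap.comp_apply]
    rw [Trivialization.continuousLinearMapAt_apply_of_mem]
    · rfl
    · exact mem_univ _
  · exact ⟨hb, mem_univ _⟩

theorem isMetric_gWrap {M : Type} [TopologicalSpace M] [ChartedSpace Eu2 M]
    [IsManifold 𝓘(ℝ, Eu2) ∞ M]
    (g : ContMDiffRiemannianMetric 𝓘(ℝ, Eu2) ∞ Eu2 (fun p : M => TangentSpace 𝓘(ℝ, Eu2) p)) :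
    @IsMetric M _ (chE2 M) (gWrap g) := by
  let c2 : ChartedSpace E2 M := chE2 M
  have m2 : IsManifold 𝓘(ℝ, E2) ∞ M := isManifold_chE2 M
  constructor
  · refine smT_of_loc fun p => ⟨chartAt E2 p, chart_mem_ATL p, mem_chart_source E2 p, ?_⟩
    have hpt : chartAt E2 p p = Jeq (chartAt Eu2 p p) := rfl
    have h1 : ContDiffAt ℝ ∞ (WrapG g p ∘ (chartAt Eu2 p).symm) (chartAt Eu2 p p) :=
      (Wrap_at _ p).1 (WrapG_smooth g p)
    rw [← Wrap_J, ← hpt] at h1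
    have h2 := Wrap_cd_bc (L := fun _ : E2 => (Jeq.symm : E2 →L[ℝ] Eu2)) h1 contDiffAt_const
    refine h2.congr_of_eventuallyEq ?_
    filter_upwards [(chartAt E2 p).open_target.mem_nhds
      ((chartAt E2 p).map_source (mem_chart_source E2 p))] with x hx
    have hq : (chartAt E2 p).symm x ∈ (chartAt Eu2 p).source := by
      have h3 := (chartAt E2 p).map_target hx
      have h4 : (chartAt E2 p).source = (chartAt Eu2 p).source ∩ (chartAt Eu2 p) ⁻¹' univ := rfl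
      rw [h4] at h3
      exact h3.1
    have hx' : Jeq.symm x ∈ (chartAt Eu2 p).target := by
      have h4 : (chartAt E2 p).target = univ ∩ Jeq.symm ⁻¹' (chartAt Eu2 p).target := rfl
      rw [h4] at hx
      exact hx.2
    refine ContinuousLinearMap.ext fun v => ContinuousLinearMap.ext fun w => ?_
    have h5 := WrapG_apply g hq (Jeq.symm v) (Jeq.symm w)
    refine Eq.trans ?_ h5.symm
    have h6 : ∀ u : E2, Jeq.symm (TTi (chartAt E2 p) x u) =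
        (trivializationAt Eu2 (TangentSpace 𝓘(ℝ, Eu2)) p).symmL ℝ ((chartAt E2 p).symm x)
          (Jeq.symm u) := by
      intro u
      rw [TangentBundle.symmL_trivializationAt_eq_core hq, tangentBundleCore_coordChange_achart]
      have e1 : TTi (chartAt E2 p) x = fderiv ℝ (Jeq ∘ (chartAt Eu2 ((chartAt E2 p).symm x) ∘
          (chartAt Eu2 p).symm) ∘ Jeq.symm) x := rfl
      have e2 : (extChartAt 𝓘(ℝ, Eu2) p) ((chartAt E2 p).symm x) = Jeq.symm x := by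
        have e3 : (chartAt E2 p).symm x = (chartAt Eu2 p).symm (Jeq.symm x) := rfl
        rw [e3]
        simp only [mfld_simps]
        exact (chartAt Eu2 p).right_inv hx'
      rw [e2, e1, ContinuousLinearEquiv.comp_fderiv, ContinuousLinearEquiv.comp_right_fderiv]
      simp only [mfld_simps, fderivWithin_univ]
      change Jeq.symm (Jeq ((fderiv ℝ (chartAt Eu2 ((chartAt E2 p).symm x) ∘
          (chartAt Eu2 p).symm) (Jeq.symm x)) (Jeq.symm u))) = _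
      rw [ContinuousLinearEquiv.symm_apply_apply]
      rfl
    rw [← h6, ← h6]
    rfl
  · intro p
    refine ⟨fun v w => ?_, fun v hv => ?_⟩
    · exact g.symm p (Jeq.symm v) (Jeq.symm w)
    · exact g.pos p (Jeq.symm v) fun h => hv (Jeq.symm.injective (h.trans (map_zero _).symm))

end P205F
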