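import Vale.Agent.Lib.P205B.BFin
import Vale.Agent.Lib.P205B.AV
import Vale.Agent.Lib.P205B.Wrap

/-!
# P205F: the main theorem from Theorem T and Theorem ES
-/

noncomputable section

namespace P205F

open scoped Manifold ContDiff Topology RealInnerProductSpace
open Set Bundle

theorem main_E2 {M : Type} [TopologicalSpace M] [ChartedSpace E2 M] [IsManifold 𝓘(ℝ, E2) ∞ M]
    [CompactSpace M] [T2Space M] (hT : ThmT M) (hES : ThmES M) (ι : M → V3) (hι : Sm ι)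
    (him : ∀ p, Function.Injective (dP ι p)) {g : M → Bil} (hg : IsMetric g) :
    ∃ F : M → V4, Sm F ∧ ∀ p, metr F p = g p := by
  obtain ⟨x, y, z, hxyz⟩ := exists_goodXYZ ι hι him
  obtain ⟨A, B, m, τ, hw⟩ := exists_weights hg hxyz
  exact assembly hES hg (base_pack hT hg hw)

/-- the main theorem, conditional on theorems T and ES -/
theorem main_Eu2
    (hT : ∀ (M : Type) [TopologicalSpace M] [ChartedSpace E2 M] [IsManifold 𝓘(ℝ, E2) ∞ M]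
      [CompactSpace M] [T2Space M], ThmT M)
    (hES : ∀ (M : Type) [TopologicalSpace M] [ChartedSpace E2 M] [IsManifold 𝓘(ℝ, E2) ∞ M]
      [CompactSpace M] [T2Space M], ThmES M)
    {M : Type} [TopologicalSpace M] [ChartedSpace Eu2 M] [IsManifold 𝓘(ℝ, Eu2) ∞ M]
    [CompactSpace M] [T2Space M]
    (ι : M → EuclideanSpace ℝ (Fin 3)) (hι : ContMDiff 𝓘(ℝ, Eu2) 𝓘(ℝ, EuclideanSpace ℝ (Fin 3)) ∞ ι)
    (him : ∀ p, Function.Injective (mfderiv 𝓘(ℝ, Eu2) 𝓘(ℝ, EuclideanSpace ℝ (Fin 3)) ι p))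
    (g : ContMDiffRiemannianMetric 𝓘(ℝ, Eu2) ∞ Eu2 (fun p : M => TangentSpace 𝓘(ℝ, Eu2) p)) :
    ∃ F : M → EuclideanSpace ℝ (Fin 4),
      ContMDiff 𝓘(ℝ, Eu2) 𝓘(ℝ, EuclideanSpace ℝ (Fin 4)) ∞ F ∧
      ∀ (p : M) (v w : TangentSpace 𝓘(ℝ, Eu2) p),
        inner ℝ (mfderiv 𝓘(ℝ, Eu2) 𝓘(ℝ, EuclideanSpace ℝ (Fin 4)) F p v : EuclideanSpace ℝ (Fin 4))
          (mfderiv 𝓘(ℝ, Eu2) 𝓘(ℝ, EuclideanSpace ℝ (Fin 4)) F p w : EuclideanSpace ℝ (Fin 4)) =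
        g.inner p v w := by
  letI c2 : ChartedSpace E2 M := chE2 M
  haveI m2 : IsManifold 𝓘(ℝ, E2) ∞ M := isManifold_chE2 M
  obtain ⟨F, hF, hF2⟩ := main_E2 (M := M) (hT M) (hES M) ι ((sm_iff_wrap ι).2 hι) (by
    intro p v w hvw
    have h1 := dP_wrap hι p (Jeq.symm v)
    have h2 := dP_wrap hι p (Jeq.symm w)
    rw [Jeq.apply_symm_apply] at h1 h2
    have h3 : Jeq.symm v = Jeq.symm w := by
      apply him p
      exact h1.trans (hvw.trans h2.symm)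
    exact Jeq.symm.injective h3) (isMetric_gWrap g)
  have hF' : ContMDiff 𝓘(ℝ, Eu2) 𝓘(ℝ, EuclideanSpace ℝ (Fin 4)) ∞ F := (sm_iff_wrap F).1 hF
  refine ⟨F, hF', fun p v w => ?_⟩
  have h1 := dP_wrap hF' p v
  have h2 := dP_wrap hF' p w
  have h3 : metr F p (Jeq v) (Jeq w) = gWrap g p (Jeq v) (Jeq w) := by rw [hF2]
  have h4 := gWrap_apply g p v w
  have h5 : metr F p (Jeq v) (Jeq w) = inner ℝ (dP F p (Jeq v)) (dP F p (Jeq w)) := rfl
  refine Eq.trans ?_ (h3.trans h4)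
  rw [h5, ← h1, ← h2]
  rfl

end P205F
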